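import Crest.Agent.R133.SMDefs

/-!
# Row 133 (S0182), section 9: COUNT

Up to closeness there are only finitely many abstract smooth models, with an explicit bound.
-/

set_option autoImplicit false

open MeasureTheory Metric Set
open scoped ENNReal

namespace Crest.Agent.R133.Cnt

noncomputable section

/-! ### Coordinates -/

theorem sum_single {d : ℕ} (w : EE d) :
    ∑ i, w i • (EuclideanSpace.single i (1 : ℝ) : EE d) = w := by
  ext j
  simp [Pi.single_apply]

theorem norm_le_card_mul {d : ℕ} (w : EE d) (c : ℝ) (h : ∀ i, |w i| ≤ c) : ‖w‖ ≤ d * c := by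
  rw [← sum_single w]
  refine (norm_sum_le _ _).trans ?_
  refine (Finset.sum_le_sum (g := fun _ => c) fun i _ => ?_).trans ?_
  · rw [norm_smul, PiLp.norm_single, norm_one, mul_one]
    exact h i
  · simp

theorem abs_coord_le {d : ℕ} (v : EE d) (i : Fin d) : |v i| ≤ ‖v‖ := by
  rw [EuclideanSpace.norm_eq]
  apply Real.abs_le_sqrt
  exact (Finset.single_le_sum (f := fun i => ‖v i‖ ^ 2) (fun i _ => by positivity)
        (Finset.mem_univ i)).trans' (by simp)

theorem opNorm_le_card_sq_mul {d : ℕ} (T : EE d →L[ℝ] EE d) (c : ℝ) (hc : 0 ≤ c)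
    (h : ∀ j i, |T (EuclideanSpace.single j (1 : ℝ)) i| ≤ c) : ‖T‖ ≤ d * (d * c) := by
  refine T.opNorm_le_bound (by positivity) fun v => ?_
  conv_lhs => rw [← sum_single v]
  rw [map_sum]
  refine (norm_sum_le _ _).trans ?_
  refine (Finset.sum_le_sum (g := fun _ => (d * c) * ‖v‖) fun i _ => ?_).trans ?_
  · rw [map_smul, norm_smul, mul_comm]
    refine mul_le_mul (norm_le_card_mul _ _ (h i)) ?_ (norm_nonneg _) (by positivity)
    rw [Real.norm_eq_abs]
    exact abs_coord_le v i
  · simp [mul_assoc]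

/-! ### Rounding -/

/-- index of the cell of length `h` of `[-B, B]` containing `x`, as an element of `Fin (K+1)` -/
def rnd (B h : ℝ) (K : ℕ) (x : ℝ) : Fin (K + 1) :=
  ⟨min (⌊(x + B) / h⌋₊) K, Nat.lt_succ_of_le (min_le_right _ _)⟩

theorem floor_le {B h : ℝ} {K : ℕ} (hh : 0 < h) (hK : 2 * B / h ≤ K) {x : ℝ}
    (hx : |x| ≤ B) : ⌊(x + B) / h⌋₊ ≤ K := by
  apply Nat.floor_le_of_le
  refine le_trans ?_ hK
  apply div_le_div_of_nonneg_right _ hh.le
  linarith [(abs_le.1 hx).2]

theorem rnd_close {B h : ℝ} {K : ℕ} (hh : 0 < h) (hK : 2 * B / h ≤ K) {x y : ℝ}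
    (hx : |x| ≤ B) (hy : |y| ≤ B) (he : rnd B h K x = rnd B h K y) : |x - y| ≤ h := by
  have hfx := floor_le hh hK hx
  have hfy := floor_le hh hK hy
  have h1 : ⌊(x + B) / h⌋₊ = ⌊(y + B) / h⌋₊ := by
    have := congrArg Fin.val he
    simp only [rnd] at this
    rwa [min_eq_left hfx, min_eq_left hfy] at this
  have hx0 : 0 ≤ (x + B) / h := div_nonneg (by linarith [(abs_le.1 hx).1]) hh.le
  have hy0 : 0 ≤ (y + B) / h := div_nonneg (by linarith [(abs_le.1 hy).1]) hh.le
  have a1 := Nat.floor_le hx0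
  have a2 := Nat.lt_floor_add_one ((x + B) / h)
  have b1 := Nat.floor_le hy0
  have b2 := Nat.lt_floor_add_one ((y + B) / h)
  rw [h1] at a1 a2
  have c1 : (x + B) / h - (y + B) / h ≤ 1 := by linarith
  have c2 : (y + B) / h - (x + B) / h ≤ 1 := by linarith
  have d1 : (x + B) / h - (y + B) / h = (x - y) / h := by ring
  have d2 : (y + B) / h - (x + B) / h = (y - x) / h := by ring
  rw [d1, div_le_one hh] at c1
  rw [d2, div_le_one hh] at c2
  exact abs_le.2 ⟨by linarith, by linarith⟩

/-- grid point of the cube `[-B, B]^d` with step `h` -/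
def gridPt {d : ℕ} (B h : ℝ) {K : ℕ} (k : Fin d → Fin (K + 1)) : EE d :=
  WithLp.toLp 2 (fun i => ((k i : Fin (K + 1)) : ℕ) * h - B)

theorem exists_gridPt {d : ℕ} {B h : ℝ} {K : ℕ} (hh : 0 < h) (hK : 2 * B / h ≤ K) (x : EE d)
    (hx : ‖x‖ ≤ B) : ∃ k : Fin d → Fin (K + 1), ‖x - gridPt B h k‖ ≤ d * h := by
  refine ⟨fun i => rnd B h K (x i), norm_le_card_mul _ _ fun i => ?_⟩
  have hxi : |x i| ≤ B := (abs_coord_le x i).trans hx
  have hfx := floor_le hh hK hxi
  have hx0 : 0 ≤ (x i + B) / h := div_nonneg (by linarith [(abs_le.1 hxi).1]) hh.le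
  have a1 := Nat.floor_le hx0
  have a2 := Nat.lt_floor_add_one ((x i + B) / h)
  have e1 : (x - gridPt B h (fun i => rnd B h K (x i))) i
      = x i - ((⌊(x i + B) / h⌋₊ : ℕ) * h - B) := by
    simp only [gridPt, rnd, PiLp.sub_apply, min_eq_left hfx]
  rw [e1]
  rw [le_div_iff₀ hh] at a1
  rw [div_lt_iff₀ hh] at a2
  exact abs_le.2 ⟨by linarith, by linarith⟩

/-! ### The data -/

/-- The rounded data of a pair `(f, ν)` at all grid points. -/
abbrev Dat (d K : ℕ) : Type :=
  (Fin d → Fin (K + 1)) → Option ((Fin d ⊕ Fin d × Fin d) → Fin (K + 1))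

open Classical in
/-- The data map. -/
def dat {d : ℕ} (D B h r' : ℝ) (K : ℕ) (p : (EE d → EE d) × Measure (EE d)) : Dat d K :=
  fun k => if Reg D p.1 p.2 r' (gridPt B h k) then
    some (fun s => match s with
      | Sum.inl i => rnd B h K (p.1 (gridPt B h k) i)
      | Sum.inr (j, i) => rnd B h K
          ((fderiv ℝ p.1 (gridPt B h k) (EuclideanSpace.single j (1 : ℝ))) i))
    else none

theorem close_of_dat_eq {d : ℕ} {D B h r' ε : ℝ} {K : ℕ} (hh : 0 < h)
    (hK : 2 * B / h ≤ K) (hDB : |D| ≤ B) (heB : Real.exp D ≤ B)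
    (hε : ε ≤ r') (h1 : d * h ≤ ε / 4) (h2 : 2 * (B * (d * h)) + d * h ≤ ε)
    (h3 : 2 * (B * (d * h)) + d * (d * h) ≤ ε) (hε0 : 0 < ε)
    {f g : EE d → EE d} {ν νg : Measure (EE d)}
    (hd : dat D B h r' K (f, ν) = dat D B h r' K (g, νg)) : Close D f ν g νg ε r' := by
  have hD : D ≤ B := (le_abs_self D).trans hDB
  have hB0 : 0 < B := (Real.exp_pos D).trans_le heB
  -- key: data at a regular grid point
  have key : ∀ k : Fin d → Fin (K + 1), Reg D f ν r' (gridPt B h k) →
      Reg D g νg r' (gridPt B h k) ∧ ‖f (gridPt B h k) - g (gridPt B h k)‖ ≤ d * h ∧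
      ‖fderiv ℝ f (gridPt B h k) - fderiv ℝ g (gridPt B h k)‖ ≤ d * (d * h) := by
    intro k hk
    have e := congrFun hd k
    have hr'0 : 0 < r' := hε0.trans_le hε
    have hmem : gridPt B h k ∈ ball (gridPt B h k : EE d) r' := mem_ball_self hr'0
    by_cases hg : Reg D g νg r' (gridPt B h k)
    · simp only [dat, if_pos hk, if_pos hg, Option.some.injEq] at e
      refine ⟨hg, ?_, ?_⟩
      · refine norm_le_card_mul _ _ fun i => ?_
        have e2 := congrFun e (Sum.inl i)
        simp only at e2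
        rw [PiLp.sub_apply]
        exact rnd_close hh hK
          ((abs_coord_le _ i).trans ((hk.val_le _ hmem).trans hD))
          ((abs_coord_le _ i).trans ((hg.val_le _ hmem).trans hD)) e2
      · refine opNorm_le_card_sq_mul _ _ hh.le fun j i => ?_
        have e2 := congrFun e (Sum.inr (j, i))
        simp only at e2
        rw [sub_apply, PiLp.sub_apply]
        have bd : ∀ T : EE d →L[ℝ] EE d, ‖T‖ ≤ Real.exp D →
            |(T (EuclideanSpace.single j (1 : ℝ))) i| ≤ B := by
          intro T hT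
          refine (abs_coord_le _ i).trans ((T.le_opNorm _).trans ?_)
          rw [PiLp.norm_single, norm_one, mul_one]
          exact hT.trans heB
        exact rnd_close hh hK (bd _ (hk.norm_le _ hmem)) (bd _ (hg.norm_le _ hmem)) e2
    · simp only [dat, if_pos hk, if_neg hg] at e
      exact absurd e (by simp)
  have hdh : 0 ≤ d * h := by positivity
  have hr'0 : 0 < r' := hε0.trans_le hε
  intro x hx
  -- near each point of `ball x r'` there is a good grid point
  have near : ∀ y ∈ ball x (r' / 2), ∃ k : Fin d → Fin (K + 1), ‖y - gridPt B h k‖ ≤ d * h ∧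
      Reg D f ν r' (gridPt B h k) := by
    intro y hy
    have hy2 : y ∈ ball x (2 * r') := ball_subset_ball (by linarith) hy
    obtain ⟨k, hk⟩ := exists_gridPt (K := K) hh hK y ((hx.dom_le y hy2).trans hD)
    refine ⟨k, hk, hx.mono ?_⟩
    intro z hz
    rw [mem_ball] at hz hy ⊢
    calc dist z x ≤ dist z (gridPt B h k) + dist (gridPt B h k) y + dist y x := dist_triangle4 _ _ _ _
      _ < r' + ε / 4 + r' / 2 := by
        have : dist (gridPt B h k) y ≤ ε / 4 := by
          rw [dist_comm, dist_eq_norm]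
          exact hk.trans h1
        linarith
      _ ≤ 2 * r' := by linarith
  refine ⟨?_, ?_⟩
  · obtain ⟨k, hk, hreg⟩ := near x (mem_ball_self (by linarith))
    obtain ⟨hg, -, -⟩ := key k hreg
    refine le_trans (Measure.restrict_mono ?_ le_rfl) hg.vol
    intro z hz
    rw [mem_ball] at hz ⊢
    calc dist z (gridPt B h k) ≤ dist z x + dist x (gridPt B h k) := dist_triangle _ _ _
      _ < r' / 2 + ε / 4 := by
        have : dist x (gridPt B h k) ≤ ε / 4 := by
          rw [dist_eq_norm]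
          exact hk.trans h1
        linarith
      _ ≤ r' := by linarith
  · intro y hy
    obtain ⟨k, hk, hreg⟩ := near y hy
    obtain ⟨hg, hfg, hfg'⟩ := key k hreg
    have hyk : y ∈ ball (gridPt B h k) r' := by
      rw [mem_ball, dist_eq_norm]
      exact lt_of_le_of_lt (hk.trans h1) (by linarith)
    have hkk : gridPt B h k ∈ ball (gridPt B h k : EE d) r' := mem_ball_self hr'0
    refine ⟨hg.diff y hyk, ?_, ?_⟩
    · have a1 := hg.norm_sub_le hyk hkk
      have a2 := hreg.norm_sub_le hyk hkk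
      have a3 : Real.exp D * ‖y - gridPt B h k‖ ≤ B * (d * h) :=
        mul_le_mul heB hk (norm_nonneg _) hB0.le
      have e : g y - f y = (g y - g (gridPt B h k)) - (f y - f (gridPt B h k))
          - (f (gridPt B h k) - g (gridPt B h k)) := by abel
      rw [e]
      refine (norm_sub_le _ _).trans ?_
      have := norm_sub_le (g y - g (gridPt B h k)) (f y - f (gridPt B h k))
      linarith
    · have a1 := hg.lip y hyk _ hkk
      have a2 := hreg.lip y hyk _ hkk
      have a3 : D * ‖y - gridPt B h k‖ ≤ B * (d * h) :=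
        (mul_le_mul_of_nonneg_right hD (norm_nonneg _)).trans
          (mul_le_mul_of_nonneg_left hk hB0.le)
      have e : fderiv ℝ g y - fderiv ℝ f y
          = (fderiv ℝ g y - fderiv ℝ g (gridPt B h k)) - (fderiv ℝ f y - fderiv ℝ f (gridPt B h k))
          - (fderiv ℝ f (gridPt B h k) - fderiv ℝ g (gridPt B h k)) := by abel
      rw [e]
      refine (norm_sub_le _ _).trans ?_
      have := norm_sub_le (fderiv ℝ g y - fderiv ℝ g (gridPt B h k))
        (fderiv ℝ f y - fderiv ℝ f (gridPt B h k))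
      linarith

/-! ### The count -/

theorem card_Dat (d K : ℕ) :
    Fintype.card (Dat d K) = ((K + 1) ^ (d + d * d) + 1) ^ ((K + 1) ^ d) := by
  simp [Dat]

theorem card_Dat_le (d K : ℕ) :
    (Fintype.card (Dat d K) : ℝ) ≤ Real.exp (((K : ℝ) + 1) ^ (2 * d + d * d)) := by
  rw [card_Dat]
  push_cast
  have h1 : ((K : ℝ) + 1) ^ (d + d * d) + 1 ≤ Real.exp (((K : ℝ) + 1) ^ (d + d * d)) :=
    Real.add_one_le_exp _
  refine (pow_le_pow_left₀ (by positivity) h1 _).trans ?_
  rw [← Real.exp_nat_mul]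
  apply Real.exp_le_exp.2
  push_cast
  rw [← pow_add]
  apply le_of_eq
  congr 1
  ring

/-- **COUNT** (section 9): up to closeness, finitely many models. -/
theorem count (d : ℕ) (D : ℝ) : ∃ C : ℕ, 1 ≤ C ∧ ∀ ε r' : ℝ, 0 < ε → ε ≤ r' → r' ≤ 1 →
    ∃ R : Finset ((EE d → EE d) × Measure (EE d)), (∀ p ∈ R, SM D p.1 p.2) ∧
      (R.card : ℝ) ≤ Real.exp ((C / ε) ^ C) ∧
      ∀ f ν, SM D f ν → ∃ p ∈ R, Close D f ν p.1 p.2 ε r' := by
  classical
  set B : ℝ := Real.exp D + |D| + 1 with hB
  set m : ℝ := (d : ℝ) + 1 with hm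
  have hB1 : 1 ≤ B := by
    have := Real.exp_pos D
    have := abs_nonneg D
    linarith
  have hm1 : 1 ≤ m := by
    have : (0 : ℝ) ≤ d := Nat.cast_nonneg d
    linarith
  have hdm : (d : ℝ) ≤ m := by linarith
  refine ⟨max (⌈8 * m ^ 2 * B ^ 2 + 2⌉₊) (2 * d + d * d + 1), ?_, ?_⟩
  · exact le_trans (by omega) (le_max_right _ _)
  intro ε r' hε hεr hr
  have hε1 : ε ≤ 1 := hεr.trans hr
  set C : ℕ := max (⌈8 * m ^ 2 * B ^ 2 + 2⌉₊) (2 * d + d * d + 1) with hC
  set h : ℝ := ε / (4 * m ^ 2 * B) with hh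
  have hh0 : 0 < h := by positivity
  set K : ℕ := ⌈2 * B / h⌉₊ with hKdef
  have hK : 2 * B / h ≤ K := Nat.le_ceil _
  have hh4 : 4 * m ^ 2 * B * h = ε := by
    rw [hh]
    field_simp
  have hclose : ∀ f g : EE d → EE d, ∀ ν νg : Measure (EE d),
      dat D B h r' K (f, ν) = dat D B h r' K (g, νg) → Close D f ν g νg ε r' := by
    intro f g ν νg hd
    have hd0 : (0 : ℝ) ≤ d := Nat.cast_nonneg d
    have hmB : m * h ≤ ε / 4 := by
      have : m * h * 1 ≤ m * h * (m * B) := by
        apply mul_le_mul_of_nonneg_left _ (by positivity)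
        nlinarith
      nlinarith
    have hmB2 : B * (m * h) ≤ ε / 4 := by
      have : B * (m * h) * 1 ≤ B * (m * h) * m := by
        apply mul_le_mul_of_nonneg_left hm1 (by positivity)
      nlinarith
    have hmB3 : m * (m * h) ≤ ε / 4 := by
      have : m * (m * h) * 1 ≤ m * (m * h) * B := by
        apply mul_le_mul_of_nonneg_left hB1 (by positivity)
      nlinarith
    have e1 : (d : ℝ) * h ≤ m * h := mul_le_mul_of_nonneg_right hdm hh0.le
    have e2 : B * (d * h) ≤ B * (m * h) := mul_le_mul_of_nonneg_left e1 (by linarith)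
    have e3 : (d : ℝ) * (d * h) ≤ m * (m * h) := mul_le_mul hdm e1 (by positivity) (by linarith)
    refine close_of_dat_eq hh0 hK ?_ ?_ hεr ?_ ?_ ?_ hε hd
    · have := Real.exp_pos D
      linarith
    · have := abs_nonneg D
      linarith
    · linarith
    · linarith
    · linarith
  -- representatives
  let P : Dat d K → Prop := fun q => ∃ p : (EE d → EE d) × Measure (EE d),
    SM D p.1 p.2 ∧ dat D B h r' K p = q
  let rep : Dat d K → (EE d → EE d) × Measure (EE d) := fun q =>
    if hq : P q then hq.choose else (id, 0)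
  have hrep : ∀ q, P q → SM D (rep q).1 (rep q).2 ∧ dat D B h r' K (rep q) = q := by
    intro q hq
    simp only [rep, dif_pos hq]
    exact hq.choose_spec
  refine ⟨(Finset.univ.filter P).image rep, ?_, ?_, ?_⟩
  · intro p hp
    obtain ⟨q, hq, rfl⟩ := Finset.mem_image.1 hp
    exact (hrep q (Finset.mem_filter.1 hq).2).1
  · have hc : ((Finset.univ.filter P).image rep).card ≤ Fintype.card (Dat d K) :=
      Finset.card_image_le.trans (Finset.card_filter_le _ _)
    refine (Nat.cast_le.2 hc).trans ((card_Dat_le d K).trans (Real.exp_le_exp.2 ?_))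
    have hKle : (K : ℝ) + 1 ≤ C / ε := by
      have h1 : (K : ℝ) < 2 * B / h + 1 := Nat.ceil_lt_add_one (by positivity)
      have h2 : 2 * B / h = 8 * m ^ 2 * B ^ 2 / ε := by
        rw [hh]
        field_simp
        ring
      have h3 : (8 * m ^ 2 * B ^ 2 + 2 : ℝ) ≤ C :=
        (Nat.le_ceil _).trans (Nat.cast_le.2 (le_max_left _ _))
      rw [h2] at h1
      have h4 : (2 : ℝ) ≤ 2 / ε := by
        rw [le_div_iff₀ hε]
        linarith
      have h5 : (8 * m ^ 2 * B ^ 2 + 2) / ε ≤ C / ε := div_le_div_of_nonneg_right h3 hε.le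
      have h6 : (8 * m ^ 2 * B ^ 2 + 2) / ε = 8 * m ^ 2 * B ^ 2 / ε + 2 / ε := by ring
      linarith
    have hCε : 1 ≤ (C : ℝ) / ε := by
      have : (0 : ℝ) ≤ K := Nat.cast_nonneg K
      linarith
    refine (pow_le_pow_left₀ (by positivity) hKle _).trans ?_
    exact pow_le_pow_right₀ hCε (le_trans (by omega) (le_max_right _ _))
  · intro f ν hf
    have hP : P (dat D B h r' K (f, ν)) := ⟨(f, ν), hf, rfl⟩
    refine ⟨rep (dat D B h r' K (f, ν)), Finset.mem_image.2
      ⟨_, Finset.mem_filter.2 ⟨Finset.mem_univ _, hP⟩, rfl⟩, ?_⟩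
    exact hclose _ _ _ _ (hrep _ hP).2.symm

end

end Crest.Agent.R133.Cnt
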