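import Mathlib
import Crest.Agent.R133.CombDefs

set_option autoImplicit false

open Finset

namespace Crest.Agent.R133

/-! ## arithmetic of the parameters -/

lemma mm_ge (s : ℕ) : 1600 ≤ mm s := by
  unfold mm nn
  nlinarith [Nat.zero_le (Nat.sqrt s)]

lemma mm_pos (s : ℕ) : 0 < mm s := by have := mm_ge s; omega

lemma NN_pos : ∀ s, 0 < NN s
  | 0 => by simp [NN]
  | s + 1 => by
      have := NN_pos s
      have h := mm_pos s
      simp only [NN]
      positivity

lemma NN_succ (s : ℕ) : NN (s + 1) = mm s * NN s := rfl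

lemma KK_succ (s : ℕ) : KK (s + 1) = KK s ^ (mm s - 1) := rfl

lemma two_le_KK : ∀ s, 2 ≤ KK s
  | 0 => by simp [KK]
  | s + 1 => by
      have h := two_le_KK s
      have hm := mm_ge s
      rw [KK_succ]
      calc 2 ≤ KK s := h
        _ = KK s ^ 1 := (pow_one _).symm
        _ ≤ KK s ^ (mm s - 1) := Nat.pow_le_pow_right (by omega) (by omega)

lemma KK_pos (s : ℕ) : 0 < KK s := by have := two_le_KK s; omega

lemma NN_dvd {s0 s : ℕ} (h : s0 ≤ s) : NN s0 ∣ NN s := by
  induction s, h using Nat.le_induction with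
  | base => exact dvd_rfl
  | succ n _ ih => exact ih.trans (by rw [NN_succ]; exact Dvd.intro_left _ rfl)

lemma NN_succ_div {s0 s : ℕ} (h : s0 ≤ s) :
    NN (s + 1) / NN s0 = mm s * (NN s / NN s0) := by
  rw [NN_succ, Nat.mul_div_assoc _ (NN_dvd h)]

lemma NN_div_mul {s0 s : ℕ} (h : s0 ≤ s) : NN s / NN s0 * NN s0 = NN s :=
  Nat.div_mul_cancel (NN_dvd h)

lemma NN_div_pos {s0 s : ℕ} (h : s0 ≤ s) : 0 < NN s / NN s0 :=
  Nat.div_pos (Nat.le_of_dvd (NN_pos s) (NN_dvd h)) (NN_pos s0)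

lemma card_W : ∀ s, Fintype.card (W s) = KK s
  | 0 => by
      show Fintype.card Bool = 2
      simp
  | s + 1 => by
      have ih := card_W s
      show Fintype.card (Fin (mm s - 1) → W s) = KK s ^ (mm s - 1)
      rw [Fintype.card_fun, ih, Fintype.card_fin]

lemma two_pow_ge (n : ℕ) (hn : 16 ≤ n) : (n + 2) ^ 2 ≤ 2 ^ n := by
  induction n, hn using Nat.le_induction with
  | base => norm_num
  | succ k hk ih =>
      rw [pow_succ 2 k]
      nlinarith

lemma NN_sq_le_KK : ∀ s, NN s ^ 2 ≤ KK s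
  | 0 => by simp [NN, KK]
  | s + 1 => by
      have ih := NN_sq_le_KK s
      have hm := mm_ge s
      have h2 := two_le_KK s
      obtain ⟨k, hk⟩ : ∃ k, mm s = k + 2 := ⟨mm s - 2, by omega⟩
      have h3 := two_pow_ge k (by omega)
      rw [NN_succ, KK_succ, hk]
      have : k + 2 - 1 = k + 1 := by omega
      rw [this, pow_succ (KK s) k, mul_pow]
      exact Nat.mul_le_mul (h3.trans (Nat.pow_le_pow_left h2 k)) ih

/-- a stronger form: `C N_{s+1}^2 ≤ K_{s+1}` with `C = 2 ^ 20` -/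
lemma NN_sq_le_KK_succ (s : ℕ) : 2 ^ 20 * NN (s + 1) ^ 2 ≤ KK (s + 1) := by
  have ih := NN_sq_le_KK s
  have hm := mm_ge s
  have h2 := two_le_KK s
  obtain ⟨k, hk⟩ : ∃ k, mm s = k + 22 := ⟨mm s - 22, by omega⟩
  have h4 : (k + 22) ^ 2 ≤ 2 ^ k := by
    have hk' : 20 ≤ k := by omega
    clear hk
    induction k, hk' using Nat.le_induction with
    | base => norm_num
    | succ k hk ih =>
        rw [pow_succ 2 k]
        nlinarith
  rw [NN_succ, KK_succ, hk]
  have : k + 22 - 1 = k + 20 + 1 := by omega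
  rw [this, pow_succ (KK s) (k + 20), pow_add, mul_pow]
  calc 2 ^ 20 * ((k + 22) ^ 2 * NN s ^ 2) = ((k + 22) ^ 2 * 2 ^ 20) * NN s ^ 2 := by ring
    _ ≤ (KK s ^ k * KK s ^ 20) * KK s :=
        Nat.mul_le_mul (Nat.mul_le_mul (h4.trans (Nat.pow_le_pow_left h2 k))
          (Nat.pow_le_pow_left h2 20)) ih

lemma hh_mul (s : ℕ) : hh s * NN s = Real.log (KK s) := by
  unfold hh
  have : (NN s : ℝ) ≠ 0 := by exact_mod_cast (NN_pos s).ne'
  field_simp

lemma exp_half_hh (s : ℕ) : Real.exp (hh s * NN s / 2) = Real.sqrt (KK s) := by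
  rw [hh_mul, Real.sqrt_eq_rpow, Real.rpow_def_of_pos (by exact_mod_cast KK_pos s)]
  congr 1; ring

lemma succ_le_NN : ∀ s, s + 1 ≤ NN s
  | 0 => by simp [NN]
  | s + 1 => by
      have ih := succ_le_NN s
      have hm := mm_ge s
      rw [NN_succ]
      nlinarith

/-! ## names -/

lemma blk_lt (τ : Tau) (s : ℕ) (w : W (s + 1)) (j : ℕ) (h : j < mm s - 1) :
    blk τ s w j = (show Fin (mm s - 1) → W s from w) ⟨j, h⟩ := by
  unfold blk; rw [dif_pos h]

lemma blk_last (τ : Tau) (s : ℕ) (w : W (s + 1)) (j : ℕ) (h : mm s - 1 ≤ j) :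
    blk τ s w j = τ s w := by
  unfold blk; rw [dif_neg (by omega)]

lemma nm_succ (τ : Tau) (s : ℕ) (w : W (s + 1)) (i : ℕ) :
    nm τ (s + 1) w i = nm τ s (blk τ s w (i / NN s)) (i % NN s) := rfl

lemma nm_chunk (τ : Tau) (s : ℕ) (w : W (s + 1)) (j r : ℕ) (hr : r < NN s) :
    nm τ (s + 1) w (j * NN s + r) = nm τ s (blk τ s w j) r := by
  rw [nm_succ]
  have h1 : (j * NN s + r) / NN s = j := by
    rw [mul_comm, Nat.mul_add_div (NN_pos s), Nat.div_eq_of_lt hr, add_zero]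
  have h2 : (j * NN s + r) % NN s = r := by
    rw [mul_comm, Nat.mul_add_mod, Nat.mod_eq_of_lt hr]
  rw [h1, h2]

/-! ## Hamming distance -/

lemma ham_congr {N : ℕ} {x x' y y' : ℕ → Bool} (hx : ∀ i < N, x i = x' i)
    (hy : ∀ i < N, y i = y' i) : ham N x y = ham N x' y' := by
  unfold ham
  congr 1
  apply filter_congr
  intro i hi
  rw [mem_range] at hi
  rw [hx i hi, hy i hi]

lemma ham_le (N : ℕ) (x y : ℕ → Bool) : ham N x y ≤ N := by
  unfold ham
  exact (card_filter_le _ _).trans (by simp)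

lemma ham_comm (N : ℕ) (x y : ℕ → Bool) : ham N x y = ham N y x := by
  unfold ham
  congr 1
  apply filter_congr
  intro i _
  exact ne_comm

lemma ham_self (N : ℕ) (x : ℕ → Bool) : ham N x x = 0 := by simp [ham]

lemma ham_triangle (N : ℕ) (x y z : ℕ → Bool) : ham N x z ≤ ham N x y + ham N y z := by
  unfold ham
  refine (card_le_card ?_).trans (card_union_le _ _)
  intro i hi
  simp only [mem_filter, mem_union] at hi ⊢
  by_cases h : x i = y i
  · right; exact ⟨hi.1, h ▸ hi.2⟩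
  · left; exact ⟨hi.1, h⟩

lemma ham_eq_sum (N : ℕ) (x y : ℕ → Bool) :
    ham N x y = ∑ i ∈ range N, if x i ≠ y i then 1 else 0 := by
  unfold ham
  rw [card_filter]

lemma ham_split (m N : ℕ) (x y : ℕ → Bool) :
    ham (m * N) x y = ∑ j ∈ range m, ham N (sh (j * N) x) (sh (j * N) y) := by
  simp only [ham_eq_sum]
  induction m with
  | zero => simp
  | succ m ih =>
      rw [sum_range_succ, ← ih, add_mul, one_mul, sum_range_add]
      rfl

lemma sum_range_mul {M : Type*} [AddCommMonoid M] (m N : ℕ) (f : ℕ → M) :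
    ∑ i ∈ range (m * N), f i = ∑ j ∈ range m, ∑ r ∈ range N, f (j * N + r) := by
  induction m with
  | zero => simp
  | succ m ih => rw [sum_range_succ, ← ih, add_mul, one_mul, sum_range_add]

lemma ham_nm_succ (τ : Tau) (s : ℕ) (u u' : W (s + 1)) :
    ham (NN (s + 1)) (nm τ (s + 1) u) (nm τ (s + 1) u') =
      ∑ j ∈ range (mm s), ham (NN s) (nm τ s (blk τ s u j)) (nm τ s (blk τ s u' j)) := by
  rw [NN_succ, ham_split]
  apply sum_congr rfl
  intro j _
  apply ham_congr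
  · intro i hi; exact nm_chunk τ s u j i hi
  · intro i hi; exact nm_chunk τ s u' j i hi

lemma sh_sh {α : Type*} (a b : ℕ) (x : ℕ → α) : sh a (sh b x) = sh (b + a) x := by
  funext i; simp [sh, add_assoc]

lemma shS_shS (a b : ℕ) (γ : Set ℕ) : shS a (shS b γ) = shS (b + a) γ := by
  ext i; simp [shS, add_assoc]

/-! ## lists -/

lemma mem_Lst {τ : Tau} {s0 s : ℕ} {z : ℕ → Bool} {γ : Set ℕ} {w : W s} :
    w ∈ Lst τ s0 s z γ ↔ ∀ j < NN s / NN s0, j ∈ γ →
      (ham (NN s0) (sh (j * NN s0) (nm τ s w)) (sh (j * NN s0) z) : ℝ) ≤ rho * NN s0 := by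
  simp [Lst]

lemma mem_Lst_succ {τ : Tau} {s0 s : ℕ} (h : s0 ≤ s) {z : ℕ → Bool} {γ : Set ℕ} {w : W (s + 1)} :
    w ∈ Lst τ s0 (s + 1) z γ ↔ ∀ j < mm s, blk τ s w j ∈
      Lst τ s0 s (sh (j * NN s) z) (shS (j * (NN s / NN s0)) γ) := by
  have hM := NN_div_mul h
  have hMp := NN_div_pos h
  set M := NN s / NN s0 with hMdef
  have key : ∀ j l, l < M → ∀ i < NN s0,
      sh ((j * M + l) * NN s0) (nm τ (s + 1) w) i = sh (l * NN s0) (nm τ s (blk τ s w j)) i := by
    intro j l hl i hi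
    unfold sh
    have h1 : (j * M + l) * NN s0 + i = j * NN s + (l * NN s0 + i) := by
      rw [← hM]; ring
    rw [h1]
    apply nm_chunk
    calc l * NN s0 + i < l * NN s0 + NN s0 := by omega
      _ = (l + 1) * NN s0 := by ring
      _ ≤ M * NN s0 := Nat.mul_le_mul_right _ hl
      _ = NN s := hM
  have key2 : ∀ j l, sh ((j * M + l) * NN s0) z = sh (l * NN s0) (sh (j * NN s) z) := by
    intro j l
    rw [sh_sh]
    congr 1
    rw [← hM]; ring
  rw [mem_Lst, NN_succ_div h, ← hMdef]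
  constructor
  · intro H j hj
    rw [mem_Lst, ← hMdef]
    intro l hl hlγ
    have h2 : j * M + l < mm s * M := by
      calc j * M + l < j * M + M := by omega
        _ = (j + 1) * M := by ring
        _ ≤ mm s * M := Nat.mul_le_mul_right _ hj
    have h3 := H (j * M + l) h2 hlγ
    rwa [ham_congr (key j l hl) (fun i _ => congrFun (key2 j l) i)] at h3
  · intro H j hj hjγ
    have hdm := Nat.div_add_mod j M
    have hlt := Nat.mod_lt j hMp
    have hj' : j / M < mm s := Nat.div_lt_of_lt_mul (by rwa [mul_comm])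
    have hjeq : j / M * M + j % M = j := by rw [mul_comm]; exact hdm
    have h3 := H (j / M) hj'
    rw [mem_Lst, ← hMdef] at h3
    have h4 := h3 (j % M) hlt (by
      show j / M * M + j % M ∈ γ
      rw [hjeq]; exact hjγ)
    rwa [← ham_congr (key (j / M) (j % M) hlt) (fun i _ => congrFun (key2 (j / M) (j % M)) i),
      hjeq] at h4

/-- `Lst` depends only on `z` on `[0,N_s)` and on `γ ∩ [0, N_s/N_{s0})` -/
lemma Lst_congr {τ : Tau} {s0 s : ℕ} (h : s0 ≤ s) {z z' : ℕ → Bool} {γ γ' : Set ℕ}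
    (hz : ∀ i < NN s, z i = z' i) (hγ : ∀ j < NN s / NN s0, j ∈ γ ↔ j ∈ γ') :
    Lst τ s0 s z γ = Lst τ s0 s z' γ' := by
  ext w
  rw [mem_Lst, mem_Lst]
  apply forall_congr'; intro j
  apply imp_congr_right; intro hj
  apply imp_congr (hγ j hj)
  have : ham (NN s0) (sh (j * NN s0) (nm τ s w)) (sh (j * NN s0) z) =
      ham (NN s0) (sh (j * NN s0) (nm τ s w)) (sh (j * NN s0) z') := by
    apply ham_congr (fun _ _ => rfl)
    intro i hi
    apply hz
    calc j * NN s0 + i < (j + 1) * NN s0 := by rw [add_mul]; omega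
      _ ≤ NN s / NN s0 * NN s0 := Nat.mul_le_mul_right _ hj
      _ = NN s := NN_div_mul h
  rw [this]

lemma prodLst_congr {τ : Tau} {s0 s : ℕ} (h : s0 ≤ s) {z z' : ℕ → Bool} {γ γ' : Set ℕ}
    (hz : ∀ i < NN (s + 1), z i = z' i)
    (hγ : ∀ j < NN (s + 1) / NN s0, j ∈ γ ↔ j ∈ γ') :
    prodLst τ s0 s z γ = prodLst τ s0 s z' γ' := by
  unfold prodLst
  apply prod_congr rfl
  intro j hj
  rw [mem_range] at hj
  rw [Lst_congr h (z' := sh (j * NN s) z') (γ' := shS (j * (NN s / NN s0)) γ')]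
  · intro i hi
    apply hz
    calc j * NN s + i < (j + 1) * NN s := by rw [add_mul]; omega
      _ ≤ mm s * NN s := Nat.mul_le_mul_right _ hj
      _ = NN (s + 1) := (NN_succ s).symm
  · intro l hl
    apply hγ
    rw [NN_succ_div h]
    calc j * (NN s / NN s0) + l < (j + 1) * (NN s / NN s0) := by rw [add_mul]; omega
      _ ≤ mm s * (NN s / NN s0) := Nat.mul_le_mul_right _ hj

/-! ## congruence in `τ` -/

lemma blk_congr {τ τ' : Tau} {s : ℕ} (h : τ s = τ' s) : blk τ s = blk τ' s := by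
  funext w j
  unfold blk
  rw [h]

lemma nm_congr {τ τ' : Tau} : ∀ {s : ℕ}, (∀ i < s, τ i = τ' i) → nm τ s = nm τ' s
  | 0, _ => rfl
  | s + 1, h => by
      have ih : nm τ s = nm τ' s := nm_congr (fun i hi => h i (by omega))
      funext w i
      rw [nm_succ, nm_succ, ih, blk_congr (h s (by omega))]

lemma Lst_congrT {τ τ' : Tau} {s : ℕ} (h : ∀ i < s, τ i = τ' i) (s0 : ℕ) (z : ℕ → Bool)
    (γ : Set ℕ) : Lst τ s0 s z γ = Lst τ' s0 s z γ := by
  unfold Lst
  rw [nm_congr h]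

lemma prodLst_congrT {τ τ' : Tau} {s : ℕ} (h : ∀ i < s, τ i = τ' i) (s0 : ℕ) (z : ℕ → Bool)
    (γ : Set ℕ) : prodLst τ s0 s z γ = prodLst τ' s0 s z γ := by
  unfold prodLst
  apply prod_congr rfl
  intro j _
  rw [Lst_congrT h]

lemma Bd_congrT {τ τ' : Tau} {s : ℕ} (h : ∀ i < s, τ i = τ' i) (s0 : ℕ) (z : ℕ → Bool)
    (γ : Set ℕ) : Bd τ s0 s z γ ↔ Bd τ' s0 s z γ := by
  unfold Bd
  rw [prodLst_congrT h]

lemma Z_congrT {τ τ' : Tau} {s : ℕ} (h : ∀ i < s, τ i = τ' i) (l : ℝ) : Z τ s l = Z τ' s l := by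
  unfold Z
  rw [nm_congr h]

lemma badMass_congrT {τ τ' : Tau} {s : ℕ} (h : ∀ i < s + 1, τ i = τ' i) (s0 : ℕ)
    (p : (Fin (NN (s + 1)) → Bool) → ℝ) (u : W (s + 1)) :
    badMass τ s0 s p u = badMass τ' s0 s p u := by
  classical
  have key : ∀ z : Fin (NN (s + 1)) → Bool,
      (∃ γ : Set ℕ, Bd τ s0 s (ext z) γ ∧ u ∈ Lst τ s0 (s + 1) (ext z) γ) ↔
      (∃ γ : Set ℕ, Bd τ' s0 s (ext z) γ ∧ u ∈ Lst τ' s0 (s + 1) (ext z) γ) := by
    intro z
    apply exists_congr
    intro γ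
    rw [Bd_congrT (fun i hi => h i (by omega)), Lst_congrT h]
  unfold badMass
  apply sum_congr _ (fun _ _ => rfl)
  ext z
  simp only [mem_filter, key z]

/-- the true word is in its own list, with any `γ` whose letters are good -/
lemma Z_ge_one (τ : Tau) (s : ℕ) (l : ℝ) : 1 ≤ Z τ s l := by
  unfold Z
  have hK : (0 : ℝ) < KK s := by exact_mod_cast KK_pos s
  have h1 : (KK s : ℝ) ≤ ∑ w : W s, ∑ w' : W s,
      Real.exp (-l * (ham (NN s) (nm τ s w) (nm τ s w') : ℝ)) := by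
    calc (KK s : ℝ) = ∑ w : W s, (1 : ℝ) := by
          rw [sum_const, card_univ, card_W]; simp
      _ ≤ _ := by
          apply sum_le_sum
          intro w _
          calc (1 : ℝ) = Real.exp (-l * (ham (NN s) (nm τ s w) (nm τ s w) : ℝ)) := by
                rw [ham_self]; simp
            _ ≤ _ := single_le_sum (f := fun w' => Real.exp (-l * (ham (NN s) (nm τ s w) (nm τ s w') : ℝ)))
                (fun _ _ => (Real.exp_pos _).le) (mem_univ w)
  calc (1 : ℝ) = (1 / KK s) * KK s := by field_simp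
    _ ≤ _ := by gcongr

end Crest.Agent.R133
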