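import Mathlib

/-!
Row 133 (S0182), section 3: probability-free permutation estimates (helper943).
-/

namespace Crest.Agent.R133.CombPerm

open Finset

variable {α B : Type*} [Fintype α] [DecidableEq α] [Fintype B] [DecidableEq B]

/-- number of permutations fixing every point of `S`. -/
theorem card_fix (S : Finset α) :
    Fintype.card {π : Equiv.Perm α // ∀ a, a ∈ S → π a = a} = (Fintype.card α - S.card).factorial := by
  have e := Equiv.Perm.subtypeEquivSubtypePerm (fun a : α => a ∉ S)
  have h1 : Fintype.card {π : Equiv.Perm α // ∀ a, a ∈ S → π a = a}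
      = Fintype.card {f : Equiv.Perm α // ∀ a, ¬ (a ∉ S) → f a = a} := by
    apply Fintype.card_congr
    exact Equiv.subtypeEquivRight (fun f => by simp)
  rw [h1, ← Fintype.card_congr e, Fintype.card_perm]
  congr 1
  rw [Fintype.card_subtype_compl]
  simp

/-- number of permutations with a prescribed restriction to `S`. -/
theorem card_restr (S : Finset α) (r : α → α) :
    (univ.filter (fun π : Equiv.Perm α => ∀ a ∈ S, π a = r a)).card
      ≤ (Fintype.card α - S.card).factorial := by
  classical
  rcases (univ.filter (fun π : Equiv.Perm α => ∀ a ∈ S, π a = r a)).eq_empty_or_nonempty with h | ⟨π₀, h₀⟩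
  · simp [h]
  · rw [← card_fix S]
    rw [Fintype.card_subtype]
    apply Finset.card_le_card_of_injOn (fun π => π.trans π₀.symm)
    · intro π hπ
      simp only [coe_filter, mem_univ, true_and, Set.mem_ofPred_eq] at hπ ⊢
      simp only [mem_filter, mem_univ, true_and] at h₀
      intro a ha
      simp [hπ a ha, ← h₀ a ha]
    · intro π _ π' _ h
      have := congrArg (fun x => x.trans π₀) h
      simpa [Equiv.trans_assoc] using this

/-- `#{π : ∀ u ∈ S, π u ∈ G u} ≤ (∏_{u∈S} |G u|) (U-|S|)!`. -/
theorem card_le_prod (S : Finset α) (G : α → Finset α) :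
    (univ.filter (fun π : Equiv.Perm α => ∀ u ∈ S, π u ∈ G u)).card
      ≤ (∏ u ∈ S, (G u).card) * (Fintype.card α - S.card).factorial := by
  classical
  let f : Equiv.Perm α → (∀ a ∈ S, α) := fun π a _ => π a
  have hmap : ∀ π ∈ (univ.filter (fun π : Equiv.Perm α => ∀ u ∈ S, π u ∈ G u)), f π ∈ S.pi G := by
    intro π hπ
    simp only [mem_filter, mem_univ, true_and] at hπ
    rw [Finset.mem_pi]
    intro a ha
    exact hπ a ha
  have := Finset.card_le_mul_card_image_of_maps_to hmap
    ((Fintype.card α - S.card).factorial) (by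
      intro g _
      let r : α → α := fun a => if h : a ∈ S then g a h else a
      refine le_trans (Finset.card_le_card ?_) (card_restr S r)
      intro π hπ
      simp only [mem_filter, mem_univ, true_and] at hπ ⊢
      intro a ha
      have := congrFun (congrFun hπ.2 a) ha
      simp [r, ha, ← this, f])
  rw [Finset.card_pi] at this
  rw [mul_comm]
  exact this

/-- `(U/2)^k (U-k)! ≤ U!` for `2k ≤ U` (real form). -/
theorem fact_le (U k : ℕ) (h : 2 * k ≤ U) :
    ((U : ℝ) / 2) ^ k * ((U - k).factorial : ℝ) ≤ (U.factorial : ℝ) := by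
  have h1 : (U + 1 - k) ^ k ≤ U.descFactorial k := Nat.pow_sub_le_descFactorial U k
  have h2 : (U - k).factorial * U.descFactorial k = U.factorial :=
    Nat.factorial_mul_descFactorial (by omega)
  have h3 : ((U : ℝ) / 2) ^ k ≤ ((U + 1 - k : ℕ) : ℝ) ^ k := by
    apply pow_le_pow_left₀ (by positivity)
    have : (U : ℝ) ≤ 2 * ((U + 1 - k : ℕ) : ℝ) := by
      exact_mod_cast (by omega : U ≤ 2 * (U + 1 - k))
    linarith
  have h4 : ((U + 1 - k : ℕ) : ℝ) ^ k ≤ (U.descFactorial k : ℝ) := by exact_mod_cast h1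
  calc ((U : ℝ) / 2) ^ k * ((U - k).factorial : ℝ)
      ≤ (U.descFactorial k : ℝ) * ((U - k).factorial : ℝ) := by
        apply mul_le_mul_of_nonneg_right (h3.trans h4) (by positivity)
    _ = (U.factorial : ℝ) := by rw [← h2]; push_cast; ring

/-- Joint bound: for `|S| ≤ U/2`,
`#{π : ∀ u ∈ S, π u ∈ G u} ≤ U! ∏ 2|G u|/U`. -/
theorem card_le_real (S : Finset α) (G : α → Finset α) (hS : 2 * S.card ≤ Fintype.card α) :
    ((univ.filter (fun π : Equiv.Perm α => ∀ u ∈ S, π u ∈ G u)).card : ℝ)
      ≤ (Fintype.card α).factorial * ∏ u ∈ S, (2 * (G u).card / (Fintype.card α : ℝ)) := by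
  have h1 : ((univ.filter (fun π : Equiv.Perm α => ∀ u ∈ S, π u ∈ G u)).card : ℝ)
      ≤ (∏ u ∈ S, ((G u).card : ℝ)) * (Fintype.card α - S.card).factorial := by
    exact_mod_cast card_le_prod S G
  refine h1.trans ?_
  rcases Nat.eq_zero_or_pos (Fintype.card α) with h0 | h0
  · have : S = ∅ := by
      rw [← Finset.card_eq_zero]; omega
    subst this
    simp [h0]
  · have hU : (0 : ℝ) < Fintype.card α := by exact_mod_cast h0
    have h2 : ∏ u ∈ S, (2 * (G u).card / (Fintype.card α : ℝ))
        = (∏ u ∈ S, ((G u).card : ℝ)) / ((Fintype.card α : ℝ) / 2) ^ S.card := by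
      rw [← Finset.prod_const, ← Finset.prod_div_distrib]
      apply Finset.prod_congr rfl
      intro u _
      field_simp
    rw [h2, mul_div_assoc', le_div_iff₀ (by positivity)]
    have h3 := fact_le (Fintype.card α) S.card hS
    have h4 : (0 : ℝ) ≤ ∏ u ∈ S, ((G u).card : ℝ) := by positivity
    calc (∏ u ∈ S, ((G u).card : ℝ)) * (Fintype.card α - S.card).factorial * ((Fintype.card α : ℝ) / 2) ^ S.card
        = (∏ u ∈ S, ((G u).card : ℝ)) * (((Fintype.card α : ℝ) / 2) ^ S.card * (Fintype.card α - S.card).factorial) := by ring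
      _ ≤ (∏ u ∈ S, ((G u).card : ℝ)) * ((Fintype.card α).factorial : ℝ) :=
          mul_le_mul_of_nonneg_left h3 h4
      _ = _ := by ring

/-- elementary symmetric sums: `∑_{|S|=k} ∏_{u∈S} x u ≤ (∑ x)^k / k!`. -/
theorem esymm_le {ι : Type*} [DecidableEq ι] (s : Finset ι) (x : ι → ℝ) (hx : ∀ i, 0 ≤ x i) (k : ℕ) :
    ∑ S ∈ s.powersetCard k, ∏ u ∈ S, x u ≤ (∑ u ∈ s, x u) ^ k / (k.factorial : ℝ) := by
  induction s using Finset.induction_on generalizing k with
  | empty =>
    rcases k with _ | k
    · simp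
    · rw [Finset.powersetCard_eq_empty.mpr (by simp)]
      simp
  | insert a s ha ih =>
    rcases k with _ | k
    · simp
    · rw [Finset.powersetCard_succ_insert ha, Finset.sum_union, Finset.sum_image]
      · have h1 : ∀ S ∈ s.powersetCard k, ∏ u ∈ insert a S, x u = x a * ∏ u ∈ S, x u := by
          intro S hS
          rw [Finset.prod_insert]
          intro h
          exact ha ((Finset.mem_powersetCard.mp hS).1 h)
        rw [Finset.sum_congr rfl h1, ← Finset.mul_sum, Finset.sum_insert ha]
        set X := ∑ u ∈ s, x u with hX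
        have hX0 : 0 ≤ X := Finset.sum_nonneg (fun i _ => hx i)
        have hb : X ^ (k + 1) + (k + 1 : ℝ) * x a * X ^ k ≤ (x a + X) ^ (k + 1) := by
          clear ih h1
          induction k with
          | zero => simp; linarith
          | succ k ihk =>
            have e1 : (x a + X) ^ (k + 1 + 1) = (x a + X) * (x a + X) ^ (k + 1) := by ring
            rw [e1]
            have e2 := mul_le_mul_of_nonneg_left ihk (add_nonneg (hx a) hX0)
            refine le_trans ?_ e2
            have h0 : 0 ≤ (k + 1 : ℝ) * (x a) ^ 2 * X ^ k := by positivity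
            have h9 : (x a + X) * (X ^ (k + 1) + (k + 1 : ℝ) * x a * X ^ k)
                = X ^ (k + 1 + 1) + ((k + 1 : ℕ) + 1 : ℝ) * x a * X ^ (k + 1)
                  + (k + 1 : ℝ) * (x a) ^ 2 * X ^ k := by
              push_cast; ring
            rw [h9]
            linarith
        have i1 := ih (k + 1)
        have i2 := ih k
        have hk : (0 : ℝ) < (k.factorial : ℝ) := by positivity
        have hk1 : ((k + 1).factorial : ℝ) = (k + 1 : ℝ) * (k.factorial : ℝ) := by
          rw [Nat.factorial_succ]; push_cast; ring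
        calc ∑ S ∈ powersetCard (k + 1) s, ∏ u ∈ S, x u + x a * ∑ S ∈ powersetCard k s, ∏ u ∈ S, x u
            ≤ X ^ (k + 1) / ((k + 1).factorial : ℝ) + x a * (X ^ k / (k.factorial : ℝ)) :=
              add_le_add i1 (mul_le_mul_of_nonneg_left i2 (hx a))
          _ = (X ^ (k + 1) + (k + 1 : ℝ) * x a * X ^ k) / ((k + 1).factorial : ℝ) := by
              rw [hk1]; field_simp
          _ ≤ (x a + X) ^ (k + 1) / ((k + 1).factorial : ℝ) := by
              apply div_le_div_of_nonneg_right hb (by positivity)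
      · intro S hS T hT h
        simp only [Finset.mem_coe, Finset.mem_powersetCard] at hS hT
        have hS' : a ∉ S := fun h => ha (hS.1 h)
        have hT' : a ∉ T := fun h => ha (hT.1 h)
        rw [← Finset.erase_insert hS', ← Finset.erase_insert hT', h]
      · rw [Finset.disjoint_left]
        intro S hS hS'
        rw [Finset.mem_image] at hS'
        obtain ⟨T, _, rfl⟩ := hS'
        exact ha ((Finset.mem_powersetCard.mp hS).1 (Finset.mem_insert_self a T))

/-- `k^k ≤ e^k k!`. -/
theorem pow_le_exp_fact (k : ℕ) : (k : ℝ) ^ k ≤ Real.exp k * (k.factorial : ℝ) := by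
  have := Real.pow_div_factorial_le_exp (k : ℝ) (by positivity) k
  rw [div_le_iff₀ (by positivity)] at this
  exact this

/-- Tail bound: for `1 ≤ k`, `2k ≤ U`,
`#{π : k ≤ #{u : π u ∈ G u}} ≤ U! (2e (∑ |G u|/U)/k)^k`. -/
theorem tail (G : α → Finset α) (k : ℕ) (hk : 1 ≤ k) (hkU : 2 * k ≤ Fintype.card α) :
    ((univ.filter (fun π : Equiv.Perm α => k ≤ (univ.filter (fun u => π u ∈ G u)).card)).card : ℝ)
      ≤ (Fintype.card α).factorial *
        (2 * Real.exp 1 * (∑ u, ((G u).card : ℝ) / (Fintype.card α : ℝ)) / k) ^ k := by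
  classical
  have h1 : (univ.filter (fun π : Equiv.Perm α => k ≤ (univ.filter (fun u => π u ∈ G u)).card))
      ⊆ (univ.powersetCard k).biUnion
        (fun S => univ.filter (fun π : Equiv.Perm α => ∀ u ∈ S, π u ∈ G u)) := by
    intro π hπ
    simp only [mem_filter, mem_univ, true_and] at hπ
    obtain ⟨S, hS, hSc⟩ := Finset.exists_subset_card_eq hπ
    rw [Finset.mem_biUnion]
    refine ⟨S, ?_, ?_⟩
    · simp [Finset.mem_powersetCard, hSc]
    · simp only [mem_filter, mem_univ, true_and]
      intro u hu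
      have := hS hu
      simpa using this
  have h2 : ((univ.filter (fun π : Equiv.Perm α => k ≤ (univ.filter (fun u => π u ∈ G u)).card)).card : ℝ)
      ≤ ∑ S ∈ univ.powersetCard k,
        ((univ.filter (fun π : Equiv.Perm α => ∀ u ∈ S, π u ∈ G u)).card : ℝ) := by
    have := (Finset.card_le_card h1).trans Finset.card_biUnion_le
    exact_mod_cast this
  refine h2.trans ?_
  have h3 : ∑ S ∈ univ.powersetCard k,
        ((univ.filter (fun π : Equiv.Perm α => ∀ u ∈ S, π u ∈ G u)).card : ℝ)
      ≤ ∑ S ∈ (univ : Finset α).powersetCard k,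
        ((Fintype.card α).factorial : ℝ) * ∏ u ∈ S, (2 * (G u).card / (Fintype.card α : ℝ)) := by
    apply Finset.sum_le_sum
    intro S hS
    apply card_le_real
    rw [(Finset.mem_powersetCard.mp hS).2]
    exact hkU
  refine h3.trans ?_
  rw [← Finset.mul_sum]
  apply mul_le_mul_of_nonneg_left _ (by positivity)
  have h4 := esymm_le (univ : Finset α) (fun u => (2 * (G u).card / (Fintype.card α : ℝ)))
    (fun i => by positivity) k
  refine h4.trans ?_
  have hk0 : (0 : ℝ) < k := by exact_mod_cast hk
  have h5 : ∑ u : α, (2 * ((G u).card : ℝ) / (Fintype.card α : ℝ))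
      = 2 * ∑ u, ((G u).card : ℝ) / (Fintype.card α : ℝ) := by
    rw [Finset.mul_sum]
    apply Finset.sum_congr rfl
    intro u _
    ring
  rw [h5]
  set X := ∑ u, ((G u).card : ℝ) / (Fintype.card α : ℝ) with hX
  have hX0 : 0 ≤ X := Finset.sum_nonneg (fun i _ => by positivity)
  clear_value X
  have h6' : (Real.exp 1) ^ k = Real.exp k := by
    rw [← Real.exp_nat_mul, mul_one]
  have h6 : (2 * Real.exp 1 * X / k) ^ k = (2 * X) ^ k * (Real.exp k) / (k : ℝ) ^ k := by
    rw [div_pow, show 2 * Real.exp 1 * X = (2 * X) * Real.exp 1 by ring, mul_pow, h6']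
  rw [h6, div_le_div_iff₀ (by positivity) (by positivity)]
  have h7 := pow_le_exp_fact k
  calc (2 * X) ^ k * (k : ℝ) ^ k ≤ (2 * X) ^ k * (Real.exp k * (k.factorial : ℝ)) := by
        exact mul_le_mul_of_nonneg_left h7 (pow_nonneg (mul_nonneg zero_le_two hX0) k)
    _ = (2 * X) ^ k * Real.exp k * (k.factorial : ℝ) := by ring

/-- A map all of whose fibres have the same size. -/
def Balanced (β : α → B) : Prop :=
  ∀ b, (univ.filter (fun a => β a = b)).card * Fintype.card B = Fintype.card α

omit [DecidableEq α] in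
theorem Balanced.card_preimage {β : α → B} (h : Balanced β) (F : Finset B) :
    (univ.filter (fun a => β a ∈ F)).card * Fintype.card B = F.card * Fintype.card α := by
  classical
  have h1 : (univ.filter (fun a => β a ∈ F)).card
      = ∑ b ∈ F, (univ.filter (fun a => β a = b)).card := by
    rw [Finset.card_eq_sum_card_fiberwise (f := β) (t := F)]
    · apply Finset.sum_congr rfl
      intro b hb
      congr 1
      ext a
      simp only [mem_filter, mem_univ, true_and]
      constructor
      · rintro ⟨_, h⟩; exact h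
      · intro h; exact ⟨h ▸ hb, h⟩
    · intro a ha
      simpa using ha
  rw [h1, Finset.sum_mul, Finset.sum_congr rfl (fun b _ => h b)]
  simp

omit [DecidableEq α] in
theorem Balanced.comp_perm {β : α → B} (h : Balanced β) (π : Equiv.Perm α) :
    Balanced (fun a => β (π a)) := by
  intro b
  rw [← h b]
  congr 1
  apply Finset.card_bij (fun a _ => π a)
  · intro a ha; simpa using ha
  · intro a _ a' _ h; exact π.injective h
  · intro c hc
    refine ⟨π.symm c, ?_, by simp⟩
    simpa using hc

omit [DecidableEq α] in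
/-- `|β⁻¹ F| / U = |F| / K`. -/
theorem Balanced.ratio {β : α → B} (h : Balanced β) (hU : 0 < Fintype.card α) (F : Finset B) :
    ((univ.filter (fun a => β a ∈ F)).card : ℝ) / (Fintype.card α : ℝ)
      = (F.card : ℝ) / (Fintype.card B : ℝ) := by
  have hU' : (0 : ℝ) < Fintype.card α := by exact_mod_cast hU
  have hK : 0 < Fintype.card B := by
    obtain ⟨a⟩ := Fintype.card_pos_iff.mp hU
    exact Fintype.card_pos_iff.mpr ⟨β a⟩
  have hK' : (0 : ℝ) < Fintype.card B := by exact_mod_cast hK
  rw [div_eq_div_iff hU'.ne' hK'.ne']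
  exact_mod_cast h.card_preimage F

/-- Balanced version of `card_le_real`:
`#{π : ∀ u ∈ S, β (π u) ∈ F u} ≤ U! ∏ 2|F u|/K`. -/
theorem card_le_balanced {β : α → B} (h : Balanced β) (S : Finset α) (F : α → Finset B)
    (hS : 2 * S.card ≤ Fintype.card α) :
    ((univ.filter (fun π : Equiv.Perm α => ∀ u ∈ S, β (π u) ∈ F u)).card : ℝ)
      ≤ (Fintype.card α).factorial * ∏ u ∈ S, (2 * (F u).card / (Fintype.card B : ℝ)) := by
  rcases Nat.eq_zero_or_pos (Fintype.card α) with h0 | h0
  · have : S = ∅ := by
      rw [← Finset.card_eq_zero]; omega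
    subst this
    have := Fintype.card_eq_zero_iff.mp h0
    simp
  · have := card_le_real S (fun u => univ.filter (fun a => β a ∈ F u)) hS
    simp only [mem_filter, mem_univ, true_and] at this
    refine this.trans (le_of_eq ?_)
    congr 1
    apply Finset.prod_congr rfl
    intro u _
    rw [mul_div_assoc, h.ratio h0, mul_div_assoc]

/-- Balanced tail bound:
`#{π : k ≤ #{u : β (π u) ∈ F u}} ≤ U! (2e (∑ |F u|/K)/k)^k`. -/
theorem tail_balanced {β : α → B} (h : Balanced β) (F : α → Finset B) (k : ℕ) (hk : 1 ≤ k)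
    (hkU : 2 * k ≤ Fintype.card α) :
    ((univ.filter (fun π : Equiv.Perm α =>
        k ≤ (univ.filter (fun u => β (π u) ∈ F u)).card)).card : ℝ)
      ≤ (Fintype.card α).factorial *
        (2 * Real.exp 1 * (∑ u, ((F u).card : ℝ) / (Fintype.card B : ℝ)) / k) ^ k := by
  have h0 : 0 < Fintype.card α := by omega
  have := tail (fun u => univ.filter (fun a => β a ∈ F u)) k hk hkU
  simp only [mem_filter, mem_univ, true_and] at this
  refine this.trans (le_of_eq ?_)
  congr 4
  apply Finset.sum_congr rfl
  intro u _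
  rw [h.ratio h0]

/-- Pair bound for the second moment: for `u ≠ u'`,
`#{π : β (π u) = t, β (π u') = t'} ≤ U! * 2/K²`. -/
theorem pair_bound {β : α → B} (h : Balanced β) {u u' : α} (hne : u ≠ u') (t t' : B) :
    ((univ.filter (fun π : Equiv.Perm α => β (π u) = t ∧ β (π u') = t')).card : ℝ)
      ≤ (Fintype.card α).factorial * (2 / (Fintype.card B : ℝ) ^ 2) := by
  have hU2 : 2 ≤ Fintype.card α := by
    have : ({u, u'} : Finset α).card ≤ Fintype.card α := Finset.card_le_univ _
    rwa [Finset.card_pair hne] at this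
  have h0 : 0 < Fintype.card α := by omega
  have hU' : (0 : ℝ) < Fintype.card α := by exact_mod_cast h0
  have hKpos : 0 < Fintype.card B := Fintype.card_pos_iff.mpr ⟨t⟩
  have hK' : (0 : ℝ) < Fintype.card B := by exact_mod_cast hKpos
  let G : α → Finset α := fun a => univ.filter (fun c => β c = if a = u then t else t')
  have h1 := card_le_prod ({u, u'} : Finset α) G
  have h2 : (univ.filter (fun π : Equiv.Perm α => β (π u) = t ∧ β (π u') = t'))
      ⊆ (univ.filter (fun π : Equiv.Perm α => ∀ a ∈ ({u, u'} : Finset α), π a ∈ G a)) := by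
    intro π hπ
    simp only [mem_filter, mem_univ, true_and] at hπ ⊢
    intro a ha
    simp only [mem_insert, mem_singleton] at ha
    rcases ha with rfl | rfl
    · simp [G, hπ.1]
    · simp [G, hπ.2, hne.symm]
  have h3 := (Finset.card_le_card h2).trans h1
  rw [Finset.prod_pair hne, Finset.card_pair hne] at h3
  have g1 : ((G u).card : ℝ) = (Fintype.card α : ℝ) / Fintype.card B := by
    rw [eq_div_iff hK'.ne']
    have := h t
    simp only [G, if_true]
    exact_mod_cast this
  have g2 : ((G u').card : ℝ) = (Fintype.card α : ℝ) / Fintype.card B := by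
    rw [eq_div_iff hK'.ne']
    have := h t'
    simp only [G, if_neg hne.symm]
    exact_mod_cast this
  have h4 : ((univ.filter (fun π : Equiv.Perm α => β (π u) = t ∧ β (π u') = t')).card : ℝ)
      ≤ (((G u).card : ℝ) * ((G u').card : ℝ)) * ((Fintype.card α - 2).factorial : ℝ) := by
    exact_mod_cast h3
  refine h4.trans ?_
  rw [g1, g2]
  obtain ⟨n, hn⟩ : ∃ n, Fintype.card α = n + 2 := ⟨Fintype.card α - 2, by omega⟩
  rw [hn]
  have h5 : ((n + 2).factorial : ℝ) = (n + 2 : ℝ) * ((n + 1 : ℝ) * (n.factorial : ℝ)) := by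
    rw [Nat.factorial_succ, Nat.factorial_succ]; push_cast; ring
  rw [h5]
  simp only [Nat.add_sub_cancel]
  push_cast
  have e1 : (n + 2 : ℝ) / (Fintype.card B : ℝ) * ((n + 2 : ℝ) / (Fintype.card B : ℝ)) * (n.factorial : ℝ)
      = ((n + 2 : ℝ) * (n.factorial : ℝ) / (Fintype.card B : ℝ) ^ 2) * (n + 2 : ℝ) := by
    field_simp
  have e2 : (n + 2 : ℝ) * ((n + 1 : ℝ) * (n.factorial : ℝ)) * (2 / (Fintype.card B : ℝ) ^ 2)
      = ((n + 2 : ℝ) * (n.factorial : ℝ) / (Fintype.card B : ℝ) ^ 2) * (2 * (n + 1 : ℝ)) := by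
    field_simp
  rw [e1, e2]
  apply mul_le_mul_of_nonneg_left _ (by positivity)
  have : (0 : ℝ) ≤ n := by positivity
  linarith

end Crest.Agent.R133.CombPerm
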