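import Mathlib
import Crest.Agent.R133.CombPerm

/-! # Row 133, section 3: the events (P1), (P2') for one stage, abstract form (helper90) -/

set_option autoImplicit false

open Finset

namespace Crest.Agent.R133.Comb

open Crest.Agent.R133.CombPerm

variable {α B : Type*} [Fintype α] [DecidableEq α] [Fintype B] [DecidableEq B]

lemma exp_one_sq_le : Real.exp 1 ^ 2 ≤ 7.5 := by
  have h := Real.exp_one_lt_d9
  have h0 := Real.exp_pos 1
  nlinarith

/-- `(2eμ/k)^k ≤ e^{-k}` if `2e²μ ≤ k` -/
lemma pow_le_exp_neg {μ : ℝ} (hμ : 0 ≤ μ) (k : ℕ) (hk : 1 ≤ k)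
    (h : 2 * Real.exp 1 ^ 2 * μ ≤ k) :
    (2 * Real.exp 1 * μ / k) ^ k ≤ Real.exp (-(k : ℝ)) := by
  have hk0 : (0 : ℝ) < k := by exact_mod_cast hk
  have he := Real.exp_pos 1
  have h1 : 2 * Real.exp 1 * μ / k ≤ Real.exp (-1) := by
    rw [div_le_iff₀ hk0, Real.exp_neg, inv_mul_eq_div, le_div_iff₀ he]
    calc 2 * Real.exp 1 * μ * Real.exp 1 = 2 * Real.exp 1 ^ 2 * μ := by ring
      _ ≤ k := h
  calc (2 * Real.exp 1 * μ / k) ^ k ≤ (Real.exp (-1)) ^ k :=
        pow_le_pow_left₀ (by positivity) h1 k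
    _ = Real.exp (-(k : ℝ)) := by
        rw [← Real.exp_nat_mul]; congr 1; ring

/-- event (P1) -/
theorem p1 {β : α → B} (h : CombPerm.Balanced β) (V : Finset α) (F : Finset B) (N : ℕ)
    (hN : 1 ≤ N) :
    ((univ.filter (fun π : Equiv.Perm α =>
      30 * ((V.card : ℝ) * F.card / Fintype.card B) + 10 * N <
        ((V.filter (fun u => β (π u) ∈ F)).card : ℝ))).card : ℝ) ≤
      (Fintype.card α).factorial * Real.exp (-4 * N) := by
  classical
  set μ : ℝ := (V.card : ℝ) * F.card / Fintype.card B with hμ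
  have hμ0 : 0 ≤ μ := by positivity
  have hN' : (1 : ℝ) ≤ N := by exact_mod_cast hN
  set k : ℕ := ⌈2 * Real.exp 1 ^ 2 * μ + 4 * N⌉₊ with hk
  have hkge : 2 * Real.exp 1 ^ 2 * μ + 4 * N ≤ k := Nat.le_ceil _
  have hklt : (k : ℝ) < 2 * Real.exp 1 ^ 2 * μ + 4 * N + 1 := Nat.ceil_lt_add_one (by positivity)
  have he2 := exp_one_sq_le
  have hk2 : 2 * (k : ℝ) ≤ 30 * μ + 10 * N := by nlinarith
  have hk1 : 1 ≤ k := by
    have : (1 : ℝ) ≤ k := by
      have : 0 ≤ 2 * Real.exp 1 ^ 2 * μ := by positivity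
      linarith
    exact_mod_cast this
  by_cases hkU : 2 * k ≤ Fintype.card α
  · -- main case
    have h1 := tail_balanced h (fun u => if u ∈ V then F else ∅) k hk1 hkU
    have h2 : ∑ u : α, (((if u ∈ V then F else ∅ : Finset B).card : ℝ) / Fintype.card B) = μ := by
      have : ∀ u : α, (((if u ∈ V then F else ∅ : Finset B).card : ℝ) / Fintype.card B) =
          if u ∈ V then (F.card : ℝ) / Fintype.card B else 0 := by
        intro u; split_ifs <;> simp
      rw [sum_congr rfl (fun u _ => this u), ← sum_filter]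
      simp only [filter_mem_eq_inter, univ_inter, sum_const, nsmul_eq_mul]
      rw [hμ]; ring
    rw [h2] at h1
    have h3 : ((univ.filter (fun π : Equiv.Perm α =>
      30 * μ + 10 * N < ((V.filter (fun u => β (π u) ∈ F)).card : ℝ))).card : ℝ) ≤
      ((univ.filter (fun π : Equiv.Perm α =>
        k ≤ (univ.filter (fun u => β (π u) ∈ (if u ∈ V then F else ∅ : Finset B))).card)).card : ℝ) := by
      norm_cast
      apply card_le_card
      intro π hπ
      simp only [mem_filter, mem_univ, true_and] at hπ ⊢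
      have h4 : univ.filter (fun u => β (π u) ∈ (if u ∈ V then F else ∅ : Finset B)) =
          V.filter (fun u => β (π u) ∈ F) := by
        ext u
        simp only [mem_filter, mem_univ, true_and]
        by_cases hu : u ∈ V <;> simp [hu]
      rw [h4]
      have : (k : ℝ) ≤ ((V.filter (fun u => β (π u) ∈ F)).card : ℝ) := by
        have : (0 : ℝ) ≤ k := by positivity
        push_cast at hπ
        linarith
      exact_mod_cast this
    refine h3.trans (h1.trans ?_)
    apply mul_le_mul_of_nonneg_left _ (by positivity)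
    refine (pow_le_exp_neg hμ0 k hk1 (by linarith)).trans ?_
    apply Real.exp_le_exp.mpr
    have : 0 ≤ 2 * Real.exp 1 ^ 2 * μ := by positivity
    linarith
  · -- trivial case: the event is empty
    have h1 : (univ.filter (fun π : Equiv.Perm α =>
      30 * μ + 10 * N < ((V.filter (fun u => β (π u) ∈ F)).card : ℝ))) = ∅ := by
      apply filter_eq_empty_iff.mpr
      intro π _
      rw [not_lt]
      have h2 : ((V.filter (fun u => β (π u) ∈ F)).card : ℝ) ≤ Fintype.card α := by
        exact_mod_cast card_le_univ _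
      have h3 : (Fintype.card α : ℝ) ≤ 2 * k := by
        have : Fintype.card α ≤ 2 * k := by omega
        exact_mod_cast this
      linarith
    rw [h1]
    simp only [card_empty, Nat.cast_zero]
    positivity

/-- event (P2') -/
theorem p2 {β : α → B} (h : CombPerm.Balanced β) (H : α → Finset B) (M N : ℕ) (hM : 2 ≤ M)
    (hN : 4 ≤ N) (hU : 4 ≤ Fintype.card α)
    (hH : ∑ u, ((H u).card : ℝ) / Fintype.card B ≤
      Fintype.card α * 2 ^ M * Real.exp (-3 * M) / N) :
    ((univ.filter (fun π : Equiv.Perm α =>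
      (Fintype.card α : ℝ) / N ≤ ((univ.filter (fun u => β (π u) ∈ H u)).card : ℝ))).card : ℝ) ≤
      (Fintype.card α).factorial * Real.exp (-((Fintype.card α : ℝ) / N)) := by
  classical
  have hN' : (4 : ℝ) ≤ N := by exact_mod_cast hN
  have hU' : (4 : ℝ) ≤ Fintype.card α := by exact_mod_cast hU
  set U : ℝ := ((Fintype.card α : ℕ) : ℝ) with hUdef
  set k : ℕ := ⌈U / N⌉₊ with hk
  have hkge : U / N ≤ k := Nat.le_ceil _
  have hklt : (k : ℝ) < U / N + 1 := Nat.ceil_lt_add_one (by positivity)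
  have hUN : U / N ≤ U / 4 := by
    apply div_le_div_of_nonneg_left (by positivity) (by norm_num) hN'
  have hk1 : 1 ≤ k := by
    rw [hk]
    exact Nat.ceil_pos.mpr (by positivity)
  have hkU : 2 * k ≤ Fintype.card α := by
    have : (2 : ℝ) * k ≤ Fintype.card α := by
      rw [← hUdef]; linarith
    exact_mod_cast this
  have h1 := tail_balanced h H k hk1 hkU
  set μ : ℝ := ∑ u, ((H u).card : ℝ) / Fintype.card B with hμ
  have hμ0 : 0 ≤ μ := sum_nonneg fun _ _ => by positivity
  have h3 : ((univ.filter (fun π : Equiv.Perm α =>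
      U / N ≤ ((univ.filter (fun u => β (π u) ∈ H u)).card : ℝ))).card : ℝ) ≤
      ((univ.filter (fun π : Equiv.Perm α =>
        k ≤ (univ.filter (fun u => β (π u) ∈ H u)).card)).card : ℝ) := by
    norm_cast
    apply card_le_card
    intro π hπ
    simp only [mem_filter, mem_univ, true_and] at hπ ⊢
    rw [hk]
    exact Nat.ceil_le.mpr hπ
  refine h3.trans (h1.trans ?_)
  apply mul_le_mul_of_nonneg_left _ (by positivity)
  have h5 : 2 * Real.exp 1 ^ 2 * μ ≤ k := by
    -- `2 e² 2^M e^{-3M} ≤ 1`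
    have he3 : (2 : ℝ) * Real.exp (-3) ≤ 1 / 8 := by
      have h16 : (16 : ℝ) ≤ Real.exp 3 := by
        have h := Real.exp_one_gt_d9
        have : Real.exp 3 = Real.exp 1 ^ 3 := by rw [← Real.exp_nat_mul]; norm_num
        rw [this]
        have h2 : (2.6 : ℝ) ≤ Real.exp 1 := by linarith
        calc (16 : ℝ) ≤ 2.6 ^ 3 := by norm_num
          _ ≤ _ := pow_le_pow_left₀ (by norm_num) h2 3
      rw [Real.exp_neg, ← div_eq_mul_inv, div_le_iff₀ (Real.exp_pos 3)]
      linarith
    have h6 : (2 : ℝ) ^ M * Real.exp (-3 * M) ≤ 1 / 64 := by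
      have : Real.exp (-3 * (M : ℝ)) = Real.exp (-3) ^ M := by
        rw [← Real.exp_nat_mul]; congr 1; ring
      rw [this, ← mul_pow]
      calc ((2 : ℝ) * Real.exp (-3)) ^ M ≤ (1 / 8) ^ M :=
            pow_le_pow_left₀ (by positivity) he3 M
        _ ≤ (1 / 8) ^ 2 := pow_le_pow_of_le_one (by norm_num) (by norm_num) hM
        _ = 1 / 64 := by norm_num
    have he2 := exp_one_sq_le
    have h7 : μ ≤ (U / N) * (1 / 64) := by
      refine hH.trans ?_
      calc U * 2 ^ M * Real.exp (-3 * M) / N = (U / N) * (2 ^ M * Real.exp (-3 * M)) := by ring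
        _ ≤ _ := mul_le_mul_of_nonneg_left h6 (by positivity)
    have h8 : 2 * Real.exp 1 ^ 2 * μ ≤ 15 * μ := by nlinarith
    have h9 : 0 ≤ U / N := by positivity
    linarith
  refine (pow_le_exp_neg hμ0 k hk1 h5).trans ?_
  apply Real.exp_le_exp.mpr
  linarith

end Crest.Agent.R133.Comb
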