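import Mathlib

/-! # Row 133, section 3: the pair estimate for (B) -/

set_option autoImplicit false

open Finset

namespace Crest.Agent.R133.Comb

variable {B : Type*} [Fintype B] [DecidableEq B]

/-- number of permutations with two prescribed values does not depend on the values -/
lemma card_perm_pair_eq (u u' : B) {b b' d d' : B} (hb : b ≠ b') (hd : d ≠ d') :
    (univ.filter (fun π : Equiv.Perm B => π u = b ∧ π u' = b')).card =
    (univ.filter (fun π : Equiv.Perm B => π u = d ∧ π u' = d')).card := by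
  classical
  let ρ : Equiv.Perm B := Equiv.swap (Equiv.swap b d b') d' * Equiv.swap b d
  have hx : Equiv.swap b d b' ≠ d := by
    intro h
    have : Equiv.swap b d b' = Equiv.swap b d b := by rw [h, Equiv.swap_apply_left]
    exact hb ((Equiv.swap b d).injective this).symm
  have hρb : ρ b = d := by
    show Equiv.swap (Equiv.swap b d b') d' (Equiv.swap b d b) = d
    rw [Equiv.swap_apply_left]
    exact Equiv.swap_apply_of_ne_of_ne hx.symm hd
  have hρb' : ρ b' = d' := by
    show Equiv.swap (Equiv.swap b d b') d' (Equiv.swap b d b') = d'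
    rw [Equiv.swap_apply_left]
  refine card_bij' (fun π _ => ρ * π) (fun π _ => ρ⁻¹ * π) ?_ ?_ ?_ ?_
  · intro π hπ
    simp only [mem_filter, mem_univ, true_and] at hπ ⊢
    simp [hπ.1, hπ.2, hρb, hρb']
  · intro π hπ
    simp only [mem_filter, mem_univ, true_and] at hπ ⊢
    simp only [Equiv.Perm.mul_apply, hπ.1, hπ.2]
    constructor
    · rw [Equiv.Perm.inv_eq_iff_eq]; exact hρb.symm
    · rw [Equiv.Perm.inv_eq_iff_eq]; exact hρb'.symm
  · intro π _; simp
  · intro π _; simp

/-- `c · U (U-1) = U!` -/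
lemma card_perm_pair (u u' : B) (hu : u ≠ u') {b b' : B} (hb : b ≠ b') :
    (univ.filter (fun π : Equiv.Perm B => π u = b ∧ π u' = b')).card *
      (Fintype.card B * (Fintype.card B - 1)) = (Fintype.card B).factorial := by
  classical
  have h1 : (univ : Finset (Equiv.Perm B)).card =
      ∑ x ∈ (univ : Finset (B × B)).filter (fun x => x.1 ≠ x.2),
        (univ.filter (fun π : Equiv.Perm B => (π u, π u') = x)).card := by
    apply card_eq_sum_card_fiberwise
    intro π _
    simp only [coe_filter, Set.mem_setOf_eq, mem_univ, true_and]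
    intro h
    exact hu (π.injective h)
  have h2 : ∀ x ∈ (univ : Finset (B × B)).filter (fun x => x.1 ≠ x.2),
      (univ.filter (fun π : Equiv.Perm B => (π u, π u') = x)).card =
      (univ.filter (fun π : Equiv.Perm B => π u = b ∧ π u' = b')).card := by
    intro x hx
    simp only [mem_filter, mem_univ, true_and] at hx
    rw [← card_perm_pair_eq u u' hx hb]
    congr 1
    ext π
    simp only [mem_filter, mem_univ, true_and]
    rw [Prod.ext_iff]
  rw [sum_congr rfl h2, sum_const, smul_eq_mul] at h1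
  have h3 : ((univ : Finset (B × B)).filter (fun x => x.1 ≠ x.2)).card =
      Fintype.card B * (Fintype.card B - 1) := by
    have h4 : (univ : Finset (B × B)).filter (fun x => x.1 ≠ x.2) = (univ : Finset B).offDiag := by
      ext x; simp [mem_offDiag]
    rw [h4, offDiag_card, card_univ, Nat.mul_sub, mul_one]
  rw [card_univ, Fintype.card_perm, h3] at h1
  rw [h1, mul_comm]

/-- average over permutations of a nonnegative function of two distinct places -/
lemma sum_perm_pair_le (u u' : B) (hu : u ≠ u') (F : B → B → ℝ) (hF : ∀ b b', 0 ≤ F b b') :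
    (∑ π : Equiv.Perm B, F (π u) (π u')) * (Fintype.card B : ℝ) ^ 2 ≤
      2 * (Fintype.card B).factorial * ∑ b : B, ∑ b' : B, F b b' := by
  classical
  have hU : 2 ≤ Fintype.card B := by
    have : 1 < Fintype.card B := Fintype.one_lt_card_iff.mpr ⟨u, u', hu⟩
    omega
  -- split the sum over permutations according to the pair of values
  have h1 : (∑ π : Equiv.Perm B, F (π u) (π u')) =
      ∑ x ∈ (univ : Finset (B × B)).filter (fun x => x.1 ≠ x.2),
        ∑ π ∈ univ.filter (fun π : Equiv.Perm B => (π u, π u') = x), F (π u) (π u') := by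
    rw [sum_fiberwise_of_maps_to (s := (univ : Finset (Equiv.Perm B)))
      (t := (univ : Finset (B × B)).filter (fun x => x.1 ≠ x.2)) (g := fun π => (π u, π u'))]
    intro π _
    simp only [mem_filter, mem_univ, true_and]
    intro h
    exact hu (π.injective h)
  have h2 : ∀ x ∈ (univ : Finset (B × B)).filter (fun x => x.1 ≠ x.2),
      (∑ π ∈ univ.filter (fun π : Equiv.Perm B => (π u, π u') = x), F (π u) (π u')) *
        (Fintype.card B : ℝ) ^ 2 ≤ 2 * (Fintype.card B).factorial * F x.1 x.2 := by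
    intro x hx
    simp only [mem_filter, mem_univ, true_and] at hx
    have h3 : ∑ π ∈ univ.filter (fun π : Equiv.Perm B => (π u, π u') = x), F (π u) (π u') =
        (univ.filter (fun π : Equiv.Perm B => π u = x.1 ∧ π u' = x.2)).card * F x.1 x.2 := by
      have h4 : univ.filter (fun π : Equiv.Perm B => (π u, π u') = x) =
          univ.filter (fun π : Equiv.Perm B => π u = x.1 ∧ π u' = x.2) := by
        ext π
        simp only [mem_filter, mem_univ, true_and]
        rw [Prod.ext_iff]
      rw [h4, ← nsmul_eq_mul, ← sum_const]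
      apply sum_congr rfl
      intro π hπ
      simp only [mem_filter, mem_univ, true_and] at hπ
      rw [hπ.1, hπ.2]
    have h5 := card_perm_pair u u' hu hx
    set c := (univ.filter (fun π : Equiv.Perm B => π u = x.1 ∧ π u' = x.2)).card with hc
    rw [h3]
    have h6 : (c : ℝ) * (Fintype.card B : ℝ) ^ 2 ≤ 2 * (Fintype.card B).factorial := by
      rw [← h5]
      push_cast
      rw [Nat.cast_sub (by omega)]
      have : (2 : ℝ) ≤ Fintype.card B := by exact_mod_cast hU
      have hc0 : (0 : ℝ) ≤ c := by positivity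
      have : (Fintype.card B : ℝ) ^ 2 ≤ 2 * (Fintype.card B * (Fintype.card B - 1)) := by nlinarith
      push_cast
      nlinarith
    calc (c : ℝ) * F x.1 x.2 * (Fintype.card B : ℝ) ^ 2
        = ((c : ℝ) * (Fintype.card B : ℝ) ^ 2) * F x.1 x.2 := by ring
      _ ≤ _ := mul_le_mul_of_nonneg_right h6 (hF _ _)
  rw [h1, sum_mul]
  refine (sum_le_sum h2).trans ?_
  rw [← mul_sum]
  apply mul_le_mul_of_nonneg_left _ (by positivity)
  calc ∑ x ∈ (univ : Finset (B × B)).filter (fun x => x.1 ≠ x.2), F x.1 x.2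
      ≤ ∑ x : B × B, F x.1 x.2 :=
        sum_le_sum_of_subset_of_nonneg (filter_subset _ _) (fun _ _ _ => hF _ _)
    _ = ∑ b : B, ∑ b' : B, F b b' := by
        rw [← univ_product_univ, sum_product]

variable {A : Type*} [Fintype A] [DecidableEq A]

/-- balanced sums -/
lemma sum_balanced (β : B → A) (K U : ℕ) (hβ : ∀ a, (univ.filter (fun b => β b = a)).card * K = U)
    (f : A → ℝ) : (∑ b, f (β b)) * K = U * ∑ a, f a := by
  classical
  have h1 : ∑ b, f (β b) = ∑ a, ∑ b ∈ univ.filter (fun b => β b = a), f (β b) := by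
    rw [sum_fiberwise]
  rw [h1, sum_mul, mul_sum]
  apply sum_congr rfl
  intro a _
  have : ∑ b ∈ univ.filter (fun b => β b = a), f (β b) =
      (univ.filter (fun b => β b = a)).card * f a := by
    rw [← nsmul_eq_mul, ← sum_const]
    apply sum_congr rfl
    intro b hb
    simp only [mem_filter, mem_univ, true_and] at hb
    rw [hb]
  rw [this]
  have h2 : ((univ.filter (fun b => β b = a)).card : ℝ) * K = U := by exact_mod_cast hβ a
  calc _ = (((univ.filter (fun b => β b = a)).card : ℝ) * K) * f a := by ring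
    _ = _ := by rw [h2]

/-- (B), summed form: `Σ_π Σ_{u ≠ u'} g(u,u') e(βπu,βπu') ≤ U! (2/K²) (Σ g)(Σ e)` -/
lemma sum_perm_offdiag_le (β : B → A) (K : ℕ) (hK : 0 < K)
    (hβ : ∀ a, (univ.filter (fun b => β b = a)).card * K = Fintype.card B)
    (g : B → B → ℝ) (hg : ∀ u u', 0 ≤ g u u') (e : A → A → ℝ) (he : ∀ a a', 0 ≤ e a a')
    (hB : 0 < Fintype.card B) :
    ∑ π : Equiv.Perm B, ∑ x ∈ (univ : Finset B).offDiag, g x.1 x.2 * e (β (π x.1)) (β (π x.2)) ≤
      (Fintype.card B).factorial * (2 / (K : ℝ) ^ 2) * (∑ u, ∑ u', g u u') * ∑ a, ∑ a', e a a' := by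
  classical
  have hU : (0 : ℝ) < Fintype.card B := by exact_mod_cast hB
  have hKr : (0 : ℝ) < K := by exact_mod_cast hK
  rw [sum_comm]
  set E := ∑ a, ∑ a', e a a' with hE
  have hE0 : 0 ≤ E := sum_nonneg fun _ _ => sum_nonneg fun _ _ => he _ _
  have hee : (∑ b : B, ∑ b' : B, e (β b) (β b')) * K ^ 2 = (Fintype.card B : ℝ) ^ 2 * E := by
    have h1 : ∀ b : B, (∑ b' : B, e (β b) (β b')) * K = Fintype.card B * ∑ a', e (β b) a' :=
      fun b => sum_balanced β K _ hβ (fun a' => e (β b) a')
    have h2 : (∑ b : B, ∑ a', e (β b) a') * K = Fintype.card B * E :=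
      sum_balanced β K _ hβ (fun a => ∑ a', e a a')
    calc (∑ b : B, ∑ b' : B, e (β b) (β b')) * (K : ℝ) ^ 2
        = (∑ b : B, (∑ b' : B, e (β b) (β b')) * K) * K := by rw [← sum_mul]; ring
      _ = (Fintype.card B : ℝ) * ((∑ b : B, ∑ a', e (β b) a') * K) := by
          rw [sum_congr rfl (fun b _ => h1 b), ← mul_sum]; ring
      _ = _ := by rw [h2]; ring
  have key : ∀ x ∈ (univ : Finset B).offDiag,
      ∑ π : Equiv.Perm B, g x.1 x.2 * e (β (π x.1)) (β (π x.2)) ≤
        g x.1 x.2 * ((Fintype.card B).factorial * (2 / (K : ℝ) ^ 2) * E) := by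
    intro x hx
    rw [mem_offDiag] at hx
    rw [← mul_sum]
    apply mul_le_mul_of_nonneg_left _ (hg _ _)
    have h1 := sum_perm_pair_le x.1 x.2 hx.2.2 (fun b b' => e (β b) (β b')) (fun _ _ => he _ _)
    have h2 : (∑ π : Equiv.Perm B, e (β (π x.1)) (β (π x.2))) * (Fintype.card B : ℝ) ^ 2 * K ^ 2 ≤
        2 * (Fintype.card B).factorial * ((Fintype.card B : ℝ) ^ 2 * E) := by
      rw [← hee]
      calc _ ≤ (2 * (Fintype.card B).factorial * ∑ b : B, ∑ b' : B, e (β b) (β b')) * (K : ℝ) ^ 2 :=
            mul_le_mul_of_nonneg_right h1 (by positivity)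
        _ = _ := by ring
    have h3 : (0 : ℝ) < (Fintype.card B : ℝ) ^ 2 * K ^ 2 := by positivity
    rw [← mul_le_mul_iff_left₀ h3]
    calc _ = (∑ π : Equiv.Perm B, e (β (π x.1)) (β (π x.2))) * (Fintype.card B : ℝ) ^ 2 * K ^ 2 := by ring
      _ ≤ _ := h2
      _ = _ := by field_simp
  refine (sum_le_sum key).trans ?_
  rw [← sum_mul]
  have h4 : ∑ x ∈ (univ : Finset B).offDiag, g x.1 x.2 ≤ ∑ u, ∑ u', g u u' := by
    calc _ ≤ ∑ x ∈ (univ : Finset B) ×ˢ (univ : Finset B), g x.1 x.2 :=
          sum_le_sum_of_subset_of_nonneg (fun x hx => by simp) (fun _ _ _ => hg _ _)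
      _ = _ := by rw [sum_product]
  calc (∑ x ∈ (univ : Finset B).offDiag, g x.1 x.2) * ((Fintype.card B).factorial * (2 / (K : ℝ) ^ 2) * E)
      ≤ (∑ u, ∑ u', g u u') * ((Fintype.card B).factorial * (2 / (K : ℝ) ^ 2) * E) :=
        mul_le_mul_of_nonneg_right h4 (by positivity)
    _ = _ := by ring

/-- Markov for finite averages -/
lemma card_markov {ι : Type*} [Fintype ι] (f : ι → ℝ) (hf : ∀ i, 0 ≤ f i) (c : ℝ) (hc : 0 < c)
    (h : ∑ i, f i ≤ Fintype.card ι * c) :
    (((univ.filter (fun i => 2 * c < f i)).card : ℕ) : ℝ) ≤ Fintype.card ι / 2 := by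
  classical
  have h1 : ((univ.filter (fun i => 2 * c < f i)).card : ℝ) * (2 * c) ≤ ∑ i, f i := by
    rw [← nsmul_eq_mul, ← sum_const]
    calc ∑ _i ∈ univ.filter (fun i => 2 * c < f i), (2 * c)
        ≤ ∑ i ∈ univ.filter (fun i => 2 * c < f i), f i := by
          apply sum_le_sum
          intro i hi
          simp only [mem_filter, mem_univ, true_and] at hi
          exact hi.le
      _ ≤ _ := sum_le_sum_of_subset_of_nonneg (filter_subset _ _) (fun _ _ _ => hf _)
  have h2 := h1.trans h
  have h3 : ((univ.filter (fun i => 2 * c < f i)).card : ℝ) * 2 ≤ Fintype.card ι := by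
    have : ((univ.filter (fun i => 2 * c < f i)).card : ℝ) * 2 * c ≤ Fintype.card ι * c := by
      linarith
    exact le_of_mul_le_mul_right this hc
  linarith

end Crest.Agent.R133.Comb
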