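import Mathlib
import Crest.Agent.R133.CombBasic
import Crest.Agent.R133.CombPair

/-! # Row 133, section 3: one stage, concrete form -/

set_option autoImplicit false

open Finset

namespace Crest.Agent.R133

/-- the coordinates of a word of level `s+1` -/
def co {s : ℕ} (u : W (s + 1)) : Fin (mm s - 1) → W s := u

/-- first coordinate -/
def fst (s : ℕ) (u : W (s + 1)) : W s := co u ⟨0, by have := mm_ge s; omega⟩

lemma fst_balanced (s : ℕ) : Balanced (fst s) := by
  classical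
  have h0 : 0 < mm s - 1 := by have := mm_ge s; omega
  intro t
  have key : ∀ t' : W s, (univ.filter (fun u => fst s u = t')).card =
      (univ.filter (fun u => fst s u = t)).card := by
    intro t'
    refine card_bij' (fun u _ => (Function.update (co u) ⟨0, h0⟩ t : Fin (mm s - 1) → W s))
      (fun u _ => (Function.update (co u) ⟨0, h0⟩ t' : Fin (mm s - 1) → W s)) ?_ ?_ ?_ ?_
    · intro u hu
      refine mem_filter.mpr ⟨mem_univ _, ?_⟩
      show Function.update (co u) ⟨0, h0⟩ t ⟨0, h0⟩ = t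
      simp
    · intro u hu
      refine mem_filter.mpr ⟨mem_univ _, ?_⟩
      show Function.update (co u) ⟨0, h0⟩ t' ⟨0, h0⟩ = t'
      simp
    · intro u hu
      simp only [mem_filter, mem_univ, true_and] at hu
      show Function.update (Function.update (co u) ⟨0, h0⟩ t) ⟨0, h0⟩ t' = co u
      rw [Function.update_idem]
      conv_rhs => rw [← Function.update_eq_self ⟨0, h0⟩ (co u)]
      congr 1
      exact hu.symm
    · intro u hu
      simp only [mem_filter, mem_univ, true_and] at hu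
      show Function.update (Function.update (co u) ⟨0, h0⟩ t') ⟨0, h0⟩ t = co u
      rw [Function.update_idem]
      conv_rhs => rw [← Function.update_eq_self ⟨0, h0⟩ (co u)]
      congr 1
      exact hu.symm
  have h1 : (univ : Finset (W (s + 1))).card =
      ∑ t' : W s, (univ.filter (fun u => fst s u = t')).card :=
    card_eq_sum_card_fiberwise (fun u _ => mem_univ _)
  rw [sum_congr rfl (fun t' _ => key t'), sum_const, card_univ, card_univ, card_W, card_W,
    smul_eq_mul] at h1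
  rw [h1, mul_comm]

/-- update of the choice sequence at level `s` -/
noncomputable def upd (τ : Tau) (s : ℕ) (σ : W (s + 1) → W s) : Tau := Function.update τ s σ

lemma upd_self (τ : Tau) (s : ℕ) (σ : W (s + 1) → W s) : upd τ s σ s = σ := by
  unfold upd; simp

lemma upd_lt (τ : Tau) (s : ℕ) (σ : W (s + 1) → W s) (i : ℕ) (h : i < s) : upd τ s σ i = τ i := by
  unfold upd; exact Function.update_of_ne (by omega) _ _

lemma blk_upd_lt (τ : Tau) (s : ℕ) (σ : W (s + 1) → W s) (u : W (s + 1)) (j : ℕ)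
    (h : j < mm s - 1) : blk (upd τ s σ) s u j = co u ⟨j, h⟩ := blk_lt _ _ _ _ h

lemma blk_upd_last (τ : Tau) (s : ℕ) (σ : W (s + 1) → W s) (u : W (s + 1)) :
    blk (upd τ s σ) s u (mm s - 1) = σ u := by
  rw [blk_last _ _ _ _ le_rfl, upd_self]

lemma range_mm (s : ℕ) : range (mm s) = insert (mm s - 1) (range (mm s - 1)) := by
  have := mm_ge s
  conv_lhs => rw [show mm s = (mm s - 1) + 1 by omega]
  exact range_add_one

/-- the candidates: `u_j ∈ Lst_s(z_j,γ_j)` for `j < m-1` -/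
noncomputable def cand (τ : Tau) (s0 s : ℕ) (z : ℕ → Bool) (γ : Set ℕ) : Finset (W (s + 1)) :=
  (Fintype.piFinset (fun j : Fin (mm s - 1) =>
    Lst τ s0 s (sh (j * NN s) z) (shS (j * (NN s / NN s0)) γ)) : Finset (Fin (mm s - 1) → W s))

/-- the last list -/
noncomputable def lastL (τ : Tau) (s0 s : ℕ) (z : ℕ → Bool) (γ : Set ℕ) : Finset (W s) :=
  Lst τ s0 s (sh ((mm s - 1) * NN s) z) (shS ((mm s - 1) * (NN s / NN s0)) γ)

lemma mem_cand {τ : Tau} {s0 s : ℕ} {z : ℕ → Bool} {γ : Set ℕ} {u : W (s + 1)} :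
    u ∈ cand τ s0 s z γ ↔ ∀ j : Fin (mm s - 1), co u j ∈
      Lst τ s0 s (sh (j * NN s) z) (shS (j * (NN s / NN s0)) γ) := by
  unfold cand co
  exact Fintype.mem_piFinset

lemma card_cand_mul (τ : Tau) (s0 s : ℕ) (z : ℕ → Bool) (γ : Set ℕ) :
    ((cand τ s0 s z γ).card : ℝ) * ((lastL τ s0 s z γ).card : ℝ) = prodLst τ s0 s z γ := by
  unfold prodLst
  rw [range_mm, prod_insert (by simp), mul_comm]
  congr 1
  unfold cand
  have h1 : (Fintype.piFinset (fun j : Fin (mm s - 1) =>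
    Lst τ s0 s (sh (j * NN s) z) (shS (j * (NN s / NN s0)) γ))).card =
    ∏ j : Fin (mm s - 1), (Lst τ s0 s (sh (j * NN s) z) (shS (j * (NN s / NN s0)) γ)).card :=
    Fintype.card_piFinset _
  have h2 : ∏ j : Fin (mm s - 1), (Lst τ s0 s (sh (j * NN s) z) (shS (j * (NN s / NN s0)) γ)).card =
      ∏ j ∈ range (mm s - 1), (Lst τ s0 s (sh (j * NN s) z) (shS (j * (NN s / NN s0)) γ)).card :=
    Fin.prod_univ_eq_prod_range
      (fun j => (Lst τ s0 s (sh (j * NN s) z) (shS (j * (NN s / NN s0)) γ)).card) (mm s - 1)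
  rw [h2] at h1
  have h3 := congrArg (Nat.cast : ℕ → ℝ) h1
  rw [Nat.cast_prod] at h3
  exact h3

lemma mem_Lst_upd {τ : Tau} {s0 s : ℕ} (h : s0 ≤ s) {σ : W (s + 1) → W s} {z : ℕ → Bool}
    {γ : Set ℕ} {u : W (s + 1)} :
    u ∈ Lst (upd τ s σ) s0 (s + 1) z γ ↔ u ∈ cand τ s0 s z γ ∧ σ u ∈ lastL τ s0 s z γ := by
  have hL : ∀ z γ, Lst (upd τ s σ) s0 s z γ = Lst τ s0 s z γ := fun z γ =>
    Lst_congrT (fun i hi => upd_lt τ s σ i hi) s0 z γ
  have hm := mm_ge s
  rw [mem_Lst_succ h, mem_cand]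
  constructor
  · intro H
    refine ⟨fun j => ?_, ?_⟩
    · have := H j (by have := j.2; omega)
      rwa [hL, blk_upd_lt _ _ _ _ _ j.2] at this
    · have := H (mm s - 1) (by omega)
      rwa [hL, blk_upd_last] at this
  · rintro ⟨H1, H2⟩ j hj
    rw [hL]
    by_cases hj' : j < mm s - 1
    · rw [blk_upd_lt _ _ _ _ _ hj']
      exact H1 ⟨j, hj'⟩
    · have : j = mm s - 1 := by omega
      subst this
      rw [blk_upd_last]
      exact H2

lemma card_Lst_upd {τ : Tau} {s0 s : ℕ} (h : s0 ≤ s) (σ : W (s + 1) → W s) (z : ℕ → Bool)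
    (γ : Set ℕ) :
    (Lst (upd τ s σ) s0 (s + 1) z γ).card =
      ((cand τ s0 s z γ).filter (fun u => σ u ∈ lastL τ s0 s z γ)).card := by
  congr 1
  ext u
  rw [mem_Lst_upd h, mem_filter]

lemma prodLst_upd (τ : Tau) (s0 s : ℕ) (σ : W (s + 1) → W s) (z : ℕ → Bool) (γ : Set ℕ) :
    prodLst (upd τ s σ) s0 s z γ = prodLst τ s0 s z γ :=
  prodLst_congrT (fun i hi => upd_lt τ s σ i hi) s0 z γ

lemma Bd_upd (τ : Tau) (s0 s : ℕ) (σ : W (s + 1) → W s) (z : ℕ → Bool) (γ : Set ℕ) :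
    Bd (upd τ s σ) s0 s z γ ↔ Bd τ s0 s z γ :=
  Bd_congrT (fun i hi => upd_lt τ s σ i hi) s0 z γ

/-! ## (B) -/

/-- `e(t,t') = exp(-l ham(t,t'))` -/
noncomputable def ek (τ : Tau) (s : ℕ) (l : ℝ) (t t' : W s) : ℝ :=
  Real.exp (-l * (ham (NN s) (nm τ s t) (nm τ s t') : ℝ))

/-- the product over the free coordinates -/
noncomputable def gk (τ : Tau) (s : ℕ) (l : ℝ) (u u' : W (s + 1)) : ℝ :=
  ∏ j : Fin (mm s - 1), ek τ s l (co u j) (co u' j)

lemma ek_pos (τ : Tau) (s : ℕ) (l : ℝ) (t t' : W s) : 0 < ek τ s l t t' := Real.exp_pos _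

lemma gk_pos (τ : Tau) (s : ℕ) (l : ℝ) (u u' : W (s + 1)) : 0 < gk τ s l u u' :=
  prod_pos fun _ _ => ek_pos _ _ _ _ _

lemma sum_ek (τ : Tau) (s : ℕ) (l : ℝ) : ∑ t, ∑ t', ek τ s l t t' = KK s * Z τ s l := by
  unfold Z ek
  have : (KK s : ℝ) ≠ 0 := by exact_mod_cast (KK_pos s).ne'
  field_simp

lemma sum_gk (τ : Tau) (s : ℕ) (l : ℝ) :
    ∑ u, ∑ u', gk τ s l u u' = (KK s * Z τ s l) ^ (mm s - 1) := by
  rw [← sum_ek]
  have h1 : ∑ u : W (s + 1), ∑ u' : W (s + 1), gk τ s l u u' =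
      ∑ u : Fin (mm s - 1) → W s, ∑ u' : Fin (mm s - 1) → W s,
        ∏ j : Fin (mm s - 1), ek τ s l (u j) (u' j) := rfl
  rw [h1]
  have h2 : ∀ u : Fin (mm s - 1) → W s, ∑ u' : Fin (mm s - 1) → W s,
        ∏ j : Fin (mm s - 1), ek τ s l (u j) (u' j) =
        ∏ j : Fin (mm s - 1), ∑ t', ek τ s l (u j) t' := by
    intro u
    rw [Fintype.prod_sum]
  rw [sum_congr rfl (fun u _ => h2 u)]
  rw [← Fintype.prod_sum (fun (_ : Fin (mm s - 1)) (t : W s) => ∑ t', ek τ s l t t')]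
  simp

lemma ham_upd (τ : Tau) (s : ℕ) (σ : W (s + 1) → W s) (u u' : W (s + 1)) :
    ham (NN (s + 1)) (nm (upd τ s σ) (s + 1) u) (nm (upd τ s σ) (s + 1) u') =
      (∑ j : Fin (mm s - 1), ham (NN s) (nm τ s (co u j)) (nm τ s (co u' j))) +
        ham (NN s) (nm τ s (σ u)) (nm τ s (σ u')) := by
  have hnm : nm (upd τ s σ) s = nm τ s := nm_congr (fun i hi => upd_lt τ s σ i hi)
  rw [ham_nm_succ, range_mm, sum_insert (by simp), hnm, blk_upd_last, blk_upd_last, add_comm]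
  congr 1
  rw [← Fin.sum_univ_eq_sum_range
    (fun j => ham (NN s) (nm τ s (blk (upd τ s σ) s u j)) (nm τ s (blk (upd τ s σ) s u' j)))]
  apply sum_congr rfl
  intro j _
  rw [blk_upd_lt _ _ _ _ _ j.2, blk_upd_lt _ _ _ _ _ j.2]

lemma exp_ham_upd (τ : Tau) (s : ℕ) (l : ℝ) (σ : W (s + 1) → W s) (u u' : W (s + 1)) :
    Real.exp (-l * (ham (NN (s + 1)) (nm (upd τ s σ) (s + 1) u)
      (nm (upd τ s σ) (s + 1) u') : ℝ)) = gk τ s l u u' * ek τ s l (σ u) (σ u') := by
  unfold gk ek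
  rw [ham_upd, ← Real.exp_sum, ← Real.exp_add]
  congr 1
  push_cast
  rw [mul_add, mul_sum]

lemma Z_upd (τ : Tau) (s : ℕ) (l : ℝ) (σ : W (s + 1) → W s) :
    Z (upd τ s σ) (s + 1) l = 1 + (1 / (KK (s + 1) : ℝ)) *
      ∑ x ∈ (univ : Finset (W (s + 1))).offDiag, gk τ s l x.1 x.2 * ek τ s l (σ x.1) (σ x.2) := by
  have hU : (KK (s + 1) : ℝ) ≠ 0 := by exact_mod_cast (KK_pos (s + 1)).ne'
  unfold Z
  simp only [exp_ham_upd]
  rw [← sum_product', ← diag_union_offDiag, sum_union (disjoint_diag_offDiag _), mul_add]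
  congr 1
  rw [sum_diag]
  have : ∀ u : W (s + 1), gk τ s l u u * ek τ s l (σ u) (σ u) = 1 := by
    intro u
    unfold gk ek
    simp [ham_self]
  rw [sum_congr rfl (fun u _ => this u), sum_const, card_univ, card_W]
  field_simp
  simp

/-- (B) fails for at most half of the permutations -/
lemma badB (τ : Tau) (s : ℕ) (l : ℝ) :
    (((univ.filter (fun π : Equiv.Perm (W (s + 1)) =>
      ¬ (Z (upd τ s (fun u => fst s (π u))) (s + 1) l ≤ 1 + 4 * Z τ s l ^ (mm s) / KK s))).card : ℕ) : ℝ)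
      ≤ (Fintype.card (Equiv.Perm (W (s + 1))) : ℝ) / 2 := by
  classical
  have hK : (0 : ℝ) < KK s := by exact_mod_cast KK_pos s
  have hU : (0 : ℝ) < KK (s + 1) := by exact_mod_cast KK_pos (s + 1)
  have hZ : 0 < Z τ s l := lt_of_lt_of_le one_pos (Z_ge_one τ s l)
  have hm := mm_ge s
  set f : Equiv.Perm (W (s + 1)) → ℝ := fun π =>
    Z (upd τ s (fun u => fst s (π u))) (s + 1) l - 1 with hf
  set c : ℝ := 2 * Z τ s l ^ (mm s) / KK s with hc
  have hc0 : 0 < c := by positivity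
  have h1 := Comb.sum_perm_offdiag_le (fst s) (KK s) (KK_pos s)
    (by rw [card_W]; exact fst_balanced s) (gk τ s l) (fun _ _ => (gk_pos _ _ _ _ _).le)
    (ek τ s l) (fun _ _ => (ek_pos _ _ _ _ _).le) (by rw [card_W]; exact KK_pos _)
  rw [sum_gk, sum_ek, card_W] at h1
  have h2 : ∑ π, f π ≤ Fintype.card (Equiv.Perm (W (s + 1))) * c := by
    rw [Fintype.card_perm, card_W]
    have h3 : ∑ π, f π = (1 / (KK (s + 1) : ℝ)) * ∑ π : Equiv.Perm (W (s + 1)),
        ∑ x ∈ (univ : Finset (W (s + 1))).offDiag,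
          gk τ s l x.1 x.2 * ek τ s l (fst s (π x.1)) (fst s (π x.2)) := by
      rw [mul_sum]
      apply sum_congr rfl
      intro π _
      rw [hf]
      simp only
      rw [Z_upd]
      ring
    rw [h3]
    calc _ ≤ (1 / (KK (s + 1) : ℝ)) * (((KK (s + 1)).factorial : ℝ) * (2 / (KK s : ℝ) ^ 2) *
          (KK s * Z τ s l) ^ (mm s - 1) * (KK s * Z τ s l)) :=
          mul_le_mul_of_nonneg_left h1 (by positivity)
      _ = ((KK (s + 1)).factorial : ℝ) * c := by
          have h4 : (KK (s + 1) : ℝ) = (KK s : ℝ) ^ (mm s - 1) := by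
            rw [KK_succ]; push_cast; rfl
          obtain ⟨k, hk⟩ : ∃ k, mm s = k + 1 := ⟨mm s - 1, by omega⟩
          rw [hc, h4, hk]
          simp only [Nat.add_sub_cancel]
          rw [mul_pow]
          field_simp
          ring
  have h3 := Comb.card_markov f (fun π => by
    rw [hf]; simp only; have := Z_ge_one (upd τ s (fun u => fst s (π u))) (s + 1) l; linarith)
    c hc0 h2
  refine le_trans ?_ h3
  have h4 : (univ.filter (fun π : Equiv.Perm (W (s + 1)) =>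
      ¬ (Z (upd τ s (fun u => fst s (π u))) (s + 1) l ≤ 1 + 4 * Z τ s l ^ (mm s) / KK s))) ⊆
      univ.filter (fun π => 2 * c < f π) := by
    intro π hπ
    simp only [mem_filter, mem_univ, true_and, not_le] at hπ ⊢
    rw [hf, hc]
    simp only
    have : 2 * (2 * Z τ s l ^ mm s / (KK s : ℝ)) = 4 * Z τ s l ^ (mm s) / KK s := by ring
    rw [this]
    linarith
  exact_mod_cast card_le_card h4

end Crest.Agent.R133
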