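import Mathlib
import Crest.Agent.R133.CombBasic
import Crest.Agent.R133.CombStep
import Crest.Agent.R133.CombOne

/-! # Row 133, section 3: THEOREM COMB -/

set_option autoImplicit false

open Finset

namespace Crest.Agent.R133

/-- the truncation of `γ` to `[0, M)` -/
noncomputable def trunc (M : ℕ) (γ : Set ℕ) : Finset ℕ := by
  classical exact (range M).filter (fun j => j ∈ γ)

lemma mem_trunc {M : ℕ} {γ : Set ℕ} {j : ℕ} : j ∈ trunc M γ ↔ j < M ∧ j ∈ γ := by
  classical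
  unfold trunc
  simp

lemma trunc_mem (M : ℕ) (γ : Set ℕ) : trunc M γ ∈ (range M).powerset := by
  classical
  rw [mem_powerset]
  unfold trunc
  exact filter_subset _ _

/-- restriction of a name -/
def rst (N : ℕ) (z : ℕ → Bool) : Fin N → Bool := fun i => z i

lemma ext_rst {N : ℕ} (z : ℕ → Bool) {i : ℕ} (h : i < N) : ext (rst N z) i = z i := by
  unfold ext rst
  rw [dif_pos h]

lemma balanced_perm (s : ℕ) (π : Equiv.Perm (W (s + 1))) :
    Balanced (fun u => fst s (π u)) := by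
  classical
  intro t
  rw [← fst_balanced s t]
  congr 1
  refine card_bij' (fun u _ => π u) (fun u _ => π.symm u) ?_ ?_ ?_ ?_
  · intro u hu
    simp only [mem_filter, mem_univ, true_and] at hu ⊢
    exact hu
  · intro u hu
    simp only [mem_filter, mem_univ, true_and] at hu ⊢
    simpa using hu
  · intro u _; simp
  · intro u _; simp

lemma fst_balanced' (s : ℕ) : CombPerm.Balanced (fst s) := by
  intro t
  rw [card_W, card_W]
  convert fst_balanced s t using 2

/-! ## (P2') -/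

lemma badMass_upd {τ : Tau} {s0 s : ℕ} (h : s0 ≤ s) (σ : W (s + 1) → W s)
    (p : (Fin (NN (s + 1)) → Bool) → ℝ) (u : W (s + 1)) :
    badMass (upd τ s σ) s0 s p u = badMass (upd τ s (fun _ => σ u)) s0 s p u := by
  classical
  have key : ∀ z : Fin (NN (s + 1)) → Bool,
      (∃ γ : Set ℕ, Bd (upd τ s σ) s0 s (ext z) γ ∧ u ∈ Lst (upd τ s σ) s0 (s + 1) (ext z) γ) ↔
      (∃ γ : Set ℕ, Bd (upd τ s (fun _ => σ u)) s0 s (ext z) γ ∧
        u ∈ Lst (upd τ s (fun _ => σ u)) s0 (s + 1) (ext z) γ) := by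
    intro z
    apply exists_congr
    intro γ
    rw [Bd_upd, Bd_upd, mem_Lst_upd h, mem_Lst_upd h]
  unfold badMass
  apply sum_congr _ (fun _ _ => rfl)
  ext z
  simp only [mem_filter, key z]

lemma badMass_nonneg {τ : Tau} {s0 s : ℕ} {p : (Fin (NN (s + 1)) → Bool) → ℝ} (hp : IsLaw p)
    (u : W (s + 1)) : 0 ≤ badMass τ s0 s p u :=
  sum_nonneg fun _ _ => hp.1 _

/-- the first-moment bound `Σ_{u,t} mass ≤ 2^M K e^{-3M}/N³` -/
lemma sum_badMass_le {τ : Tau} {s0 s : ℕ} (h : s0 ≤ s) (p : (Fin (NN (s + 1)) → Bool) → ℝ)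
    (hp : IsLaw p) :
    ∑ u : W (s + 1), ∑ t : W s, badMass (upd τ s (fun _ => t)) s0 s p u ≤
      2 ^ (NN (s + 1) / NN s0) *
        (KK s * Real.exp (-3 * ((NN (s + 1) / NN s0 : ℕ) : ℝ)) / (NN (s + 1) : ℝ) ^ 3) := by
  classical
  set M := NN (s + 1) / NN s0 with hM
  set C : ℝ := KK s * Real.exp (-3 * (M : ℝ)) / (NN (s + 1) : ℝ) ^ 3 with hC
  have hC0 : 0 ≤ C := by positivity
  -- rewrite as a sum over z
  have h1 : ∀ (u : W (s + 1)) (t : W s), badMass (upd τ s (fun _ => t)) s0 s p u ≤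
      ∑ z : Fin (NN (s + 1)) → Bool, ∑ g ∈ (range M).powerset,
        if (Bd τ s0 s (ext z) ↑g ∧ u ∈ cand τ s0 s (ext z) ↑g ∧ t ∈ lastL τ s0 s (ext z) ↑g)
        then p z else 0 := by
    intro u t
    unfold badMass
    rw [sum_filter]
    apply sum_le_sum
    intro z _
    split_ifs with hz
    · obtain ⟨γ, hB, hu⟩ := hz
      have hcong : ∀ j < NN (s + 1) / NN s0, j ∈ (↑(trunc M γ) : Set ℕ) ↔ j ∈ γ := by
        intro j hj
        rw [mem_coe, mem_trunc]
        exact ⟨fun h => h.2, fun h => ⟨hj, h⟩⟩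
      have hB' : Bd τ s0 s (ext z) ↑(trunc M γ) := by
        rw [Bd_upd] at hB
        unfold Bd at hB ⊢
        rwa [prodLst_congr h (fun _ _ => rfl) hcong]
      have hu' : u ∈ Lst (upd τ s (fun _ => t)) s0 (s + 1) (ext z) ↑(trunc M γ) := by
        rwa [Lst_congr (by omega) (fun _ _ => rfl) hcong]
      rw [mem_Lst_upd h] at hu'
      calc p z = if (Bd τ s0 s (ext z) ↑(trunc M γ) ∧ u ∈ cand τ s0 s (ext z) ↑(trunc M γ) ∧
            t ∈ lastL τ s0 s (ext z) ↑(trunc M γ)) then p z else 0 := by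
            rw [if_pos ⟨hB', hu'.1, hu'.2⟩]
        _ ≤ _ := single_le_sum (f := fun g : Finset ℕ => if (Bd τ s0 s (ext z) ↑g ∧
              u ∈ cand τ s0 s (ext z) ↑g ∧ t ∈ lastL τ s0 s (ext z) ↑g) then p z else 0)
              (fun g _ => by
                split_ifs
                · exact hp.1 z
                · exact le_rfl) (trunc_mem M γ)
    · apply sum_nonneg
      intro g _
      split_ifs
      · exact hp.1 z
      · exact le_rfl
  calc ∑ u : W (s + 1), ∑ t : W s, badMass (upd τ s (fun _ => t)) s0 s p u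
      ≤ ∑ u : W (s + 1), ∑ t : W s, ∑ z : Fin (NN (s + 1)) → Bool, ∑ g ∈ (range M).powerset,
        (if (Bd τ s0 s (ext z) ↑g ∧ u ∈ cand τ s0 s (ext z) ↑g ∧ t ∈ lastL τ s0 s (ext z) ↑g)
        then p z else 0) := sum_le_sum fun u _ => sum_le_sum fun t _ => h1 u t
    _ = ∑ z : Fin (NN (s + 1)) → Bool, ∑ g ∈ (range M).powerset, ∑ u : W (s + 1), ∑ t : W s,
        (if (Bd τ s0 s (ext z) ↑g ∧ u ∈ cand τ s0 s (ext z) ↑g ∧ t ∈ lastL τ s0 s (ext z) ↑g)
        then p z else 0) := by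
        have e1 : ∀ u : W (s + 1), ∑ t : W s, ∑ z : Fin (NN (s + 1)) → Bool,
            ∑ g ∈ (range M).powerset,
            (if (Bd τ s0 s (ext z) ↑g ∧ u ∈ cand τ s0 s (ext z) ↑g ∧ t ∈ lastL τ s0 s (ext z) ↑g)
            then p z else 0) = ∑ z : Fin (NN (s + 1)) → Bool, ∑ g ∈ (range M).powerset, ∑ t : W s,
            (if (Bd τ s0 s (ext z) ↑g ∧ u ∈ cand τ s0 s (ext z) ↑g ∧ t ∈ lastL τ s0 s (ext z) ↑g)
            then p z else 0) := by
          intro u
          rw [sum_comm]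
          exact sum_congr rfl fun z _ => sum_comm
        rw [sum_congr rfl fun u _ => e1 u, sum_comm]
        exact sum_congr rfl fun z _ => sum_comm
    _ ≤ ∑ z : Fin (NN (s + 1)) → Bool, ∑ g ∈ (range M).powerset, p z * C := by
        apply sum_le_sum
        intro z _
        apply sum_le_sum
        intro g _
        by_cases hB : Bd τ s0 s (ext z) ↑g
        · have e2 : ∑ u : W (s + 1), ∑ t : W s,
              (if (Bd τ s0 s (ext z) ↑g ∧ u ∈ cand τ s0 s (ext z) ↑g ∧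
                t ∈ lastL τ s0 s (ext z) ↑g) then p z else 0) =
              p z * prodLst τ s0 s (ext z) ↑g := by
            rw [← card_cand_mul]
            have e3 : ∀ u : W (s + 1), ∑ t : W s,
              (if (Bd τ s0 s (ext z) ↑g ∧ u ∈ cand τ s0 s (ext z) ↑g ∧
                t ∈ lastL τ s0 s (ext z) ↑g) then p z else 0) =
                if u ∈ cand τ s0 s (ext z) ↑g then ((lastL τ s0 s (ext z) ↑g).card : ℝ) * p z
                else 0 := by
              intro u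
              split_ifs with hu
              · simp only [hB, hu, true_and]
                rw [← sum_filter, sum_const, nsmul_eq_mul]
                congr 2
                congr 1
                ext t; simp
              · simp [hu]
            rw [sum_congr rfl fun u _ => e3 u, ← sum_filter, sum_const, nsmul_eq_mul]
            have e4 : univ.filter (fun u => u ∈ cand τ s0 s (ext z) ↑g) =
                cand τ s0 s (ext z) ↑g := by ext u; simp
            rw [e4]
            ring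
          rw [e2]
          exact mul_le_mul_of_nonneg_left hB (hp.1 z)
        · have e2 : ∑ u : W (s + 1), ∑ t : W s,
              (if (Bd τ s0 s (ext z) ↑g ∧ u ∈ cand τ s0 s (ext z) ↑g ∧
                t ∈ lastL τ s0 s (ext z) ↑g) then p z else 0) = 0 := by
            simp [hB]
          rw [e2]
          exact mul_nonneg (hp.1 z) hC0
    _ = (∑ z, p z) * (2 ^ M * C) := by
        rw [sum_mul]
        apply sum_congr rfl
        intro z _
        rw [sum_const, card_powerset, card_range, nsmul_eq_mul]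
        push_cast
        ring
    _ ≤ 1 * (2 ^ M * C) := mul_le_mul_of_nonneg_right hp.2 (by positivity)
    _ = _ := one_mul _

/-- (P2') fails with probability at most `exp(-U/N)` -/
lemma badP2 {τ : Tau} {s0 s : ℕ} (h : s0 ≤ s) (p : (Fin (NN (s + 1)) → Bool) → ℝ)
    (hp : IsLaw p) :
    ((univ.filter (fun π : Equiv.Perm (W (s + 1)) =>
      (KK (s + 1) : ℝ) / NN (s + 1) ≤
        (Nat.card {u : W (s + 1) // 1 / ((NN (s + 1) : ℝ) ^ 2 * KK (s + 1)) ≤
          badMass (upd τ s (fun u => fst s (π u))) s0 s p u} : ℝ))).card : ℝ) ≤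
      (KK (s + 1)).factorial * Real.exp (-((KK (s + 1) : ℝ) / NN (s + 1))) := by
  classical
  have hN : (0 : ℝ) < NN (s + 1) := by exact_mod_cast NN_pos (s + 1)
  have hU : (0 : ℝ) < KK (s + 1) := by exact_mod_cast KK_pos (s + 1)
  have hK : (0 : ℝ) < KK s := by exact_mod_cast KK_pos s
  have hm := mm_ge s
  have hN4 : 4 ≤ NN (s + 1) := by
    rw [NN_succ]
    calc 4 ≤ 1600 * 1 := by norm_num
      _ ≤ mm s * NN s := Nat.mul_le_mul hm (NN_pos s)
  have hU4 : 4 ≤ KK (s + 1) := by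
    refine le_trans ?_ (NN_sq_le_KK_succ s)
    calc 4 ≤ 2 ^ 20 * 1 := by norm_num
      _ ≤ 2 ^ 20 * NN (s + 1) ^ 2 := Nat.mul_le_mul le_rfl (Nat.one_le_pow _ _ (NN_pos _))
  set M := NN (s + 1) / NN s0 with hM
  have hM2 : 2 ≤ M := by
    rw [hM, NN_succ_div h]
    calc 2 ≤ 1600 * 1 := by norm_num
      _ ≤ mm s * (NN s / NN s0) := Nat.mul_le_mul hm (NN_div_pos h)
  set θ : ℝ := 1 / ((NN (s + 1) : ℝ) ^ 2 * KK (s + 1)) with hθ
  have hθ0 : 0 < θ := by positivity
  let H : W (s + 1) → Finset (W s) := fun u =>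
    univ.filter (fun t => θ ≤ badMass (upd τ s (fun _ => t)) s0 s p u)
  have h1 : ∑ u, ((H u).card : ℝ) / Fintype.card (W s) ≤
      Fintype.card (W (s + 1)) * 2 ^ M * Real.exp (-3 * M) / NN (s + 1) := by
    rw [card_W, card_W, ← sum_div, div_le_iff₀ hK]
    have h2 : (∑ u, ((H u).card : ℝ)) * θ ≤
        ∑ u : W (s + 1), ∑ t : W s, badMass (upd τ s (fun _ => t)) s0 s p u := by
      rw [sum_mul]
      apply sum_le_sum
      intro u _
      calc ((H u).card : ℝ) * θ = ∑ _t ∈ H u, θ := by rw [sum_const, nsmul_eq_mul]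
        _ ≤ ∑ t ∈ H u, badMass (upd τ s (fun _ => t)) s0 s p u := by
            apply sum_le_sum
            intro t ht
            exact (mem_filter.mp ht).2
        _ ≤ _ := sum_le_sum_of_subset_of_nonneg (filter_subset _ _)
            (fun _ _ _ => badMass_nonneg hp _)
    have h3 := h2.trans (sum_badMass_le h p hp)
    rw [← hM] at h3
    have h4 : ∑ u, ((H u).card : ℝ) ≤ (2 ^ M *
        (KK s * Real.exp (-3 * (M : ℝ)) / (NN (s + 1) : ℝ) ^ 3)) / θ := by
      rw [le_div_iff₀ hθ0]; exact h3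
    refine h4.trans (le_of_eq ?_)
    rw [hθ]
    field_simp
  have h5 := Comb.p2 (fst_balanced' s) H M (NN (s + 1)) hM2 hN4 (by rw [card_W]; exact hU4) h1
  rw [card_W] at h5
  refine le_trans (le_of_eq ?_) h5
  congr 2
  ext π
  simp only [mem_filter, mem_univ, true_and]
  have h6 : (Nat.card {u : W (s + 1) // θ ≤ badMass (upd τ s (fun u => fst s (π u))) s0 s p u}) =
      (univ.filter (fun u => fst s (π u) ∈ H u)).card := by
    rw [Nat.card_eq_fintype_card, Fintype.card_subtype]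
    congr 1
    ext u
    simp only [H, mem_filter, mem_univ, true_and]
    rw [badMass_upd h]
  rw [h6]

/-! ## (P1) -/

lemma badP1 {τ : Tau} {s0 s : ℕ} (h : s0 ≤ s) (z : ℕ → Bool) (γ : Set ℕ) :
    ((univ.filter (fun π : Equiv.Perm (W (s + 1)) =>
      30 * prodLst τ s0 s z γ / KK s + 10 * NN (s + 1) <
        ((Lst (upd τ s (fun u => fst s (π u))) s0 (s + 1) z γ).card : ℝ))).card : ℝ) ≤
      (KK (s + 1)).factorial * Real.exp (-4 * NN (s + 1)) := by
  classical
  have h1 := Comb.p1 (fst_balanced' s) (cand τ s0 s z γ) (lastL τ s0 s z γ) (NN (s + 1))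
    (NN_pos (s + 1))
  rw [card_W, card_W] at h1
  refine le_trans (le_of_eq ?_) h1
  congr 2
  ext π
  simp only [mem_filter, mem_univ, true_and]
  rw [card_Lst_upd h, ← card_cand_mul]
  have : 30 * (((cand τ s0 s z γ).card : ℝ) * ((lastL τ s0 s z γ).card : ℝ)) / (KK s : ℝ) =
      30 * (((cand τ s0 s z γ).card : ℝ) * ((lastL τ s0 s z γ).card : ℝ) / (KK s : ℝ)) := by ring
  rw [this]

/-! ## one stage -/

/-- the stage `s` properties -/
structure Stage (τ : Tau) (Ls : (s : ℕ) → Finset ((Fin (NN (s + 1)) → Bool) → ℝ)) (s : ℕ) :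
    Prop where
  bal : Balanced (τ s)
  B : Z τ (s + 1) (lam (s + 1)) ≤ 1 + 4 * Z τ s (lam (s + 1)) ^ (mm s) / KK s
  P1 : ∀ s0, s0 ≤ s → ∀ (z : ℕ → Bool) (γ : Set ℕ),
    ((Lst τ s0 (s + 1) z γ).card : ℝ) ≤ 30 * prodLst τ s0 s z γ / KK s + 10 * NN (s + 1)
  P2 : ∀ s0, s0 ≤ s → ∀ p ∈ Ls s,
    (Nat.card {u : W (s + 1) //
      1 / ((NN (s + 1) : ℝ) ^ 2 * KK (s + 1)) ≤ badMass τ s0 s p u} : ℝ)
      < (KK (s + 1) : ℝ) / NN (s + 1)

lemma Stage.congr {τ τ' : Tau} {Ls : (s : ℕ) → Finset ((Fin (NN (s + 1)) → Bool) → ℝ)} {s : ℕ}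
    (h : ∀ i < s + 1, τ i = τ' i) (H : Stage τ Ls s) : Stage τ' Ls s := by
  have h' : ∀ i < s, τ i = τ' i := fun i hi => h i (by omega)
  refine ⟨?_, ?_, ?_, ?_⟩
  · rw [← h s (by omega)]; exact H.bal
  · rw [← Z_congrT h, ← Z_congrT h']; exact H.B
  · intro s0 hs0 z γ
    rw [← Lst_congrT h, ← prodLst_congrT h']
    exact H.P1 s0 hs0 z γ
  · intro s0 hs0 p hp
    have : ∀ u, badMass τ s0 s p u = badMass τ' s0 s p u := fun u => badMass_congrT h s0 p u
    simp only [← this]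
    exact H.P2 s0 hs0 p hp

lemma num1 (N : ℕ) (hN : 2 ≤ N) (s : ℕ) (hs : s + 1 ≤ N) (M : ℕ) (hM : M ≤ N) :
    ((s : ℝ) + 1) * (2 ^ N * 2 ^ M * Real.exp (-4 * N)) ≤ 1 / 8 := by
  have h1 : (2 : ℝ) ^ M ≤ 2 ^ N := pow_le_pow_right₀ (by norm_num) hM
  have h2 : ((s : ℝ) + 1) ≤ 2 ^ N := by
    have : ((s : ℝ) + 1) ≤ N := by exact_mod_cast hs
    have h3 : (N : ℝ) ≤ 2 ^ N := by exact_mod_cast (Nat.lt_two_pow_self).le
    linarith
  have h50 : (50 : ℝ) ≤ Real.exp 4 := by
    have h := Real.exp_one_gt_d9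
    have : Real.exp 4 = Real.exp 1 ^ 4 := by rw [← Real.exp_nat_mul]; norm_num
    rw [this]
    have h2 : (2.7 : ℝ) ≤ Real.exp 1 := by linarith
    calc (50 : ℝ) ≤ 2.7 ^ 4 := by norm_num
      _ ≤ _ := pow_le_pow_left₀ (by norm_num) h2 4
  have h3 : Real.exp (-4 * (N : ℝ)) = (Real.exp 4)⁻¹ ^ N := by
    rw [← Real.exp_neg, ← Real.exp_nat_mul]; congr 1; ring
  have h4 : (Real.exp 4)⁻¹ ≤ 1 / 50 := by
    rw [inv_eq_one_div]
    exact one_div_le_one_div_of_le (by norm_num) h50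
  rw [h3]
  calc ((s : ℝ) + 1) * (2 ^ N * 2 ^ M * (Real.exp 4)⁻¹ ^ N)
      ≤ 2 ^ N * (2 ^ N * 2 ^ N * (1 / 50) ^ N) := by
        gcongr
    _ = (4 / 25 : ℝ) ^ N := by
        rw [← mul_pow, ← mul_pow, ← mul_pow]; norm_num
    _ ≤ (4 / 25 : ℝ) ^ 2 := pow_le_pow_of_le_one (by norm_num) (by norm_num) hN
    _ ≤ 1 / 8 := by norm_num

lemma num2 (N : ℕ) (hN : 1 ≤ N) (s : ℕ) (hs : s + 1 ≤ N) (U : ℕ) (hU : 2 ^ 20 * N ^ 2 ≤ U) :
    ((s : ℝ) + 1) * (Real.exp (Real.sqrt U) * Real.exp (-((U : ℝ) / N))) ≤ 1 / 8 := by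
  have hN' : (1 : ℝ) ≤ N := by exact_mod_cast hN
  have hs' : ((s : ℝ) + 1) ≤ N := by exact_mod_cast hs
  have hU' : (2 : ℝ) ^ 20 * (N : ℝ) ^ 2 ≤ U := by exact_mod_cast hU
  set r := Real.sqrt U with hr
  have hr0 : 0 ≤ r := Real.sqrt_nonneg _
  have hrr : r ^ 2 = U := Real.sq_sqrt (by positivity)
  have hrN : 1024 * (N : ℝ) ≤ r := by
    rw [hr]
    apply Real.le_sqrt_of_sq_le
    have h10 : (1024 * (N : ℝ)) ^ 2 = 2 ^ 20 * (N : ℝ) ^ 2 := by ring
    rw [h10]
    exact hU'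
  have h1 : 1024 * r ≤ (U : ℝ) / N := by
    rw [le_div_iff₀ (by positivity), ← hrr]
    nlinarith
  rw [← Real.exp_add]
  have h2 : Real.exp (r + -((U : ℝ) / N)) ≤ Real.exp (-(1024 * (N : ℝ))) := by
    apply Real.exp_le_exp.mpr
    nlinarith
  have h3 : Real.exp (-(1024 * (N : ℝ))) ≤ 1 / (1024 * N) := by
    rw [Real.exp_neg, inv_eq_one_div]
    apply one_div_le_one_div_of_le (by positivity)
    have := Real.add_one_le_exp (1024 * (N : ℝ))
    linarith
  calc ((s : ℝ) + 1) * Real.exp (r + -((U : ℝ) / N)) ≤ N * (1 / (1024 * N)) := by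
        apply mul_le_mul hs' (h2.trans h3) (Real.exp_pos _).le (by positivity)
    _ = 1 / 1024 := by field_simp
    _ ≤ 1 / 8 := by norm_num

theorem exists_stage (Ls : (s : ℕ) → Finset ((Fin (NN (s + 1)) → Bool) → ℝ))
    (hL : ∀ s, ∀ p ∈ Ls s, IsLaw p)
    (hcard : ∀ s, ((Ls s).card : ℝ) ≤ Real.exp (Real.exp (hh (s + 1) * NN (s + 1) / 2)))
    (τ : Tau) (s : ℕ) : ∃ σ : W (s + 1) → W s, Stage (upd τ s σ) Ls s := by
  classical
  have hm := mm_ge s
  have hN2 : 2 ≤ NN (s + 1) := by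
    rw [NN_succ]
    calc 2 ≤ 1600 * 1 := by norm_num
      _ ≤ mm s * NN s := Nat.mul_le_mul hm (NN_pos s)
  have hsN : s + 1 ≤ NN (s + 1) := le_trans (by omega) (succ_le_NN (s + 1))
  -- the three bad sets
  set P : Finset (Equiv.Perm (W (s + 1))) := univ with hP
  let σ : Equiv.Perm (W (s + 1)) → (W (s + 1) → W s) := fun π u => fst s (π u)
  let b1 : Finset (Equiv.Perm (W (s + 1))) := univ.filter (fun π =>
    ¬ (Z (upd τ s (σ π)) (s + 1) (lam (s + 1)) ≤
      1 + 4 * Z τ s (lam (s + 1)) ^ (mm s) / KK s))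
  let e2 : ℕ → (Fin (NN (s + 1)) → Bool) → Finset ℕ → Finset (Equiv.Perm (W (s + 1))) :=
    fun s0 z g => univ.filter (fun π =>
      30 * prodLst τ s0 s (ext z) ↑g / KK s + 10 * NN (s + 1) <
        ((Lst (upd τ s (σ π)) s0 (s + 1) (ext z) ↑g).card : ℝ))
  let b2 : Finset (Equiv.Perm (W (s + 1))) := (range (s + 1)).biUnion (fun s0 =>
    (univ : Finset (Fin (NN (s + 1)) → Bool)).biUnion (fun z =>
      (range (NN (s + 1) / NN s0)).powerset.biUnion (fun g => e2 s0 z g)))
  let e3 : ℕ → ((Fin (NN (s + 1)) → Bool) → ℝ) → Finset (Equiv.Perm (W (s + 1))) :=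
    fun s0 p => univ.filter (fun π =>
      (KK (s + 1) : ℝ) / NN (s + 1) ≤
        (Nat.card {u : W (s + 1) // 1 / ((NN (s + 1) : ℝ) ^ 2 * KK (s + 1)) ≤
          badMass (upd τ s (σ π)) s0 s p u} : ℝ))
  let b3 : Finset (Equiv.Perm (W (s + 1))) := (range (s + 1)).biUnion (fun s0 =>
    (Ls s).biUnion (fun p => e3 s0 p))
  have hF : (0 : ℝ) < (KK (s + 1)).factorial := by exact_mod_cast Nat.factorial_pos _
  have hb1 : (b1.card : ℝ) ≤ (KK (s + 1)).factorial / 2 := by
    have := badB τ s (lam (s + 1))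
    rw [Fintype.card_perm, card_W] at this
    exact this
  have hb2 : (b2.card : ℝ) ≤ (KK (s + 1)).factorial / 8 := by
    have h1 : (b2.card : ℝ) ≤ ∑ s0 ∈ range (s + 1), ∑ z : Fin (NN (s + 1)) → Bool,
        ∑ g ∈ (range (NN (s + 1) / NN s0)).powerset, ((e2 s0 z g).card : ℝ) := by
      have : b2.card ≤ ∑ s0 ∈ range (s + 1), ∑ z : Fin (NN (s + 1)) → Bool,
        ∑ g ∈ (range (NN (s + 1) / NN s0)).powerset, (e2 s0 z g).card :=
        card_biUnion_le.trans (sum_le_sum fun s0 _ => card_biUnion_le.trans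
          (sum_le_sum fun z _ => card_biUnion_le))
      exact_mod_cast this
    refine h1.trans ?_
    have h2 : ∀ s0 ∈ range (s + 1), ∑ z : Fin (NN (s + 1)) → Bool,
        ∑ g ∈ (range (NN (s + 1) / NN s0)).powerset, ((e2 s0 z g).card : ℝ) ≤
        2 ^ (NN (s + 1)) * 2 ^ (NN (s + 1)) *
          ((KK (s + 1)).factorial * Real.exp (-4 * NN (s + 1))) := by
      intro s0 hs0
      rw [mem_range] at hs0
      have h3 : ∀ z : Fin (NN (s + 1)) → Bool,
          ∑ g ∈ (range (NN (s + 1) / NN s0)).powerset, ((e2 s0 z g).card : ℝ) ≤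
          2 ^ (NN (s + 1)) * ((KK (s + 1)).factorial * Real.exp (-4 * NN (s + 1))) := by
        intro z
        calc ∑ g ∈ (range (NN (s + 1) / NN s0)).powerset, ((e2 s0 z g).card : ℝ)
            ≤ ∑ _g ∈ (range (NN (s + 1) / NN s0)).powerset,
              ((KK (s + 1)).factorial : ℝ) * Real.exp (-4 * NN (s + 1)) :=
              sum_le_sum fun g _ => badP1 (by omega) (ext z) (↑g)
          _ = 2 ^ (NN (s + 1) / NN s0) *
              ((KK (s + 1)).factorial * Real.exp (-4 * NN (s + 1))) := by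
              rw [sum_const, card_powerset, card_range, nsmul_eq_mul]; push_cast; rfl
          _ ≤ _ := by
              apply mul_le_mul_of_nonneg_right _ (by positivity)
              exact pow_le_pow_right₀ (by norm_num) (Nat.div_le_self _ _)
      calc _ ≤ ∑ _z : Fin (NN (s + 1)) → Bool,
            2 ^ (NN (s + 1)) * ((KK (s + 1)).factorial * Real.exp (-4 * NN (s + 1))) :=
            sum_le_sum fun z _ => h3 z
        _ = _ := by
            rw [sum_const, card_univ, Fintype.card_fun, Fintype.card_bool, Fintype.card_fin,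
              nsmul_eq_mul]
            push_cast; ring
    calc _ ≤ ∑ _s0 ∈ range (s + 1), (2 : ℝ) ^ (NN (s + 1)) * 2 ^ (NN (s + 1)) *
          ((KK (s + 1)).factorial * Real.exp (-4 * NN (s + 1))) := sum_le_sum h2
      _ = (KK (s + 1)).factorial * (((s : ℝ) + 1) * (2 ^ (NN (s + 1)) * 2 ^ (NN (s + 1)) *
          Real.exp (-4 * NN (s + 1)))) := by
          rw [sum_const, card_range, nsmul_eq_mul]; push_cast; ring
      _ ≤ (KK (s + 1)).factorial * (1 / 8) :=
          mul_le_mul_of_nonneg_left (num1 _ hN2 s hsN _ le_rfl) hF.le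
      _ = _ := by ring
  have hb3 : (b3.card : ℝ) ≤ (KK (s + 1)).factorial / 8 := by
    have h1 : (b3.card : ℝ) ≤ ∑ s0 ∈ range (s + 1), ∑ p ∈ Ls s, ((e3 s0 p).card : ℝ) := by
      have : b3.card ≤ ∑ s0 ∈ range (s + 1), ∑ p ∈ Ls s, (e3 s0 p).card :=
        card_biUnion_le.trans (sum_le_sum fun s0 _ => card_biUnion_le)
      exact_mod_cast this
    refine h1.trans ?_
    have h2 : ∀ s0 ∈ range (s + 1), ∑ p ∈ Ls s, ((e3 s0 p).card : ℝ) ≤
        Real.exp (Real.sqrt (KK (s + 1))) *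
          ((KK (s + 1)).factorial * Real.exp (-((KK (s + 1) : ℝ) / NN (s + 1)))) := by
      intro s0 hs0
      rw [mem_range] at hs0
      calc ∑ p ∈ Ls s, ((e3 s0 p).card : ℝ)
          ≤ ∑ _p ∈ Ls s, ((KK (s + 1)).factorial : ℝ) *
            Real.exp (-((KK (s + 1) : ℝ) / NN (s + 1))) :=
            sum_le_sum fun p hp => badP2 (by omega) p (hL s p hp)
        _ = ((Ls s).card : ℝ) * (((KK (s + 1)).factorial : ℝ) *
            Real.exp (-((KK (s + 1) : ℝ) / NN (s + 1)))) := by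
            rw [sum_const, nsmul_eq_mul]
        _ ≤ _ := by
            apply mul_le_mul_of_nonneg_right _ (by positivity)
            have := hcard s
            rwa [exp_half_hh] at this
    calc _ ≤ ∑ _s0 ∈ range (s + 1), Real.exp (Real.sqrt (KK (s + 1))) *
          ((KK (s + 1)).factorial * Real.exp (-((KK (s + 1) : ℝ) / NN (s + 1)))) :=
          sum_le_sum h2
      _ = (KK (s + 1)).factorial * (((s : ℝ) + 1) * (Real.exp (Real.sqrt (KK (s + 1))) *
          Real.exp (-((KK (s + 1) : ℝ) / NN (s + 1))))) := by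
          rw [sum_const, card_range, nsmul_eq_mul]; push_cast; ring
      _ ≤ (KK (s + 1)).factorial * (1 / 8) :=
          mul_le_mul_of_nonneg_left (num2 _ (NN_pos _) s hsN _ (NN_sq_le_KK_succ s)) hF.le
      _ = _ := by ring
  -- a good permutation
  have hex : ∃ π : Equiv.Perm (W (s + 1)), π ∉ b1 ∪ (b2 ∪ b3) := by
    by_contra hcon
    push Not at hcon
    have h1 : (univ : Finset (Equiv.Perm (W (s + 1)))).card ≤ b1.card + (b2.card + b3.card) :=
      (card_le_card (fun π _ => hcon π)).trans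
        ((card_union_le _ _).trans (Nat.add_le_add_left (card_union_le _ _) _))
    rw [card_univ, Fintype.card_perm, card_W] at h1
    have h2 : ((KK (s + 1)).factorial : ℝ) ≤ b1.card + (b2.card + b3.card) := by
      exact_mod_cast h1
    linarith
  obtain ⟨π, hπ⟩ := hex
  simp only [mem_union, not_or] at hπ
  obtain ⟨h1, h2, h3⟩ := hπ
  refine ⟨σ π, ?_, ?_, ?_, ?_⟩
  · rw [upd_self]; exact balanced_perm s π
  · have hZ : Z (upd τ s (σ π)) s (lam (s + 1)) = Z τ s (lam (s + 1)) :=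
      Z_congrT (fun i hi => upd_lt τ s _ i hi) _
    rw [hZ]
    by_contra hcon
    exact h1 (mem_filter.mpr ⟨mem_univ _, hcon⟩)
  · intro s0 hs0 z γ
    rw [prodLst_upd]
    by_contra hcon
    rw [not_le] at hcon
    apply h2
    rw [mem_biUnion]
    refine ⟨s0, mem_range.mpr (by omega), ?_⟩
    rw [mem_biUnion]
    refine ⟨rst (NN (s + 1)) z, mem_univ _, ?_⟩
    rw [mem_biUnion]
    refine ⟨trunc (NN (s + 1) / NN s0) γ, trunc_mem _ _, ?_⟩
    refine mem_filter.mpr ⟨mem_univ _, ?_⟩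
    have hcong : ∀ j < NN (s + 1) / NN s0,
        j ∈ (↑(trunc (NN (s + 1) / NN s0) γ) : Set ℕ) ↔ j ∈ γ := by
      intro j hj
      rw [mem_coe, mem_trunc]
      exact ⟨fun h => h.2, fun h => ⟨hj, h⟩⟩
    rw [prodLst_congr hs0 (fun i hi => ext_rst z hi) hcong,
      Lst_congr (show s0 ≤ s + 1 by omega) (fun i hi => ext_rst z hi) hcong]
    exact hcon
  · intro s0 hs0 p hp
    by_contra hcon
    rw [not_lt] at hcon
    apply h3
    rw [mem_biUnion]
    refine ⟨s0, mem_range.mpr (by omega), ?_⟩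
    rw [mem_biUnion]
    exact ⟨p, hp, mem_filter.mpr ⟨mem_univ _, hcon⟩⟩

/-- **THEOREM COMB** -/
theorem stComb : StComb := by
  classical
  intro Ls hL hcard
  choose f hf using fun (τ : Tau) (s : ℕ) => exists_stage Ls hL hcard τ s
  -- the sequence of choice sequences
  let T : ℕ → Tau := fun n => Nat.rec (motive := fun _ => Tau) (fun s _ => default)
    (fun s τ => upd τ s (f τ s)) n
  have hT : ∀ n, T (n + 1) = upd (T n) n (f (T n) n) := fun n => rfl
  let τ : Tau := fun s => T (s + 1) s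
  have hstab : ∀ i n, i < n → T n i = T (i + 1) i := by
    intro i n hn
    induction n, hn using Nat.le_induction with
    | base => rfl
    | succ n hn ih =>
        rw [hT, upd_lt _ _ _ _ hn, ih]
  refine ⟨τ, ?_⟩
  have hst : ∀ s, Stage τ Ls s := by
    intro s
    have h1 := hf (T s) s
    rw [← hT] at h1
    exact h1.congr (fun i hi => hstab i (s + 1) hi)
  exact ⟨fun s => (hst s).bal, fun s => (hst s).B, fun s0 s h => (hst s).P1 s0 h,
    fun s0 s h => (hst s).P2 s0 h⟩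

end Crest.Agent.R133
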