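import Mathlib

/-! Row 133 (S0182), section 3 of note 12067: choice of the balanced maps `tau`,
one step (definition free).  helper292. -/

set_option autoImplicit false
set_option linter.unusedSectionVars false
open Finset
open scoped BigOperators Nat

namespace Crest.Agent.R133.Comb

/-! ## counting permutations -/
section Count
variable {B : Type*} [Fintype B] [DecidableEq B]

theorem card_perm_eqOn (S : Finset B) (p0 : Equiv.Perm B) :
    (univ.filter fun p : Equiv.Perm B => ∀ u ∈ S, p u = p0 u).card
      = (Fintype.card B - S.card)! := by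
  classical
  have h1 : (univ.filter fun p : Equiv.Perm B => ∀ u ∈ S, p u = p0 u).card
      = (univ.filter fun p : Equiv.Perm B => ∀ a, ¬ (a ∉ S) → p a = a).card := by
    apply Finset.card_bij (fun p _ => p0⁻¹ * p)
    · intro p hp
      simp only [mem_filter, mem_univ, true_and, not_not] at hp ⊢
      intro a ha
      simp [hp a ha]
    · intro p _ q _ h
      exact mul_left_cancel h
    · intro q hq
      simp only [mem_filter, mem_univ, true_and, not_not] at hq
      refine ⟨p0 * q, ?_, by simp⟩
      simp only [mem_filter, mem_univ, true_and]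
      intro a ha
      simp [hq a ha]
  rw [h1]
  have h2 := Fintype.card_congr (Equiv.Perm.subtypeEquivSubtypePerm (fun a : B => a ∉ S))
  have h3 : Fintype.card {a : B // a ∉ S} = Fintype.card B - S.card := by
    rw [Fintype.card_subtype_compl]
    simp
  rw [Fintype.card_perm, h3, Fintype.card_subtype] at h2
  exact h2.symm

theorem card_perm_le (S : Finset B) (G : B → Finset B) :
    (univ.filter fun p : Equiv.Perm B => ∀ u ∈ S, p u ∈ G u).card
      ≤ (Fintype.card B - S.card)! * ∏ u ∈ S, (G u).card := by
  classical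
  have h := Finset.card_le_mul_card_image_of_maps_to
    (s := univ.filter fun p : Equiv.Perm B => ∀ u ∈ S, p u ∈ G u)
    (t := S.pi G) (f := fun p => fun a (_ : a ∈ S) => p a) (by
      intro p hp
      simp only [mem_filter, mem_univ, true_and] at hp
      rw [Finset.mem_pi]
      exact fun a ha => hp a ha) ((Fintype.card B - S.card)!) (by
      intro g hg
      by_cases hne : (filter (fun p : Equiv.Perm B => (fun a (_ : a ∈ S) => p a) = g)
        (univ.filter fun p : Equiv.Perm B => ∀ u ∈ S, p u ∈ G u)).Nonempty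
      · obtain ⟨p0, hp0⟩ := hne
        rw [← card_perm_eqOn S p0]
        apply Finset.card_le_card
        intro p hp
        simp only [mem_filter, mem_univ, true_and] at hp hp0 ⊢
        intro u hu
        have e1 := congrFun (congrFun hp.2 u) hu
        have e2 := congrFun (congrFun hp0.2 u) hu
        exact e1.trans e2.symm
      · rw [Finset.not_nonempty_iff_eq_empty] at hne
        rw [hne]
        simp)
  rwa [Finset.card_pi] at h

/-- `(U-k)! U^k ≤ U! 2^k` if `2 (k-1) ≤ U`. -/
theorem fact_bound (U k : ℕ) (hk : 2 * k ≤ U + 2) (hkU : k ≤ U) :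
    ((U - k)! : ℝ) * (U : ℝ) ^ k ≤ (U ! : ℝ) * 2 ^ k := by
  have h1 : (U ! : ℝ) = ((U - k)! : ℝ) * (U.descFactorial k : ℝ) := by
    rw [← Nat.cast_mul, Nat.factorial_mul_descFactorial hkU]
  have h2 : ((U + 1 - k : ℕ) : ℝ) ^ k ≤ (U.descFactorial k : ℝ) := by
    exact_mod_cast Nat.pow_sub_le_descFactorial U k
  have h3 : (U : ℝ) ≤ 2 * ((U + 1 - k : ℕ) : ℝ) := by
    have : U ≤ 2 * (U + 1 - k) := by omega
    exact_mod_cast this
  calc ((U - k)! : ℝ) * (U : ℝ) ^ k ≤ ((U - k)! : ℝ) * (2 * ((U + 1 - k : ℕ) : ℝ)) ^ k := by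
        gcongr
    _ = ((U - k)! : ℝ) * ((U + 1 - k : ℕ) : ℝ) ^ k * 2 ^ k := by rw [mul_pow]; ring
    _ ≤ ((U - k)! : ℝ) * (U.descFactorial k : ℝ) * 2 ^ k := by gcongr
    _ = _ := by rw [h1]

end Count

/-! ## elementary symmetric functions -/

theorem esymm_le {B : Type*} [DecidableEq B] (x : B → ℝ) (hx : ∀ b, 0 ≤ x b) (C : Finset B) :
    ∀ k : ℕ, ∑ S ∈ C.powersetCard k, ∏ u ∈ S, x u ≤ (∑ u ∈ C, x u) ^ k / (k ! : ℝ) := by
  induction C using Finset.induction_on with
  | empty =>
    intro k
    cases k with
    | zero => simp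
    | succ k => simp [Finset.powersetCard_eq_empty.2 (show (∅ : Finset B).card < k + 1 by simp)]
  | insert c C hc ih =>
    intro k
    cases k with
    | zero => simp
    | succ k =>
      rw [Finset.powersetCard_succ_insert hc, Finset.sum_union, Finset.sum_image]
      · have h1 := ih (k + 1)
        have h2 := ih k
        have h3 : ∑ S ∈ C.powersetCard k, ∏ u ∈ insert c S, x u
            = x c * ∑ S ∈ C.powersetCard k, ∏ u ∈ S, x u := by
          rw [Finset.mul_sum]
          apply Finset.sum_congr rfl
          intro S hS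
          rw [Finset.prod_insert]
          intro hcS
          exact hc ((Finset.mem_powersetCard.1 hS).1 hcS)
        rw [h3, Finset.sum_insert hc]
        set s := ∑ u ∈ C, x u with hs
        have hs0 : 0 ≤ s := Finset.sum_nonneg fun b _ => hx b
        have hb : s ^ (k + 1) + (k + 1) * x c * s ^ k ≤ (x c + s) ^ (k + 1) := by
          have := hx c
          clear h1 h2 h3 ih
          induction k with
          | zero => simp; linarith
          | succ k ihk =>
            have e1 : s ^ (k + 1 + 1) + ((k + 1 : ℕ) + 1) * x c * s ^ (k + 1) ≤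
                (x c + s) * (s ^ (k + 1) + (k + 1) * x c * s ^ k) := by
              have h5 : 0 ≤ x c * ((k + 1) * x c * s ^ k) := by positivity
              have h6 : s * (s ^ (k + 1) + (k + 1) * x c * s ^ k) =
                s ^ (k + 1 + 1) + (k + 1) * x c * s ^ (k + 1) := by ring
              push_cast
              nlinarith
            calc _ ≤ (x c + s) * (s ^ (k + 1) + (k + 1) * x c * s ^ k) := e1
              _ ≤ (x c + s) * (x c + s) ^ (k + 1) := by gcongr
              _ = _ := by ring
        have hf : ((k + 1)! : ℝ) = (k + 1) * (k ! : ℝ) := by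
          rw [Nat.factorial_succ]; push_cast; ring
        have hk0 : (0 : ℝ) < (k ! : ℝ) := by positivity
        calc (∑ S ∈ C.powersetCard (k + 1), ∏ u ∈ S, x u)
              + x c * ∑ S ∈ C.powersetCard k, ∏ u ∈ S, x u
            ≤ s ^ (k + 1) / ((k + 1)! : ℝ) + x c * (s ^ k / (k ! : ℝ)) := by
              have := hx c
              gcongr
          _ = (s ^ (k + 1) + (k + 1) * x c * s ^ k) / ((k + 1)! : ℝ) := by
              rw [hf]; field_simp
          _ ≤ _ := by gcongr
      · intro S hS T hT h
        have hcS : c ∉ S := fun h' => hc ((Finset.mem_powersetCard.1 hS).1 h')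
        have hcT : c ∉ T := fun h' => hc ((Finset.mem_powersetCard.1 hT).1 h')
        rw [← Finset.erase_insert hcS, ← Finset.erase_insert hcT, h]
      · rw [Finset.disjoint_left]
        intro S hS hS'
        rw [Finset.mem_image] at hS'
        obtain ⟨T, _, rfl⟩ := hS'
        exact hc ((Finset.mem_powersetCard.1 hS).1 (Finset.mem_insert_self c T))

theorem pow_div_fact_le (x : ℝ) (hx : 0 ≤ x) (k : ℕ) (hk : 1 ≤ k) :
    x ^ k / (k ! : ℝ) ≤ (Real.exp 1 * x / k) ^ k := by
  have h := Real.pow_div_factorial_le_exp (k : ℝ) (by positivity) k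
  have hk0 : (0 : ℝ) < k := by exact_mod_cast hk
  have hf : (0 : ℝ) < (k ! : ℝ) := by positivity
  have h2 : 1 / (k ! : ℝ) ≤ Real.exp 1 ^ k / (k : ℝ) ^ k := by
    rw [div_le_div_iff₀ hf (by positivity)]
    rw [div_le_iff₀ hf] at h
    rw [← Real.exp_nat_mul, mul_one]
    linarith
  calc x ^ k / (k ! : ℝ) = x ^ k * (1 / (k ! : ℝ)) := by ring
    _ ≤ x ^ k * (Real.exp 1 ^ k / (k : ℝ) ^ k) := by gcongr
    _ = _ := by rw [div_pow, mul_pow]; ring

/-! ## tails -/
section Tail
variable {A B : Type*} [Fintype A] [DecidableEq A] [Fintype B] [DecidableEq B]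

theorem card_preimage (beta : B → A)
    (hbal : ∀ a, (univ.filter fun b => beta b = a).card * Fintype.card A = Fintype.card B)
    (F : Finset A) :
    (univ.filter fun b => beta b ∈ F).card * Fintype.card A = F.card * Fintype.card B := by
  classical
  have h : (univ.filter fun b => beta b ∈ F).card
      = ∑ a ∈ F, (univ.filter fun b => beta b = a).card := by
    rw [Finset.card_eq_sum_card_fiberwise (f := beta) (t := F)]
    · apply Finset.sum_congr rfl
      intro a ha
      congr 1
      ext b
      simp only [mem_filter, mem_univ, true_and]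
      constructor
      · exact fun h => h.2
      · exact fun h => ⟨h ▸ ha, h⟩
    · intro b hb
      simpa using hb
  rw [h, Finset.sum_mul, Finset.sum_congr rfl (fun a _ => hbal a)]
  simp

/-- probability of a set of constraints -/
theorem prob_constraints (beta : B → A)
    (hbal : ∀ a, (univ.filter fun b => beta b = a).card * Fintype.card A = Fintype.card B)
    (hA : 0 < Fintype.card A)
    (F : B → Finset A) (S : Finset B) (hS : 2 * S.card ≤ Fintype.card B + 2) :
    ((univ.filter fun p : Equiv.Perm B => ∀ u ∈ S, beta (p u) ∈ F u).card : ℝ)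
      ≤ ((Fintype.card B)! : ℝ) * ∏ u ∈ S, (2 * ((F u).card : ℝ) / (Fintype.card A : ℝ)) := by
  classical
  have h1 := card_perm_le S (fun u => univ.filter fun b => beta b ∈ F u)
  simp only [mem_filter, mem_univ, true_and] at h1
  have hA' : (0 : ℝ) < (Fintype.card A : ℝ) := by exact_mod_cast hA
  have h2 : ∀ u, ((univ.filter fun b => beta b ∈ F u).card : ℝ)
      = ((F u).card : ℝ) * (Fintype.card B : ℝ) / (Fintype.card A : ℝ) := by
    intro u
    rw [eq_div_iff hA'.ne']
    exact_mod_cast card_preimage beta hbal (F u)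
  have h3 : ((univ.filter fun p : Equiv.Perm B => ∀ u ∈ S, beta (p u) ∈ F u).card : ℝ)
      ≤ ((Fintype.card B - S.card)! : ℝ) *
        ∏ u ∈ S, (((F u).card : ℝ) * (Fintype.card B : ℝ) / (Fintype.card A : ℝ)) := by
    rw [← Finset.prod_congr rfl (fun u _ => h2 u)]
    exact_mod_cast h1
  have h4 := fact_bound (Fintype.card B) S.card hS (Finset.card_le_univ S)
  calc _ ≤ _ := h3
    _ = (((Fintype.card B - S.card)! : ℝ) * (Fintype.card B : ℝ) ^ S.card) *
        ∏ u ∈ S, (((F u).card : ℝ) / (Fintype.card A : ℝ)) := by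
        rw [mul_assoc]
        congr 1
        rw [← Finset.prod_const, ← Finset.prod_mul_distrib]
        apply Finset.prod_congr rfl
        intro u _
        ring
    _ ≤ (((Fintype.card B)! : ℝ) * 2 ^ S.card) *
        ∏ u ∈ S, (((F u).card : ℝ) / (Fintype.card A : ℝ)) := by
        gcongr
    _ = _ := by
        rw [mul_assoc]
        congr 1
        rw [← Finset.prod_const, ← Finset.prod_mul_distrib]
        apply Finset.prod_congr rfl
        intro u _
        ring

/-- tail bound for the number of satisfied constraints -/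
theorem tail (beta : B → A)
    (hbal : ∀ a, (univ.filter fun b => beta b = a).card * Fintype.card A = Fintype.card B)
    (hA : 0 < Fintype.card A)
    (F : B → Finset A) (C : Finset B) (k : ℕ) (hk1 : 1 ≤ k) (hk : 2 * k ≤ Fintype.card B + 2) :
    ((univ.filter fun p : Equiv.Perm B => k ≤ (C.filter fun u => beta (p u) ∈ F u).card).card : ℝ)
      ≤ ((Fintype.card B)! : ℝ) *
        (2 * Real.exp 1 * (∑ u ∈ C, ((F u).card : ℝ)) / (Fintype.card A : ℝ) / k) ^ k := by
  classical
  have h1 : (univ.filter fun p : Equiv.Perm B => k ≤ (C.filter fun u => beta (p u) ∈ F u).card)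
      ⊆ (C.powersetCard k).biUnion
        (fun S => univ.filter fun p : Equiv.Perm B => ∀ u ∈ S, beta (p u) ∈ F u) := by
    intro p hp
    simp only [mem_filter, mem_univ, true_and] at hp
    obtain ⟨S, hS, hcard⟩ := Finset.exists_subset_card_eq hp
    rw [Finset.mem_biUnion]
    refine ⟨S, ?_, ?_⟩
    · rw [Finset.mem_powersetCard]
      exact ⟨hS.trans (Finset.filter_subset _ _), hcard⟩
    · simp only [mem_filter, mem_univ, true_and]
      intro u hu
      exact (Finset.mem_filter.1 (hS hu)).2
  have h2 : ((univ.filter fun p : Equiv.Perm B =>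
        k ≤ (C.filter fun u => beta (p u) ∈ F u).card).card : ℝ)
      ≤ ∑ S ∈ C.powersetCard k,
        ((univ.filter fun p : Equiv.Perm B => ∀ u ∈ S, beta (p u) ∈ F u).card : ℝ) := by
    have := (Finset.card_le_card h1).trans Finset.card_biUnion_le
    exact_mod_cast this
  have h3 : ∑ S ∈ C.powersetCard k,
        ((univ.filter fun p : Equiv.Perm B => ∀ u ∈ S, beta (p u) ∈ F u).card : ℝ)
      ≤ ∑ S ∈ C.powersetCard k, ((Fintype.card B)! : ℝ) *
          ∏ u ∈ S, (2 * ((F u).card : ℝ) / (Fintype.card A : ℝ)) := by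
    apply Finset.sum_le_sum
    intro S hS
    apply prob_constraints beta hbal hA
    rw [(Finset.mem_powersetCard.1 hS).2]
    exact hk
  rw [← Finset.mul_sum] at h3
  have h4 := esymm_le (fun u => 2 * ((F u).card : ℝ) / (Fintype.card A : ℝ))
    (fun u => by positivity) C k
  have h5 := pow_div_fact_le (∑ u ∈ C, (2 * ((F u).card : ℝ) / (Fintype.card A : ℝ)))
    (Finset.sum_nonneg fun u _ => by positivity) k hk1
  refine (h2.trans h3).trans ?_
  have h6 := h4.trans h5
  have h7 : Real.exp 1 * (∑ u ∈ C, (2 * ((F u).card : ℝ) / (Fintype.card A : ℝ))) / (k : ℝ)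
      = 2 * Real.exp 1 * (∑ u ∈ C, ((F u).card : ℝ)) / (Fintype.card A : ℝ) / k := by
    rw [← Finset.sum_div, ← Finset.mul_sum]
    ring
  rw [h7] at h6
  gcongr

end Tail

end Crest.Agent.R133.Comb
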