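import Crest.Agent.R133.Comb1

/-! Row 133 (S0182), section 3 of note 12067: the one step theorem.  helper292. -/

set_option autoImplicit false
set_option linter.unusedSectionVars false
open Finset
open scoped BigOperators Nat

namespace Crest.Agent.R133.Comb

section One
variable {A B : Type*} [Fintype A] [DecidableEq A] [Fintype B] [DecidableEq B]

/-- (B) in the mean: off-diagonal pairs. -/
theorem pair_count (beta : B → A)
    (hbal : ∀ a, (univ.filter fun b => beta b = a).card * Fintype.card A = Fintype.card B)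
    (hA : 0 < Fintype.card A) (hB : 2 ≤ Fintype.card B) (u u' : B) (huu : u ≠ u') (t t' : A) :
    ((univ.filter fun p : Equiv.Perm B => beta (p u) = t ∧ beta (p u') = t').card : ℝ)
      ≤ ((Fintype.card B)! : ℝ) * (2 / (Fintype.card A : ℝ) ^ 2) := by
  classical
  have hA' : (0 : ℝ) < (Fintype.card A : ℝ) := by exact_mod_cast hA
  have h1 := card_perm_le ({u, u'} : Finset B)
    (fun v => univ.filter fun b => beta b = if v = u then t else t')
  rw [Finset.card_pair huu, Finset.prod_pair huu] at h1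
  have h2 : ∀ a, ((univ.filter fun b => beta b = a).card : ℝ)
      = (Fintype.card B : ℝ) / (Fintype.card A : ℝ) := by
    intro a
    rw [eq_div_iff hA'.ne']
    exact_mod_cast hbal a
  have h3 : (univ.filter fun p : Equiv.Perm B => beta (p u) = t ∧ beta (p u') = t').card ≤
      (Fintype.card B - 2)! * ((univ.filter fun b => beta b = t).card *
        (univ.filter fun b => beta b = t').card) := by
    refine le_trans (Finset.card_le_card ?_) (h1.trans (le_of_eq ?_))
    · intro p hp
      simp only [mem_filter, mem_univ, true_and] at hp ⊢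
      intro v hv
      rw [Finset.mem_insert, Finset.mem_singleton] at hv
      rcases hv with rfl | rfl
      · simp [hp.1]
      · simp [hp.2, huu.symm]
    · simp [huu.symm]
  have h4 : ((univ.filter fun p : Equiv.Perm B => beta (p u) = t ∧ beta (p u') = t').card : ℝ) ≤
      ((Fintype.card B - 2)! : ℝ) * ((Fintype.card B : ℝ) / (Fintype.card A : ℝ) *
        ((Fintype.card B : ℝ) / (Fintype.card A : ℝ))) := by
    rw [← h2 t]
    nth_rewrite 2 [h2 t]
    rw [← h2 t']
    exact_mod_cast h3
  refine h4.trans ?_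
  obtain ⟨n, hn⟩ : ∃ n, Fintype.card B = n + 2 := ⟨Fintype.card B - 2, by omega⟩
  rw [hn]
  have h5 : ((n + 2)! : ℝ) = (n + 2) * ((n + 1) * (n ! : ℝ)) := by
    rw [Nat.factorial_succ, Nat.factorial_succ]; push_cast; ring
  have h6 : (n + 2 - 2 : ℕ) = n := by omega
  rw [h6, h5]
  have h7 : (0 : ℝ) ≤ (n ! : ℝ) := by positivity
  have h8 : ((n + 2 : ℕ) : ℝ) * ((n + 2 : ℕ) : ℝ) ≤ (n + 2) * (n + 1) * 2 := by
    push_cast
    nlinarith [Nat.cast_nonneg (α := ℝ) n]
  calc (n ! : ℝ) * (((n + 2 : ℕ) : ℝ) / (Fintype.card A : ℝ) *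
        (((n + 2 : ℕ) : ℝ) / (Fintype.card A : ℝ)))
      = (n ! : ℝ) * (((n + 2 : ℕ) : ℝ) * ((n + 2 : ℕ) : ℝ)) / (Fintype.card A : ℝ) ^ 2 := by
        field_simp
    _ ≤ (n ! : ℝ) * ((n + 2) * (n + 1) * 2) / (Fintype.card A : ℝ) ^ 2 := by gcongr
    _ = _ := by ring

/-- expectation of the kernel sum. -/
theorem expect_B (beta : B → A)
    (hbal : ∀ a, (univ.filter fun b => beta b = a).card * Fintype.card A = Fintype.card B)
    (hA : 0 < Fintype.card A) (hB : 2 ≤ Fintype.card B)
    (R : B → B → ℝ) (hR : ∀ u u', 0 ≤ R u u') (hR1 : ∀ u, R u u = 1)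
    (e : A → A → ℝ) (he : ∀ a a', 0 ≤ e a a') (he1 : ∀ a, e a a = 1) :
    ∑ p : Equiv.Perm B, (∑ u, ∑ u', R u u' * e (beta (p u)) (beta (p u')) - Fintype.card B)
      ≤ ((Fintype.card B)! : ℝ) *
        (2 * (∑ u, ∑ u', R u u') * (∑ a, ∑ a', e a a') / (Fintype.card A : ℝ) ^ 2) := by
  classical
  have h0 : ∀ p : Equiv.Perm B,
      (∑ u, ∑ u', R u u' * e (beta (p u)) (beta (p u')) - (Fintype.card B : ℝ))
      = ∑ u, ∑ u' ∈ univ.filter (fun u' => u ≠ u'),
          R u u' * e (beta (p u)) (beta (p u')) := by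
    intro p
    have h1 : ∀ u, ∑ u', R u u' * e (beta (p u)) (beta (p u'))
        = 1 + ∑ u' ∈ univ.filter (fun u' => u ≠ u'), R u u' * e (beta (p u)) (beta (p u')) := by
      intro u
      rw [← Finset.sum_filter_add_sum_filter_not univ (fun u' => u ≠ u'), add_comm]
      congr 1
      have : (univ.filter fun u' => ¬ (u ≠ u')) = {u} := by
        ext v; simp [eq_comm]
      rw [this, Finset.sum_singleton, hR1, he1, one_mul]
    rw [Finset.sum_congr rfl (fun u _ => h1 u), Finset.sum_add_distrib]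
    simp
  rw [Finset.sum_congr rfl (fun p _ => h0 p), Finset.sum_comm]
  have h2 : ∀ u u', u ≠ u' → ∑ p : Equiv.Perm B, e (beta (p u)) (beta (p u'))
      ≤ ((Fintype.card B)! : ℝ) * (2 / (Fintype.card A : ℝ) ^ 2) * ∑ a, ∑ a', e a a' := by
    intro u u' huu
    have h3 : ∑ p : Equiv.Perm B, e (beta (p u)) (beta (p u'))
        = ∑ t, ∑ t', ∑ p ∈ univ.filter (fun p : Equiv.Perm B => beta (p u) = t ∧ beta (p u') = t'),
            e t t' := by
      have : ∀ p : Equiv.Perm B, e (beta (p u)) (beta (p u'))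
          = ∑ t, ∑ t', if (beta (p u) = t ∧ beta (p u') = t') then e t t' else 0 := by
        intro p
        rw [Finset.sum_eq_single (beta (p u)), Finset.sum_eq_single (beta (p u'))]
        · simp
        · intro t' _ ht'
          rw [if_neg]
          exact fun h => ht' h.2.symm
        · simp
        · intro t _ ht
          apply Finset.sum_eq_zero
          intro t' _
          rw [if_neg]
          exact fun h => ht h.1.symm
        · simp
      rw [Finset.sum_congr rfl (fun p _ => this p), Finset.sum_comm]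
      apply Finset.sum_congr rfl
      intro t _
      rw [Finset.sum_comm]
      apply Finset.sum_congr rfl
      intro t' _
      rw [Finset.sum_filter]
    rw [h3]
    simp_rw [Finset.sum_const, nsmul_eq_mul, Finset.mul_sum]
    apply Finset.sum_le_sum
    intro t _
    apply Finset.sum_le_sum
    intro t' _
    exact mul_le_mul_of_nonneg_right (pair_count beta hbal hA hB u u' huu t t') (he t t')
  calc ∑ u, ∑ p : Equiv.Perm B, ∑ u' ∈ univ.filter (fun u' => u ≠ u'),
          R u u' * e (beta (p u)) (beta (p u'))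
      = ∑ u, ∑ u' ∈ univ.filter (fun u' => u ≠ u'),
          R u u' * ∑ p : Equiv.Perm B, e (beta (p u)) (beta (p u')) := by
        apply Finset.sum_congr rfl
        intro u _
        rw [Finset.sum_comm]
        apply Finset.sum_congr rfl
        intro u' _
        rw [Finset.mul_sum]
    _ ≤ ∑ u, ∑ u' ∈ univ.filter (fun u' => u ≠ u'),
          R u u' * (((Fintype.card B)! : ℝ) * (2 / (Fintype.card A : ℝ) ^ 2) *
            ∑ a, ∑ a', e a a') := by
        apply Finset.sum_le_sum
        intro u _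
        apply Finset.sum_le_sum
        intro u' hu'
        exact mul_le_mul_of_nonneg_left (h2 u u' (Finset.mem_filter.1 hu').2) (hR u u')
    _ ≤ ∑ u, ∑ u', R u u' * (((Fintype.card B)! : ℝ) * (2 / (Fintype.card A : ℝ) ^ 2) *
            ∑ a, ∑ a', e a a') := by
        apply Finset.sum_le_sum
        intro u _
        apply Finset.sum_le_sum_of_subset_of_nonneg (Finset.filter_subset _ _)
        intro u' _ _
        have : 0 ≤ ∑ a, ∑ a', e a a' :=
          Finset.sum_nonneg fun a _ => Finset.sum_nonneg fun a' _ => he a a'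
        have := hR u u'
        positivity
    _ = _ := by
        simp_rw [← Finset.sum_mul]
        ring

/-- failure probability for (B) -/
theorem fail_B (beta : B → A)
    (hbal : ∀ a, (univ.filter fun b => beta b = a).card * Fintype.card A = Fintype.card B)
    (hA : 0 < Fintype.card A) (hB : 2 ≤ Fintype.card B)
    (R : B → B → ℝ) (hR : ∀ u u', 0 ≤ R u u') (hR1 : ∀ u, R u u = 1)
    (e : A → A → ℝ) (he : ∀ a a', 0 ≤ e a a') (he1 : ∀ a, e a a = 1) :
    ((univ.filter fun p : Equiv.Perm B =>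
      2 * (2 * (∑ u, ∑ u', R u u') * (∑ a, ∑ a', e a a') / (Fintype.card A : ℝ) ^ 2) <
        ∑ u, ∑ u', R u u' * e (beta (p u)) (beta (p u')) - (Fintype.card B : ℝ)).card : ℝ)
      ≤ ((Fintype.card B)! : ℝ) / 2 := by
  classical
  have hK0 : (0 : ℝ) < (Fintype.card A : ℝ) := by exact_mod_cast hA
  have hU0 : (0 : ℝ) < (Fintype.card B : ℝ) := by
    have : 0 < Fintype.card B := by omega
    exact_mod_cast this
  have hRs : (Fintype.card B : ℝ) ≤ ∑ u, ∑ u', R u u' := by
    have : ∀ u, (1 : ℝ) ≤ ∑ u', R u u' := by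
      intro u
      rw [← hR1 u]
      exact Finset.single_le_sum (f := fun u' => R u u') (fun u' _ => hR u u') (Finset.mem_univ u)
    calc (Fintype.card B : ℝ) = ∑ u : B, (1 : ℝ) := by simp
      _ ≤ _ := Finset.sum_le_sum fun u _ => this u
  have hes : (Fintype.card A : ℝ) ≤ ∑ a, ∑ a', e a a' := by
    have : ∀ a, (1 : ℝ) ≤ ∑ a', e a a' := by
      intro a
      rw [← he1 a]
      exact Finset.single_le_sum (f := fun a' => e a a') (fun a' _ => he a a') (Finset.mem_univ a)
    calc (Fintype.card A : ℝ) = ∑ a : A, (1 : ℝ) := by simp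
      _ ≤ _ := Finset.sum_le_sum fun a _ => this a
  have h2 := expect_B beta hbal hA hB R hR hR1 e he he1
  have hm0pos : 0 < 2 * (∑ u, ∑ u', R u u') * (∑ a, ∑ a', e a a') / (Fintype.card A : ℝ) ^ 2 := by
    have h1 : 0 < ∑ u, ∑ u', R u u' := lt_of_lt_of_le hU0 hRs
    have h2 : 0 < ∑ a, ∑ a', e a a' := lt_of_lt_of_le hK0 hes
    positivity
  generalize 2 * (∑ u, ∑ u', R u u') * (∑ a, ∑ a', e a a') / (Fintype.card A : ℝ) ^ 2 = m0
    at h2 hm0pos ⊢
  have hX0 : ∀ p : Equiv.Perm B, 0 ≤
      ∑ u, ∑ u', R u u' * e (beta (p u)) (beta (p u')) - (Fintype.card B : ℝ) := by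
    intro p
    have : ∀ u, (1 : ℝ) ≤ ∑ u', R u u' * e (beta (p u)) (beta (p u')) := by
      intro u
      have h1 := Finset.single_le_sum (f := fun u' => R u u' * e (beta (p u)) (beta (p u')))
        (fun u' _ => mul_nonneg (hR u u') (he _ _)) (Finset.mem_univ u)
      simp only [hR1, he1, mul_one] at h1
      exact h1
    have h2 : (Fintype.card B : ℝ) ≤ ∑ u, ∑ u', R u u' * e (beta (p u)) (beta (p u')) := by
      calc (Fintype.card B : ℝ) = ∑ u : B, (1 : ℝ) := by simp
        _ ≤ _ := Finset.sum_le_sum fun u _ => this u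
    linarith
  generalize hX : (fun p : Equiv.Perm B =>
    ∑ u, ∑ u', R u u' * e (beta (p u)) (beta (p u')) - (Fintype.card B : ℝ)) = X at *
  have hX' : ∀ p : Equiv.Perm B,
    ∑ u, ∑ u', R u u' * e (beta (p u)) (beta (p u')) - (Fintype.card B : ℝ) = X p := by
    intro p; rw [← hX]
  simp only [hX'] at h2 hX0 ⊢
  generalize ((Fintype.card B)! : ℝ) = f at h2 ⊢
  have h1 : ((univ.filter fun p => 2 * m0 < X p).card : ℝ) * (2 * m0) ≤ ∑ p : Equiv.Perm B, X p := by
    calc ((univ.filter fun p => 2 * m0 < X p).card : ℝ) * (2 * m0)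
        = ∑ p ∈ (univ.filter fun p => 2 * m0 < X p), 2 * m0 := by simp
      _ ≤ ∑ p ∈ (univ.filter fun p => 2 * m0 < X p), X p := by
          apply Finset.sum_le_sum
          intro p hp
          exact (Finset.mem_filter.1 hp).2.le
      _ ≤ ∑ p, X p := Finset.sum_le_sum_of_subset_of_nonneg (Finset.subset_univ _)
          (fun p _ _ => hX0 p)
  have h3 : ((univ.filter fun p => 2 * m0 < X p).card : ℝ) * (2 * m0) ≤ f * m0 := h1.trans h2
  by_contra hcon
  push Not at hcon
  have := mul_lt_mul_of_pos_right hcon hm0pos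
  linarith

/-- failure probability for (P1) -/
theorem fail_P1 (beta : B → A)
    (hbal : ∀ a, (univ.filter fun b => beta b = a).card * Fintype.card A = Fintype.card B)
    (hA : 0 < Fintype.card A) (N : ℕ) (hN : 2 ≤ N) (C : Finset B) (F : Finset A) :
    ((univ.filter fun p : Equiv.Perm B =>
      ¬ ((((C.filter fun u => beta (p u) ∈ F).card : ℝ)) ≤
        30 * (C.card * F.card) / (Fintype.card A : ℝ) + 10 * N)).card : ℝ)
      ≤ ((Fintype.card B)! : ℝ) * Real.exp (-(4 * N)) := by
  classical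
  have hK0 : (0 : ℝ) < (Fintype.card A : ℝ) := by exact_mod_cast hA
  have hfac : (0 : ℝ) < ((Fintype.card B)! : ℝ) := by positivity
  obtain ⟨mu, hmu⟩ : ∃ mu : ℝ, mu = C.card * F.card / (Fintype.card A : ℝ) := ⟨_, rfl⟩
  have hmu0 : 0 ≤ mu := by rw [hmu]; positivity
  have hmu' : 30 * ((C.card : ℝ) * F.card) / (Fintype.card A : ℝ) = 30 * mu := by rw [hmu]; ring
  obtain ⟨k, hk⟩ : ∃ k : ℕ, k = ⌈2 * Real.exp 1 ^ 2 * mu + 4 * N⌉₊ := ⟨_, rfl⟩
  have hN0 : (0 : ℝ) ≤ (N : ℝ) := Nat.cast_nonneg N
  have hp0 : (0:ℝ) ≤ 2 * Real.exp 1 ^ 2 * mu := by positivity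
  have hk1 : 2 * Real.exp 1 ^ 2 * mu + 4 * N ≤ k := by rw [hk]; exact Nat.le_ceil _
  have hk2 : (k : ℝ) < 2 * Real.exp 1 ^ 2 * mu + 4 * N + 1 := by
    rw [hk]; exact Nat.ceil_lt_add_one (by positivity)
  have he2 : Real.exp 1 ^ 2 ≤ 7.4 := by
    have := Real.exp_one_lt_d9
    have h0 := Real.exp_pos 1
    nlinarith
  have hN2 : (2 : ℝ) ≤ N := by exact_mod_cast hN
  have hkb : (k : ℝ) ≤ 15 * mu + 5 * N := by
    have h1 : Real.exp 1 ^ 2 * mu ≤ 7.4 * mu := mul_le_mul_of_nonneg_right he2 hmu0
    linarith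
  rw [hmu']
  by_cases hkU : 2 * k ≤ Fintype.card B + 2
  · -- use the tail
    have hkpos : (0 : ℝ) < k := by linarith
    have hk0 : 1 ≤ k := by exact_mod_cast hkpos
    have ht := tail beta hbal hA (fun _ => F) C k hk0 hkU
    have hsub : (univ.filter fun p : Equiv.Perm B =>
        ¬ ((((C.filter fun u => beta (p u) ∈ F).card : ℝ)) ≤ 30 * mu + 10 * N)) ⊆
        univ.filter fun p : Equiv.Perm B => k ≤ (C.filter fun u => beta (p u) ∈ F).card := by
      intro p hp
      simp only [mem_filter, mem_univ, true_and, not_le] at hp ⊢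
      by_contra hcon
      push Not at hcon
      have h1 : ((C.filter fun u => beta (p u) ∈ F).card : ℝ) < k := by exact_mod_cast hcon
      linarith
    have h3 : (((univ.filter fun p : Equiv.Perm B =>
        ¬ ((((C.filter fun u => beta (p u) ∈ F).card : ℝ)) ≤ 30 * mu + 10 * N)).card : ℕ) : ℝ) ≤
        ((univ.filter fun p : Equiv.Perm B =>
          k ≤ (C.filter fun u => beta (p u) ∈ F).card).card : ℝ) := by
      exact_mod_cast Finset.card_le_card hsub
    refine h3.trans (ht.trans ?_)
    refine mul_le_mul_of_nonneg_left ?_ hfac.le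
    have h4 : 2 * Real.exp 1 * (∑ u ∈ C, (F.card : ℝ)) / (Fintype.card A : ℝ) / k
        ≤ Real.exp (-1) := by
      rw [Finset.sum_const, nsmul_eq_mul, div_le_iff₀ hkpos]
      have h5 : 2 * Real.exp 1 * ((C.card : ℝ) * (F.card : ℝ)) / (Fintype.card A : ℝ)
          = 2 * Real.exp 1 * mu := by rw [hmu]; ring
      rw [h5]
      have h6 : Real.exp (-1) * (2 * Real.exp 1 ^ 2 * mu + 4 * N) ≤ Real.exp (-1) * k :=
        mul_le_mul_of_nonneg_left hk1 (Real.exp_pos _).le
      have h7 : Real.exp (-1) * Real.exp 1 = 1 := by rw [← Real.exp_add]; simp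
      have h8 : Real.exp (-1) * (2 * Real.exp 1 ^ 2 * mu + 4 * N)
          = 2 * Real.exp 1 * mu * (Real.exp (-1) * Real.exp 1) + Real.exp (-1) * (4 * N) := by ring
      rw [h8, h7] at h6
      have : 0 ≤ Real.exp (-1) * (4 * N) := by positivity
      linarith
    have h40 : 0 ≤ 2 * Real.exp 1 * (∑ u ∈ C, (F.card : ℝ)) / (Fintype.card A : ℝ) / k := by
      positivity
    calc _ ≤ Real.exp (-1) ^ k := pow_le_pow_left₀ h40 h4 k
      _ = Real.exp (-(k : ℝ)) := by rw [← Real.exp_nat_mul]; ring_nf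
      _ ≤ _ := by
          apply Real.exp_le_exp.2
          linarith
  · -- trivial
    have : (univ.filter fun p : Equiv.Perm B =>
        ¬ ((((C.filter fun u => beta (p u) ∈ F).card : ℝ)) ≤ 30 * mu + 10 * N)) = ∅ := by
      rw [Finset.eq_empty_iff_forall_notMem]
      intro p hp
      simp only [mem_filter, mem_univ, true_and, not_le] at hp
      have h1 : ((C.filter fun u => beta (p u) ∈ F).card : ℝ) ≤ (Fintype.card B : ℝ) := by
        exact_mod_cast Finset.card_le_univ _
      push Not at hkU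
      have h2 : (Fintype.card B : ℝ) + 2 < 2 * k := by exact_mod_cast hkU
      linarith
    rw [this]
    simp only [Finset.card_empty, Nat.cast_zero]
    exact mul_nonneg hfac.le (Real.exp_pos _).le

/-- failure probability for (P2') -/
theorem fail_P2 (beta : B → A)
    (hbal : ∀ a, (univ.filter fun b => beta b = a).card * Fintype.card A = Fintype.card B)
    (hA : 0 < Fintype.card A) (hB : 0 < Fintype.card B) (N : ℕ) (hN : 2 ≤ N)
    (H : B → Finset A)
    (hH : 2 * Real.exp 1 * (∑ u, ((H u).card : ℝ)) / (Fintype.card A : ℝ)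
      ≤ (Fintype.card B : ℝ) / N * Real.exp (-1)) :
    ((univ.filter fun p : Equiv.Perm B =>
      ¬ (((univ.filter fun u => beta (p u) ∈ H u).card : ℝ) < (Fintype.card B : ℝ) / N)).card : ℝ)
      ≤ ((Fintype.card B)! : ℝ) * Real.exp (-((Fintype.card B : ℝ) / N)) := by
  classical
  have hK0 : (0 : ℝ) < (Fintype.card A : ℝ) := by exact_mod_cast hA
  have hU0 : (0 : ℝ) < (Fintype.card B : ℝ) := by exact_mod_cast hB
  have hfac : (0 : ℝ) < ((Fintype.card B)! : ℝ) := by positivity
  have hN2 : (2 : ℝ) ≤ N := by exact_mod_cast hN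
  have hN0 : (0 : ℝ) < N := by linarith
  obtain ⟨k, hk⟩ : ∃ k : ℕ, k = ⌈(Fintype.card B : ℝ) / N⌉₊ := ⟨_, rfl⟩
  have hk1 : (Fintype.card B : ℝ) / N ≤ k := by rw [hk]; exact Nat.le_ceil _
  have hk2 : (k : ℝ) < (Fintype.card B : ℝ) / N + 1 := by
    rw [hk]; exact Nat.ceil_lt_add_one (by positivity)
  have hkpos : (0 : ℝ) < k := lt_of_lt_of_le (by positivity) hk1
  have hk0 : 1 ≤ k := by exact_mod_cast hkpos
  have hUN : (Fintype.card B : ℝ) / N ≤ (Fintype.card B : ℝ) / 2 :=
    div_le_div_of_nonneg_left hU0.le (by norm_num) hN2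
  have hkU : 2 * k ≤ Fintype.card B + 2 := by
    have : (2 : ℝ) * k < (Fintype.card B : ℝ) + 2 := by linarith
    have h' : 2 * k < Fintype.card B + 2 := by exact_mod_cast this
    omega
  have ht := tail beta hbal hA H univ k hk0 hkU
  have hsub : (univ.filter fun p : Equiv.Perm B =>
      ¬ (((univ.filter fun u => beta (p u) ∈ H u).card : ℝ) < (Fintype.card B : ℝ) / N)) ⊆
      univ.filter fun p : Equiv.Perm B =>
        k ≤ (univ.filter fun u => beta (p u) ∈ H u).card := by
    intro p hp
    simp only [mem_filter, mem_univ, true_and, not_lt] at hp ⊢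
    rw [hk]
    exact Nat.ceil_le.2 hp
  have h3 : (((univ.filter fun p : Equiv.Perm B =>
      ¬ (((univ.filter fun u => beta (p u) ∈ H u).card : ℝ)
        < (Fintype.card B : ℝ) / N)).card : ℕ) : ℝ) ≤
      ((univ.filter fun p : Equiv.Perm B =>
        k ≤ (univ.filter fun u => beta (p u) ∈ H u).card).card : ℝ) := by
    exact_mod_cast Finset.card_le_card hsub
  refine h3.trans (ht.trans ?_)
  refine mul_le_mul_of_nonneg_left ?_ hfac.le
  have h4 : 2 * Real.exp 1 * (∑ u, ((H u).card : ℝ)) / (Fintype.card A : ℝ) / k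
      ≤ Real.exp (-1) := by
    rw [div_le_iff₀ hkpos]
    refine hH.trans ?_
    rw [mul_comm]
    exact mul_le_mul_of_nonneg_left hk1 (Real.exp_pos _).le
  have h40 : 0 ≤ 2 * Real.exp 1 * (∑ u, ((H u).card : ℝ)) / (Fintype.card A : ℝ) / k := by
    positivity
  calc _ ≤ Real.exp (-1) ^ k := pow_le_pow_left₀ h40 h4 k
    _ = Real.exp (-(k : ℝ)) := by rw [← Real.exp_nat_mul]; ring_nf
    _ ≤ _ := by
        apply Real.exp_le_exp.2
        linarith

/-- **ONE STEP**: choice of a balanced map. -/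
theorem one_step (beta : B → A)
    (hbal : ∀ a, (univ.filter fun b => beta b = a).card * Fintype.card A = Fintype.card B)
    (hA : 0 < Fintype.card A) (hB : 2 ≤ Fintype.card B) (N : ℕ) (hN : 2 ≤ N)
    (R : B → B → ℝ) (hR : ∀ u u', 0 ≤ R u u') (hR1 : ∀ u, R u u = 1)
    (e : A → A → ℝ) (he : ∀ a a', 0 ≤ e a a') (he1 : ∀ a, e a a = 1)
    {I1 I2 : Type*} [Fintype I1] [Fintype I2]
    (hI1 : (Fintype.card I1 : ℝ) ≤ Real.exp (4 * N) / 8)
    (C : I1 → Finset B) (F : I1 → Finset A)
    (hI2 : (Fintype.card I2 : ℝ) ≤ Real.exp ((Fintype.card B : ℝ) / N) / 8)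
    (H : I2 → B → Finset A)
    (hH : ∀ i, 2 * Real.exp 1 * (∑ u, ((H i u).card : ℝ)) / (Fintype.card A : ℝ)
      ≤ (Fintype.card B : ℝ) / N * Real.exp (-1)) :
    ∃ tau : B → A,
      (∀ a, (univ.filter fun b => tau b = a).card * Fintype.card A = Fintype.card B) ∧
      (∑ u, ∑ u', R u u' * e (tau u) (tau u') ≤ (Fintype.card B : ℝ) +
        4 * (∑ u, ∑ u', R u u') * (∑ a, ∑ a', e a a') / (Fintype.card A : ℝ) ^ 2) ∧
      (∀ i, (((C i).filter fun u => tau u ∈ F i).card : ℝ) ≤
        30 * ((C i).card * (F i).card) / (Fintype.card A : ℝ) + 10 * N) ∧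
      (∀ i, ((univ.filter fun u => tau u ∈ H i u).card : ℝ) < (Fintype.card B : ℝ) / N) := by
  classical
  have hfac : (0 : ℝ) < ((Fintype.card B)! : ℝ) := by positivity
  have hF1c := fail_B beta hbal hA hB R hR hR1 e he he1
  have hF2c := fun i => fail_P1 beta hbal hA N hN (C i) (F i)
  have hF3c := fun i => fail_P2 beta hbal hA (by omega) N hN (H i) (hH i)
  -- union bound
  have hall : ∃ p : Equiv.Perm B,
      ¬ (2 * (2 * (∑ u, ∑ u', R u u') * (∑ a, ∑ a', e a a') / (Fintype.card A : ℝ) ^ 2) <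
        ∑ u, ∑ u', R u u' * e (beta (p u)) (beta (p u')) - (Fintype.card B : ℝ)) ∧
      (∀ i, ((((C i).filter fun u => beta (p u) ∈ F i).card : ℝ)) ≤
        30 * ((C i).card * (F i).card) / (Fintype.card A : ℝ) + 10 * N) ∧
      (∀ i, ((univ.filter fun u => beta (p u) ∈ H i u).card : ℝ)
        < (Fintype.card B : ℝ) / N) := by
    by_contra hcon
    push Not at hcon
    have h1 : (univ : Finset (Equiv.Perm B)) ⊆
        (univ.filter fun p : Equiv.Perm B =>
          2 * (2 * (∑ u, ∑ u', R u u') * (∑ a, ∑ a', e a a') / (Fintype.card A : ℝ) ^ 2) <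
          ∑ u, ∑ u', R u u' * e (beta (p u)) (beta (p u')) - (Fintype.card B : ℝ)) ∪
        ((univ : Finset I1).biUnion (fun i => univ.filter fun p : Equiv.Perm B =>
          ¬ (((((C i).filter fun u => beta (p u) ∈ F i).card : ℝ)) ≤
          30 * ((C i).card * (F i).card) / (Fintype.card A : ℝ) + 10 * N)) ∪
        (univ : Finset I2).biUnion (fun i => univ.filter fun p : Equiv.Perm B =>
          ¬ (((univ.filter fun u => beta (p u) ∈ H i u).card : ℝ)
            < (Fintype.card B : ℝ) / N))) := by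
      intro p _
      rw [Finset.mem_union, Finset.mem_union, Finset.mem_biUnion, Finset.mem_biUnion]
      by_cases hp1 : 2 * (2 * (∑ u, ∑ u', R u u') * (∑ a, ∑ a', e a a') /
          (Fintype.card A : ℝ) ^ 2) <
          ∑ u, ∑ u', R u u' * e (beta (p u)) (beta (p u')) - (Fintype.card B : ℝ)
      · left
        exact Finset.mem_filter.2 ⟨Finset.mem_univ _, hp1⟩
      · right
        by_cases hp2 : ∀ i, ((((C i).filter fun u => beta (p u) ∈ F i).card : ℝ)) ≤
            30 * ((C i).card * (F i).card) / (Fintype.card A : ℝ) + 10 * N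
        · right
          obtain ⟨i, hi⟩ := hcon p (not_lt.1 hp1) hp2
          exact ⟨i, Finset.mem_univ _, Finset.mem_filter.2 ⟨Finset.mem_univ _, not_lt.2 hi⟩⟩
        · left
          push Not at hp2
          obtain ⟨i, hi⟩ := hp2
          exact ⟨i, Finset.mem_univ _, Finset.mem_filter.2 ⟨Finset.mem_univ _, not_le.2 hi⟩⟩
    have h2 := Finset.card_le_card h1
    have h3 := (Finset.card_union_le (univ.filter fun p : Equiv.Perm B =>
          2 * (2 * (∑ u, ∑ u', R u u') * (∑ a, ∑ a', e a a') / (Fintype.card A : ℝ) ^ 2) <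
          ∑ u, ∑ u', R u u' * e (beta (p u)) (beta (p u')) - (Fintype.card B : ℝ))
        ((univ : Finset I1).biUnion (fun i => univ.filter fun p : Equiv.Perm B =>
          ¬ (((((C i).filter fun u => beta (p u) ∈ F i).card : ℝ)) ≤
          30 * ((C i).card * (F i).card) / (Fintype.card A : ℝ) + 10 * N)) ∪
        (univ : Finset I2).biUnion (fun i => univ.filter fun p : Equiv.Perm B =>
          ¬ (((univ.filter fun u => beta (p u) ∈ H i u).card : ℝ)
            < (Fintype.card B : ℝ) / N))))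
    have h4 := (Finset.card_union_le
        ((univ : Finset I1).biUnion (fun i => univ.filter fun p : Equiv.Perm B =>
          ¬ (((((C i).filter fun u => beta (p u) ∈ F i).card : ℝ)) ≤
          30 * ((C i).card * (F i).card) / (Fintype.card A : ℝ) + 10 * N)))
        ((univ : Finset I2).biUnion (fun i => univ.filter fun p : Equiv.Perm B =>
          ¬ (((univ.filter fun u => beta (p u) ∈ H i u).card : ℝ)
            < (Fintype.card B : ℝ) / N))))
    have h5 := Finset.card_biUnion_le (s := (univ : Finset I1))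
      (t := fun i => univ.filter fun p : Equiv.Perm B =>
          ¬ (((((C i).filter fun u => beta (p u) ∈ F i).card : ℝ)) ≤
          30 * ((C i).card * (F i).card) / (Fintype.card A : ℝ) + 10 * N))
    have h6 := Finset.card_biUnion_le (s := (univ : Finset I2))
      (t := fun i => univ.filter fun p : Equiv.Perm B =>
          ¬ (((univ.filter fun u => beta (p u) ∈ H i u).card : ℝ)
            < (Fintype.card B : ℝ) / N))
    rw [Finset.card_univ, Fintype.card_perm] at h2
    have h7 : ((Fintype.card B)! : ℝ) ≤ (((univ.filter fun p : Equiv.Perm B =>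
          2 * (2 * (∑ u, ∑ u', R u u') * (∑ a, ∑ a', e a a') / (Fintype.card A : ℝ) ^ 2) <
          ∑ u, ∑ u', R u u' * e (beta (p u)) (beta (p u')) - (Fintype.card B : ℝ)).card : ℕ) : ℝ)
        + (∑ i : I1, (((univ.filter fun p : Equiv.Perm B =>
          ¬ (((((C i).filter fun u => beta (p u) ∈ F i).card : ℝ)) ≤
          30 * ((C i).card * (F i).card) / (Fintype.card A : ℝ) + 10 * N)).card : ℕ) : ℝ) +
          ∑ i : I2, (((univ.filter fun p : Equiv.Perm B =>
          ¬ (((univ.filter fun u => beta (p u) ∈ H i u).card : ℝ)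
            < (Fintype.card B : ℝ) / N)).card : ℕ) : ℝ)) := by
      have h8 := h2.trans (h3.trans (Nat.add_le_add_left (h4.trans (Nat.add_le_add h5 h6)) _))
      have h9 := (Nat.cast_le (α := ℝ)).2 h8
      simpa only [Nat.cast_add, Nat.cast_sum] using h9
    have h8 : ∑ i : I1, (((univ.filter fun p : Equiv.Perm B =>
          ¬ (((((C i).filter fun u => beta (p u) ∈ F i).card : ℝ)) ≤
          30 * ((C i).card * (F i).card) / (Fintype.card A : ℝ) + 10 * N)).card : ℕ) : ℝ)
        ≤ ((Fintype.card B)! : ℝ) / 8 := by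
      refine (Finset.sum_le_sum fun i _ => hF2c i).trans ?_
      rw [Finset.sum_const, nsmul_eq_mul, Finset.card_univ]
      calc (Fintype.card I1 : ℝ) * (((Fintype.card B)! : ℝ) * Real.exp (-(4 * N)))
          ≤ Real.exp (4 * N) / 8 * (((Fintype.card B)! : ℝ) * Real.exp (-(4 * N))) :=
            mul_le_mul_of_nonneg_right hI1 (mul_nonneg hfac.le (Real.exp_pos _).le)
        _ = ((Fintype.card B)! : ℝ) / 8 * (Real.exp (4 * N) * Real.exp (-(4 * N))) := by ring
        _ = _ := by rw [← Real.exp_add, add_neg_cancel, Real.exp_zero, mul_one]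
    have h9 : ∑ i : I2, (((univ.filter fun p : Equiv.Perm B =>
          ¬ (((univ.filter fun u => beta (p u) ∈ H i u).card : ℝ)
            < (Fintype.card B : ℝ) / N)).card : ℕ) : ℝ)
        ≤ ((Fintype.card B)! : ℝ) / 8 := by
      refine (Finset.sum_le_sum fun i _ => hF3c i).trans ?_
      rw [Finset.sum_const, nsmul_eq_mul, Finset.card_univ]
      calc (Fintype.card I2 : ℝ) * (((Fintype.card B)! : ℝ) *
              Real.exp (-((Fintype.card B : ℝ) / N)))
          ≤ Real.exp ((Fintype.card B : ℝ) / N) / 8 * (((Fintype.card B)! : ℝ) *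
              Real.exp (-((Fintype.card B : ℝ) / N))) :=
            mul_le_mul_of_nonneg_right hI2 (mul_nonneg hfac.le (Real.exp_pos _).le)
        _ = ((Fintype.card B)! : ℝ) / 8 * (Real.exp ((Fintype.card B : ℝ) / N) *
              Real.exp (-((Fintype.card B : ℝ) / N))) := by ring
        _ = _ := by rw [← Real.exp_add, add_neg_cancel, Real.exp_zero, mul_one]
    linarith
  obtain ⟨p, hp1, hp2, hp3⟩ := hall
  refine ⟨fun u => beta (p u), ?_, ?_, hp2, hp3⟩
  · intro a
    rw [← hbal a]
    congr 1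
    apply Finset.card_bij (fun b _ => p b)
    · intro b hb
      simpa using hb
    · intro b _ b' _ h
      exact p.injective h
    · intro b hb
      refine ⟨p.symm b, ?_, by simp⟩
      simpa using hb
  · rw [not_lt] at hp1
    have : 2 * (2 * (∑ u, ∑ u', R u u') * (∑ a, ∑ a', e a a') / (Fintype.card A : ℝ) ^ 2)
      = 4 * (∑ u, ∑ u', R u u') * (∑ a, ∑ a', e a a') / (Fintype.card A : ℝ) ^ 2 := by ring
    rw [this] at hp1
    linarith

end One

end Crest.Agent.R133.Comb
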