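import Mathlib
import Crest.Agent.R133.CombDefs
import Crest.Agent.R133.CombBasic

/-!
Row 133 (S0182), section 3: the CONSEQUENCE of (B): `log Z_s(λ_s) ≤ 0.01 log K_s` (helper943),
and the ball bound `E_w log |{w' : ham ≤ k}| ≤ λ_s k + log Z_s(λ_s)`.
-/

set_option autoImplicit false

open Finset

namespace Crest.Agent.R133

theorem Z_zero (τ : Tau) : Z τ 0 (lam 0) = 1 + 1 / 512 := by
  have hlam : lam 0 = Real.log 512 := by
    have h512 : (512 : ℝ) = 2 ^ 9 := by norm_num
    simp only [lam, hh, KK, NN]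
    rw [h512, Real.log_pow]; push_cast; ring
  have hexp : Real.exp (-Real.log 512) = 1 / 512 := by
    rw [Real.exp_neg, Real.exp_log (by norm_num)]; norm_num
  have key : ∀ b b' : Bool, ham 1 (fun _ => b) (fun _ => b') = if b = b' then 0 else 1 := by
    intro b b'
    rw [ham_eq_sum]
    by_cases h : b = b' <;> simp [h]
  rw [hlam]
  have hZ : Z τ 0 (Real.log 512) = (1 / (2 : ℝ)) * ∑ w : Bool, ∑ w' : Bool,
      Real.exp (-(Real.log 512) * (ham 1 (fun _ => w) (fun _ => w') : ℝ)) := by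
    rfl
  rw [hZ]
  simp only [Fintype.sum_bool, key]
  simp [hexp]
  norm_num

theorem logKK_zero : Real.log ((KK 0 : ℕ) : ℝ) = Real.log 2 := by simp [KK]

/-- power mean inequality with consecutive exponents. -/
theorem powmean {ι : Type*} (s : Finset ι) (hs : s.Nonempty) (y : ι → ℝ) (hy : ∀ i ∈ s, 0 ≤ y i)
    (n : ℕ) (hn : 1 ≤ n) :
    ((∑ i ∈ s, y i ^ n) / s.card) ^ (n + 1) ≤ ((∑ i ∈ s, y i ^ (n + 1)) / s.card) ^ n := by
  have hc : (0 : ℝ) < s.card := by exact_mod_cast hs.card_pos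
  have hn0 : (0 : ℝ) < n := by exact_mod_cast hn
  have hp : (1 : ℝ) ≤ (n + 1 : ℝ) / n := by
    rw [le_div_iff₀ hn0]; linarith
  have h := Real.rpow_arith_mean_le_arith_mean_rpow s (fun _ => 1 / (s.card : ℝ))
    (fun i => y i ^ n) (fun i _ => by positivity) (by
      rw [Finset.sum_const, nsmul_eq_mul]; field_simp) (fun i hi => pow_nonneg (hy i hi) n) hp
  have e1 : ∑ i ∈ s, (1 / (s.card : ℝ)) * (y i ^ n) = (∑ i ∈ s, y i ^ n) / s.card := by
    rw [← Finset.mul_sum]; ring
  have e2 : ∑ i ∈ s, (1 / (s.card : ℝ)) * ((y i ^ n) ^ ((n + 1 : ℝ) / n))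
      = (∑ i ∈ s, y i ^ (n + 1)) / s.card := by
    rw [← Finset.mul_sum, one_div, inv_mul_eq_div]
    congr 1
    apply Finset.sum_congr rfl
    intro i hi
    rw [← Real.rpow_natCast (y i) n, ← Real.rpow_mul (hy i hi)]
    rw [mul_div_cancel₀ _ hn0.ne']
    exact_mod_cast Real.rpow_natCast (y i) (n + 1)
  rw [e1, e2] at h
  have hA : 0 ≤ (∑ i ∈ s, y i ^ n) / (s.card : ℝ) :=
    div_nonneg (Finset.sum_nonneg (fun i hi => pow_nonneg (hy i hi) n)) hc.le
  have h2 := pow_le_pow_left₀ (Real.rpow_nonneg hA _) h n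
  refine le_trans (le_of_eq ?_) h2
  rw [← Real.rpow_natCast _ n, ← Real.rpow_mul hA, div_mul_cancel₀ _ hn0.ne']
  exact_mod_cast (Real.rpow_natCast _ (n + 1)).symm

theorem hh_succ (s : ℕ) : hh (s + 1) * (mm s : ℝ) = ((mm s - 1 : ℕ) : ℝ) * hh s := by
  have hN : (NN s : ℝ) ≠ 0 := by exact_mod_cast (NN_pos s).ne'
  have hm : (mm s : ℝ) ≠ 0 := by exact_mod_cast (mm_pos s).ne'
  unfold hh
  rw [KK_succ, NN_succ]
  push_cast
  rw [Real.log_pow]
  field_simp

theorem logKK_succ (s : ℕ) :
    Real.log (KK (s + 1)) = ((mm s - 1 : ℕ) : ℝ) * Real.log (KK s) := by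
  rw [KK_succ]; push_cast; rw [Real.log_pow]

attribute [local irreducible] NN KK mm nn

/-- Hölder: `Z_s(λ_{s+1})^m ≤ Z_s(λ_s)^{m-1} K_s`. -/
theorem Z_holder (τ : Tau) (s : ℕ) :
    Z τ s (lam (s + 1)) ^ (mm s) ≤ Z τ s (lam s) ^ (mm s - 1) * KK s := by
  have hm := mm_ge s
  have hK : (0 : ℝ) < KK s := by exact_mod_cast KK_pos s
  have hmpos : (0 : ℝ) < mm s := by exact_mod_cast mm_pos s
  obtain ⟨n, hn⟩ : ∃ n, mm s = n + 1 := ⟨mm s - 1, by omega⟩
  have hn1 : mm s - 1 = n := by omega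
  let y : W s × W s → ℝ := fun p =>
    Real.exp (-(lam s / mm s) * (ham (NN s) (nm τ s p.1) (nm τ s p.2) : ℝ))
  have hy : ∀ p ∈ (univ : Finset (W s × W s)), 0 ≤ y p := fun p _ => (Real.exp_pos _).le
  have h := powmean (univ : Finset (W s × W s)) ⟨(default, default), mem_univ _⟩ y hy n (by omega)
  have hcard : ((univ : Finset (W s × W s)).card : ℝ) = (KK s : ℝ) * KK s := by
    rw [card_univ, Fintype.card_prod, card_W]; push_cast; ring
  have e1 : (∑ p ∈ (univ : Finset (W s × W s)), y p ^ n) / ((univ : Finset (W s × W s)).card : ℝ)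
      = Z τ s (lam (s + 1)) / KK s := by
    rw [hcard, Z, ← Finset.univ_product_univ, Finset.sum_product]
    have : ∀ w w' : W s, y (w, w') ^ n
        = Real.exp (-(lam (s + 1)) * (ham (NN s) (nm τ s w) (nm τ s w') : ℝ)) := by
      intro w w'
      simp only [y]
      rw [← Real.exp_nat_mul]
      congr 1
      have h1 := hh_succ s
      rw [hn1] at h1
      unfold lam
      have h2 : hh (s + 1) = (n : ℝ) * hh s / mm s := by
        rw [eq_div_iff hmpos.ne']; exact h1
      rw [h2]; ring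
    simp only [this]
    rw [one_div, inv_mul_eq_div, div_div]
  have e2 : (∑ p ∈ (univ : Finset (W s × W s)), y p ^ (n + 1)) / ((univ : Finset (W s × W s)).card : ℝ)
      = Z τ s (lam s) / KK s := by
    rw [hcard, Z, ← Finset.univ_product_univ, Finset.sum_product]
    have : ∀ w w' : W s, y (w, w') ^ (n + 1)
        = Real.exp (-(lam s) * (ham (NN s) (nm τ s w) (nm τ s w') : ℝ)) := by
      intro w w'
      simp only [y]
      rw [← Real.exp_nat_mul]
      congr 1
      have : ((n + 1 : ℕ) : ℝ) = mm s := by rw [hn]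
      rw [this]
      field_simp
    simp only [this]
    rw [one_div, inv_mul_eq_div, div_div]
  rw [e1, e2, div_pow, div_pow] at h
  rw [hn1, hn]
  rw [div_le_div_iff₀ (by positivity) (by positivity)] at h
  have h3 : Z τ s (lam (s + 1)) ^ (n + 1) * (KK s : ℝ) ^ n
      ≤ (Z τ s (lam s) ^ n * KK s) * (KK s : ℝ) ^ n := by
    calc _ ≤ _ := h
      _ = _ := by ring
  exact le_of_mul_le_mul_right h3 (by positivity)

/-- CONSEQUENCE of (B). -/
theorem stZeta : StZeta := by
  intro τ hB
  have hmain : ∀ s, Real.log (Z τ s (lam s)) ≤ 0.01 * Real.log (KK s) - 0.002 := by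
    intro s
    induction s with
    | zero =>
      rw [Z_zero]
      have h1 : Real.log (1 + 1 / 512 : ℝ) ≤ 1 / 512 := by
        have := Real.log_le_sub_one_of_pos (show (0 : ℝ) < 1 + 1 / 512 by norm_num)
        linarith
      have h2 : (0.6931471803 : ℝ) < Real.log 2 := Real.log_two_gt_d9
      rw [logKK_zero]
      norm_num at h1 ⊢
      linarith
    | succ s ih =>
      have hm := mm_ge s
      have hK : (0 : ℝ) < KK s := by exact_mod_cast KK_pos s
      have hZ1 : 1 ≤ Z τ s (lam s) := Z_ge_one τ s _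
      have hZ2 : 1 ≤ Z τ (s + 1) (lam (s + 1)) := Z_ge_one τ (s + 1) _
      have h1 : Z τ (s + 1) (lam (s + 1)) ≤ 5 * Z τ s (lam s) ^ (mm s - 1) := by
        have h2 : 4 * Z τ s (lam (s + 1)) ^ (mm s) / KK s ≤ 4 * Z τ s (lam s) ^ (mm s - 1) := by
          rw [div_le_iff₀ hK]
          have := Z_holder τ s
          nlinarith
        have h3 : (1 : ℝ) ≤ Z τ s (lam s) ^ (mm s - 1) := one_le_pow₀ hZ1
        have := hB s
        linarith
      have h4 : Real.log (Z τ (s + 1) (lam (s + 1)))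
          ≤ Real.log 5 + ((mm s - 1 : ℕ) : ℝ) * Real.log (Z τ s (lam s)) := by
        have h5 := Real.log_le_log (by linarith) h1
        rw [Real.log_mul (by norm_num) (by positivity), Real.log_pow] at h5
        exact h5
      have h6 : Real.log 5 ≤ 2 := by
        have : Real.log 5 ≤ Real.log (Real.exp 1 ^ 2) := by
          apply Real.log_le_log (by norm_num)
          have := Real.exp_one_gt_d9
          nlinarith
        rwa [Real.log_pow, Real.log_exp, mul_one] at this
      have h7 : (1599 : ℝ) ≤ ((mm s - 1 : ℕ) : ℝ) := by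
        exact_mod_cast (by omega : 1599 ≤ mm s - 1)
      rw [logKK_succ]
      have h8 : ((mm s - 1 : ℕ) : ℝ) * Real.log (Z τ s (lam s))
          ≤ ((mm s - 1 : ℕ) : ℝ) * (0.01 * Real.log (KK s) - 0.002) :=
        mul_le_mul_of_nonneg_left ih (by linarith)
      nlinarith
  intro s
  have := hmain s
  linarith

open Classical in
/-- the ball bound: `E_w log |{w' : ham(w,w') ≤ k}| ≤ l k + log Z_s(l)` (here `k` real). -/
theorem ball_bound (τ : Tau) (s : ℕ) (l : ℝ) (hl : 0 ≤ l) (k : ℝ) (hk : 0 ≤ k) :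
    (1 / (KK s : ℝ)) * ∑ w : W s, Real.log
        ((univ.filter (fun w' : W s => (ham (NN s) (nm τ s w) (nm τ s w') : ℝ) ≤ k)).card : ℝ)
      ≤ l * k + Real.log (Z τ s l) := by
  have hK : (0 : ℝ) < KK s := by exact_mod_cast KK_pos s
  set Q : W s → ℝ := fun w => ∑ w' : W s,
    Real.exp (-l * (ham (NN s) (nm τ s w) (nm τ s w') : ℝ)) with hQ
  have hQpos : ∀ w, 0 < Q w := fun w =>
    Finset.sum_pos (fun _ _ => Real.exp_pos _) ⟨w, mem_univ _⟩
  have hQ1 : ∀ w, 1 ≤ Q w := by
    intro w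
    have : Real.exp (-l * (ham (NN s) (nm τ s w) (nm τ s w) : ℝ)) ≤ Q w :=
      Finset.single_le_sum (f := fun w' => Real.exp (-l * (ham (NN s) (nm τ s w) (nm τ s w') : ℝ)))
        (fun i _ => (Real.exp_pos _).le) (mem_univ w)
    rw [ham_self] at this
    simpa using this
  have hball : ∀ w, ((univ.filter (fun w' : W s => (ham (NN s) (nm τ s w) (nm τ s w') : ℝ) ≤ k)).card : ℝ)
      ≤ Real.exp (l * k) * Q w := by
    intro w
    rw [hQ, Finset.mul_sum]
    calc ((univ.filter (fun w' : W s => (ham (NN s) (nm τ s w) (nm τ s w') : ℝ) ≤ k)).card : ℝ)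
        = ∑ w' ∈ univ.filter (fun w' : W s => (ham (NN s) (nm τ s w) (nm τ s w') : ℝ) ≤ k), (1 : ℝ) := by
          simp
      _ ≤ ∑ w' ∈ univ.filter (fun w' : W s => (ham (NN s) (nm τ s w) (nm τ s w') : ℝ) ≤ k),
          Real.exp (l * k) * Real.exp (-l * (ham (NN s) (nm τ s w) (nm τ s w') : ℝ)) := by
          apply Finset.sum_le_sum
          intro w' hw'
          rw [mem_filter] at hw'
          rw [← Real.exp_add]
          apply Real.one_le_exp
          nlinarith [hw'.2]
      _ ≤ _ := by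
          apply Finset.sum_le_sum_of_subset_of_nonneg (filter_subset _ _)
          intro i _ _
          positivity
  -- log of the ball
  have hlog : ∀ w, Real.log ((univ.filter (fun w' : W s =>
      (ham (NN s) (nm τ s w) (nm τ s w') : ℝ) ≤ k)).card : ℝ) ≤ l * k + Real.log (Q w) ∨
      ((univ.filter (fun w' : W s => (ham (NN s) (nm τ s w) (nm τ s w') : ℝ) ≤ k)).card = 0) := by
    intro w
    rcases Nat.eq_zero_or_pos (univ.filter (fun w' : W s =>
      (ham (NN s) (nm τ s w) (nm τ s w') : ℝ) ≤ k)).card with h | h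
    · right; exact h
    · left
      have h1 := Real.log_le_log (by exact_mod_cast h) (hball w)
      rwa [Real.log_mul (Real.exp_pos _).ne' (hQpos w).ne', Real.log_exp] at h1
  -- Jensen
  have hJ : (1 / (KK s : ℝ)) * ∑ w : W s, Real.log (Q w) ≤ Real.log (Z τ s l) := by
    have hconc := (strictConcaveOn_log_Ioi.concaveOn).le_map_sum (t := (univ : Finset (W s)))
      (w := fun _ => 1 / (KK s : ℝ)) (p := Q) (fun i _ => by positivity) (by
        rw [Finset.sum_const, card_univ, card_W, nsmul_eq_mul]; field_simp)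
      (fun i _ => hQpos i)
    simp only [smul_eq_mul] at hconc
    rw [← Finset.mul_sum, ← Finset.mul_sum] at hconc
    exact hconc
  have hself : ∀ w, (univ.filter (fun w' : W s =>
      (ham (NN s) (nm τ s w) (nm τ s w') : ℝ) ≤ k)).card ≠ 0 := by
    intro w
    apply Finset.card_ne_zero_of_mem (a := w)
    simp [ham_self, hk]
  calc (1 / (KK s : ℝ)) * (∑ w : W s, Real.log
          ((univ.filter (fun w' : W s => (ham (NN s) (nm τ s w) (nm τ s w') : ℝ) ≤ k)).card : ℝ))
      ≤ (1 / (KK s : ℝ)) * ∑ w : W s, (l * k + Real.log (Q w)) := by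
        apply mul_le_mul_of_nonneg_left _ (by positivity)
        apply Finset.sum_le_sum
        intro w _
        rcases hlog w with h | h
        · exact h
        · exact absurd h (hself w)
    _ = l * k + (1 / (KK s : ℝ)) * ∑ w : W s, Real.log (Q w) := by
        rw [Finset.sum_add_distrib, Finset.sum_const, card_univ, card_W, nsmul_eq_mul]
        field_simp
    _ ≤ _ := by linarith

end Crest.Agent.R133
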