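import Mathlib
import Crest.Prelude.Def_SmoothModel

/-!
Row 133 (S0182), node TA3 : zero entropy from towers (helper148).
Abstract Gibbs-inequality estimate + the counting of names in a tower system.
-/

set_option autoImplicit false
open MeasureTheory Filter Topology
open Crest.AnalysisR

namespace Crest.Agent.R133.Ent

/-- Gibbs inequality, one term. -/
lemma negMulLog_le {p q : ℝ} (hp : 0 ≤ p) (hq : 0 < q) :
    Real.negMulLog p ≤ p * (-Real.log q) + (q - p) := by
  rcases hp.eq_or_lt with h0 | h0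
  · subst h0
    simp [Real.negMulLog]
    exact hq.le
  · have h1 : Real.log (q / p) ≤ q / p - 1 := Real.log_le_sub_one_of_pos (by positivity)
    rw [Real.log_div hq.ne' h0.ne'] at h1
    have h2 : p * (Real.log q - Real.log p) ≤ p * (q / p - 1) :=
      mul_le_mul_of_nonneg_left h1 h0.le
    have h3 : p * (q / p - 1) = q - p := by field_simp
    rw [h3] at h2
    simp only [Real.negMulLog]
    nlinarith

/-- The channel. -/
noncomputable def kap (m : ℕ) (ε : ℝ) (a b : Fin m) : ℝ := (if a = b then 1 - ε else 0) + ε / m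

lemma kap_pos {m : ℕ} {ε : ℝ} (hm : 0 < m) (h0 : 0 < ε) (h1 : ε < 1) (a b : Fin m) :
    0 < kap m ε a b := by
  have : (0:ℝ) < m := by exact_mod_cast hm
  unfold kap
  split_ifs
  · have : 0 < ε / m := by positivity
    linarith
  · simp; positivity

lemma kap_sum {m : ℕ} {ε : ℝ} (hm : 0 < m) (a : Fin m) : ∑ b, kap m ε a b = 1 := by
  have : (0:ℝ) < m := by exact_mod_cast hm
  unfold kap
  rw [Finset.sum_add_distrib]
  simp
  field_simp
  ring

lemma neg_log_kap_le {m : ℕ} {ε : ℝ} (hm : 0 < m) (h0 : 0 < ε) (h1 : ε < 1) (a b : Fin m) :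
    -Real.log (kap m ε a b) ≤ -Real.log (1 - ε) + (if a = b then 0 else Real.log (m / ε)) := by
  have hm' : (1:ℝ) ≤ m := by exact_mod_cast hm
  have hm0 : (0:ℝ) < m := by linarith
  have he : 0 < ε / m := by positivity
  have hl : 0 ≤ -Real.log (1 - ε) := by
    have := Real.log_nonpos (x := 1 - ε) (by linarith) (by linarith)
    linarith
  unfold kap
  split_ifs with h
  · have : Real.log (1 - ε) ≤ Real.log (1 - ε + ε / m) := Real.log_le_log (by linarith) (by linarith)
    linarith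
  · rw [zero_add, Real.log_div h0.ne' hm0.ne', Real.log_div hm0.ne' h0.ne']
    linarith

theorem labelEntropy_le {X : Type*} [MeasurableSpace X] (μ : Measure X) [IsProbabilityMeasure μ]
    {m n : ℕ} (hm : 0 < m) (Y Y' : X → Fin n → Fin m) (hY : Measurable Y)
    (hY' : Measurable Y') (S : Finset (Fin n → Fin m)) (hS : ∀ᵐ x ∂μ, Y' x ∈ S)
    {ε δ : ℝ} (h0 : 0 < ε) (h1 : ε < 1) (hδ : ∀ j, μ.real {x | Y' x j ≠ Y x j} ≤ δ) :
    labelEntropy μ Y ≤ Real.log S.card + n * (-Real.log (1 - ε)) + n * δ * Real.log (m / ε) := by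
  classical
  have hm' : (1:ℝ) ≤ m := by exact_mod_cast hm
  have hSne : S.Nonempty := by
    obtain ⟨x, hx⟩ := hS.exists
    exact ⟨_, hx⟩
  have hSc : (0:ℝ) < S.card := by exact_mod_cast hSne.card_pos
  set q : (Fin n → Fin m) → ℝ := fun y => ∑ y' ∈ S, (1 / (S.card : ℝ)) * ∏ j, kap m ε (y' j) (y j)
    with hq
  have hqpos : ∀ y, 0 < q y := by
    intro y
    refine Finset.sum_pos (fun y' _ => ?_) hSne
    have : 0 < ∏ j, kap m ε (y' j) (y j) := Finset.prod_pos (fun j _ => kap_pos hm h0 h1 _ _)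
    positivity
  have hqsum : ∑ y, q y = 1 := by
    simp only [hq]
    rw [Finset.sum_comm]
    have : ∀ y' ∈ S, ∑ y : Fin n → Fin m, (1 / (S.card : ℝ)) * ∏ j, kap m ε (y' j) (y j)
        = 1 / (S.card : ℝ) := by
      intro y' _
      rw [← Finset.mul_sum]
      have h2 := Finset.prod_univ_sum (fun _ : Fin n => (Finset.univ : Finset (Fin m)))
        (fun j b => kap m ε (y' j) b)
      rw [Fintype.piFinset_univ] at h2
      rw [← h2]
      simp [kap_sum hm]
    rw [Finset.sum_congr rfl this]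
    simp
    field_simp
  have hqlow : ∀ y y', y' ∈ S → -Real.log (q y) ≤ Real.log S.card +
      ∑ j, (-Real.log (1 - ε) + (if y' j = y j then 0 else Real.log (m / ε))) := by
    intro y y' hy'
    have h2 : (1 / (S.card : ℝ)) * ∏ j, kap m ε (y' j) (y j) ≤ q y := by
      refine Finset.single_le_sum (f := fun y' => (1 / (S.card : ℝ)) * ∏ j, kap m ε (y' j) (y j))
        (fun z _ => ?_) hy'
      have : 0 < ∏ j, kap m ε (z j) (y j) := Finset.prod_pos (fun j _ => kap_pos hm h0 h1 _ _)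
      positivity
    have h3 : 0 < ∏ j, kap m ε (y' j) (y j) := Finset.prod_pos (fun j _ => kap_pos hm h0 h1 _ _)
    have h4 : Real.log ((1 / (S.card : ℝ)) * ∏ j, kap m ε (y' j) (y j)) ≤ Real.log (q y) :=
      Real.log_le_log (by positivity) h2
    rw [Real.log_mul (by positivity) h3.ne', Real.log_prod (fun j _ => (kap_pos hm h0 h1 _ _).ne'),
      one_div, Real.log_inv] at h4
    have h5 : ∑ j, -Real.log (kap m ε (y' j) (y j)) ≤
        ∑ j, (-Real.log (1 - ε) + (if y' j = y j then 0 else Real.log (m / ε))) :=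
      Finset.sum_le_sum (fun j _ => neg_log_kap_le hm h0 h1 _ _)
    rw [Finset.sum_neg_distrib] at h5
    linarith
  -- Gibbs
  have hpsum : ∑ y, μ.real (Y ⁻¹' {y}) = 1 := by
    have : ∑ y, μ.real (Y ⁻¹' {y}) = ∑ y, (μ.map Y).real {y} := by
      refine Finset.sum_congr rfl (fun y _ => ?_)
      rw [map_measureReal_apply hY (measurableSet_singleton _)]
    rw [this]
    have : IsProbabilityMeasure (μ.map Y) := Measure.isProbabilityMeasure_map hY.aemeasurable
    rw [sum_measureReal_singleton]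
    simp
  have hG : labelEntropy μ Y ≤ ∑ y, μ.real (Y ⁻¹' {y}) * (-Real.log (q y)) := by
    have : labelEntropy μ Y ≤ ∑ y, (μ.real (Y ⁻¹' {y}) * (-Real.log (q y))
        + (q y - μ.real (Y ⁻¹' {y}))) :=
      Finset.sum_le_sum (fun y _ => negMulLog_le ENNReal.toReal_nonneg (hqpos y))
    rw [Finset.sum_add_distrib, Finset.sum_sub_distrib, hqsum, hpsum] at this
    linarith
  have hint : ∑ y, μ.real (Y ⁻¹' {y}) * (-Real.log (q y)) = ∫ x, -Real.log (q (Y x)) ∂μ := by
    have : IsProbabilityMeasure (μ.map Y) := Measure.isProbabilityMeasure_map hY.aemeasurable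
    rw [← integral_map (φ := Y) (f := fun y => -Real.log (q y)) hY.aemeasurable
      (measurable_of_countable _).aestronglyMeasurable]
    rw [integral_fintype Integrable.of_finite]
    refine Finset.sum_congr rfl (fun y _ => ?_)
    rw [map_measureReal_apply hY (measurableSet_singleton _), smul_eq_mul]
  rw [hint] at hG
  refine hG.trans ?_
  have hmeasD : ∀ j, MeasurableSet {x | Y' x j ≠ Y x j} := by
    intro j
    have h2 : Measurable fun x => Y' x j := (measurable_pi_apply j).comp hY'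
    have h3 : Measurable fun x => Y x j := (measurable_pi_apply j).comp hY
    exact (measurableSet_eq_fun h2 h3).compl
  have hintg : ∀ j, Integrable (fun x => if Y' x j = Y x j then 0 else Real.log (m / ε)) μ := by
    intro j
    have : (fun x => if Y' x j = Y x j then 0 else Real.log (m / ε)) =
        Set.indicator {x | Y' x j ≠ Y x j} (fun _ => Real.log (m / ε)) := by
      ext x
      by_cases h : Y' x j = Y x j <;> simp [h]
    rw [this]
    exact (integrable_const _).indicator (hmeasD j)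
  have hval : ∀ j, ∫ x, (if Y' x j = Y x j then 0 else Real.log (m / ε)) ∂μ =
      μ.real {x | Y' x j ≠ Y x j} * Real.log (m / ε) := by
    intro j
    have : (fun x => if Y' x j = Y x j then 0 else Real.log (m / ε)) =
        Set.indicator {x | Y' x j ≠ Y x j} (fun _ => Real.log (m / ε)) := by
      ext x
      by_cases h : Y' x j = Y x j <;> simp [h]
    rw [this, integral_indicator (hmeasD j)]
    simp
  have hmono : ∫ x, -Real.log (q (Y x)) ∂μ ≤ ∫ x, (Real.log S.card +
      ∑ j, (-Real.log (1 - ε) + (if Y' x j = Y x j then 0 else Real.log (m / ε)))) ∂μ := by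
    refine integral_mono_ae ?_ ?_ ?_
    · have : IsProbabilityMeasure (μ.map Y) := Measure.isProbabilityMeasure_map hY.aemeasurable
      have h2 : Integrable (fun y => -Real.log (q y)) (μ.map Y) := Integrable.of_finite
      exact h2.comp_measurable hY
    · refine (integrable_const _).add (integrable_finsetSum _ (fun j _ => ?_))
      exact (integrable_const _).add (hintg j)
    · filter_upwards [hS] with x hx
      exact hqlow _ _ hx
  refine hmono.trans ?_
  have hi1 : ∀ j, Integrable (fun x => -Real.log (1 - ε) +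
      (if Y' x j = Y x j then 0 else Real.log (m / ε))) μ :=
    fun j => (integrable_const _).add (hintg j)
  have hi2 : Integrable (fun x => ∑ j, (-Real.log (1 - ε) +
      (if Y' x j = Y x j then 0 else Real.log (m / ε)))) μ :=
    integrable_finsetSum _ (fun j _ => hi1 j)
  rw [integral_add (integrable_const _) hi2, integral_finsetSum _ (fun j _ => hi1 j)]
  have h7 : ∀ j ∈ (Finset.univ : Finset (Fin n)), ∫ x, (-Real.log (1 - ε) +
      (if Y' x j = Y x j then 0 else Real.log (m / ε))) ∂μ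
      ≤ -Real.log (1 - ε) + δ * Real.log (m / ε) := by
    intro j _
    rw [integral_add (integrable_const _) (hintg j), hval j]
    have hl : 0 ≤ Real.log (m / ε) := by
      apply Real.log_nonneg
      rw [le_div_iff₀ h0]
      linarith
    have := mul_le_mul_of_nonneg_right (hδ j) hl
    simp only [integral_const, probReal_univ, smul_eq_mul, one_mul]
    linarith
  have h6 := Finset.sum_le_sum h7
  simp only [Finset.sum_const, Finset.card_univ, Fintype.card_fin, nsmul_eq_mul] at h6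
  simp only [integral_const, probReal_univ, smul_eq_mul, one_mul]
  nlinarith

/-- Zero entropy from approximation by partitions with few names. -/
theorem hasZeroEntropy_of_approx {X : Type*} [MeasurableSpace X] (μ : Measure X)
    [IsProbabilityMeasure μ] (T : X → X) (hT : MeasurePreserving T μ μ)
    (H : ∀ (m : ℕ) (P : X → Fin m), Measurable P → ∀ δ : ℝ, 0 < δ →
      ∃ P' : X → Fin m, Measurable P' ∧ μ.real {x | P' x ≠ P x} ≤ δ ∧
        ∀ η : ℝ, 0 < η → ∀ᶠ n : ℕ in atTop, ∃ S : Finset (Fin n → Fin m),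
          (∀ᵐ x ∂μ, (fun j : Fin n => P' (T^[(j:ℕ)] x)) ∈ S) ∧ Real.log S.card ≤ η * n) :
    HasZeroEntropy μ T := by
  intro m P hP
  have hm : 0 < m := by
    rcases Nat.eq_zero_or_pos m with h | h
    · subst h
      obtain ⟨x⟩ := (inferInstance : NeZero μ) |>.out |> (fun h => by
        by_contra hne
        rw [not_nonempty_iff] at hne
        exact h (Measure.eq_zero_of_isEmpty μ) : μ ≠ 0 → Nonempty X)
      exact (P x).elim0
    · exact h
  have hm' : (1:ℝ) ≤ m := by exact_mod_cast hm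
  rw [Metric.tendsto_atTop]
  intro γ hγ
  -- choose ε
  obtain ⟨ε, h0, h1, hε⟩ : ∃ ε : ℝ, 0 < ε ∧ ε < 1 ∧ -Real.log (1 - ε) ≤ γ / 4 := by
    refine ⟨1 - Real.exp (-(γ/4)), ?_, ?_, ?_⟩
    · have := Real.exp_lt_exp.2 (show -(γ/4) < 0 by linarith)
      rw [Real.exp_zero] at this
      linarith
    · have := Real.exp_pos (-(γ/4))
      linarith
    · simp
  have hl : 0 ≤ Real.log (m / ε) := by
    apply Real.log_nonneg
    rw [le_div_iff₀ h0]
    linarith
  obtain ⟨P', hP', hd, hS⟩ := H m P hP (γ / 4 / (1 + Real.log (m / ε))) (by positivity)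
  have hd' : γ / 4 / (1 + Real.log (m / ε)) * Real.log (m / ε) ≤ γ / 4 := by
    rw [div_mul_eq_mul_div, div_le_iff₀ (by positivity)]
    nlinarith
  obtain ⟨n0, hn0⟩ := eventually_atTop.1 (hS (γ/8) (by positivity))
  refine ⟨max n0 1, fun n hn => ?_⟩
  have hn1 : 1 ≤ n := le_trans (le_max_right _ _) hn
  have hn1' : (0:ℝ) < n := by exact_mod_cast hn1
  obtain ⟨S, hS1, hS2⟩ := hn0 n (le_trans (le_max_left _ _) hn)
  have hYm : ∀ Q : X → Fin m, Measurable Q →
      Measurable (fun x : X => fun j : Fin n => Q (T^[(j : ℕ)] x)) := by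
    intro Q hQ
    exact measurable_pi_lambda _ (fun j => hQ.comp (hT.measurable.iterate _))
  have hb := labelEntropy_le μ hm (fun x : X => fun j : Fin n => P (T^[(j : ℕ)] x))
    (fun x : X => fun j : Fin n => P' (T^[(j : ℕ)] x)) (hYm P hP) (hYm P' hP') S hS1 h0 h1
    (δ := γ / 4 / (1 + Real.log (m / ε))) (by
      intro j
      have hms : MeasurableSet {x | P' x ≠ P x} := (measurableSet_eq_fun hP' hP).compl
      have := (hT.iterate (j:ℕ)).measure_preimage hms.nullMeasurableSet
      have h2 : μ.real {x | P' (T^[(j:ℕ)] x) ≠ P (T^[(j:ℕ)] x)} = μ.real {x | P' x ≠ P x} := by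
        simp only [Measure.real]
        congr 1
      rw [h2]
      exact hd)
  have hnn : 0 ≤ labelEntropy μ (fun x : X => fun j : Fin n => P (T^[(j : ℕ)] x)) := by
    refine Finset.sum_nonneg (fun y _ => Real.negMulLog_nonneg ENNReal.toReal_nonneg ?_)
    have := prob_le_one (μ := μ) (s := (fun x : X => fun j : Fin n => P (T^[(j : ℕ)] x)) ⁻¹' {y})
    exact ENNReal.toReal_le_of_le_ofReal zero_le_one (by simpa using this)
  rw [Real.dist_eq, sub_zero, abs_of_nonneg (div_nonneg hnn hn1'.le), div_lt_iff₀ hn1']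
  calc _ ≤ _ := hb
    _ ≤ γ/8 * n + n * (γ/4) + n * (γ/4) := by
        have e1 := mul_le_mul_of_nonneg_left hε hn1'.le
        have e2 := mul_le_mul_of_nonneg_left hd' hn1'.le
        nlinarith
    _ < γ * n := by nlinarith

/-- Counting of names: along an orbit segment the names are determined by `φ` and the words. -/
theorem name_decode {X V : Type*} (T : X → X) (w : X → V) (φ : X → ℕ) {N : ℕ} (hN : 1 ≤ N) (x : X)
    (hlt : ∀ j, φ (T^[j] x) < N)
    (T2a : ∀ j, φ (T^[j] x) + 1 < N → φ (T (T^[j] x)) = φ (T^[j] x) + 1 ∧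
      w (T (T^[j] x)) = w (T^[j] x))
    (T2b : ∀ j, φ (T^[j] x) + 1 = N → φ (T (T^[j] x)) = 0) (j : ℕ) :
    φ (T^[j] x) = (φ x + j) % N ∧ w (T^[j] x) = w (T^[((φ x + j) / N) * N - φ x] x) := by
  induction j with
  | zero =>
    have h := hlt 0
    simp only [Function.iterate_zero, id] at h
    simp [Nat.mod_eq_of_lt h, Nat.div_eq_of_lt h]
  | succ j ih =>
    obtain ⟨ih1, ih2⟩ := ih
    have hNpos : 0 < N := hN
    rw [Function.iterate_succ_apply']
    by_cases h : φ (T^[j] x) + 1 < N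
    · obtain ⟨h1, h2⟩ := T2a j h
      rw [h1, h2, ih2, ih1]
      rw [ih1] at h
      have e1 : (φ x + (j+1)) % N = (φ x + j) % N + 1 := by
        rw [← add_assoc, Nat.add_mod]
        rcases Nat.lt_or_ge 1 N with h3 | h3
        · rw [Nat.mod_eq_of_lt h3, Nat.mod_eq_of_lt h]
        · omega
      have e2 : (φ x + (j+1)) / N = (φ x + j) / N := by
        have a1 := Nat.div_add_mod (φ x + (j+1)) N
        have a2 := Nat.div_add_mod (φ x + j) N
        have : N * ((φ x + (j+1)) / N) = N * ((φ x + j) / N) := by omega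
        exact Nat.eq_of_mul_eq_mul_left hNpos this
      rw [e1, e2]
      exact ⟨rfl, rfl⟩
    · have h' : φ (T^[j] x) + 1 = N := by
        have := hlt j
        omega
      have h1 := T2b j h'
      rw [h1]
      rw [ih1] at h'
      have a2 := Nat.div_add_mod (φ x + j) N
      have e0 : φ x + (j+1) = N * ((φ x + j) / N + 1) := by
        rw [mul_add, mul_one]; omega
      rw [e0, Nat.mul_mod_right, Nat.mul_div_cancel_left _ hNpos]
      refine ⟨rfl, ?_⟩
      have e3 : ((φ x + j) / N + 1) * N - φ x = j + 1 := by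
        rw [mul_comm, ← e0]; omega
      rw [e3, Function.iterate_succ_apply']

/-- The set of names has at most `N * K^(n/N+2)` elements. -/
theorem exists_names {X V : Type*} [Fintype V] [MeasurableSpace X] (μ : Measure X) (T : X → X)
    (hT : MeasurePreserving T μ μ) (w : X → V) (φ : X → ℕ) {N : ℕ} (hN : 1 ≤ N)
    (hlt : ∀ᵐ x ∂μ, φ x < N)
    (T2a : ∀ᵐ x ∂μ, φ x + 1 < N → φ (T x) = φ x + 1 ∧ w (T x) = w x)
    (T2b : ∀ᵐ x ∂μ, φ x + 1 = N → φ (T x) = 0)
    {m : ℕ} (P' : X → Fin m) (G : V × ℕ → Fin m) (hG : ∀ᵐ x ∂μ, P' x = G (w x, φ x)) (n : ℕ) :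
    ∃ S : Finset (Fin n → Fin m), (∀ᵐ x ∂μ, (fun j : Fin n => P' (T^[(j:ℕ)] x)) ∈ S) ∧
      S.card ≤ N * (Fintype.card V) ^ (n / N + 2) := by
  classical
  have hNpos : 0 < N := hN
  have hidx : ∀ (p : Fin N) (j : Fin n), ((p:ℕ) + j) / N < n / N + 2 := by
    intro p j
    have hp := p.2
    have hj := j.2
    have : ((p:ℕ) + j) / N ≤ (n + N) / N := Nat.div_le_div_right (by omega)
    rw [Nat.add_div_right _ hNpos] at this
    omega
  let dec : Fin N × (Fin (n / N + 2) → V) → (Fin n → Fin m) :=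
    fun z j => G (z.2 ⟨((z.1:ℕ) + j) / N, hidx z.1 j⟩, ((z.1:ℕ) + j) % N)
  refine ⟨Finset.univ.image dec, ?_, ?_⟩
  · have a1 : ∀ᵐ x ∂μ, ∀ j : ℕ, φ (T^[j] x) < N :=
      ae_all_iff.2 (fun j => (hT.iterate j).quasiMeasurePreserving.ae hlt)
    have a2 : ∀ᵐ x ∂μ, ∀ j : ℕ, φ (T^[j] x) + 1 < N → φ (T (T^[j] x)) = φ (T^[j] x) + 1 ∧
        w (T (T^[j] x)) = w (T^[j] x) :=
      ae_all_iff.2 (fun j => (hT.iterate j).quasiMeasurePreserving.ae T2a)
    have a3 : ∀ᵐ x ∂μ, ∀ j : ℕ, φ (T^[j] x) + 1 = N → φ (T (T^[j] x)) = 0 :=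
      ae_all_iff.2 (fun j => (hT.iterate j).quasiMeasurePreserving.ae T2b)
    have a4 : ∀ᵐ x ∂μ, ∀ j : ℕ, P' (T^[j] x) = G (w (T^[j] x), φ (T^[j] x)) :=
      ae_all_iff.2 (fun j => (hT.iterate j).quasiMeasurePreserving.ae hG)
    filter_upwards [a1, a2, a3, a4] with x h1 h2 h3 h4
    rw [Finset.mem_image]
    have h10 : φ x < N := h1 0
    refine ⟨(⟨φ x, h10⟩, fun i => w (T^[(i:ℕ) * N - φ x] x)), Finset.mem_univ _, ?_⟩
    ext j
    have := name_decode T w φ hN x h1 h2 h3 (j:ℕ)
    simp only [dec]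
    rw [h4, this.1, this.2]
  · refine Finset.card_image_le.trans ?_
    rw [Finset.card_univ, Fintype.card_prod, Fintype.card_fin, Fintype.card_fun, Fintype.card_fin]

/-- Sets depending on finitely many levels. -/
def levelSets {X : Type*} {V : ℕ → Type*} (v : ∀ s, X → V s) : Set (Set X) :=
  {B | ∃ (s : ℕ) (C : Set (∀ r : Fin (s+1), V r)), B = {x | (fun r : Fin (s+1) => v r x) ∈ C}}

lemma levelSets_mono {X : Type*} {V : ℕ → Type*} (v : ∀ s, X → V s) {s t : ℕ} (hst : s ≤ t)
    (C : Set (∀ r : Fin (s+1), V r)) : ∃ C' : Set (∀ r : Fin (t+1), V r),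
      {x | (fun r : Fin (s+1) => v r x) ∈ C} = {x | (fun r : Fin (t+1) => v r x) ∈ C'} :=
  ⟨{u | (fun r : Fin (s+1) => u ⟨r, by omega⟩) ∈ C}, rfl⟩

lemma isSetAlgebra_levelSets {X : Type*} {V : ℕ → Type*} (v : ∀ s, X → V s) :
    IsSetAlgebra (levelSets v) where
  empty_mem := ⟨0, ∅, by simp⟩
  compl_mem := by
    rintro B ⟨s, C, rfl⟩
    exact ⟨s, Cᶜ, rfl⟩
  union_mem := by
    rintro B B' ⟨s, C, rfl⟩ ⟨t, D, rfl⟩
    obtain ⟨C', hC⟩ := levelSets_mono v (le_max_left s t) C
    obtain ⟨D', hD⟩ := levelSets_mono v (le_max_right s t) D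
    rw [hC, hD]
    exact ⟨max s t, C' ∪ D', rfl⟩

/-- Approximation of a finite partition by one depending on finitely many levels. -/
theorem exists_level_partition {X : Type*} [mX : MeasurableSpace X] (μ : Measure X)
    [IsProbabilityMeasure μ] {V : ℕ → Type*} [∀ s, Countable (V s)] (v : ∀ s, X → V s)
    (hv : ∀ s u, MeasurableSet {x | v s x = u})
    (hgen : mX ≤ MeasurableSpace.generateFrom {B | ∃ s u, B = {x | v s x = u}})
    {m : ℕ} (hm : 0 < m) (P : X → Fin m) (hP : Measurable P) {δ : ℝ} (hδ : 0 < δ) :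
    ∃ (s : ℕ) (G : (∀ r : Fin (s+1), V r) → Fin m),
      Measurable (fun x => G (fun r : Fin (s+1) => v r x)) ∧
      μ.real {x | G (fun r : Fin (s+1) => v r x) ≠ P x} ≤ δ := by
  classical
  have hmeas : ∀ (s : ℕ) (C : Set (∀ r : Fin (s+1), V r)),
      MeasurableSet {x | (fun r : Fin (s+1) => v r x) ∈ C} := by
    intro s C
    have : {x | (fun r : Fin (s+1) => v r x) ∈ C} =
        ⋃ c ∈ C, ⋂ r : Fin (s+1), {x | v r x = c r} := by
      ext x
      simp only [Set.mem_setOf_eq, Set.mem_iUnion, Set.mem_iInter]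
      constructor
      · intro h
        exact ⟨_, h, fun r => rfl⟩
      · rintro ⟨c, hc, h⟩
        have : (fun r : Fin (s+1) => v r x) = c := funext h
        rwa [this]
    rw [this]
    exact MeasurableSet.biUnion (Set.to_countable C)
      (fun c _ => MeasurableSet.iInter (fun r => hv r (c r)))
  have hg : mX = MeasurableSpace.generateFrom (levelSets v) := by
    apply le_antisymm
    · refine hgen.trans (MeasurableSpace.generateFrom_mono ?_)
      rintro B ⟨s, u, rfl⟩
      exact ⟨s, {c | c ⟨s, Nat.lt_succ_self s⟩ = u}, rfl⟩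
    · refine MeasurableSpace.generateFrom_le ?_
      rintro B ⟨s, C, rfl⟩
      exact hmeas s C
  have hd := Measure.MeasureDense.of_generateFrom_isSetAlgebra_finite μ
    (isSetAlgebra_levelSets v) hg
  have hm' : (0:ℝ) < m := by exact_mod_cast hm
  have hch : ∀ a : Fin m, ∃ (s : ℕ) (C : Set (∀ r : Fin (s+1), V r)),
      μ (symmDiff (P ⁻¹' {a}) {x | (fun r : Fin (s+1) => v r x) ∈ C}) < ENNReal.ofReal (δ / m) := by
    intro a
    obtain ⟨t, ⟨s, C, rfl⟩, h⟩ := hd.approx (P ⁻¹' {a}) (hP (measurableSet_singleton a))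
      (measure_ne_top _ _) (δ / m) (by positivity)
    exact ⟨s, C, h⟩
  choose s C hC using hch
  obtain ⟨t, ht⟩ : ∃ t, ∀ a, s a ≤ t := ⟨Finset.univ.sup s, fun a => Finset.le_sup (Finset.mem_univ a)⟩
  have hch2 : ∀ a : Fin m, ∃ C' : Set (∀ r : Fin (t+1), V r),
      {x | (fun r : Fin (s a+1) => v r x) ∈ C a} = {x | (fun r : Fin (t+1) => v r x) ∈ C'} :=
    fun a => levelSets_mono v (ht a) (C a)
  choose D hD using hch2
  let G : (∀ r : Fin (t+1), V r) → Fin m := fun c =>
    if h : ∃ a, c ∈ D a then h.choose else ⟨0, hm⟩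
  refine ⟨t, G, ?_, ?_⟩
  · refine measurable_to_countable' (fun a => ?_)
    exact hmeas t (G ⁻¹' {a})
  · have hsub : {x | G (fun r : Fin (t+1) => v r x) ≠ P x} ⊆
        ⋃ a : Fin m, symmDiff (P ⁻¹' {a}) {x | (fun r : Fin (t+1) => v r x) ∈ D a} := by
      intro x hx
      by_contra hcon
      simp only [Set.mem_iUnion, not_exists] at hcon
      apply hx
      have hiff : ∀ a, P x = a ↔ (fun r : Fin (t+1) => v r x) ∈ D a := by
        intro a
        have := hcon a
        rw [Set.mem_symmDiff] at this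
        simp only [Set.mem_preimage, Set.mem_singleton_iff, Set.mem_setOf_eq] at this
        tauto
      have hex : ∃ a, (fun r : Fin (t+1) => v r x) ∈ D a := ⟨P x, (hiff _).1 rfl⟩
      simp only [G, dif_pos hex]
      exact ((hiff _).2 hex.choose_spec).symm
    calc μ.real {x | G (fun r : Fin (t+1) => v r x) ≠ P x}
        ≤ μ.real (⋃ a : Fin m, symmDiff (P ⁻¹' {a}) {x | (fun r : Fin (t+1) => v r x) ∈ D a}) :=
          measureReal_mono hsub
      _ ≤ ∑ a : Fin m, μ.real (symmDiff (P ⁻¹' {a}) {x | (fun r : Fin (t+1) => v r x) ∈ D a}) :=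
          measureReal_iUnion_fintype_le _
      _ ≤ ∑ _a : Fin m, δ / m := by
          refine Finset.sum_le_sum (fun a _ => ?_)
          have := hC a
          rw [hD a] at this
          have h2 := ENNReal.toReal_mono ENNReal.ofReal_ne_top this.le
          rwa [ENNReal.toReal_ofReal (by positivity)] at h2
      _ = δ := by
          simp
          field_simp

/-- MAIN THEOREM of the node, set version. -/
theorem hasZeroEntropy_of_towers' {X : Type*} [mX : MeasurableSpace X] (μ : Measure X)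
    [IsProbabilityMeasure μ] (T : X → X) (hT : MeasurePreserving T μ μ)
    (N K : ℕ → ℕ) (W : ℕ → Type*) [∀ s, Fintype (W s)] (hK : ∀ s, Fintype.card (W s) ≤ K s)
    (hN : ∀ s, 1 ≤ N s) (w : ∀ s, X → W s) (φ : ∀ s, X → ℕ)
    (hw : ∀ s u, MeasurableSet {x | w s x = u}) (hφ : ∀ s i, MeasurableSet {x | φ s x = i})
    (hlt : ∀ s, ∀ᵐ x ∂μ, φ s x < N s)
    (T2a : ∀ s, ∀ᵐ x ∂μ, φ s x + 1 < N s → φ s (T x) = φ s x + 1 ∧ w s (T x) = w s x)
    (T2b : ∀ s, ∀ᵐ x ∂μ, φ s x + 1 = N s → φ s (T x) = 0)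
    (T3 : ∀ s, ∃ g : W (s+1) × ℕ → W s × ℕ, ∀ᵐ x ∂μ, (w s x, φ s x) = g (w (s+1) x, φ (s+1) x))
    (hgen : mX ≤ MeasurableSpace.generateFrom {B | ∃ s u i, B = {x | w s x = u ∧ φ s x = i}})
    (h0 : Tendsto (fun s => Real.log (K s) / N s) atTop (𝓝 0)) : HasZeroEntropy μ T := by
  classical
  refine hasZeroEntropy_of_approx μ T hT ?_
  intro m P hP δ hδ
  have hm : 0 < m := by
    rcases Nat.eq_zero_or_pos m with h | h
    · subst h
      have hne : Nonempty X := by
        by_contra hne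
        rw [not_nonempty_iff] at hne
        exact (NeZero.ne μ) (Measure.eq_zero_of_isEmpty μ)
      exact (P hne.some).elim0
    · exact h
  have hne : Nonempty X := by
    by_contra hne
    rw [not_nonempty_iff] at hne
    exact (NeZero.ne μ) (Measure.eq_zero_of_isEmpty μ)
  let v : ∀ s, X → W s × ℕ := fun s x => (w s x, φ s x)
  have hv : ∀ s u, MeasurableSet {x | v s x = u} := by
    rintro s ⟨u, i⟩
    have : {x | v s x = (u, i)} = {x | w s x = u} ∩ {x | φ s x = i} := by
      ext x; simp [v]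
    rw [this]
    exact (hw s u).inter (hφ s i)
  have hgen' : mX ≤ MeasurableSpace.generateFrom {B | ∃ s u, B = {x | v s x = u}} := by
    refine hgen.trans (MeasurableSpace.generateFrom_mono ?_)
    rintro B ⟨s, u, i, rfl⟩
    exact ⟨s, (u, i), by ext x; simp [v]⟩
  obtain ⟨s, G, hGm, hGd⟩ := exists_level_partition μ v hv hgen' hm P hP hδ
  refine ⟨_, hGm, hGd, ?_⟩
  -- determined by level R for all R ≥ s
  choose g hg using T3
  have hdet : ∀ R r, r ≤ R → ∃ f : W R × ℕ → W r × ℕ, ∀ᵐ x ∂μ, v r x = f (v R x) := by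
    intro R
    induction R with
    | zero =>
      intro r hr
      obtain rfl : r = 0 := by omega
      exact ⟨id, Eventually.of_forall (fun x => rfl)⟩
    | succ R ih =>
      intro r hr
      rcases Nat.lt_or_ge r (R+1) with h | h
      · obtain ⟨f, hf⟩ := ih r (by omega)
        refine ⟨f ∘ g R, ?_⟩
        filter_upwards [hf, hg R] with x h1 h2
        rw [h1]
        simp only [Function.comp]
        congr 1
      · obtain rfl : r = R + 1 := by omega
        exact ⟨id, Eventually.of_forall (fun x => rfl)⟩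
  intro η hη
  obtain ⟨R, hR1, hR2⟩ : ∃ R, s ≤ R ∧ Real.log (K R) / N R ≤ η / 2 := by
    have := (h0.eventually (gt_mem_nhds (show (0:ℝ) < η/2 by positivity))).and (eventually_ge_atTop s)
    obtain ⟨R, h1, h2⟩ := this.exists
    exact ⟨R, h2, h1.le⟩
  have hdet2 : ∃ G' : W R × ℕ → Fin m, ∀ᵐ x ∂μ, G (fun r : Fin (s+1) => v r x) = G' (w R x, φ R x) := by
    have : ∀ r : Fin (s+1), ∃ f : W R × ℕ → W r × ℕ, ∀ᵐ x ∂μ, v r x = f (v R x) :=
      fun r => hdet R r (by omega)
    choose f hf using this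
    refine ⟨fun z => G (fun r => f r z), ?_⟩
    filter_upwards [ae_all_iff.2 hf] with x hx
    congr 1
    funext r
    exact hx r
  obtain ⟨G', hG'⟩ := hdet2
  have hKpos : 1 ≤ K R := by
    have : 0 < Fintype.card (W R) := Fintype.card_pos_iff.2 ⟨w R hne.some⟩
    exact le_trans this (hK R)
  have hKr : (1:ℝ) ≤ K R := by exact_mod_cast hKpos
  have hNr : (1:ℝ) ≤ N R := by exact_mod_cast hN R
  have hlK : 0 ≤ Real.log (K R) := Real.log_nonneg hKr
  have hlN : 0 ≤ Real.log (N R) := Real.log_nonneg hNr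
  obtain ⟨n0, hn0⟩ := exists_nat_ge ((Real.log (N R) + 2 * Real.log (K R)) / (η/2))
  filter_upwards [eventually_ge_atTop n0] with n hn
  obtain ⟨S, hS1, hS2⟩ := exists_names μ T hT (w R) (φ R) (hN R) (hlt R) (T2a R) (T2b R)
    (fun x => G (fun r : Fin (s+1) => v r x)) G' hG' n
  refine ⟨S, hS1, ?_⟩
  have hSne : 0 < S.card := by
    obtain ⟨x, hx⟩ := hS1.exists
    exact Finset.card_pos.2 ⟨_, hx⟩
  have h3 : S.card ≤ N R * (K R) ^ (n / N R + 2) :=
    hS2.trans (Nat.mul_le_mul_left _ (Nat.pow_le_pow_left (hK R) _))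
  have h4 : Real.log S.card ≤ Real.log (N R) + (n / N R + 2 : ℕ) * Real.log (K R) := by
    have h5 : (S.card : ℝ) ≤ (N R : ℝ) * (K R : ℝ) ^ (n / N R + 2) := by exact_mod_cast h3
    have h6 := Real.log_le_log (by exact_mod_cast hSne) h5
    rwa [Real.log_mul (by positivity) (by positivity), Real.log_pow] at h6
  have h7 : ((n / N R + 2 : ℕ) : ℝ) ≤ (n:ℝ) / N R + 2 := by
    push_cast
    have := Nat.cast_div_le (α := ℝ) (m := n) (n := N R)
    linarith
  have h8 : (Real.log (N R) + 2 * Real.log (K R)) ≤ (η/2) * n := by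
    have : (n0:ℝ) ≤ n := by exact_mod_cast hn
    rw [div_le_iff₀ (by positivity)] at hn0
    nlinarith
  have h9 : (n:ℝ) / N R * Real.log (K R) ≤ (η/2) * n := by
    rw [div_mul_eq_mul_div, mul_div_assoc]
    rw [mul_comm]
    exact mul_le_mul_of_nonneg_right hR2 (Nat.cast_nonneg n)
  nlinarith

/-- MAIN THEOREM of the node (interface of note 12124). -/
theorem hasZeroEntropy_of_towers {X : Type*} [mX : MeasurableSpace X] (μ : Measure X)
    [IsProbabilityMeasure μ] (T : X → X) (hT : MeasurePreserving T μ μ)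
    (N K : ℕ → ℕ) (W : ℕ → Type*) [∀ s, Fintype (W s)] [∀ s, MeasurableSpace (W s)]
    [∀ s, MeasurableSingletonClass (W s)] (hK : ∀ s, Fintype.card (W s) ≤ K s)
    (hN : ∀ s, 1 ≤ N s) (w : ∀ s, X → W s) (φ : ∀ s, X → ℕ)
    (hw : ∀ s, Measurable (w s)) (hφ : ∀ s, Measurable (φ s))
    (hlt : ∀ s, ∀ᵐ x ∂μ, φ s x < N s)
    (T2a : ∀ s, ∀ᵐ x ∂μ, φ s x + 1 < N s → φ s (T x) = φ s x + 1 ∧ w s (T x) = w s x)
    (T2b : ∀ s, ∀ᵐ x ∂μ, φ s x + 1 = N s → φ s (T x) = 0)
    (T3 : ∀ s, ∃ g : W (s+1) × ℕ → W s × ℕ, ∀ᵐ x ∂μ, (w s x, φ s x) = g (w (s+1) x, φ (s+1) x))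
    (hgen : mX ≤ ⨆ s, MeasurableSpace.comap (fun x => (w s x, φ s x)) inferInstance)
    (h0 : Tendsto (fun s => Real.log (K s) / N s) atTop (𝓝 0)) : HasZeroEntropy μ T := by
  refine hasZeroEntropy_of_towers' μ T hT N K W hK hN w φ
    (fun s u => hw s (measurableSet_singleton u)) (fun s i => hφ s (measurableSet_singleton i))
    hlt T2a T2b T3 (hgen.trans (iSup_le fun s => ?_)) h0
  rintro B ⟨C, -, rfl⟩
  have : (fun x => (w s x, φ s x)) ⁻¹' C = ⋃ c ∈ C, {x | w s x = c.1 ∧ φ s x = c.2} := by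
    ext x
    simp only [Set.mem_preimage, Set.mem_iUnion, Set.mem_setOf_eq]
    constructor
    · intro h
      exact ⟨_, h, rfl, rfl⟩
    · rintro ⟨c, hc, h1, h2⟩
      rwa [h1, h2]
  rw [this]
  refine MeasurableSet.biUnion (Set.to_countable C) (fun c _ => ?_)
  exact MeasurableSpace.measurableSet_generateFrom ⟨s, c.1, c.2, rfl⟩

end Crest.Agent.R133.Ent
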