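import Crest.Agent.R133.CombDefs

/-!
Row 133 (S0182), section 0: the numeric parameters and all the facts about them.
-/

set_option autoImplicit false

namespace Crest.Agent.R133.Par

open Filter Topology

lemma nn_ge (s : ℕ) : 40 ≤ nn s := by unfold nn; omega

lemma nn_even (s : ℕ) : Even (nn s) := by unfold nn; exact even_two_mul _

lemma mm_ge (s : ℕ) : 1600 ≤ mm s := by
  unfold mm
  have := nn_ge s
  nlinarith

lemma mm_pos (s : ℕ) : 0 < mm s := by have := mm_ge s; omega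

lemma nn_pos (s : ℕ) : 0 < nn s := by have := nn_ge s; omega

lemma mm_ge' (s : ℕ) : 4 * (s + 2) ≤ mm s := by
  unfold mm nn
  have h : s < (Nat.sqrt s + 1) * (Nat.sqrt s + 1) := Nat.lt_succ_sqrt s
  nlinarith [Nat.zero_le (Nat.sqrt s)]

lemma mm_le (s : ℕ) : mm s ≤ 8 * (s + 400) := by
  unfold mm nn
  have h : Nat.sqrt s * Nat.sqrt s ≤ s := Nat.sqrt_le s
  have h2 : 2 * Nat.sqrt s * 20 ≤ Nat.sqrt s * Nat.sqrt s + 400 := by
    rcases le_total (Nat.sqrt s) 20 with h3 | h3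
    · nlinarith
    · nlinarith
  nlinarith

lemma NN_zero : NN 0 = 1 := rfl
lemma NN_succ (s : ℕ) : NN (s+1) = mm s * NN s := rfl

lemma NN_pos (s : ℕ) : 0 < NN s := by
  induction s with
  | zero => simp [NN]
  | succ s ih => rw [NN_succ]; exact Nat.mul_pos (mm_pos s) ih

lemma NN_ge (s : ℕ) : 1600 ^ s ≤ NN s := by
  induction s with
  | zero => simp [NN]
  | succ s ih =>
    rw [NN_succ, pow_succ, mul_comm]
    exact Nat.mul_le_mul (mm_ge s) ih

lemma NN_succ' (s : ℕ) : NN (s+1) = nn s * tt s := by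
  rw [NN_succ]; unfold mm tt; ring

lemma NN_dvd_succ (s : ℕ) : NN s ∣ NN (s+1) := Dvd.intro_left _ rfl

lemma NN_dvd {s t : ℕ} (h : s ≤ t) : NN s ∣ NN t := by
  induction t, h using Nat.le_induction with
  | base => exact dvd_rfl
  | succ t _ ih => exact ih.trans (NN_dvd_succ t)

lemma NN_mono : Monotone NN := fun _ t h => Nat.le_of_dvd (NN_pos t) (NN_dvd h)

lemma NN_strictMono : StrictMono NN := by
  apply strictMono_nat_of_lt_succ
  intro s
  rw [NN_succ]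
  have := NN_pos s
  have := mm_ge s
  nlinarith

lemma tt_pos (s : ℕ) : 0 < tt s := Nat.mul_pos (nn_pos s) (NN_pos s)

lemma two_mul_NN_dvd_tt (s : ℕ) : 2 * NN (s+1) ∣ tt (s+1) := by
  unfold tt nn
  exact ⟨Nat.sqrt (s+1) + 20, by ring⟩

lemma two_mul_NN_eq (s : ℕ) : 2 * NN (s+1) = (2 * nn s) * tt s := by
  rw [NN_succ']; ring

lemma NN_le_tt (s : ℕ) : NN s ≤ tt s := by
  unfold tt; exact Nat.le_mul_of_pos_left _ (nn_pos s)

lemma tt_le_NN (s : ℕ) : tt s ≤ NN (s+1) := by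
  rw [NN_succ']; exact Nat.le_mul_of_pos_left _ (nn_pos s)

lemma tt_tendsto : Tendsto tt atTop atTop := by
  refine tendsto_atTop_mono (fun s => ?_) tendsto_id
  have h1 := NN_le_tt s
  have h2 : s ≤ NN s := NN_strictMono.le_apply
  exact h2.trans h1

lemma KK_zero : KK 0 = 2 := rfl
lemma KK_succ (s : ℕ) : KK (s+1) = KK s ^ (mm s - 1) := rfl

lemma KK_ge (s : ℕ) : 2 ≤ KK s := by
  induction s with
  | zero => simp [KK]
  | succ s ih =>
    rw [KK_succ]
    have hm := mm_ge s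
    calc 2 ≤ KK s := ih
      _ = KK s ^ 1 := (pow_one _).symm
      _ ≤ KK s ^ (mm s - 1) := Nat.pow_le_pow_right (by omega) (by omega)

lemma KK_pos (s : ℕ) : 0 < KK s := by have := KK_ge s; omega

lemma KK_dvd_succ (s : ℕ) : KK s ∣ KK (s+1) := by
  rw [KK_succ]
  exact dvd_pow_self _ (by have := mm_ge s; omega)

lemma KK_mono : Monotone KK := by
  apply monotone_nat_of_le_succ
  intro s
  exact Nat.le_of_dvd (KK_pos _) (KK_dvd_succ s)

lemma log_KK_succ (s : ℕ) : Real.log (KK (s+1)) = ((mm s : ℝ) - 1) * Real.log (KK s) := by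
  rw [KK_succ, Nat.cast_pow, Real.log_pow, Nat.cast_sub (by have := mm_ge s; omega)]
  simp

lemma log_KK_pos (s : ℕ) : 0 < Real.log (KK s) :=
  Real.log_pos (by have := KK_ge s; exact_mod_cast (by omega : 1 < KK s))

lemma NNr_pos (s : ℕ) : (0:ℝ) < NN s := by exact_mod_cast NN_pos s
lemma mmr_pos (s : ℕ) : (0:ℝ) < mm s := by exact_mod_cast mm_pos s
lemma nnr_pos (s : ℕ) : (0:ℝ) < nn s := by exact_mod_cast nn_pos s
lemma ttr_pos (s : ℕ) : (0:ℝ) < tt s := by exact_mod_cast tt_pos s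
lemma KKr_pos (s : ℕ) : (0:ℝ) < KK s := by exact_mod_cast KK_pos s

lemma kap_pos (s : ℕ) : 0 < kap s := by unfold kap; have := mmr_pos s; positivity

lemma kap_le (s : ℕ) : kap s ≤ 1 / 1600 := by
  unfold kap
  have h : (1600:ℝ) ≤ mm s := by exact_mod_cast mm_ge s
  exact one_div_le_one_div_of_le (by norm_num) h

lemma kap_le' (s : ℕ) : kap s ≤ 1 / (4 * (s + 2)) := by
  unfold kap
  have h : (4 * (s + 2) : ℝ) ≤ mm s := by exact_mod_cast mm_ge' s
  exact one_div_le_one_div_of_le (by positivity) h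

lemma kap_ge (s : ℕ) : 1 / (8 * ((s:ℝ) + 400)) ≤ kap s := by
  unfold kap
  have h : (mm s : ℝ) ≤ 8 * (s + 400) := by exact_mod_cast mm_le s
  exact one_div_le_one_div_of_le (mmr_pos s) h

lemma kap_eq (s : ℕ) : kap s = 1 / (nn s : ℝ) ^ 2 := by
  unfold kap mm; push_cast; rfl

lemma mm_mul_kap (s : ℕ) : (mm s : ℝ) * kap s = 1 := by
  unfold kap; have := mmr_pos s; field_simp

lemma hh_zero : hh 0 = Real.log 2 := by simp [hh, KK, NN]

lemma hh_pos (s : ℕ) : 0 < hh s := div_pos (log_KK_pos s) (NNr_pos s)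

lemma log_KK (s : ℕ) : Real.log (KK s) = hh s * NN s := by
  unfold hh; have := NNr_pos s; field_simp

lemma hh_succ (s : ℕ) : hh (s+1) = (1 - kap s) * hh s := by
  unfold hh kap
  rw [log_KK_succ, NN_succ]
  have h1 := NNr_pos s
  have h2 := mmr_pos s
  push_cast
  field_simp

lemma kap_mul_hh (s : ℕ) : kap s * hh s = hh s - hh (s+1) := by
  rw [hh_succ]; ring

lemma hh_succ_lt (s : ℕ) : hh (s+1) < hh s := by
  have := kap_mul_hh s
  have := mul_pos (kap_pos s) (hh_pos s)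
  linarith

lemma hh_strictAnti : StrictAnti hh := strictAnti_nat_of_succ_lt hh_succ_lt

lemma hh_anti : Antitone hh := hh_strictAnti.antitone

lemma hh_le_log2 (s : ℕ) : hh s ≤ Real.log 2 := by
  rw [← hh_zero]; exact hh_anti (Nat.zero_le s)

lemma hh_lt_one (s : ℕ) : hh s < 1 := by
  have := hh_le_log2 s
  have := Real.log_two_lt_d9
  linarith

lemma sum_kap_mul_hh (a b : ℕ) (hab : a ≤ b) :
    ∑ s ∈ Finset.Ico a b, kap s * hh s = hh a - hh b := by
  induction b, hab using Nat.le_induction with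
  | base => simp
  | succ b hb ih =>
    rw [Finset.sum_Ico_succ_top hb, ih, kap_mul_hh]; ring

/-- the lower bound `h_s ≥ log 2 / (s+1)^{1/4}` -/
lemma hh_pow (s : ℕ) : Real.log 2 ^ 4 ≤ hh s ^ 4 * ((s:ℝ) + 1) := by
  induction s with
  | zero => simp [hh_zero]
  | succ s ih =>
    rw [hh_succ, mul_pow]
    have hk := kap_le' s
    have hk0 := kap_pos s
    have hk1 := kap_le s
    have h1 : 1 - 4 * kap s ≤ (1 - kap s) ^ 4 := by
      have := one_add_mul_le_pow (a := -kap s) (by linarith) 4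
      have e : 1 + -kap s = 1 - kap s := by ring
      rw [e] at this
      push_cast at this
      linarith
    have h2 : (s:ℝ) + 1 ≤ (1 - 4 * kap s) * (s + 2) := by
      have : kap s * (4 * (s + 2)) ≤ 1 := by
        calc kap s * (4 * (s + 2)) ≤ 1 / (4 * (s + 2)) * (4 * (s + 2)) := by
              apply mul_le_mul_of_nonneg_right hk; positivity
          _ = 1 := by field_simp
      nlinarith
    have h3 : 0 ≤ hh s ^ 4 := by positivity
    calc Real.log 2 ^ 4 ≤ hh s ^ 4 * ((s:ℝ) + 1) := ih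
      _ ≤ hh s ^ 4 * ((1 - 4 * kap s) * (s + 2)) := mul_le_mul_of_nonneg_left h2 h3
      _ ≤ hh s ^ 4 * ((1 - kap s) ^ 4 * (s + 2)) := by
          apply mul_le_mul_of_nonneg_left _ h3
          apply mul_le_mul_of_nonneg_right h1; positivity
      _ = (1 - kap s) ^ 4 * hh s ^ 4 * ((↑(s + 1):ℝ) + 1) := by push_cast; ring

lemma one_sub_kap_le_exp (s : ℕ) : 1 - kap s ≤ Real.exp (-kap s) := by
  have := Real.add_one_le_exp (-kap s)
  linarith

lemma hh_le_exp (a b : ℕ) (hab : a ≤ b) :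
    hh b ≤ hh a * Real.exp (-∑ s ∈ Finset.Ico a b, kap s) := by
  induction b, hab using Nat.le_induction with
  | base => simp
  | succ b hb ih =>
    rw [Finset.sum_Ico_succ_top hb, hh_succ, neg_add, Real.exp_add, ← mul_assoc, mul_comm]
    exact mul_le_mul ih (one_sub_kap_le_exp b) (by have := kap_le b; linarith)
      (mul_nonneg (hh_pos a).le (Real.exp_pos _).le)

lemma log_ratio_le_sum (a b : ℕ) (hab : a ≤ b) :
    Real.log (((b:ℝ) + 400) / ((a:ℝ) + 400)) / 8 ≤ ∑ s ∈ Finset.Ico a b, kap s := by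
  induction b, hab using Nat.le_induction with
  | base =>
    have : ((a:ℝ) + 400) ≠ 0 := by positivity
    simp [div_self this]
  | succ b hb ih =>
    rw [Finset.sum_Ico_succ_top hb]
    have ha : (0:ℝ) < (a:ℝ) + 400 := by positivity
    have hbp : (0:ℝ) < (b:ℝ) + 400 := by positivity
    have h1 : Real.log (((↑(b + 1):ℝ) + 400) / ((a:ℝ) + 400))
        = Real.log (((b:ℝ) + 400) / ((a:ℝ) + 400)) + Real.log (1 + 1 / ((b:ℝ) + 400)) := by
      rw [← Real.log_mul (by positivity) (by positivity)]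
      congr 1
      push_cast
      field_simp
      ring
    have h2 : Real.log (1 + 1 / ((b:ℝ) + 400)) ≤ 1 / ((b:ℝ) + 400) := by
      have := Real.log_le_sub_one_of_pos (show (0:ℝ) < 1 + 1 / ((b:ℝ) + 400) by positivity)
      linarith
    have h3 := kap_ge b
    have h4 : 1 / (8 * ((b:ℝ) + 400)) = 1 / ((b:ℝ) + 400) / 8 := by field_simp
    rw [h1]
    rw [h4] at h3
    linarith

/-- halving of `h` -/
lemma hh_half (s0 s1 : ℕ) (h : 256 * (s0 + 400) ≤ s1) : hh s1 ≤ hh s0 / 2 := by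
  have h01 : s0 ≤ s1 := by omega
  have h1 := hh_le_exp s0 s1 h01
  have h2 := log_ratio_le_sum s0 s1 h01
  have h3 : (256:ℝ) ≤ ((s1:ℝ) + 400) / ((s0:ℝ) + 400) := by
    rw [le_div_iff₀ (by positivity)]
    have : (256 * ((s0:ℝ) + 400)) ≤ s1 := by exact_mod_cast h
    linarith
  have h4 : Real.log 256 ≤ Real.log (((s1:ℝ) + 400) / ((s0:ℝ) + 400)) :=
    Real.log_le_log (by norm_num) h3
  have h5 : Real.log 256 = 8 * Real.log 2 := by
    rw [show (256:ℝ) = 2 ^ 8 by norm_num, Real.log_pow]; norm_num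
  have h6 : Real.log 2 ≤ ∑ s ∈ Finset.Ico s0 s1, kap s := by linarith
  have h7 : Real.exp (-∑ s ∈ Finset.Ico s0 s1, kap s) ≤ 1 / 2 := by
    calc Real.exp (-∑ s ∈ Finset.Ico s0 s1, kap s) ≤ Real.exp (-Real.log 2) := by
          apply Real.exp_le_exp.mpr; linarith
      _ = 1 / 2 := by rw [Real.exp_neg, Real.exp_log (by norm_num)]; norm_num
  calc hh s1 ≤ hh s0 * Real.exp (-∑ s ∈ Finset.Ico s0 s1, kap s) := h1
    _ ≤ hh s0 * (1 / 2) := mul_le_mul_of_nonneg_left h7 (hh_pos s0).le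
    _ = hh s0 / 2 := by ring

lemma hh_tendsto : Tendsto hh atTop (𝓝 0) := by
  -- antitone, positive, halves infinitely often
  rw [Metric.tendsto_atTop]
  intro ε hε
  have key : ∀ k : ℕ, ∃ s, hh s ≤ 1 / 2 ^ k := by
    intro k
    induction k with
    | zero => exact ⟨0, by simpa using (hh_lt_one 0).le⟩
    | succ k ih =>
      obtain ⟨s, hs⟩ := ih
      refine ⟨256 * (s + 400), (hh_half s _ le_rfl).trans ?_⟩
      rw [pow_succ]
      have : (1:ℝ) / (2 ^ k * 2) = 1 / 2 ^ k / 2 := by field_simp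
      rw [this]; linarith
  obtain ⟨k, hk⟩ := exists_pow_lt_of_lt_one hε (show (1/2:ℝ) < 1 by norm_num)
  obtain ⟨s, hs⟩ := key k
  refine ⟨s, fun n hn => ?_⟩
  rw [Real.dist_eq, sub_zero, abs_of_pos (hh_pos n)]
  calc hh n ≤ hh s := hh_anti hn
    _ ≤ 1 / 2 ^ k := hs
    _ = (1/2)^k := by simp
    _ < ε := hk

lemma not_summable_kap : ¬ Summable kap := by
  intro hsum
  obtain ⟨C, hC⟩ : ∃ C, ∀ b, ∑ s ∈ Finset.Ico 0 b, kap s ≤ C := by
    refine ⟨∑' s, kap s, fun b => ?_⟩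
    exact hsum.sum_le_tsum _ (fun s _ => (kap_pos s).le)
  have h1 : ∀ b : ℕ, Real.log (((b:ℝ) + 400) / 400) ≤ 8 * C := by
    intro b
    have := log_ratio_le_sum 0 b (Nat.zero_le b)
    have := hC b
    simp only [Nat.cast_zero, zero_add] at *
    linarith
  obtain ⟨b, hb⟩ := exists_nat_gt (400 * Real.exp (8 * C))
  have h2 := h1 b
  rw [Real.log_le_iff_le_exp (by positivity)] at h2
  rw [div_le_iff₀ (by norm_num)] at h2
  linarith

/-- fourth-root form -/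
lemma hh_ge_rpow (s : ℕ) : Real.log 2 * ((s:ℝ) + 1) ^ (-(1/4:ℝ)) ≤ hh s := by
  have h := hh_pow s
  have hs : (0:ℝ) < (s:ℝ) + 1 := by positivity
  have h0 : 0 ≤ Real.log 2 * ((s:ℝ) + 1) ^ (-(1/4:ℝ)) := by
    have := Real.log_two_gt_d9
    positivity
  by_contra hlt
  push Not at hlt
  have h1 : hh s ^ 4 < (Real.log 2 * ((s:ℝ) + 1) ^ (-(1/4:ℝ))) ^ 4 :=
    pow_lt_pow_left₀ hlt (hh_pos s).le (by norm_num)
  have h2 : (Real.log 2 * ((s:ℝ) + 1) ^ (-(1/4:ℝ))) ^ 4 * ((s:ℝ) + 1) = Real.log 2 ^ 4 := by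
    rw [mul_pow, ← Real.rpow_natCast (((s:ℝ) + 1) ^ (-(1/4:ℝ))), ← Real.rpow_mul hs.le]
    norm_num
    rw [mul_assoc, Real.rpow_neg hs.le, Real.rpow_one, inv_mul_cancel₀ hs.ne', mul_one]
  have h3 : hh s ^ 4 * ((s:ℝ) + 1) < (Real.log 2 * ((s:ℝ) + 1) ^ (-(1/4:ℝ))) ^ 4 * ((s:ℝ) + 1) :=
    mul_lt_mul_of_pos_right h1 hs
  linarith

lemma nn_sq_ge (s : ℕ) : (s:ℝ) + 2 ≤ (nn s : ℝ) ^ 2 := by
  have h := mm_ge' s
  have h' : (4 * ((s:ℝ) + 2)) ≤ mm s := by exact_mod_cast h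
  have e : (mm s : ℝ) = (nn s : ℝ) ^ 2 := by unfold mm; push_cast; rfl
  rw [e] at h'
  nlinarith [show (0:ℝ) ≤ (s:ℝ) + 2 by positivity]

/-- `n_s h_{s+1} → ∞` -/
lemma nh_tendsto : Tendsto (fun s => (nn s : ℝ) * hh (s+1)) atTop atTop := by
  -- (n_s h_{s+1})^4 ≥ n_s^2 * (s+2) * h^4 ≥ n_s^2 (log 2)^4
  have key : ∀ s : ℕ, Real.log 2 ^ 4 * ((s:ℝ) + 2) ≤ ((nn s : ℝ) * hh (s+1)) ^ 4 := by
    intro s
    have h1 := hh_pow (s+1)
    have h2 := nn_sq_ge s
    have h4 : 0 ≤ hh (s+1) ^ 4 := by positivity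
    have h5 : (0:ℝ) ≤ (s:ℝ) + 2 := by positivity
    push_cast at h1
    have h1' : Real.log 2 ^ 4 ≤ hh (s+1) ^ 4 * ((s:ℝ) + 2) := by
      have e : (s:ℝ) + 1 + 1 = s + 2 := by ring
      rwa [e] at h1
    calc Real.log 2 ^ 4 * ((s:ℝ) + 2) ≤ (hh (s+1) ^ 4 * ((s:ℝ) + 2)) * ((s:ℝ) + 2) :=
          mul_le_mul_of_nonneg_right h1' h5
      _ = hh (s+1) ^ 4 * (((s:ℝ) + 2) * ((s:ℝ) + 2)) := by ring
      _ ≤ hh (s+1) ^ 4 * ((nn s : ℝ) ^ 2 * (nn s : ℝ) ^ 2) := by
          apply mul_le_mul_of_nonneg_left _ h4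
          exact mul_le_mul h2 h2 h5 (by positivity)
      _ = ((nn s : ℝ) * hh (s+1)) ^ 4 := by ring
  rw [tendsto_atTop]
  intro b
  have hb : Tendsto (fun s : ℕ => Real.log 2 ^ 4 * ((s:ℝ) + 2)) atTop atTop := by
    apply Tendsto.const_mul_atTop (by have := Real.log_two_gt_d9; positivity)
    exact tendsto_atTop_add_const_right _ _ tendsto_natCast_atTop_atTop
  filter_upwards [(tendsto_atTop.mp hb) (max b 0 ^ 4)] with s hs
  have h1 := (hs.trans (key s))
  have h2 : max b 0 ≤ (nn s : ℝ) * hh (s+1) := by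
    by_contra hlt
    push Not at hlt
    have h0 : 0 ≤ (nn s : ℝ) * hh (s+1) := mul_nonneg (nnr_pos s).le (hh_pos _).le
    have := pow_lt_pow_left₀ hlt h0 (show (4:ℕ) ≠ 0 by norm_num)
    linarith
  exact (le_max_left _ _).trans h2

/-- `h_{s+1} N_{s+1} / t_s = n_s h_{s+1}` -/
lemma hN_eq (s : ℕ) : hh (s+1) * NN (s+1) = ((nn s : ℝ) * hh (s+1)) * tt s := by
  rw [NN_succ']; push_cast; ring

/-- `h_{s+1} N_{s+1} ≥ C t_s` eventually -/
lemma hN_ge (C : ℝ) : ∀ᶠ s in atTop, C * tt s ≤ hh (s+1) * NN (s+1) := by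
  filter_upwards [tendsto_atTop.mp nh_tendsto C] with s hs
  rw [hN_eq]
  exact mul_le_mul_of_nonneg_right hs (ttr_pos s).le

end Crest.Agent.R133.Par
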