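import Crest.Agent.R133.Skel
import Crest.Agent.R133.Par

/-!
# Row 133 (S0182), section 11: the exceptional sets, in law form

`exc_bound` : if `p` is a law of the family `Lw s` which dominates (up to the factor `C`) the
distribution of the `Q`-name on the good part of the base, then
`ν (Exc_{s0,s}) ≤ 1 / (10 N_{s+1})` as soon as `20 (1 + C) ≤ N_{s+1}`.
-/

set_option autoImplicit false

open MeasureTheory Filter Set
open scoped ENNReal Topology

namespace Crest.Agent.R133.XF

theorem card_W : ∀ s : ℕ, Fintype.card (W s) = KK s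
  | 0 => by
      show Fintype.card Bool = 2
      rfl
  | s + 1 => by
      show Fintype.card (Fin (mm s - 1) → W s) = KK s ^ (mm s - 1)
      rw [Fintype.card_fun, Fintype.card_fin, card_W s]

theorem ham_congr {N : ℕ} {x y x' y' : ℕ → Bool} (hx : ∀ i < N, x i = x' i)
    (hy : ∀ i < N, y i = y' i) : ham N x y = ham N x' y' := by
  unfold ham
  congr 1
  apply Finset.filter_congr
  intro i hi
  rw [Finset.mem_range] at hi
  rw [hx i hi, hy i hi]

theorem Lst_congr (τ : Tau) (s0 s : ℕ) {z z' : ℕ → Bool} (γ : Set ℕ)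
    (h : ∀ i < NN s, z i = z' i) : Lst τ s0 s z γ = Lst τ s0 s z' γ := by
  classical
  have hpos : 0 < NN s0 := Par.NN_pos s0
  unfold Lst
  apply Finset.filter_congr
  intro w _
  apply forall_congr'
  intro j
  apply imp_congr_right
  intro hj
  apply imp_congr_right
  intro _
  have : ham (NN s0) (sh (j * NN s0) (nm τ s w)) (sh (j * NN s0) z)
      = ham (NN s0) (sh (j * NN s0) (nm τ s w)) (sh (j * NN s0) z') := by
    apply ham_congr (fun _ _ => rfl)
    intro i hi
    unfold sh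
    apply h
    have h1 : (j + 1) * NN s0 ≤ NN s := (Nat.le_div_iff_mul_le hpos).1 hj
    nlinarith
  rw [this]

theorem prodLst_congr (τ : Tau) (s0 s : ℕ) {z z' : ℕ → Bool} (γ : Set ℕ)
    (h : ∀ i < NN (s + 1), z i = z' i) : prodLst τ s0 s z γ = prodLst τ s0 s z' γ := by
  unfold prodLst
  apply Finset.prod_congr rfl
  intro j hj
  rw [Finset.mem_range] at hj
  rw [Lst_congr τ s0 s (z := sh (j * NN s) z) (z' := sh (j * NN s) z')]
  intro i hi
  unfold sh
  apply h
  show j * NN s + i < mm s * NN s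
  have : (j + 1) * NN s ≤ mm s * NN s := Nat.mul_le_mul_right _ hj
  nlinarith

theorem Bd_congr (τ : Tau) (s0 s : ℕ) {z z' : ℕ → Bool} (γ : Set ℕ)
    (h : ∀ i < NN (s + 1), z i = z' i) : Bd τ s0 s z γ ↔ Bd τ s0 s z' γ := by
  unfold Bd
  rw [prodLst_congr τ s0 s γ h]

theorem itin_eq_ext {Ω : Type*} (N : ℕ) (f : Ω → Ω) (Q : Set Ω) (x : Ω) :
    ∀ i < N, itin f (qOf Q) x i = ext (QName N f Q x) i := by
  intro i hi
  simp [itin, ext, QName, hi]

/-- the core of section 11 -/
theorem exc_bound (τ : Tau) {Ω : Type*} [MeasurableSpace Ω] (ν : Measure Ω)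
    (f : Ω → Ω) (w : ∀ s, Ω → W s) (φ : ℕ → Ω → ℕ)
    (hT : TowerMaps τ ν f w φ) (Q : Set Ω) (s0 s : ℕ) (C : ℝ) (hC : 0 ≤ C)
    (p : (Fin (NN (s + 1)) → Bool) → ℝ)
    (hP2 : (Nat.card {u : W (s + 1) //
      1 / ((NN (s + 1) : ℝ) ^ 2 * KK (s + 1)) ≤ badMass τ s0 s p u} : ℝ)
      < (KK (s + 1) : ℝ) / NN (s + 1))
    (G : Set Ω) (hG : ν ({x | φ (s + 1) x = 0} \ G) ≤ ENNReal.ofReal (1 / (20 * (NN (s + 1) : ℝ))))
    (hA : ∀ A : Set (Fin (NN (s + 1)) → Bool),
      ν {x | x ∈ G ∧ QName (NN (s + 1)) f Q x ∈ A} ≤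
        ENNReal.ofReal (C * ∑ z ∈ (open Classical in Finset.univ.filter (fun z => z ∈ A)), p z))
    (hN : 20 * (1 + C) ≤ NN (s + 1)) :
    ν (Exc τ f w φ (qOf Q) s0 s) ≤ ENNReal.ofReal (1 / (10 * (NN (s + 1) : ℝ))) := by
  classical
  set N : ℝ := (NN (s + 1) : ℝ) with hNdef
  set U : ℝ := (KK (s + 1) : ℝ) with hUdef
  have hNpos : 0 < N := Par.NNr_pos (s + 1)
  have hUpos : 0 < U := Par.KKr_pos (s + 1)
  -- the words with large bad mass
  set L : Finset (W (s + 1)) := Finset.univ.filter (fun u => 1 / (N ^ 2 * U) ≤ badMass τ s0 s p u)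
    with hL
  have hLcard : (L.card : ℝ) < U / N := by
    have : Nat.card {u : W (s + 1) // 1 / (N ^ 2 * U) ≤ badMass τ s0 s p u} = L.card := by
      rw [Nat.card_eq_fintype_card, Fintype.card_subtype]
    rw [this] at hP2
    exact hP2
  let Eu : W (s + 1) → Set Ω := fun u => {x | x ∈ G ∧ w (s + 1) x = u ∧ x ∈ Exc τ f w φ (qOf Q) s0 s}
  have hsub : Exc τ f w φ (qOf Q) s0 s ⊆ ({x | φ (s + 1) x = 0} \ G) ∪ ⋃ u, Eu u := by
    intro x hx
    by_cases hxG : x ∈ G
    · right
      exact mem_iUnion.2 ⟨w (s + 1) x, hxG, rfl, hx⟩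
    · left
      exact ⟨hx.1, hxG⟩
  have h1 : ∀ u ∈ L, ν (Eu u) ≤ ENNReal.ofReal (1 / (U * N)) := by
    intro u _
    have := hT.unif (s + 1) u 0 (Par.NN_pos (s + 1))
    rw [← this]
    apply measure_mono
    intro x hx
    exact ⟨hx.2.1, hx.2.2.1⟩
  have h2 : ∀ u ∉ L, ν (Eu u) ≤ ENNReal.ofReal (C / (N ^ 2 * U)) := by
    intro u hu
    have hu' : badMass τ s0 s p u < 1 / (N ^ 2 * U) := by
      by_contra hcon
      exact hu (Finset.mem_filter.2 ⟨Finset.mem_univ _, not_lt.1 hcon⟩)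
    let A : Set (Fin (NN (s + 1)) → Bool) := {z | ∃ γ : Set ℕ, Bd τ s0 s (ext z) γ ∧
      u ∈ Lst τ s0 (s + 1) (ext z) γ}
    have hsubA : Eu u ⊆ {x | x ∈ G ∧ QName (NN (s + 1)) f Q x ∈ A} := by
      intro x hx
      obtain ⟨hxG, hxu, _, γ, hB, hL'⟩ := hx
      refine ⟨hxG, γ, (Bd_congr τ s0 s _ (itin_eq_ext (NN (s + 1)) f Q x)).1 hB, ?_⟩
      rw [Lst_congr τ s0 (s + 1) _ (itin_eq_ext (NN (s + 1)) f Q x), hxu] at hL'
      exact hL'
    calc ν (Eu u) ≤ ν {x | x ∈ G ∧ QName (NN (s + 1)) f Q x ∈ A} := measure_mono hsubA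
      _ ≤ _ := hA A
      _ ≤ ENNReal.ofReal (C / (N ^ 2 * U)) := by
          apply ENNReal.ofReal_le_ofReal
          have hb : ∑ z ∈ Finset.univ.filter (fun z => z ∈ A), p z = badMass τ s0 s p u := by
            unfold badMass
            apply Finset.sum_congr _ (fun _ _ => rfl)
            ext z
            simp [A]
          rw [hb, div_eq_mul_one_div]
          exact mul_le_mul_of_nonneg_left hu'.le hC
  have h3 : ν (⋃ u, Eu u) ≤ ENNReal.ofReal ((1 + C) / N ^ 2) := by
    calc ν (⋃ u, Eu u) ≤ ∑ u, ν (Eu u) := measure_iUnion_fintype_le _ _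
      _ ≤ ∑ u, (if u ∈ L then ENNReal.ofReal (1 / (U * N)) else ENNReal.ofReal (C / (N ^ 2 * U))) := by
          apply Finset.sum_le_sum
          intro u _
          split_ifs with hu
          · exact h1 u hu
          · exact h2 u hu
      _ ≤ ∑ u, ((if u ∈ L then ENNReal.ofReal (1 / (U * N)) else 0)
            + ENNReal.ofReal (C / (N ^ 2 * U))) := by
          apply Finset.sum_le_sum
          intro u _
          split_ifs with hu
          · exact le_self_add
          · simp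
      _ = L.card * ENNReal.ofReal (1 / (U * N)) + Fintype.card (W (s + 1)) *
            ENNReal.ofReal (C / (N ^ 2 * U)) := by
          rw [Finset.sum_add_distrib, ← Finset.sum_filter]
          simp [Finset.sum_const]
      _ ≤ ENNReal.ofReal ((U / N) * (1 / (U * N))) + ENNReal.ofReal (U * (C / (N ^ 2 * U))) := by
          rw [ENNReal.ofReal_mul (by positivity), ENNReal.ofReal_mul (by positivity)]
          apply add_le_add
          · apply mul_le_mul_left
            rw [← ENNReal.ofReal_natCast]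
            exact ENNReal.ofReal_le_ofReal hLcard.le
          · rw [card_W, hUdef, ENNReal.ofReal_natCast]
      _ = ENNReal.ofReal ((1 + C) / N ^ 2) := by
          rw [← ENNReal.ofReal_add (by positivity) (by positivity)]
          congr 1
          field_simp
  calc ν (Exc τ f w φ (qOf Q) s0 s) ≤ ν (({x | φ (s + 1) x = 0} \ G) ∪ ⋃ u, Eu u) :=
        measure_mono hsub
    _ ≤ ν ({x | φ (s + 1) x = 0} \ G) + ν (⋃ u, Eu u) := measure_union_le _ _
    _ ≤ ENNReal.ofReal (1 / (20 * N)) + ENNReal.ofReal ((1 + C) / N ^ 2) := add_le_add hG h3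
    _ = ENNReal.ofReal (1 / (20 * N) + (1 + C) / N ^ 2) := by
        rw [ENNReal.ofReal_add (by positivity) (by positivity)]
    _ ≤ ENNReal.ofReal (1 / (10 * N)) := by
        apply ENNReal.ofReal_le_ofReal
        have : (1 + C) / N ^ 2 ≤ 1 / (20 * N) := by
          rw [div_le_div_iff₀ (by positivity) (by positivity)]
          nlinarith
        have h4 : 1 / (10 * N) = 1 / (20 * N) + 1 / (20 * N) := by field_simp; norm_num
        rw [h4]
        linarith

end Crest.Agent.R133.XF
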