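import Crest.Agent.R133.CombDefs

/-! # Row 133 (S0182): section 11, EXC-core

The pigeonhole over words: given a representative `(g, νg)` matching `(f, ν)` on good points,
property `(P2')` of the law of the `Q`-name of `g` bounds the measure of the exceptional set. -/

set_option autoImplicit false

open MeasureTheory Finset

namespace Crest.Agent.R133.Exc

/-- the `q`-name of a point -/
def zn {Ω : Type*} (f : Ω → Ω) (q : Ω → Bool) (x : Ω) : ℕ → Bool := fun i => q (f^[i] x)

/-- positions of the letters of the word `u` whose name is `ρ N_{s0}`-close to `z` -/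
def gm (τ : Tau) (s0 s : ℕ) (z : ℕ → Bool) (u : W s) : Set ℕ :=
  {j | (ham (NN s0) (sh (j * NN s0) (nm τ s u)) (sh (j * NN s0) z) : ℝ) ≤ rho * NN s0}

/-- law of the name of length `N` -/
noncomputable def law {Ω : Type*} [MeasurableSpace Ω] (N : ℕ) (ν : Measure Ω) (g : Ω → Ω)
    (q : Ω → Bool) : (Fin N → Bool) → ℝ :=
  fun z => (ν {y | ∀ i : Fin N, q (g^[(i : ℕ)] y) = z i}).toReal

theorem nn_pos (s : ℕ) : 0 < nn s := by unfold nn; positivity
theorem mm_pos (s : ℕ) : 0 < mm s := by unfold mm; exact pow_pos (nn_pos s) 2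
theorem NN_pos : ∀ s, 0 < NN s
  | 0 => Nat.one_pos
  | s + 1 => Nat.mul_pos (mm_pos s) (NN_pos s)
theorem KK_pos : ∀ s, 0 < KK s
  | 0 => Nat.two_pos
  | s + 1 => pow_pos (KK_pos s) _

theorem NN_dvd_succ (s : ℕ) : NN s ∣ NN (s + 1) := Dvd.intro_left (mm s) rfl

theorem NN_dvd {s0 s : ℕ} (h : s0 ≤ s) : NN s0 ∣ NN s := by
  induction s, h using Nat.le_induction with
  | base => exact dvd_rfl
  | succ s _ ih => exact ih.trans (NN_dvd_succ s)

theorem card_W : ∀ s, Fintype.card (W s) = KK s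
  | 0 => by
      show Fintype.card Bool = 2
      simp
  | s + 1 => by
      show Fintype.card (Fin (mm s - 1) → W s) = KK s ^ (mm s - 1)
      rw [Fintype.card_fun, card_W s, Fintype.card_fin]

/-- `ham` only depends on the window -/
theorem ham_congr {N : ℕ} {x x' y y' : ℕ → Bool} (hx : ∀ i < N, x i = x' i)
    (hy : ∀ i < N, y i = y' i) : ham N x y = ham N x' y' := by
  unfold ham
  congr 1
  apply Finset.filter_congr
  intro i hi
  rw [Finset.mem_range] at hi
  rw [hx i hi, hy i hi]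

/-- lists only depend on the first `NN s` letters of `z` -/
theorem Lst_congr (τ : Tau) {s0 s : ℕ} {z z' : ℕ → Bool} (γ : Set ℕ)
    (hz : ∀ i < NN s, z i = z' i) : Lst τ s0 s z γ = Lst τ s0 s z' γ := by
  have key : ∀ w : W s, ∀ j < NN s / NN s0,
      ham (NN s0) (sh (j * NN s0) (nm τ s w)) (sh (j * NN s0) z)
      = ham (NN s0) (sh (j * NN s0) (nm τ s w)) (sh (j * NN s0) z') := by
    intro w j hj
    apply ham_congr (fun i _ => rfl)
    intro i hi
    apply hz
    have h1 : (j + 1) * NN s0 ≤ NN s := by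
      calc (j + 1) * NN s0 ≤ (NN s / NN s0) * NN s0 := Nat.mul_le_mul_right _ hj
        _ ≤ NN s := Nat.div_mul_le_self _ _
    calc j * NN s0 + i < j * NN s0 + NN s0 := by omega
      _ = (j + 1) * NN s0 := by ring
      _ ≤ NN s := h1
  ext w
  unfold Lst
  simp only [Finset.mem_filter, Finset.mem_univ, true_and]
  constructor
  · intro h j hj hjg
    rw [← key w j hj]; exact h j hj hjg
  · intro h j hj hjg
    rw [key w j hj]; exact h j hj hjg

theorem prodLst_congr (τ : Tau) {s0 s : ℕ} {z z' : ℕ → Bool} (γ : Set ℕ)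
    (hz : ∀ i < NN (s + 1), z i = z' i) : prodLst τ s0 s z γ = prodLst τ s0 s z' γ := by
  unfold prodLst
  apply Finset.prod_congr rfl
  intro j hj
  rw [Finset.mem_range] at hj
  rw [Lst_congr τ]
  intro i hi
  apply hz
  calc j * NN s + i < j * NN s + NN s := by omega
    _ = (j + 1) * NN s := by ring
    _ ≤ mm s * NN s := Nat.mul_le_mul_right _ hj
    _ = NN (s + 1) := rfl

theorem Bd_congr (τ : Tau) {s0 s : ℕ} {z z' : ℕ → Bool} (γ : Set ℕ)
    (hz : ∀ i < NN (s + 1), z i = z' i) : Bd τ s0 s z γ ↔ Bd τ s0 s z' γ := by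
  unfold Bd
  rw [prodLst_congr τ γ hz]

/-- the true word is in its list -/
theorem mem_Lst_gm (τ : Tau) (s0 s : ℕ) (z : ℕ → Bool) (u : W s) :
    u ∈ Lst τ s0 s z (gm τ s0 s z u) := by
  unfold Lst gm
  simp only [Finset.mem_filter, Finset.mem_univ, true_and]
  intro j _ hj
  exact hj

theorem ext_apply {N : ℕ} (z : Fin N → Bool) {i : ℕ} (hi : i < N) : ext z i = z ⟨i, hi⟩ := by
  unfold ext
  rw [dif_pos hi]

section law
variable {Ω : Type*} [MeasurableSpace Ω] {N : ℕ} (ν : Measure Ω) {g : Ω → Ω} {q : Ω → Bool}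

theorem meas_cyl (hg : Measurable g) (hq : Measurable q) (z : Fin N → Bool) :
    MeasurableSet {y | ∀ i : Fin N, q (g^[(i : ℕ)] y) = z i} := by
  have : {y | ∀ i : Fin N, q (g^[(i : ℕ)] y) = z i}
      = ⋂ i : Fin N, {y | q (g^[(i : ℕ)] y) = z i} := by
    ext y; simp
  rw [this]
  apply MeasurableSet.iInter
  intro i
  exact (hq.comp (hg.iterate i)) (measurableSet_singleton (z i))

theorem law_nonneg (z : Fin N → Bool) : 0 ≤ law N ν g q z := ENNReal.toReal_nonneg

theorem law_sum_eq [IsProbabilityMeasure ν] (hg : Measurable g) (hq : Measurable q)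
    (S : Finset (Fin N → Bool)) :
    ν {y | (fun i : Fin N => q (g^[(i : ℕ)] y)) ∈ S} = ENNReal.ofReal (∑ z ∈ S, law N ν g q z) := by
  have h1 : {y | (fun i : Fin N => q (g^[(i : ℕ)] y)) ∈ S}
      = ⋃ z ∈ S, {y | ∀ i : Fin N, q (g^[(i : ℕ)] y) = z i} := by
    ext y
    simp only [Set.mem_ofPred_eq, Set.mem_iUnion, exists_prop]
    constructor
    · intro h
      exact ⟨_, h, fun i => rfl⟩
    · rintro ⟨z, hz, h⟩
      have : (fun i : Fin N => q (g^[(i : ℕ)] y)) = z := funext h
      rw [this]; exact hz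
  rw [h1, measure_biUnion_finset]
  · rw [ENNReal.ofReal_sum_of_nonneg (fun z _ => law_nonneg ν z)]
    apply Finset.sum_congr rfl
    intro z _
    unfold law
    rw [ENNReal.ofReal_toReal (measure_ne_top ν _)]
  · intro z _ z' _ hne
    show Disjoint _ _
    rw [Set.disjoint_left]
    intro y hy hy'
    apply hne
    funext i
    rw [← hy i, ← hy' i]
  · intro z _
    exact meas_cyl hg hq z

theorem law_isLaw [IsProbabilityMeasure ν] (hg : Measurable g) (hq : Measurable q) :
    IsLaw (law N ν g q) := by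
  refine ⟨fun z => law_nonneg ν z, ?_⟩
  have h := law_sum_eq (N := N) ν hg hq Finset.univ
  simp only [Finset.mem_univ, Set.ofPred_true, measure_univ] at h
  have h2 : ENNReal.ofReal (∑ z, law N ν g q z) = ENNReal.ofReal 1 := by
    rw [← h, ENNReal.ofReal_one]
  have h3 := (ENNReal.ofReal_eq_ofReal_iff (Finset.sum_nonneg fun z _ => law_nonneg ν z)
    zero_le_one).1 h2
  exact h3.le

end law

variable {Ω Ω' : Type*} [MeasurableSpace Ω] [MeasurableSpace Ω']

theorem exc_core (τ : Tau) {s0 s : ℕ}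
    (ν : Measure Ω) [IsProbabilityMeasure ν] (νg : Measure Ω') [IsProbabilityMeasure νg]
    {f : Ω → Ω} {g : Ω' → Ω'} {q : Ω → Bool} {q' : Ω' → Bool} {w : Ω → W (s + 1)} {φ : Ω → ℕ}
    (hg : Measurable g) (hq' : Measurable q')
    (hT1 : ∀ u : W (s + 1), ν {x | φ x = 0 ∧ w x = u}
      ≤ ENNReal.ofReal (1 / ((NN (s + 1) : ℝ) * KK (s + 1))))
    {Good : Set Ω} (hGood : ν ({x | φ x = 0} \ Good)
      ≤ ENNReal.ofReal (1 / (20 * (NN (s + 1) : ℝ))))
    {Bg : Ω → Set Ω'}
    (hname : ∀ x ∈ Good, ∀ y ∈ Bg x, ∀ i < NN (s + 1), q' (g^[i] y) = q (f^[i] x))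
    {C : ℝ} (hKL : ∀ G' ⊆ Good, ν G' ≤ ENNReal.ofReal C * νg (⋃ x ∈ G', Bg x))
    (hC : 0 < C) (hN : 40 * C ≤ NN (s + 1)) (hN2 : 40 ≤ NN (s + 1))
    (hP2 : (Nat.card {u : W (s + 1) // 1 / ((NN (s + 1) : ℝ) ^ 2 * KK (s + 1))
        ≤ badMass τ s0 s (law (NN (s + 1)) νg g q') u} : ℝ) < (KK (s + 1) : ℝ) / NN (s + 1)) :
    ν {x | φ x = 0 ∧ Bd τ s0 s (zn f q x) (gm τ s0 (s + 1) (zn f q x) (w x))}
      ≤ ENNReal.ofReal (1 / (10 * (NN (s + 1) : ℝ))) := by
  classical
  have hNpos : (0 : ℝ) < NN (s + 1) := Nat.cast_pos.2 (NN_pos (s + 1))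
  have hKpos : (0 : ℝ) < KK (s + 1) := Nat.cast_pos.2 (KK_pos (s + 1))
  have hN2' : (40 : ℝ) ≤ NN (s + 1) := by
    have := (Nat.cast_le (α := ℝ)).2 hN2
    simpa using this
  have hcardW : ((Fintype.card (W (s + 1)) : ℕ) : ℝ) = KK (s + 1) := by rw [card_W]
  have hcardle : ∀ A : Finset (W (s + 1)), (A.card : ℝ) ≤ KK (s + 1) := by
    intro A
    rw [← hcardW]
    exact Nat.cast_le.2 (Finset.card_le_univ _)
  clear hcardW
  have hlaw : ∀ z, 0 ≤ law (NN (s + 1)) νg g q' z := fun z => law_nonneg νg z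
  generalize hKr : (KK (s + 1) : ℝ) = K at *
  generalize hNr : (NN (s + 1) : ℝ) = N at *
  set Exc : Set Ω := {x | φ x = 0 ∧ Bd τ s0 s (zn f q x) (gm τ s0 (s + 1) (zn f q x) (w x))}
    with hExc
  by_contra hcon
  rw [not_le] at hcon
  -- the pieces
  let Eu : W (s + 1) → Set Ω := fun u => {x | x ∈ Exc ∧ x ∈ Good ∧ w x = u}
  have hEu_le : ∀ u, ν (Eu u) ≤ ENNReal.ofReal (1 / (N * K)) := by
    intro u
    refine le_trans (measure_mono ?_) (hT1 u)
    intro x hx
    exact ⟨hx.1.1, hx.2.2⟩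
  -- word `u` with big piece has big bad mass
  have hbig : ∀ u, ENNReal.ofReal (1 / (40 * N * K)) ≤ ν (Eu u) →
      1 / (N ^ 2 * K) ≤ badMass τ s0 s (law (NN (s + 1)) νg g q') u := by
    intro u hu
    have h1 : ν (Eu u) ≤ ENNReal.ofReal C * νg (⋃ x ∈ Eu u, Bg x) :=
      hKL _ (fun x hx => hx.2.1)
    have h2 : νg (⋃ x ∈ Eu u, Bg x) ≤ ENNReal.ofReal (badMass τ s0 s (law (NN (s + 1)) νg g q') u) := by
      unfold badMass
      rw [← law_sum_eq νg hg hq']
      apply measure_mono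
      intro y hy
      simp only [Set.mem_iUnion, exists_prop] at hy
      obtain ⟨x, hx, hyx⟩ := hy
      simp only [Set.mem_ofPred_eq, Finset.mem_filter, Finset.mem_univ, true_and]
      refine ⟨gm τ s0 (s + 1) (zn f q x) (w x), ?_, ?_⟩
      · refine (Bd_congr τ _ ?_).1 hx.1.2
        intro i hi
        rw [ext_apply _ hi]
        exact (hname x hx.2.1 y hyx i hi).symm
      · have h3 := mem_Lst_gm τ s0 (s + 1) (zn f q x) (w x)
        rw [hx.2.2] at h3 ⊢
        rw [← Lst_congr τ (z := zn f q x)]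
        · exact h3
        · intro i hi
          rw [ext_apply _ hi]
          exact (hname x hx.2.1 y hyx i hi).symm
    have hbm : 0 ≤ badMass τ s0 s (law (NN (s + 1)) νg g q') u :=
      Finset.sum_nonneg fun z _ => law_nonneg νg z
    have h4 : ENNReal.ofReal (1 / (40 * N * K))
        ≤ ENNReal.ofReal (C * badMass τ s0 s (law (NN (s + 1)) νg g q') u) := by
      rw [ENNReal.ofReal_mul hC.le]
      exact hu.trans (h1.trans (mul_le_mul_right h2 _))
    rw [ENNReal.ofReal_le_ofReal_iff (mul_nonneg hC.le hbm)] at h4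
    have h5 : 1 / (N ^ 2 * K) * C ≤ 1 / (40 * N * K) := by
      rw [div_mul_eq_mul_div, one_mul, div_le_div_iff₀ (by positivity) (by positivity)]
      nlinarith [mul_pos hNpos hKpos]
    have h6 : 1 / (N ^ 2 * K) * C ≤ badMass τ s0 s (law (NN (s + 1)) νg g q') u * C := by
      calc _ ≤ _ := h5
        _ ≤ _ := h4
        _ = _ := by ring
    exact le_of_mul_le_mul_right h6 hC
  -- counting
  let V : Finset (W (s + 1)) :=
    Finset.univ.filter (fun u => ENNReal.ofReal (1 / (40 * N * K)) ≤ ν (Eu u))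
  have hVcard : (V.card : ℝ) < (K : ℝ) / N := by
    refine lt_of_le_of_lt ?_ hP2
    rw [Nat.card_eq_fintype_card, Fintype.card_subtype]
    refine Nat.cast_le.2 (Finset.card_le_card (fun u hu => ?_))
    simp only [V, Finset.mem_filter, Finset.mem_univ, true_and] at hu ⊢
    exact hbig u hu
  -- upper bound of the measure of Exc
  have hsum : ν Exc ≤ ENNReal.ofReal (1 / (20 * N)) + ∑ u, ν (Eu u) := by
    have hsub : Exc ⊆ ({x | φ x = 0} \ Good) ∪ ⋃ u ∈ (Finset.univ : Finset (W (s + 1))), Eu u := by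
      intro x hx
      by_cases hxg : x ∈ Good
      · right
        simp only [Finset.mem_univ, Set.iUnion_true, Set.mem_iUnion]
        exact ⟨w x, hx, hxg, rfl⟩
      · left
        exact ⟨hx.1, hxg⟩
    calc ν Exc ≤ ν (({x | φ x = 0} \ Good) ∪ ⋃ u ∈ (Finset.univ : Finset (W (s + 1))), Eu u) :=
          measure_mono hsub
      _ ≤ ν ({x | φ x = 0} \ Good) + ν (⋃ u ∈ (Finset.univ : Finset (W (s + 1))), Eu u) :=
          measure_union_le _ _
      _ ≤ _ := add_le_add hGood (measure_biUnion_finset_le _ _)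
  have hsum2 : ∑ u, ν (Eu u) ≤ ENNReal.ofReal (V.card * (1 / (N * K)) + 1 / (40 * N)) := by
    have hsplit : ∑ u, ν (Eu u) = ∑ u ∈ V, ν (Eu u) + ∑ u ∈ Vᶜ, ν (Eu u) :=
      (Finset.sum_add_sum_compl V _).symm
    rw [hsplit, ENNReal.ofReal_add (by positivity) (by positivity)]
    apply add_le_add
    · calc ∑ u ∈ V, ν (Eu u) ≤ ∑ _u ∈ V, ENNReal.ofReal (1 / (N * K)) :=
            Finset.sum_le_sum fun u _ => hEu_le u
        _ = ENNReal.ofReal (V.card * (1 / (N * K))) := by
            rw [Finset.sum_const, nsmul_eq_mul, ENNReal.ofReal_mul (by positivity),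
              ENNReal.ofReal_natCast]
    · calc ∑ u ∈ Vᶜ, ν (Eu u) ≤ ∑ _u ∈ Vᶜ, ENNReal.ofReal (1 / (40 * N * K)) := by
            apply Finset.sum_le_sum
            intro u hu
            rw [Finset.mem_compl] at hu
            simp only [V, Finset.mem_filter, Finset.mem_univ, true_and, not_le] at hu
            exact hu.le
        _ = ENNReal.ofReal ((Vᶜ).card * (1 / (40 * N * K))) := by
            rw [Finset.sum_const, nsmul_eq_mul, ENNReal.ofReal_mul (by positivity),
              ENNReal.ofReal_natCast]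
        _ ≤ ENNReal.ofReal (1 / (40 * N)) := by
            apply ENNReal.ofReal_le_ofReal
            have hc : ((Vᶜ).card : ℝ) ≤ K := hcardle _
            calc ((Vᶜ).card : ℝ) * (1 / (40 * N * K)) ≤ K * (1 / (40 * N * K)) :=
                  mul_le_mul_of_nonneg_right hc (by positivity)
              _ = 1 / (40 * N) := by field_simp
  have hfin : ENNReal.ofReal (1 / (10 * N))
      < ENNReal.ofReal (1 / (20 * N) + (V.card * (1 / (N * K)) + 1 / (40 * N))) := by
    refine lt_of_lt_of_le hcon ?_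
    rw [ENNReal.ofReal_add (by positivity) (by positivity)]
    exact hsum.trans (add_le_add le_rfl hsum2)
  rw [ENNReal.ofReal_lt_ofReal_iff (by positivity)] at hfin
  have h7 : (V.card : ℝ) * (1 / (N * K)) < 1 / (40 * N) := by
    calc (V.card : ℝ) * (1 / (N * K)) < (K : ℝ) / N * (1 / (N * K)) :=
          mul_lt_mul_of_pos_right hVcard (by positivity)
      _ = 1 / N * (1 / N) := by field_simp
      _ ≤ 1 / N * (1 / 40) := by
          apply mul_le_mul_of_nonneg_left _ (by positivity)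
          exact one_div_le_one_div_of_le (by norm_num) hN2'
      _ = 1 / (40 * N) := by ring
  have h8 : 1 / (20 * N) + (1 / (40 * N) + 1 / (40 * N)) = 1 / (10 * N) := by
    field_simp; norm_num
  linarith

end Crest.Agent.R133.Exc
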