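import Crest.Agent.R133.Exc

/-!
# Row 133 (S0182): the family `Lw`, transport of tower maps, final assembly
-/

set_option autoImplicit false

open MeasureTheory Filter Set Metric
open scoped ENNReal Topology

namespace Crest.Agent.R133.XF

theorem Reg_monoD {d : ℕ} {D D' : ℝ} (h : D ≤ D') {f : EE d → EE d} {ν : Measure (EE d)} {r : ℝ}
    {x : EE d} (hx : Reg D f ν r x) : Reg D' f ν r x where
  diff := hx.diff
  norm_le y hy := (hx.norm_le y hy).trans (Real.exp_le_exp.2 h)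
  inv y hy := by
    obtain ⟨B, h1, h2, h3⟩ := hx.inv y hy
    exact ⟨B, h1, h2, h3.trans (Real.exp_le_exp.2 h)⟩
  dom_le y hy := (hx.dom_le y hy).trans h
  val_le y hy := (hx.val_le y hy).trans h
  lip y hy z hz := (hx.lip y hy z hz).trans (mul_le_mul_of_nonneg_right h (norm_nonneg _))
  vol := by
    refine hx.vol.trans ?_
    intro A
    simp only [Measure.smul_apply, smul_eq_mul]
    exact mul_le_mul_left (ENNReal.ofReal_le_ofReal h) _

theorem SM_monoD {d : ℕ} {D D' : ℝ} (h : D ≤ D') {f : EE d → EE d} {ν : Measure (EE d)}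
    (hx : SM D f ν) : SM D' f ν where
  meas := hx.meas
  prob := hx.prob
  pres := hx.pres
  le := by
    refine hx.le.trans ?_
    intro A
    simp only [Measure.smul_apply, smul_eq_mul]
    exact mul_le_mul_left (ENNReal.ofReal_le_ofReal h) _
  reg r h0 h1 := by
    calc ν {x | ¬ Reg D' f ν r x} ≤ ν {x | ¬ Reg D f ν r x} :=
          measure_mono (fun x hx' hxr => hx' (Reg_monoD h hxr))
      _ ≤ ENNReal.ofReal (D * r) := hx.reg r h0 h1
      _ ≤ ENNReal.ofReal (D' * r) :=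
          ENNReal.ofReal_le_ofReal (mul_le_mul_of_nonneg_right h h0.le)

theorem succ_le_tt (s : ℕ) : s + 1 ≤ NN s := by
  have h : s < 1600 ^ s := Nat.lt_pow_self (by norm_num)
  have := Par.NN_ge s
  omega

/-- numeric domination of the size of one family -/
theorem eventually_card (C : ℝ) (hC : 0 ≤ C) : ∀ᶠ s : ℕ in atTop,
    Real.exp (Real.exp (C * tt s)) * ((s : ℝ) + 1) ^ 3 ≤
      Real.exp (Real.exp (hh (s + 1) * NN (s + 1) / 2)) := by
  filter_upwards [Par.hN_ge (2 * (C + 1))] with s hs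
  have ht : (3 : ℝ) * (s + 1) ≤ tt s := by
    have h1 := succ_le_tt s
    have h2 : tt s = nn s * NN s := rfl
    have h3 := Par.nn_ge s
    have h4 : 3 * (s + 1) ≤ tt s := by
      rw [h2]
      calc 3 * (s + 1) ≤ nn s * (s + 1) := Nat.mul_le_mul_right _ (by omega)
        _ ≤ nn s * NN s := Nat.mul_le_mul_left _ h1
    exact_mod_cast h4
  have hs0 : (0 : ℝ) ≤ (s : ℝ) := Nat.cast_nonneg _
  have hcube : ((s : ℝ) + 1) ^ 3 ≤ Real.exp (tt s) := by
    calc ((s : ℝ) + 1) ^ 3 ≤ (Real.exp s) ^ 3 := by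
          apply pow_le_pow_left₀ (by positivity)
          exact Real.add_one_le_exp _
      _ = Real.exp (3 * s) := by
          rw [← Real.exp_nat_mul]; norm_num
      _ ≤ Real.exp (tt s) := Real.exp_le_exp.2 (by linarith)
  calc Real.exp (Real.exp (C * tt s)) * ((s : ℝ) + 1) ^ 3
      ≤ Real.exp (Real.exp (C * tt s)) * Real.exp (tt s) :=
        mul_le_mul_of_nonneg_left hcube (Real.exp_pos _).le
    _ = Real.exp (Real.exp (C * tt s) + tt s) := by rw [Real.exp_add]
    _ ≤ Real.exp (Real.exp (hh (s + 1) * NN (s + 1) / 2)) := by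
        apply Real.exp_le_exp.2
        have h1 : (C + 1) * tt s ≤ hh (s + 1) * NN (s + 1) / 2 := by linarith
        refine le_trans ?_ (Real.exp_le_exp.2 h1)
        have ht0 : (0 : ℝ) ≤ tt s := Nat.cast_nonneg _
        have h2 : (1 : ℝ) ≤ Real.exp (C * tt s) := Real.one_le_exp (by positivity)
        have h3 : (tt s : ℝ) + 1 ≤ Real.exp (tt s) := Real.add_one_le_exp _
        have h4 : Real.exp ((C + 1) * tt s) = Real.exp (C * tt s) * Real.exp (tt s) := by
          rw [← Real.exp_add]; congr 1; ring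
        rw [h4]
        nlinarith

/-- the conclusion of `StSmoothAt` for one system, with `Fam` replaced by `Lw` -/
def Dom (Lw : ∀ s, Finset ((Fin (NN (s + 1)) → Bool) → ℝ)) {d : ℕ} (Q : Set (EE d)) (C : ℝ)
    (f : EE d → EE d) (ν : Measure (EE d)) : Prop :=
  ∃ St : Set ℕ, Summable (Stᶜ.indicator kap) ∧
    ∀ B : ℕ → Set (EE d), (∀ s, MeasurableSet (B s)) →
      (∀ s, ∀ i < NN (s + 1), ∀ j < NN (s + 1), i ≠ j →
        ν (f^[i] ⁻¹' (B s) ∩ f^[j] ⁻¹' (B s)) = 0) →
      ∀ᶠ s in atTop, s ∈ St →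
        ∃ p ∈ Lw s, ∃ G : Set (EE d), MeasurableSet G ∧ G ⊆ B s ∧
          ν (B s \ G) ≤ ENNReal.ofReal (1 / (20 * (NN (s + 1) : ℝ))) ∧
          ∀ A : Set (Fin (NN (s + 1)) → Bool),
            ν {x | x ∈ G ∧ QName (NN (s + 1)) f Q x ∈ A} ≤
              ENNReal.ofReal (C * ∑ z ∈ (open Classical in Finset.univ.filter (fun z => z ∈ A)), p z)

theorem exists_family (Qs : ∀ d : ℕ, ℕ → Set (EE d)) (hS : ∀ d i, StSmoothAt (Qs (d + 1) i)) :
    ∃ Lw : ∀ s, Finset ((Fin (NN (s + 1)) → Bool) → ℝ),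
      (∀ s, ∀ p ∈ Lw s, IsLaw p) ∧
      (∀ s, ((Lw s).card : ℝ) ≤ Real.exp (Real.exp (hh (s + 1) * NN (s + 1) / 2))) ∧
      ∀ (d i : ℕ) (D : ℝ), ∃ C : ℝ, 0 ≤ C ∧
        ∀ (f : EE (d + 1) → EE (d + 1)) (ν : Measure (EE (d + 1))), SM D f ν →
          Dom Lw (Qs (d + 1) i) C f ν := by
  classical
  have hS' : ∀ x : ℕ × ℕ × ℕ, _ := fun x => hS x.1 x.2.1 ((x.2.2 : ℝ) + 1)
    (by have : (0 : ℝ) ≤ (x.2.2 : ℝ) := Nat.cast_nonneg _
        linarith)
  choose C Fam hC hlaw hcard hmain using hS'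
  let bd : ℕ → ℝ := fun s => Real.exp (Real.exp (hh (s + 1) * NN (s + 1) / 2))
  let R : ℕ → Finset (ℕ × ℕ × ℕ) := fun s =>
    Finset.range (s + 1) ×ˢ Finset.range (s + 1) ×ˢ Finset.range (s + 1)
  let Lw : ∀ s, Finset ((Fin (NN (s + 1)) → Bool) → ℝ) := fun s =>
    (R s).biUnion (fun x => if ((Fam x s).card : ℝ) * ((s : ℝ) + 1) ^ 3 ≤ bd s then Fam x s else ∅)
  refine ⟨Lw, ?_, ?_, ?_⟩
  · intro s p hp
    obtain ⟨x, _, hx⟩ := Finset.mem_biUnion.1 hp
    split_ifs at hx with hc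
    · exact hlaw x s p hx
    · simp at hx
  · intro s
    have h0 : (Lw s).card ≤ ∑ x ∈ R s,
        (if ((Fam x s).card : ℝ) * ((s : ℝ) + 1) ^ 3 ≤ bd s then Fam x s else ∅).card :=
      Finset.card_biUnion_le
    have h1 : ((Lw s).card : ℝ) ≤ ∑ x ∈ R s,
        ((if ((Fam x s).card : ℝ) * ((s : ℝ) + 1) ^ 3 ≤ bd s then Fam x s else ∅).card : ℝ) := by
      rw [← Nat.cast_sum]
      exact Nat.cast_le.2 h0
    have hpos : (0 : ℝ) < ((s : ℝ) + 1) ^ 3 := by positivity
    have h2 : ∀ x ∈ R s,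
        ((if ((Fam x s).card : ℝ) * ((s : ℝ) + 1) ^ 3 ≤ bd s then Fam x s else ∅).card : ℝ)
          ≤ bd s / ((s : ℝ) + 1) ^ 3 := by
      intro x _
      split_ifs with hc
      · rw [le_div_iff₀ hpos]; exact hc
      · simp only [Finset.card_empty, Nat.cast_zero]
        have : (0 : ℝ) < bd s := Real.exp_pos _
        positivity
    refine h1.trans ((Finset.sum_le_sum h2).trans ?_)
    rw [Finset.sum_const, nsmul_eq_mul]
    have h3 : ((R s).card : ℝ) = ((s : ℝ) + 1) ^ 3 := by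
      simp only [R, Finset.card_product, Finset.card_range]
      push_cast
      ring
    rw [h3, mul_div_cancel₀ _ hpos.ne']
  · intro d i D
    set x : ℕ × ℕ × ℕ := (d, i, ⌈D⌉₊) with hx
    refine ⟨C x, hC x, ?_⟩
    intro f ν hSM
    have hSM' : SM ((x.2.2 : ℝ) + 1) f ν := by
      apply SM_monoD _ hSM
      have := Nat.le_ceil D
      simp only [hx]
      linarith
    obtain ⟨St, hSt, hB⟩ := hmain x f ν hSM'
    refine ⟨St, hSt, ?_⟩
    intro B hBm hBd
    filter_upwards [hB B hBm hBd, hcard x, eventually_card (C x) (hC x),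
      eventually_ge_atTop (max (max x.1 x.2.1) x.2.2)] with s h1 h2 h3 h4 hsSt
    obtain ⟨p, hp, G, hG⟩ := h1 hsSt
    refine ⟨p, ?_, G, hG⟩
    apply Finset.mem_biUnion.2
    refine ⟨x, ?_, ?_⟩
    · simp only [R, Finset.mem_product, Finset.mem_range]
      have h5 : x.1 ≤ s := le_trans (le_trans (le_max_left _ _) (le_max_left _ _)) h4
      have h6 : x.2.1 ≤ s := le_trans (le_trans (le_max_right _ _) (le_max_left _ _)) h4
      have h7 : x.2.2 ≤ s := le_trans (le_max_right _ _) h4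
      omega
    · rw [if_pos]
      · exact hp
      · exact le_trans (mul_le_mul_of_nonneg_right h2 (by positivity)) h3

/-- heights along orbits -/
theorem phi_iter {τ : Tau} {Ω : Type*} [MeasurableSpace Ω] {ν : Measure Ω} {f : Ω → Ω}
    {w : ∀ s, Ω → W s} {φ : ℕ → Ω → ℕ} (hf : MeasurePreserving f ν ν)
    (hT : TowerMaps τ ν f w φ) (s : ℕ) :
    ∀ᵐ x ∂ν, ∀ k, φ s (f^[k] x) = (φ s x + k) % NN s := by
  have h1 : ∀ᵐ x ∂ν, ∀ k, φ s (f (f^[k] x)) = (φ s (f^[k] x) + 1) % NN s := by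
    rw [ae_all_iff]
    intro k
    exact (hf.iterate k).quasiMeasurePreserving.ae (hT.φ_step s)
  filter_upwards [h1, hT.φ_lt s] with x hx hlt
  intro k
  induction k with
  | zero => simp [Nat.mod_eq_of_lt hlt]
  | succ k ih =>
    rw [Function.iterate_succ_apply', hx k, ih, Nat.mod_add_mod]
    rfl

/-- the bases are disjoint along the orbit -/
theorem base_disjoint {τ : Tau} {Ω : Type*} [MeasurableSpace Ω] {ν : Measure Ω} {f : Ω → Ω}
    {w : ∀ s, Ω → W s} {φ : ℕ → Ω → ℕ} (hf : MeasurePreserving f ν ν)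
    (hT : TowerMaps τ ν f w φ) (s : ℕ) {i j : ℕ} (hi : i < NN s) (hj : j < NN s) (hij : i ≠ j) :
    ν (f^[i] ⁻¹' {x | φ s x = 0} ∩ f^[j] ⁻¹' {x | φ s x = 0}) = 0 := by
  have h := phi_iter hf hT s
  rw [ae_iff] at h
  refine measure_mono_null ?_ h
  intro x hx hcon
  obtain ⟨h1, h2⟩ := hx
  change φ s (f^[i] x) = 0 at h1
  change φ s (f^[j] x) = 0 at h2
  rw [hcon i] at h1
  rw [hcon j] at h2
  have h3 : (φ s x + i) ≡ (φ s x + j) [MOD NN s] := by
    unfold Nat.ModEq
    rw [h1, h2]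
  have h4 : i ≡ j [MOD NN s] := Nat.ModEq.add_left_cancel' _ h3
  have h5 := Nat.ModEq.eq_of_lt_of_lt h4 hi hj
  exact hij h5

/-- transport of tower maps along a measure preserving, a.e. equivariant map -/
theorem tower_comap {τ : Tau} {X Y : Type*} [MeasurableSpace X] [MeasurableSpace Y]
    {μ : Measure X} {ν : Measure Y} {T : X → X} {S : Y → Y} {w : ∀ s, X → W s}
    {φ : ℕ → X → ℕ} (hT : TowerMaps τ μ T w φ) (G : Y → X) (hG : MeasurePreserving G ν μ)
    (hGT : ∀ᵐ y ∂ν, G (S y) = T (G y)) :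
    TowerMaps τ ν S (fun s y => w s (G y)) (fun s y => φ s (G y)) where
  w_meas s := (hT.w_meas s).comp hG.measurable
  φ_meas s := (hT.φ_meas s).comp hG.measurable
  φ_lt s := hG.quasiMeasurePreserving.ae (hT.φ_lt s)
  unif s u i hi := by
    rw [← hT.unif s u i hi]
    have hm : MeasurableSet {x | w s x = u ∧ φ s x = i} :=
      ((hT.w_meas s) (measurableSet_singleton u)).inter
        ((hT.φ_meas s) (measurableSet_singleton i))
    exact hG.measure_preimage hm.nullMeasurableSet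
  φ_step s := by
    filter_upwards [hG.quasiMeasurePreserving.ae (hT.φ_step s), hGT] with y h1 h2
    rw [h2]; exact h1
  w_step s := by
    filter_upwards [hG.quasiMeasurePreserving.ae (hT.w_step s), hGT] with y h1 h2 h3
    rw [h2]; exact h1 h3
  φ_cons s := hG.quasiMeasurePreserving.ae (hT.φ_cons s)
  w_cons s := hG.quasiMeasurePreserving.ae (hT.w_cons s)

/-- FINAL ASSEMBLY of S0182 -/
theorem final (hComb : StComb) (hA : StTheoremA) (hPot : StPot)
    {Qs : ∀ d : ℕ, ℕ → Set (EE d)} (hQ : QFam Qs)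
    (hSm : ∀ d i, StSmoothAt (Qs (d + 1) i)) (hM : StNoModel) :
    ∃ (X : Type) (_ : MeasurableSpace X) (μ : Measure X) (T : X ≃ᵐ X),
      IsProbabilityMeasure μ ∧ Crest.AnalysisR.IsStandardProbability μ ∧
      MeasurePreserving T μ μ ∧ Ergodic T μ ∧ Crest.AnalysisR.HasZeroEntropy μ T ∧
      Crest.AnalysisR.NoSmoothPositiveVolumeModel μ T := by
  obtain ⟨Lw, hlaw, hcard, hdom⟩ := exists_family Qs hSm
  obtain ⟨τ, hτ⟩ := hComb Lw hlaw hcard
  obtain ⟨X, mX, μ, T, w, φ, hprob, hstd, hmp, herg, hent, htow⟩ := hA τ hτ.bal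
  refine ⟨X, mX, μ, T, hprob, hstd, hmp, herg, hent, ?_⟩
  have := hprob
  apply hM X μ T hstd
  intro d D f F G hD hSM hF hG hGF hfF
  -- the transported tower maps
  set ν : Measure (EE (d + 1)) := μ.map F with hν
  have : IsProbabilityMeasure ν := hSM.prob
  have hGmp : MeasurePreserving G ν μ := by
    refine ⟨hG, ?_⟩
    rw [hν, Measure.map_map hG hF]
    have : (G ∘ F) =ᵐ[μ] id := by
      filter_upwards [hGF] with x hx using hx
    rw [Measure.map_congr this, Measure.map_id]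
  have hFG : ∀ᵐ y ∂ν, F (G y) = y := by
    have hm : MeasurableSet {y : EE (d + 1) | F (G y) = y} :=
      measurableSet_eq_fun (hF.comp hG) measurable_id
    rw [hν, ae_map_iff hF.aemeasurable hm]
    filter_upwards [hGF] with x hx
    rw [hx]
  have hGT : ∀ᵐ y ∂ν, G (f y) = T (G y) := by
    have hms : ∀ᵐ x ∂μ, G (f (F x)) = T (G (F x)) := by
      filter_upwards [hGF, hfF, hmp.quasiMeasurePreserving.ae hGF] with x h1 h2 h3
      rw [h2, h3, h1]
    filter_upwards [hGmp.quasiMeasurePreserving.ae hms, hFG] with y h1 h2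
    rw [h2] at h1
    exact h1
  have hfmp : MeasurePreserving f ν ν := ⟨hSM.meas, hSM.pres⟩
  have htow' := tower_comap htow G hGmp hGT
  -- the set `Q`
  have hAm : MeasurableSet {y : EE (d + 1) | (show Bool from w 0 (G y)) = true} := by
    have h1 : Measurable (fun y => w 0 (G y)) := htow'.w_meas 0
    exact h1 (MeasurableSet.of_discrete (s := {u : W 0 | (show Bool from u) = true}))
  obtain ⟨i, hi⟩ := hQ.dense (d + 1) ν _ hAm (rho ^ 2) (by unfold rho; positivity)
  have hq : Measurable (qOf (Qs (d + 1) i)) := by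
    apply measurable_to_bool
    have : qOf (Qs (d + 1) i) ⁻¹' {true} = Qs (d + 1) i := by
      ext y
      simp [qOf]
    rw [this]
    exact hQ.meas (d + 1) i
  have hqd : ν {x | qOf (Qs (d + 1) i) x ≠ (show Bool from w 0 (G x))} ≤
      ENNReal.ofReal (rho ^ 2) := by
    refine le_trans (measure_mono ?_) hi
    intro y hy hcon
    apply hy
    by_cases hyQ : y ∈ Qs (d + 1) i
    · have h1 : (show Bool from w 0 (G y)) = true := hcon.1 hyQ
      rw [h1]
      simp [qOf, hyQ]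
    · have h1 : ¬ (show Bool from w 0 (G y)) = true := fun h => hyQ (hcon.2 h)
      rw [Bool.not_eq_true] at h1
      rw [h1]
      simp [qOf, hyQ]
  obtain ⟨C, hC, hdomC⟩ := hdom d i D
  obtain ⟨St, hSt, hB⟩ := hdomC f ν hSM
  have hev := hB (fun s => {y | φ (s + 1) (G y) = 0})
    (fun s => (htow'.φ_meas (s + 1)) (measurableSet_singleton 0))
    (fun s i hi j hj hij => base_disjoint hfmp htow' (s + 1) hi hj hij)
  have hN : ∀ᶠ s : ℕ in atTop, 20 * (1 + C) ≤ (NN (s + 1) : ℝ) := by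
    filter_upwards [eventually_ge_atTop ⌈20 * (1 + C)⌉₊] with s hs
    have h1 : 20 * (1 + C) ≤ (s : ℝ) := (Nat.le_ceil _).trans (Nat.cast_le.2 hs)
    have h2 : (s : ℝ) ≤ (NN (s + 1) : ℝ) := by
      have := succ_le_tt (s + 1)
      exact_mod_cast (by omega : s ≤ NN (s + 1))
    linarith
  obtain ⟨S0, hS0⟩ := eventually_atTop.1 (hev.and hN)
  refine hPot τ hτ.B hτ.P1 (EE (d + 1)) ν f _ _ (qOf (Qs (d + 1) i)) hfmp htow' hq hqd St hSt S0 ?_
  intro s0 s h0 hs hsSt
  obtain ⟨h1, h2⟩ := hS0 s (h0.trans hs)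
  obtain ⟨p, hp, G', _, _, hG'1, hG'2⟩ := h1 hsSt
  exact exc_bound τ ν f _ _ htow' (Qs (d + 1) i) s0 s C hC p (hτ.P2 s0 s hs p hp) G' hG'1 hG'2 h2

end Crest.Agent.R133.XF
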