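import Mathlib

/-!
Row 133, section 10 (KL matching): the covering step.
Abstract form: a maximal `r/4`-separated subset for the Bowen metric
`max_{i ≤ N} ‖f^i x - f^i x'‖` gives a countable cover by `f`-Bowen balls of radius `r/4`
while the `g`-Bowen balls of radius `r/8` around the same pseudo orbits are disjoint.
-/

set_option autoImplicit false

open MeasureTheory Set Function
open scoped ENNReal

namespace Crest.Agent.R133.KL

variable {E : Type*} [NormedAddCommGroup E] [MeasurableSpace E] [BorelSpace E]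

/-- the set of points whose `g`-orbit stays `ρ`-close to the sequence `x` on `[0,N]`. -/
def BB (g : E → E) (N : ℕ) (x : ℕ → E) (ρ : ℝ) : Set E := {y | ∀ i ≤ N, ‖g^[i] y - x i‖ ≤ ρ}

lemma measurableSet_BB {g : E → E} (hg : Measurable g) (N : ℕ) (x : ℕ → E) (ρ : ℝ) :
    MeasurableSet (BB g N x ρ) := by
  have : BB g N x ρ = ⋂ i ∈ Set.Iic N, {y | ‖g^[i] y - x i‖ ≤ ρ} := by
    ext y; simp [BB]
  rw [this]
  refine MeasurableSet.biInter (Set.to_countable _) fun i _ => ?_
  exact measurableSet_le ((hg.iterate i).sub_const _).norm measurable_const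

theorem cover [SecondCountableTopology E] {f g : E → E} (hg : Measurable g) (N : ℕ)
    (νf νg : Measure E) (C : ℝ≥0∞) {r : ℝ} (hr : 0 < r) (G' : Set E)
    (hloc : ∀ x ∈ G', νf (BB f N (fun i => f^[i] x) (r / 4)) ≤
      C * νg (BB g N (fun i => f^[i] x) (r / 8))) :
    νf G' ≤ C * νg (⋃ x ∈ G', BB g N (fun i => f^[i] x) (r / 8)) := by
  classical
  -- the orbit map
  set Φ : E → (Fin (N + 1) → E) := fun x i => f^[(i : ℕ)] x with hΦ
  -- separated subsets
  set 𝒮 : Set (Set E) := {A | A ⊆ G' ∧ A.Pairwise fun a b => ∃ i ≤ N, r / 4 < ‖f^[i] a - f^[i] b‖} with h𝒮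
  obtain ⟨A, hA⟩ : ∃ A, Maximal (· ∈ 𝒮) A := by
    refine zorn_subset 𝒮 ?_
    intro c hc hchain
    refine ⟨⋃₀ c, ⟨Set.sUnion_subset fun s hs => (hc hs).1, ?_⟩, fun s hs => Set.subset_sUnion_of_mem hs⟩
    intro a ha b hb hab
    obtain ⟨s, hs, has⟩ := ha
    obtain ⟨t, ht, hbt⟩ := hb
    rcases hchain.total hs ht with h | h
    · exact (hc ht).2 (h has) hbt hab
    · exact (hc hs).2 has (h hbt) hab
  have hAG : A ⊆ G' := hA.prop.1
  have hsep := hA.prop.2
  -- covering
  have hcov : G' ⊆ ⋃ a ∈ A, BB f N (fun i => f^[i] a) (r / 4) := by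
    intro x hx
    by_cases hxA : x ∈ A
    · simp only [Set.mem_iUnion]
      refine ⟨x, hxA, fun i _ => ?_⟩
      simp; positivity
    · by_contra hcon
      simp only [Set.mem_iUnion, not_exists, BB, Set.mem_ofPred_eq, not_forall, not_le] at hcon
      have hmem : insert x A ∈ 𝒮 := by
        refine ⟨Set.insert_subset hx hAG, ?_⟩
        intro a ha b hb hab
        rcases Set.mem_insert_iff.1 ha with ha1 | ha1
        · rcases Set.mem_insert_iff.1 hb with hb1 | hb1
          · exact absurd (ha1.trans hb1.symm) hab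
          · obtain ⟨i, hi, h⟩ := hcon b hb1
            exact ⟨i, hi, by rw [ha1]; exact h⟩
        · rcases Set.mem_insert_iff.1 hb with hb1 | hb1
          · obtain ⟨i, hi, h⟩ := hcon a ha1
            exact ⟨i, hi, by rw [hb1, norm_sub_rev]; exact h⟩
          · exact hsep ha1 hb1 hab
      have := hA.eq_of_subset hmem (Set.subset_insert x A)
      exact hxA (this ▸ Set.mem_insert x A)
  -- countability
  have hcount : A.Countable := by
    have hinj : Set.InjOn Φ A := by
      intro a ha b hb hab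
      by_contra hne
      obtain ⟨i, hi, h⟩ := hsep ha hb hne
      have := congrFun hab ⟨i, by omega⟩
      simp only [hΦ] at this
      rw [this] at h
      simp at h
      linarith
    have hdisj : (Φ '' A).PairwiseDisjoint (fun z => Metric.ball z (r / 8)) := by
      rintro _ ⟨a, ha, rfl⟩ _ ⟨b, hb, rfl⟩ hab
      have hne : a ≠ b := fun h => hab (by rw [h])
      obtain ⟨i, hi, h⟩ := hsep ha hb hne
      refine Metric.ball_disjoint_ball ?_
      have h1 : ‖f^[i] a - f^[i] b‖ ≤ dist (Φ a) (Φ b) := by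
        rw [← dist_eq_norm]
        exact dist_le_pi_dist (Φ a) (Φ b) ⟨i, by omega⟩
      linarith
    have h2 : (Φ '' A).Countable := by
      refine hdisj.countable_of_isOpen (fun z _ => Metric.isOpen_ball) ?_
      rintro z _
      exact Metric.nonempty_ball.2 (by positivity)
    exact Set.countable_of_injective_of_countable_image hinj h2
  -- disjointness
  have hdis : A.PairwiseDisjoint (fun a => BB g N (fun i => f^[i] a) (r / 8)) := by
    intro a ha b hb hab
    obtain ⟨i, hi, h⟩ := hsep ha hb hab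
    refine Set.disjoint_left.2 fun y hya hyb => ?_
    have h1 := hya i hi
    have h2 := hyb i hi
    have h3 : ‖f^[i] a - f^[i] b‖ ≤ ‖g^[i] y - f^[i] a‖ + ‖g^[i] y - f^[i] b‖ := by
      have : f^[i] a - f^[i] b = (g^[i] y - f^[i] b) - (g^[i] y - f^[i] a) := by abel
      rw [this]
      exact (norm_sub_le _ _).trans (by linarith [add_comm ‖g^[i] y - f^[i] a‖ ‖g^[i] y - f^[i] b‖])
    simp only at h1 h2
    linarith
  have := hcount.to_subtype
  calc νf G' ≤ νf (⋃ a ∈ A, BB f N (fun i => f^[i] a) (r / 4)) := measure_mono hcov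
    _ ≤ ∑' a : A, νf (BB f N (fun i => f^[i] (a : E)) (r / 4)) := measure_biUnion_le νf hcount _
    _ ≤ ∑' a : A, C * νg (BB g N (fun i => f^[i] (a : E)) (r / 8)) :=
        ENNReal.tsum_le_tsum fun a => hloc a (hAG a.2)
    _ = C * ∑' a : A, νg (BB g N (fun i => f^[i] (a : E)) (r / 8)) := ENNReal.tsum_mul_left
    _ = C * νg (⋃ a ∈ A, BB g N (fun i => f^[i] a) (r / 8)) := by
        rw [measure_biUnion hcount hdis fun a _ => measurableSet_BB hg N _ _]
    _ ≤ C * νg (⋃ x ∈ G', BB g N (fun i => f^[i] x) (r / 8)) := by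
        exact mul_le_mul_right (measure_mono (Set.biUnion_subset_biUnion_left hAG)) _

end Crest.Agent.R133.KL
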