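import Crest.Agent.R133.L2b

/-! Row 133, section 8 of note 12068: the nonlinear lemma
`Leb B_f(r/4) ≤ 4 * 8^d * Leb B_g(r/8)`. -/

set_option autoImplicit false
open Finset Metric Set MeasureTheory Module
open scoped ENNReal NNReal Pointwise
set_option linter.unusedSectionVars false

namespace Crest.Agent.R133.L2

open Crest.Agent.R133

variable {E : Type*} [NormedAddCommGroup E] [NormedSpace ℝ E]

/-- the nonlinear remainder -/
def qq (g : E → E) (x : ℕ → E) (A : ℕ → E →L[ℝ] E) (i : ℕ) (w : E) : E :=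
  g (x i + w) - x (i + 1) - A i w

/-- the coordinate map `β`. -/
noncomputable def bet (g : E → E) (x : ℕ → E) (A : ℕ → E →L[ℝ] E) (S : E →L[ℝ] E) (n : ℕ) (y : E) : E :=
  (y - x 0) + S ((g^[n] y - x n) - Phi A 0 n (y - x 0))

theorem qq_lip {g : E → E} {g' : E → E →L[ℝ] E} {x : ℕ → E} {A : ℕ → E →L[ℝ] E} {n : ℕ} {r η : ℝ}
    (hg' : ∀ i < n, ∀ z ∈ closedBall (x i) r, HasFDerivAt g (g' z) z ∧ ‖g' z - A i‖ ≤ η)
    {i : ℕ} (hi : i < n) {w w' : E} (hw : ‖w‖ ≤ r) (hw' : ‖w'‖ ≤ r) :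
    ‖qq g x A i w - qq g x A i w'‖ ≤ η * ‖w - w'‖ := by
  have hconv : Convex ℝ (closedBall (0 : E) r) := convex_closedBall 0 r
  have hd : ∀ z ∈ closedBall (0 : E) r,
      HasFDerivWithinAt (qq g x A i) (g' (x i + z) - A i) (closedBall (0 : E) r) z := by
    intro z hz
    have hz' : x i + z ∈ closedBall (x i) r := by
      rw [mem_closedBall_zero_iff] at hz
      simpa [mem_closedBall, dist_eq_norm] using hz
    have h1 : HasFDerivAt (fun w => g (x i + w)) (g' (x i + z)) z := by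
      have h2 : HasFDerivAt (fun w : E => x i + w) (ContinuousLinearMap.id ℝ E) z :=
        (hasFDerivAt_id z).const_add (x i)
      have h3 := (hg' i hi _ hz').1.comp z h2
      rw [ContinuousLinearMap.comp_id] at h3
      exact h3
    have h4 : HasFDerivAt (qq g x A i) (g' (x i + z) - A i) z :=
      (h1.sub_const (x (i + 1))).sub (A i).hasFDerivAt
    exact h4.hasFDerivWithinAt
  have hb : ∀ z ∈ closedBall (0 : E) r, ‖g' (x i + z) - A i‖ ≤ η := by
    intro z hz
    have hz' : x i + z ∈ closedBall (x i) r := by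
      rw [mem_closedBall_zero_iff] at hz
      simpa [mem_closedBall, dist_eq_norm] using hz
    exact (hg' i hi _ hz').2
  have hw1 : w ∈ closedBall (0 : E) r := by rwa [mem_closedBall_zero_iff]
  have hw1' : w' ∈ closedBall (0 : E) r := by rwa [mem_closedBall_zero_iff]
  exact hconv.norm_image_sub_le_of_norm_hasFDerivWithin_le hd hb hw1' hw1

theorem qq_zero (g : E → E) (x : ℕ → E) (A : ℕ → E →L[ℝ] E) (i : ℕ) :
    qq g x A i 0 = g (x i) - x (i + 1) := by
  simp [qq]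

/-- an orbit of `g` gives a solution of the recursion. -/
theorem orbit_rec (g : E → E) (x : ℕ → E) (A : ℕ → E →L[ℝ] E) (y : E) (i : ℕ) :
    g^[i + 1] y - x (i + 1) = A i (g^[i] y - x i) + qq g x A i (g^[i] y - x i) := by
  rw [Function.iterate_succ_apply']
  simp [qq]

/-- Green representation of an orbit. -/
theorem orbit_green (g : E → E) (x : ℕ → E) (A : ℕ → E →L[ℝ] E) (S : E →L[ℝ] E) (n : ℕ) (y : E)
    {i : ℕ} (hi : i ≤ n) :
    g^[i] y - x i = Phi A 0 i (bet g x A S n y) +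
      ∑ j ∈ range n, Gf A S n i (j + 1) (qq g x A j (g^[j] y - x j)) :=
  sol_formula S (w := fun i => g^[i] y - x i) (e := fun j => qq g x A j (g^[j] y - x j))
    (fun i _ => orbit_rec g x A y i) hi

theorem sum_bound {A : ℕ → E →L[ℝ] E} {S : E →L[ℝ] E} {n : ℕ} {G c : ℝ} (hG : 0 ≤ G)
    (hGf : ∀ i j, i ≤ n → j ≤ n → ‖Gf A S n i j‖ ≤ G) {e : ℕ → E}
    (he : ∀ j < n, ‖e j‖ ≤ c) {i : ℕ} (hi : i ≤ n) :
    ‖∑ j ∈ range n, Gf A S n i (j + 1) (e j)‖ ≤ n * G * c := by
  have h1 : ‖∑ j ∈ range n, Gf A S n i (j + 1) (e j)‖ ≤ ∑ _j ∈ range n, G * c := by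
    refine (norm_sum_le _ _).trans (Finset.sum_le_sum fun j hj => ?_)
    rw [Finset.mem_range] at hj
    refine (ContinuousLinearMap.le_opNorm _ _).trans ?_
    have := hGf i (j + 1) hi (by omega)
    have h2 := he j hj
    have h3 : 0 ≤ c := (norm_nonneg _).trans h2
    gcongr
  rw [Finset.sum_const, card_range, nsmul_eq_mul] at h1
  linarith [h1, mul_assoc (n : ℝ) G c]

section
variable {n : ℕ} {r η ε G : ℝ} {x : ℕ → E} {A : ℕ → E →L[ℝ] E} {S : E →L[ℝ] E}

/-- (a) injectivity -/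
theorem bet_injOn (hr : 0 < r) (hη : 0 ≤ η) (hG : 0 ≤ G)
    (hGf : ∀ i j, i ≤ n → j ≤ n → ‖Gf A S n i j‖ ≤ G)
    {f : E → E} {f' : E → E →L[ℝ] E}
    (hf' : ∀ i < n, ∀ z ∈ closedBall (x i) r, HasFDerivAt f (f' z) z ∧ ‖f' z - A i‖ ≤ η)
    (h1 : n * G * η ≤ 1 / 8) :
    InjOn (bet f x A S n) {y | ∀ i ≤ n, ‖f^[i] y - x i‖ ≤ r / 4} := by
  intro y hy y' hy' hyy
  simp only [mem_setOf_eq] at hy hy'
  obtain ⟨i0, hi0, hmax⟩ := Finset.exists_max_image (range (n + 1))
    (fun i => ‖(f^[i] y - x i) - (f^[i] y' - x i)‖) ⟨0, by simp⟩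
  rw [Finset.mem_range] at hi0
  have hmax' : ∀ i ≤ n, ‖(f^[i] y - x i) - (f^[i] y' - x i)‖ ≤
      ‖(f^[i0] y - x i0) - (f^[i0] y' - x i0)‖ := fun i hi => hmax i (Finset.mem_range.2 (by omega))
  set m := ‖(f^[i0] y - x i0) - (f^[i0] y' - x i0)‖ with hm
  have hi0' : i0 ≤ n := by omega
  have hdiff : (f^[i0] y - x i0) - (f^[i0] y' - x i0) = ∑ j ∈ range n, Gf A S n i0 (j + 1)
      (qq f x A j (f^[j] y - x j) - qq f x A j (f^[j] y' - x j)) := by
    have e1 := orbit_green f x A S n y hi0'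
    have e2 := orbit_green f x A S n y' hi0'
    rw [← hyy] at e2
    rw [e1, e2, add_sub_add_left_eq_sub, ← Finset.sum_sub_distrib]
    simp only [map_sub]
  have hle : m ≤ n * G * (η * m) := by
    rw [hm, hdiff]
    apply sum_bound hG hGf _ hi0'
    intro j hj
    refine (qq_lip hf' hj ((hy j hj.le).trans (by linarith)) ((hy' j hj.le).trans (by linarith))).trans ?_
    rw [← hdiff]
    gcongr
    exact hmax' j hj.le
  have hm0 : 0 ≤ m := norm_nonneg _
  have hmz : m = 0 := by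
    have : n * G * (η * m) ≤ 1 / 8 * m := by
      have := mul_le_mul_of_nonneg_right h1 hm0
      linarith
    linarith
  have h0 := hmax' 0 (Nat.zero_le n)
  rw [hmz] at h0
  have h00 := norm_le_zero_iff.1 h0
  simp only [Function.iterate_zero, id_eq] at h00
  have : y - y' = 0 := by rw [← h00]; abel
  exact sub_eq_zero.1 this

/-- (a) image in `K_{r/2}` -/
theorem bet_mem_K (hr : 0 < r) (hη : 0 ≤ η) (hG : 0 ≤ G)
    (hGf : ∀ i j, i ≤ n → j ≤ n → ‖Gf A S n i j‖ ≤ G)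
    {f : E → E} {f' : E → E →L[ℝ] E}
    (hf' : ∀ i < n, ∀ z ∈ closedBall (x i) r, HasFDerivAt f (f' z) z ∧ ‖f' z - A i‖ ≤ η)
    (hx : ∀ i < n, f (x i) = x (i + 1))
    (h1 : n * G * η ≤ 1 / 8) {y : E} (hy : ∀ i ≤ n, ‖f^[i] y - x i‖ ≤ r / 4) :
    ∀ i ≤ n, ‖Phi A 0 i (bet f x A S n y)‖ ≤ r / 2 := by
  intro i hi
  have e1 := orbit_green f x A S n y hi
  have e2 : Phi A 0 i (bet f x A S n y) = (f^[i] y - x i) -
      ∑ j ∈ range n, Gf A S n i (j + 1) (qq f x A j (f^[j] y - x j)) := by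
    rw [e1]; abel
  rw [e2]
  refine (norm_sub_le _ _).trans ?_
  have h3 : ‖∑ j ∈ range n, Gf A S n i (j + 1) (qq f x A j (f^[j] y - x j))‖ ≤
      n * G * (η * (r / 4)) := by
    apply sum_bound hG hGf _ hi
    intro j hj
    have h4 := qq_lip hf' hj (w := f^[j] y - x j) (w' := 0) ((hy j hj.le).trans (by linarith))
      (by simpa using hr.le)
    rw [qq_zero, hx j hj, sub_self, sub_zero, sub_zero] at h4
    refine h4.trans ?_
    gcongr
    exact hy j hj.le
  have h5 : n * G * (η * (r / 4)) ≤ 1 / 8 * (r / 4) := by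
    have := mul_le_mul_of_nonneg_right h1 (show 0 ≤ r / 4 by linarith)
    linarith
  have := hy i hi
  linarith

/-- (b) surjectivity onto `K_{r/16}` -/
theorem K_subset_image [CompleteSpace E] (hr : 0 < r) (hη : 0 ≤ η) (hG : 0 ≤ G)
    (hGf : ∀ i j, i ≤ n → j ≤ n → ‖Gf A S n i j‖ ≤ G)
    {g : E → E} {g' : E → E →L[ℝ] E}
    (hg' : ∀ i < n, ∀ z ∈ closedBall (x i) r, HasFDerivAt g (g' z) z ∧ ‖g' z - A i‖ ≤ η)
    (hgx : ∀ i < n, ‖g (x i) - x (i + 1)‖ ≤ ε)
    (h1 : n * G * η ≤ 1 / 8) (h2 : n * G * ε ≤ r / 64) {b : E}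
    (hb : ∀ i ≤ n, ‖Phi A 0 i b‖ ≤ r / 16) :
    b ∈ bet g x A S n '' {y | ∀ i ≤ n, ‖g^[i] y - x i‖ ≤ r / 8} := by
  classical
  -- the fixed point problem on `Fin (n+1) → E`
  let ext : (Fin (n + 1) → E) → ℕ → E := fun w j => if h : j < n + 1 then w ⟨j, h⟩ else 0
  let F : (Fin (n + 1) → E) → (Fin (n + 1) → E) := fun w i =>
    Phi A 0 i b + ∑ j ∈ range n, Gf A S n i (j + 1) (qq g x A j (ext w j))
  have hext : ∀ w : Fin (n + 1) → E, ∀ j, ‖ext w j‖ ≤ ‖w‖ := by
    intro w j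
    simp only [ext]
    split_ifs with h
    · exact norm_le_pi_norm w ⟨j, h⟩
    · simp
  have hext2 : ∀ w w' : Fin (n + 1) → E, ∀ j, ‖ext w j - ext w' j‖ ≤ ‖w - w'‖ := by
    intro w w' j
    simp only [ext]
    split_ifs with h
    · exact norm_le_pi_norm (w - w') ⟨j, h⟩
    · simp
  let s : Set (Fin (n + 1) → E) := closedBall 0 (r / 8)
  have hmaps : MapsTo F s s := by
    intro w hw
    simp only [s, mem_closedBall_zero_iff] at hw ⊢
    rw [pi_norm_le_iff_of_nonneg (by linarith)]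
    intro i
    have hi : (i : ℕ) ≤ n := by omega
    have h3 : ‖∑ j ∈ range n, Gf A S n i (j + 1) (qq g x A j (ext w j))‖ ≤
        n * G * (ε + η * (r / 8)) := by
      apply sum_bound hG hGf _ hi
      intro j hj
      have h4 := qq_lip hg' hj (w := ext w j) (w' := 0)
        ((hext w j).trans (by linarith)) (by simpa using hr.le)
      rw [qq_zero, sub_zero] at h4
      have h5 := hgx j hj
      have h6 : ‖qq g x A j (ext w j)‖ ≤ ‖g (x j) - x (j + 1)‖ +
          ‖qq g x A j (ext w j) - (g (x j) - x (j + 1))‖ := by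
        have := norm_add_le (g (x j) - x (j + 1)) (qq g x A j (ext w j) - (g (x j) - x (j + 1)))
        simpa using this
      have h7 : η * ‖ext w j‖ ≤ η * (r / 8) := by
        gcongr
        exact (hext w j).trans hw
      linarith
    have h8 : n * G * (ε + η * (r / 8)) = n * G * ε + (n * G * η) * (r / 8) := by ring
    have h9 : (n * G * η) * (r / 8) ≤ 1 / 8 * (r / 8) := by gcongr
    calc ‖F w i‖ ≤ ‖Phi A 0 i b‖ + ‖∑ j ∈ range n, Gf A S n i (j + 1) (qq g x A j (ext w j))‖ :=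
          norm_add_le _ _
      _ ≤ r / 16 + n * G * (ε + η * (r / 8)) := add_le_add (hb i hi) h3
      _ ≤ r / 8 := by rw [h8]; linarith
  have hcontr : ContractingWith (1 / 8 : ℝ≥0) (hmaps.restrict F s s) := by
    refine ⟨by
      rw [← NNReal.coe_lt_coe]; norm_num, ?_⟩
    apply LipschitzWith.of_dist_le_mul
    rintro ⟨w, hw⟩ ⟨w', hw'⟩
    simp only [s, mem_closedBall_zero_iff] at hw hw'
    rw [Subtype.dist_eq, Subtype.dist_eq, dist_eq_norm, dist_eq_norm]
    simp only [MapsTo.val_restrict_apply]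
    have hnn : 0 ≤ ((1 / 8 : ℝ≥0) : ℝ) * ‖w - w'‖ := by positivity
    rw [pi_norm_le_iff_of_nonneg hnn]
    intro i
    have hi : (i : ℕ) ≤ n := by omega
    have h3 : (F w - F w') i = ∑ j ∈ range n, Gf A S n i (j + 1)
        (qq g x A j (ext w j) - qq g x A j (ext w' j)) := by
      simp only [F, Pi.sub_apply, map_sub, Finset.sum_sub_distrib]
      abel
    rw [h3]
    have h4 : ‖∑ j ∈ range n, Gf A S n i (j + 1)
        (qq g x A j (ext w j) - qq g x A j (ext w' j))‖ ≤ n * G * (η * ‖w - w'‖) := by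
      apply sum_bound hG hGf _ hi
      intro j hj
      refine (qq_lip hg' hj ((hext w j).trans (by linarith)) ((hext w' j).trans (by linarith))).trans ?_
      gcongr
      exact hext2 w w' j
    refine h4.trans ?_
    have h5 := mul_le_mul_of_nonneg_right h1 (norm_nonneg (w - w'))
    have h6 : ((1 / 8 : ℝ≥0) : ℝ) = 1 / 8 := by norm_num
    rw [h6]
    linarith
  have hcomplete : IsComplete s := isClosed_closedBall.isComplete
  obtain ⟨w, hws, hwF, -⟩ := ContractingWith.exists_fixedPoint' hcomplete hmaps hcontr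
    (x := 0) (by simp only [s, mem_closedBall_zero_iff, norm_zero]; linarith) (edist_ne_top _ _)
  have hwF' : F w = w := hwF
  simp only [s, mem_closedBall_zero_iff] at hws
  have hwv : ∀ i ≤ n, ext w i = Phi A 0 i b +
      ∑ j ∈ range n, Gf A S n i (j + 1) (qq g x A j (ext w j)) := by
    intro i hi
    have h3 : ext w i = w ⟨i, by omega⟩ := by simp only [ext]; rw [dif_pos (by omega)]
    rw [h3]
    conv_lhs => rw [← hwF']
  have hrec : ∀ i < n, ext w (i + 1) = A i (ext w i) + qq g x A i (ext w i) := by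
    intro i hi
    rw [hwv (i + 1) (by omega), green_step A S b (fun j => qq g x A j (ext w j)) hi,
      ← hwv i hi.le]
  have horb : ∀ i ≤ n, g^[i] (x 0 + ext w 0) = x i + ext w i := by
    intro i
    induction i with
    | zero => intro _; rfl
    | succ i ih =>
      intro hi
      rw [Function.iterate_succ_apply', ih (by omega), hrec i (by omega)]
      simp only [qq]
      abel
  refine ⟨x 0 + ext w 0, ?_, ?_⟩
  · intro i hi
    rw [horb i hi, add_sub_cancel_left]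
    exact (hext w i).trans hws
  · unfold bet
    rw [horb n le_rfl, add_sub_cancel_left, add_sub_cancel_left]
    have h3 := green_bdry A S b (fun j => qq g x A j (ext w j)) n
    rw [← hwv 0 (Nat.zero_le n), ← hwv n le_rfl] at h3
    exact h3

end

section measure
variable [FiniteDimensional ℝ E] [MeasurableSpace E] [BorelSpace E]

/-- derivative of the iterates along the window. -/
theorem iterate_hasFDerivAt {f : E → E} {f' : E → E →L[ℝ] E} {n : ℕ} {y : E}
    (h : ∀ i < n, HasFDerivAt f (f' (f^[i] y)) (f^[i] y)) {i : ℕ} (hi : i ≤ n) :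
    HasFDerivAt (f^[i]) (Phi (fun j => f' (f^[j] y)) 0 i) y := by
  induction i with
  | zero => simpa using hasFDerivAt_id y
  | succ i ih =>
    rw [Function.iterate_succ', Phi_succ _ (Nat.zero_le i)]
    exact (h i (by omega)).comp y (ih (by omega))

theorem bet_hasFDerivAt {f : E → E} {f' : E → E →L[ℝ] E} {n : ℕ} {y : E} (x : ℕ → E)
    (A : ℕ → E →L[ℝ] E) (S : E →L[ℝ] E)
    (h : ∀ i < n, HasFDerivAt f (f' (f^[i] y)) (f^[i] y)) :
    HasFDerivAt (bet f x A S n) (ContinuousLinearMap.id ℝ E +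
      S.comp (Phi (fun j => f' (f^[j] y)) 0 n - Phi A 0 n)) y := by
  have h1 := iterate_hasFDerivAt h (le_refl n)
  have h2 : HasFDerivAt (fun y => y - x 0) (ContinuousLinearMap.id ℝ E) y :=
    (hasFDerivAt_id y).sub_const (x 0)
  have h3 : HasFDerivAt (fun y => (f^[n] y - x n) - Phi A 0 n (y - x 0))
      (Phi (fun j => f' (f^[j] y)) 0 n - (Phi A 0 n).comp (ContinuousLinearMap.id ℝ E)) y :=
    (h1.sub_const (x n)).sub ((Phi A 0 n).hasFDerivAt.comp y h2)
  rw [ContinuousLinearMap.comp_id] at h3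
  exact h2.add (S.hasFDerivAt.comp y h3)

theorem measurableSet_tube {f : E → E} (hf : Measurable f) (x : ℕ → E) (n : ℕ) (ρ : ℝ) :
    MeasurableSet {y | ∀ i ≤ n, ‖f^[i] y - x i‖ ≤ ρ} := by
  have : {y | ∀ i ≤ n, ‖f^[i] y - x i‖ ≤ ρ} = ⋂ i, ⋂ (_ : i ≤ n), {y | ‖f^[i] y - x i‖ ≤ ρ} := by
    ext y; simp
  rw [this]
  refine MeasurableSet.iInter fun i => MeasurableSet.iInter fun _ => ?_
  exact measurableSet_le ((hf.iterate i).sub_const (x i)).norm measurable_const

/-- **NONLINEAR LEMMA L2** (section 8 of note 12068). -/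
theorem nonlinear (μ : Measure E) [μ.IsAddHaarMeasure] {n : ℕ} {r η ε G : ℝ} (hr : 0 < r)
    (hη : 0 ≤ η) (hG : 0 ≤ G) (x : ℕ → E) (A : ℕ → E →L[ℝ] E) (S : E →L[ℝ] E)
    (hG1 : ∀ i j, i < j → j ≤ n → ‖(Phi A 0 i).comp (S.comp (Phi A j n))‖ ≤ G)
    (hG2 : ∀ i j, j ≤ i → i ≤ n → ‖Phi A j i - (Phi A 0 i).comp (S.comp (Phi A j n))‖ ≤ G)
    (f g : E → E) (f' g' : E → E →L[ℝ] E) (hf : Measurable f) (hg : Measurable g)
    (hf' : ∀ i < n, ∀ z ∈ closedBall (x i) r, HasFDerivAt f (f' z) z ∧ ‖f' z - A i‖ ≤ η)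
    (hg' : ∀ i < n, ∀ z ∈ closedBall (x i) r, HasFDerivAt g (g' z) z ∧ ‖g' z - A i‖ ≤ η)
    (hx : ∀ i < n, f (x i) = x (i + 1)) (hgx : ∀ i < n, ‖g (x i) - x (i + 1)‖ ≤ ε)
    (h1 : n * G * η ≤ 1 / (8 * (finrank ℝ E + 1))) (h2 : n * G * ε ≤ r / 64) :
    μ {y | ∀ i ≤ n, ‖f^[i] y - x i‖ ≤ r / 4} ≤
      4 * 8 ^ finrank ℝ E * μ {y | ∀ i ≤ n, ‖g^[i] y - x i‖ ≤ r / 8} := by
  have hGf : ∀ i j, i ≤ n → j ≤ n → ‖Gf A S n i j‖ ≤ G := fun i j hi hj => norm_Gf_le hG1 hG2 hi hj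
  have hd : (0 : ℝ) ≤ (finrank ℝ E : ℝ) := by positivity
  have h8 : n * G * η ≤ 1 / 8 := by
    refine h1.trans ?_
    apply one_div_le_one_div_of_le <;> linarith
  set Bf := {y | ∀ i ≤ n, ‖f^[i] y - x i‖ ≤ r / 4} with hBf
  set Bg := {y | ∀ i ≤ n, ‖g^[i] y - x i‖ ≤ r / 8} with hBg
  let K : ℝ → Set E := fun ρ => {b | ∀ i ≤ n, ‖Phi A 0 i b‖ ≤ ρ}
  have hdet : ∀ (h : E → E) (h' : E → E →L[ℝ] E)
      (_ : ∀ i < n, ∀ z ∈ closedBall (x i) r, HasFDerivAt h (h' z) z ∧ ‖h' z - A i‖ ≤ η)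
      (y : E) (_ : ∀ i ≤ n, ‖h^[i] y - x i‖ ≤ r),
      HasFDerivAt (bet h x A S n) (ContinuousLinearMap.id ℝ E +
        S.comp (Phi (fun j => h' (h^[j] y)) 0 n - Phi A 0 n)) y ∧
      1 / 2 ≤ |(ContinuousLinearMap.id ℝ E +
        S.comp (Phi (fun j => h' (h^[j] y)) 0 n - Phi A 0 n)).det| ∧
      |(ContinuousLinearMap.id ℝ E +
        S.comp (Phi (fun j => h' (h^[j] y)) 0 n - Phi A 0 n)).det| ≤ 2 := by
    intro h h' hh y hy
    have hmem : ∀ i < n, h^[i] y ∈ closedBall (x i) r := by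
      intro i hi
      rw [mem_closedBall, dist_eq_norm]
      exact hy i hi.le
    refine ⟨bet_hasFDerivAt x A S fun i hi => (hh i hi _ (hmem i hi)).1, ?_⟩
    exact abs_det_bounds hη hG hGf h1 fun i hi => (hh i hi _ (hmem i hi)).2
  -- f side
  have hfside : ENNReal.ofReal (1 / 2) * μ Bf ≤ μ (K (r / 2)) := by
    have himg : bet f x A S n '' Bf ⊆ K (r / 2) := by
      rintro _ ⟨y, hy, rfl⟩
      exact bet_mem_K hr hη hG hGf hf' hx h8 hy
    have hcv := lintegral_abs_det_fderiv_eq_addHaar_image μ (measurableSet_tube hf x n (r / 4))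
      (f := bet f x A S n) (f' := fun y => ContinuousLinearMap.id ℝ E +
        S.comp (Phi (fun j => f' (f^[j] y)) 0 n - Phi A 0 n))
      (fun y hy => (hdet f f' hf' y fun i hi => (hy i hi).trans (by linarith)).1.hasFDerivWithinAt)
      (bet_injOn hr hη hG hGf hf' h8)
    calc ENNReal.ofReal (1 / 2) * μ Bf = ∫⁻ _y in Bf, ENNReal.ofReal (1 / 2) ∂μ := by
          rw [setLIntegral_const]
      _ ≤ ∫⁻ y in Bf, ENNReal.ofReal |(ContinuousLinearMap.id ℝ E +
            S.comp (Phi (fun j => f' (f^[j] y)) 0 n - Phi A 0 n)).det| ∂μ := by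
          apply setLIntegral_mono' (measurableSet_tube hf x n (r / 4))
          intro y hy
          exact ENNReal.ofReal_le_ofReal
            (hdet f f' hf' y fun i hi => (hy i hi).trans (by linarith)).2.1
      _ = μ (bet f x A S n '' Bf) := hcv
      _ ≤ μ (K (r / 2)) := measure_mono himg
  -- g side
  have hgside : μ (K (r / 16)) ≤ ENNReal.ofReal 2 * μ Bg := by
    have himg : K (r / 16) ⊆ bet g x A S n '' Bg := by
      intro b hb
      exact K_subset_image hr hη hG hGf hg' hgx h8 h2 hb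
    have hcv := addHaar_image_le_lintegral_abs_det_fderiv μ (measurableSet_tube hg x n (r / 8))
      (f := bet g x A S n) (f' := fun y => ContinuousLinearMap.id ℝ E +
        S.comp (Phi (fun j => g' (g^[j] y)) 0 n - Phi A 0 n))
      (fun y hy => (hdet g g' hg' y fun i hi => (hy i hi).trans (by linarith)).1.hasFDerivWithinAt)
    calc μ (K (r / 16)) ≤ μ (bet g x A S n '' Bg) := measure_mono himg
      _ ≤ ∫⁻ y in Bg, ENNReal.ofReal |(ContinuousLinearMap.id ℝ E +
            S.comp (Phi (fun j => g' (g^[j] y)) 0 n - Phi A 0 n)).det| ∂μ := hcv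
      _ ≤ ∫⁻ _y in Bg, ENNReal.ofReal 2 ∂μ := by
          apply setLIntegral_mono' (measurableSet_tube hg x n (r / 8))
          intro y hy
          exact ENNReal.ofReal_le_ofReal
            (hdet g g' hg' y fun i hi => (hy i hi).trans (by linarith)).2.2
      _ = ENNReal.ofReal 2 * μ Bg := by rw [setLIntegral_const]
  -- scaling
  have hscale : μ (K (r / 2)) = 8 ^ finrank ℝ E * μ (K (r / 16)) := by
    have hK : K (r / 2) = (8 : ℝ) • K (r / 16) := by
      ext b
      rw [Set.mem_smul_set_iff_inv_smul_mem₀ (by norm_num : (8 : ℝ) ≠ 0)]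
      simp only [K, mem_setOf_eq, map_smul, norm_smul]
      refine forall₂_congr fun i _ => ?_
      rw [norm_inv, Real.norm_of_nonneg (by norm_num : (0 : ℝ) ≤ 8)]
      constructor <;> intro h <;> linarith
    rw [hK, Measure.addHaar_smul, abs_of_nonneg (by positivity),
      ENNReal.ofReal_pow (by norm_num)]
    norm_num
  have h2eq : ENNReal.ofReal (1 / 2) = 2⁻¹ := by
    rw [one_div, ENNReal.ofReal_inv_of_pos (by norm_num)]; norm_num
  have h2eq' : ENNReal.ofReal 2 = 2 := by norm_num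
  rw [h2eq] at hfside
  rw [h2eq'] at hgside
  calc μ Bf = 2 * (2⁻¹ * μ Bf) := by
        rw [← mul_assoc, ENNReal.mul_inv_cancel (by norm_num) (by norm_num), one_mul]
    _ ≤ 2 * μ (K (r / 2)) := by gcongr
    _ = 2 * (8 ^ finrank ℝ E * μ (K (r / 16))) := by rw [hscale]
    _ ≤ 2 * (8 ^ finrank ℝ E * (2 * μ Bg)) := by gcongr
    _ = 4 * 8 ^ finrank ℝ E * μ Bg := by
        rw [← mul_assoc, ← mul_assoc]
        congr 1
        rw [mul_right_comm]
        norm_num

end measure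

end Crest.Agent.R133.L2
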