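import Crest.Agent.R133.SMDefs
import Crest.Agent.R133.L2
import Crest.Agent.R133.KLCover

/-!
Row 133, section 10 (KL matching).
-/

set_option autoImplicit false

open MeasureTheory Set Function Metric
open scoped ENNReal

namespace Crest.Agent.R133.KL

/-- The output of L1 at the orbit of `x` (section 7): a shadowing operator with constant `G`. -/
def HasS {E : Type*} [NormedAddCommGroup E] [NormedSpace ℝ E] (f : E → E) (N : ℕ) (G : ℝ) (x : E) :
    Prop :=
  ∃ S : E →L[ℝ] E,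
    (∀ i j, i < j → j ≤ N → ‖(Phi (fun k => fderiv ℝ f (f^[k] x)) 0 i).comp
      (S.comp (Phi (fun k => fderiv ℝ f (f^[k] x)) j N))‖ ≤ G) ∧
    (∀ i j, j ≤ i → i ≤ N → ‖Phi (fun k => fderiv ℝ f (f^[k] x)) j i -
      (Phi (fun k => fderiv ℝ f (f^[k] x)) 0 i).comp
      (S.comp (Phi (fun k => fderiv ℝ f (f^[k] x)) j N))‖ ≤ G)

theorem local_compare {d : ℕ} {D : ℝ} (hD : 0 ≤ D)
    {f g : EE d → EE d}
    {νf νg : Measure (EE d)} (hf : SM D f νf) (hg : SM D g νg)
    {r ε G : ℝ} {N : ℕ} (hr : 0 < r) (hε : 0 ≤ ε) (hG : 0 ≤ G)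
    (hclose : Close D f νf g νg ε (4 * r))
    (h1 : N * G * (D * r + ε) ≤ 1 / (8 * (d + 1))) (h2 : N * G * ε ≤ r / 64)
    {x : EE d} (hreg : ∀ k ≤ N, Reg D f νf (8 * r) (f^[k] x))
    (hS : HasS f N G x) :
    νf (BB f N (fun i => f^[i] x) (r / 4)) ≤
      ENNReal.ofReal (4 * 8 ^ d * D ^ 2) * νg (BB g N (fun i => f^[i] x) (r / 8)) := by
  obtain ⟨S, hS1, hS2⟩ := hS
  have hcl : ∀ k ≤ N, (volume : Measure (EE d)).restrict
        (ball (f^[k] x) (2 * r)) ≤ ENNReal.ofReal D • νg ∧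
      ∀ y ∈ ball (f^[k] x) (2 * r), DifferentiableAt ℝ g y ∧ ‖g y - f y‖ ≤ ε ∧
      ‖fderiv ℝ g y - fderiv ℝ f y‖ ≤ ε := by
    intro k hk
    have := hclose (f^[k] x) (by
      have := hreg k hk
      rwa [show 2 * (4 * r) = 8 * r by ring])
    rwa [show 4 * r / 2 = 2 * r by ring] at this
  have hfr : Module.finrank ℝ (EE d) = d := finrank_euclideanSpace_fin
  have hvol := L2.nonlinear (volume : Measure (EE d)) (n := N) (r := r) (η := D * r + ε) (ε := ε)
    (G := G) hr (by positivity) hG (fun i => f^[i] x) (fun k => fderiv ℝ f (f^[k] x)) S hS1 hS2 f g (fderiv ℝ f) (fderiv ℝ g)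
    hf.meas hg.meas ?_ ?_ ?_ ?_ (by rw [hfr]; exact h1) h2
  · rw [hfr] at hvol
    have e1 : νf (BB f N (fun i => f^[i] x) (r / 4)) ≤
        ENNReal.ofReal D * volume (BB f N (fun i => f^[i] x) (r / 4)) := by
      have := hf.le (BB f N (fun i => f^[i] x) (r / 4))
      simpa using this
    have e2 : (volume : Measure (EE d)) (BB g N (fun i => f^[i] x) (r / 8)) ≤
        ENNReal.ofReal D * νg (BB g N (fun i => f^[i] x) (r / 8)) := by
      have h := (hcl 0 (Nat.zero_le _)).1 (BB g N (fun i => f^[i] x) (r / 8))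
      have hsub : BB g N (fun i => f^[i] x) (r / 8) ⊆ ball (f^[0] x) (2 * r) := by
        intro y hy
        have := hy 0 (Nat.zero_le _)
        simp only [iterate_zero, id_eq] at this ⊢
        rw [mem_ball, dist_eq_norm]
        linarith
      rw [Measure.restrict_eq_self _ hsub] at h
      simpa using h
    calc νf (BB f N (fun i => f^[i] x) (r / 4)) ≤
          ENNReal.ofReal D * volume (BB f N (fun i => f^[i] x) (r / 4)) := e1
      _ ≤ ENNReal.ofReal D * (4 * 8 ^ d * volume (BB g N (fun i => f^[i] x) (r / 8))) := by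
          gcongr
          exact hvol
      _ ≤ ENNReal.ofReal D * (4 * 8 ^ d *
          (ENNReal.ofReal D * νg (BB g N (fun i => f^[i] x) (r / 8)))) := by
          gcongr
      _ = ENNReal.ofReal (4 * 8 ^ d * D ^ 2) * νg (BB g N (fun i => f^[i] x) (r / 8)) := by
          rw [ENNReal.ofReal_mul (by positivity), ENNReal.ofReal_mul (by positivity),
            ENNReal.ofReal_pow (by positivity), ENNReal.ofReal_pow hD]
          norm_num
          ring
  · intro i hi z hz
    have hz' : z ∈ ball (f^[i] x) (8 * r) := by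
      rw [mem_closedBall] at hz; rw [mem_ball]; linarith
    have hc' : f^[i] x ∈ ball (f^[i] x) (8 * r) := mem_ball_self (by linarith)
    refine ⟨((hreg i hi.le).diff z hz').hasFDerivAt, ?_⟩
    have := (hreg i hi.le).lip z hz' _ hc'
    rw [mem_closedBall, dist_eq_norm] at hz
    nlinarith [mul_le_mul_of_nonneg_left hz hD]
  · intro i hi z hz
    have hz' : z ∈ ball (f^[i] x) (8 * r) := by
      rw [mem_closedBall] at hz; rw [mem_ball]; linarith
    have hz2 : z ∈ ball (f^[i] x) (2 * r) := by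
      rw [mem_closedBall] at hz; rw [mem_ball]; linarith
    have hc' : f^[i] x ∈ ball (f^[i] x) (8 * r) := mem_ball_self (by linarith)
    obtain ⟨hd, -, hd2⟩ := (hcl i hi.le).2 z hz2
    refine ⟨hd.hasFDerivAt, ?_⟩
    have := (hreg i hi.le).lip z hz' _ hc'
    rw [mem_closedBall, dist_eq_norm] at hz
    have h3 : fderiv ℝ g z - fderiv ℝ f (f^[i] x) =
        (fderiv ℝ g z - fderiv ℝ f z) + (fderiv ℝ f z - fderiv ℝ f (f^[i] x)) := by abel
    rw [h3]
    refine (norm_add_le _ _).trans ?_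
    nlinarith [mul_le_mul_of_nonneg_left hz hD]
  · intro i _
    exact (Function.iterate_succ_apply' f i x).symm
  · intro i hi
    rw [Function.iterate_succ_apply']
    exact ((hcl i hi.le).2 _ (mem_ball_self (by linarith))).2.1

/-- **KL matching** (section 10): for every set `G'` of good points. -/
theorem kl {d : ℕ} {D : ℝ} (hD : 0 ≤ D)
    {f g : EE d → EE d}
    {νf νg : Measure (EE d)} (hf : SM D f νf) (hg : SM D g νg)
    {r ε G : ℝ} {N : ℕ} (hr : 0 < r) (hε : 0 ≤ ε) (hG : 0 ≤ G)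
    (hclose : Close D f νf g νg ε (4 * r))
    (h1 : N * G * (D * r + ε) ≤ 1 / (8 * (d + 1))) (h2 : N * G * ε ≤ r / 64)
    (G' : Set (EE d))
    (hreg : ∀ x ∈ G', ∀ k ≤ N, Reg D f νf (8 * r) (f^[k] x))
    (hS : ∀ x ∈ G', HasS f N G x) :
    νf G' ≤ ENNReal.ofReal (4 * 8 ^ d * D ^ 2) *
      νg (⋃ x ∈ G', BB g N (fun i => f^[i] x) (r / 8)) :=
  cover hg.meas N νf νg _ hr G' fun x hx =>
    local_compare hD hf hg hr hε hG hclose h1 h2 (hreg x hx) (hS x hx)

/-- equality of `Q`-names on the `g`-Bowen ball. -/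
theorem name_eq {E : Type*} [NormedAddCommGroup E] {f g : E → E} {N : ℕ} {r : ℝ} (hr : 0 < r)
    {Q : Set E} {x y : E}
    (hQ : ∀ k ≤ N, ball (f^[k] x) (4 * r) ⊆ Q ∨ ball (f^[k] x) (4 * r) ⊆ Qᶜ)
    (hy : y ∈ BB g N (fun i => f^[i] x) (r / 8)) {k : ℕ} (hk : k ≤ N) :
    g^[k] y ∈ Q ↔ f^[k] x ∈ Q := by
  have h1 : g^[k] y ∈ ball (f^[k] x) (4 * r) := by
    rw [mem_ball, dist_eq_norm]
    have := hy k hk
    simp only at this
    linarith
  have h2 : f^[k] x ∈ ball (f^[k] x) (4 * r) := mem_ball_self (by linarith)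
  rcases hQ k hk with h | h
  · exact ⟨fun _ => h h2, fun _ => h h1⟩
  · exact ⟨fun h' => absurd h' (h h1), fun h' => absurd h' (h h2)⟩

end Crest.Agent.R133.KL
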