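import Crest.Agent.R133.KL

/-!
Row 133, section 10: the good set and the numeric choice of `r, ε`.
-/

set_option autoImplicit false

open MeasureTheory Set Function Metric Filter
open scoped ENNReal Topology

namespace Crest.Agent.R133.KL

/-- The regularity part of the good set. -/
def GoodReg {d : ℕ} (D : ℝ) (f : EE d → EE d) (ν : Measure (EE d)) (Q : Set (EE d))
    (r : ℝ) (N : ℕ) : Set (EE d) :=
  {x | ∀ k ≤ N, Reg D f ν (8 * r) (f^[k] x) ∧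
    (ball (f^[k] x) (4 * r) ⊆ Q ∨ ball (f^[k] x) (4 * r) ⊆ Qᶜ)}

lemma map_iterate {E : Type*} [MeasurableSpace E] {f : E → E} (hf : Measurable f)
    {ν : Measure E} (h : ν.map f = ν) (k : ℕ) : ν.map (f^[k]) = ν := by
  have : MeasurePreserving f ν ν := ⟨hf, h⟩
  exact (this.iterate k).map_eq

theorem goodReg_compl {d : ℕ}
    {D : ℝ} (hD : 0 ≤ D) {f : EE d → EE d} {ν : Measure (EE d)} (hf : SM D f ν)
    {Q : Set (EE d)} {CQ r : ℝ}
    (hr : 0 < r) (hr8 : 8 * r ≤ 1) (hCQ : 0 ≤ CQ)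
    (hQ : (volume : Measure (EE d)) {x | ¬ (ball x (4 * r) ⊆ Q ∨ ball x (4 * r) ⊆ Qᶜ)} ≤
      ENNReal.ofReal (CQ * (4 * r))) (N : ℕ) :
    ν (GoodReg D f ν Q r N)ᶜ ≤ ENNReal.ofReal ((N + 1) * (D * (8 + 4 * CQ) * r)) := by
  set A : Set (EE d) := {x | ¬ Reg D f ν (8 * r) x} with hA
  set B : Set (EE d) := {x | ¬ (ball x (4 * r) ⊆ Q ∨ ball x (4 * r) ⊆ Qᶜ)} with hB
  have hsub : (GoodReg D f ν Q r N)ᶜ ⊆ ⋃ k ∈ Finset.range (N + 1), (f^[k]) ⁻¹' (A ∪ B) := by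
    intro x hx
    simp only [GoodReg, mem_compl_iff, Set.mem_ofPred_eq, not_forall] at hx
    obtain ⟨k, hk, h⟩ := hx
    simp only [Set.mem_iUnion, Finset.mem_range]
    refine ⟨k, by omega, ?_⟩
    by_contra hcon
    apply h
    have h1 : f^[k] x ∉ A := fun h' => hcon (Or.inl h')
    have h2 : f^[k] x ∉ B := fun h' => hcon (Or.inr h')
    exact ⟨not_not.1 h1, not_not.1 h2⟩
  have hAB : ν (A ∪ B) ≤ ENNReal.ofReal (D * (8 + 4 * CQ) * r) := by
    calc ν (A ∪ B) ≤ ν A + ν B := measure_union_le _ _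
      _ ≤ ENNReal.ofReal (D * (8 * r)) + ENNReal.ofReal D * ENNReal.ofReal (CQ * (4 * r)) := by
          refine add_le_add (hf.reg _ (by positivity) hr8) ?_
          have h1 := hf.le B
          simp only [Measure.smul_apply, smul_eq_mul] at h1
          exact h1.trans (by gcongr)
      _ = ENNReal.ofReal (D * (8 + 4 * CQ) * r) := by
          rw [← ENNReal.ofReal_mul hD, ← ENNReal.ofReal_add (by positivity) (by positivity)]
          congr 1; ring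
  calc ν (GoodReg D f ν Q r N)ᶜ ≤ ν (⋃ k ∈ Finset.range (N + 1), (f^[k]) ⁻¹' (A ∪ B)) :=
        measure_mono hsub
    _ ≤ ∑ k ∈ Finset.range (N + 1), ν ((f^[k]) ⁻¹' (A ∪ B)) := measure_biUnion_finset_le _ _
    _ ≤ ∑ k ∈ Finset.range (N + 1), ENNReal.ofReal (D * (8 + 4 * CQ) * r) := by
        refine Finset.sum_le_sum fun k _ => ?_
        have h1 := Measure.le_map_apply (μ := ν) (hf.meas.iterate k).aemeasurable (A ∪ B)
        rw [map_iterate hf.meas hf.pres k] at h1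
        exact h1.trans hAB
    _ = ENNReal.ofReal ((N + 1) * (D * (8 + 4 * CQ) * r)) := by
        rw [Finset.sum_const, Finset.card_range, nsmul_eq_mul,
          ENNReal.ofReal_mul (p := (N : ℝ) + 1) (by positivity), ← Nat.cast_succ,
          ENNReal.ofReal_natCast]

/-- good-set estimate: `Lin` is any set (the `LIN` set). -/
theorem base_diff_good {d : ℕ}
    {D : ℝ} (hD : 0 ≤ D) {f : EE d → EE d} {ν : Measure (EE d)} (hf : SM D f ν)
    {Q : Set (EE d)} {CQ r : ℝ}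
    (hr : 0 < r) (hr8 : 8 * r ≤ 1) (hCQ : 0 ≤ CQ)
    (hQ : (volume : Measure (EE d)) {x | ¬ (ball x (4 * r) ⊆ Q ∨ ball x (4 * r) ⊆ Qᶜ)} ≤
      ENNReal.ofReal (CQ * (4 * r))) (N : ℕ) (B L : Set (EE d)) :
    ν (B \ (L ∩ GoodReg D f ν Q r N)) ≤
      ν (B \ L) + ENNReal.ofReal ((N + 1) * (D * (8 + 4 * CQ) * r)) := by
  calc ν (B \ (L ∩ GoodReg D f ν Q r N)) ≤ ν ((B \ L) ∪ (GoodReg D f ν Q r N)ᶜ) := by
        refine measure_mono fun x hx => ?_
        by_cases h : x ∈ L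
        · exact Or.inr fun h' => hx.2 ⟨h, h'⟩
        · exact Or.inl ⟨hx.1, h⟩
    _ ≤ ν (B \ L) + ν (GoodReg D f ν Q r N)ᶜ := measure_union_le _ _
    _ ≤ _ := by gcongr; exact goodReg_compl hD hf hr hr8 hCQ hQ N

/-- **Numeric choice of the scales** `r = exp (-C3 t)`, `ε = exp (-C4 t)`. Here `G = a * exp (b t)`
is the constant of L1 (`a = 2 (d+1)`, `b = 4 C''`). -/
theorem scales (d : ℕ) {D CQ a b δ : ℝ} (hD : 0 ≤ D) (hCQ : 0 ≤ CQ) (ha : 0 ≤ a) (hb : 0 ≤ b)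
    (hδ : 0 < δ) :
    ∃ t₀ : ℕ, ∀ t : ℕ, t₀ ≤ t → ∀ N : ℕ, N ≤ t ^ 2 →
      8 * Real.exp (-(b + 1) * t) ≤ 1 ∧
      (N : ℝ) * (a * Real.exp (b * t)) * (D * Real.exp (-(b + 1) * t) + Real.exp (-(2 * b + 3) * t)) ≤
        1 / (8 * (d + 1)) ∧
      (N : ℝ) * (a * Real.exp (b * t)) * Real.exp (-(2 * b + 3) * t) ≤
        Real.exp (-(b + 1) * t) / 64 ∧
      ((N : ℝ) + 1) * (D * (8 + 4 * CQ) * Real.exp (-(b + 1) * t)) * (N : ℝ) ≤ δ := by
  -- it is enough that `K * t^4 * exp (-t) ≤ η`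
  have key : ∀ K η : ℝ, 0 < η → ∃ t₀ : ℕ, ∀ t : ℕ, t₀ ≤ t →
      K * ((t : ℝ) ^ 4 * Real.exp (-(t : ℝ))) ≤ η := by
    intro K η hη
    have h1 : Tendsto (fun t : ℕ => K * ((t : ℝ) ^ 4 * Real.exp (-(t : ℝ)))) atTop (𝓝 (K * 0)) :=
      ((Real.tendsto_pow_mul_exp_neg_atTop_nhds_zero 4).comp
        tendsto_natCast_atTop_atTop).const_mul K
    rw [mul_zero] at h1
    have h2 := h1.eventually (ge_mem_nhds hη)
    obtain ⟨t₀, h⟩ := eventually_atTop.1 h2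
    exact ⟨t₀, h⟩
  obtain ⟨t1, h1⟩ := key 8 1 one_pos
  obtain ⟨t2, h2⟩ := key (a * (D + 1)) (1 / (8 * (d + 1))) (by positivity)
  obtain ⟨t3, h3⟩ := key (a * 64) 1 one_pos
  obtain ⟨t4, h4⟩ := key (2 * (D * (8 + 4 * CQ))) δ hδ
  refine ⟨max 1 (max (max t1 t2) (max t3 t4)), fun t ht N hN => ?_⟩
  have ht1 : 1 ≤ t := by omega
  have htr : (1 : ℝ) ≤ t := by exact_mod_cast ht1
  have h1 := h1 t (by omega)
  have h2 := h2 t (by omega)
  have h3 := h3 t (by omega)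
  have h4 := h4 t (by omega)
  have hNr : (N : ℝ) ≤ (t : ℝ) ^ 2 := by exact_mod_cast hN
  have hN0 : (0 : ℝ) ≤ N := Nat.cast_nonneg _
  have htpow : (t : ℝ) ^ 2 ≤ (t : ℝ) ^ 4 := pow_le_pow_right₀ htr (by norm_num)
  have ht4 : (1 : ℝ) ≤ (t : ℝ) ^ 4 := one_le_pow₀ htr
  have e0 : Real.exp (-(b + 1) * t) ≤ Real.exp (-(t : ℝ)) := by
    apply Real.exp_le_exp.2; nlinarith
  have epos := Real.exp_pos (-(t : ℝ))
  refine ⟨?_, ?_, ?_, ?_⟩
  · calc 8 * Real.exp (-(b + 1) * t) ≤ 8 * Real.exp (-(t : ℝ)) := by linarith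
      _ ≤ 8 * ((t : ℝ) ^ 4 * Real.exp (-(t : ℝ))) := by
          nlinarith [mul_le_mul_of_nonneg_right ht4 epos.le]
      _ ≤ 1 := h1
  · have hx : Real.exp (b * t) * Real.exp (-(b + 1) * t) = Real.exp (-(t : ℝ)) := by
      rw [← Real.exp_add]; congr 1; ring
    have hy : Real.exp (b * t) * Real.exp (-(2 * b + 3) * t) ≤ Real.exp (-(t : ℝ)) := by
      rw [← Real.exp_add]; apply Real.exp_le_exp.2; nlinarith
    calc (N : ℝ) * (a * Real.exp (b * t)) *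
          (D * Real.exp (-(b + 1) * t) + Real.exp (-(2 * b + 3) * t))
        = N * a * (D * (Real.exp (b * t) * Real.exp (-(b + 1) * t)) +
            Real.exp (b * t) * Real.exp (-(2 * b + 3) * t)) := by ring
      _ ≤ N * a * (D * Real.exp (-(t : ℝ)) + Real.exp (-(t : ℝ))) := by
          rw [hx]; gcongr
      _ = N * (a * (D + 1) * Real.exp (-(t : ℝ))) := by ring
      _ ≤ (t : ℝ) ^ 4 * (a * (D + 1) * Real.exp (-(t : ℝ))) := by
          gcongr; linarith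
      _ = a * (D + 1) * ((t : ℝ) ^ 4 * Real.exp (-(t : ℝ))) := by ring
      _ ≤ _ := h2
  · have hy : Real.exp (b * t) * Real.exp (-(2 * b + 3) * t) =
        Real.exp (-(b + 1) * t) * (Real.exp (-(t : ℝ)) * Real.exp (-(t : ℝ))) := by
      rw [← Real.exp_add, ← Real.exp_add, ← Real.exp_add]; congr 1; ring
    have hle1 : Real.exp (-(t : ℝ)) ≤ 1 := Real.exp_le_one_iff.2 (by linarith)
    have hc : (N : ℝ) * a * (Real.exp (-(t : ℝ)) * Real.exp (-(t : ℝ))) ≤ 1 / 64 := by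
      calc (N : ℝ) * a * (Real.exp (-(t : ℝ)) * Real.exp (-(t : ℝ)))
          ≤ (t : ℝ) ^ 4 * a * (Real.exp (-(t : ℝ)) * 1) := by
            gcongr; linarith
        _ = (a * 64 * ((t : ℝ) ^ 4 * Real.exp (-(t : ℝ)))) / 64 := by ring
        _ ≤ 1 / 64 := by linarith
    calc (N : ℝ) * (a * Real.exp (b * t)) * Real.exp (-(2 * b + 3) * t)
        = N * a * (Real.exp (b * t) * Real.exp (-(2 * b + 3) * t)) := by ring
      _ = (N * a * (Real.exp (-(t : ℝ)) * Real.exp (-(t : ℝ)))) * Real.exp (-(b + 1) * t) := by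
          rw [hy]; ring
      _ ≤ (1 / 64) * Real.exp (-(b + 1) * t) := by gcongr
      _ = _ := by ring
  · have hNN : ((N : ℝ) + 1) * N ≤ 2 * (t : ℝ) ^ 4 := by
      have : (N : ℝ) * N ≤ (t : ℝ) ^ 2 * (t : ℝ) ^ 2 := by gcongr
      nlinarith
    calc ((N : ℝ) + 1) * (D * (8 + 4 * CQ) * Real.exp (-(b + 1) * t)) * (N : ℝ)
        = (((N : ℝ) + 1) * N) * (D * (8 + 4 * CQ)) * Real.exp (-(b + 1) * t) := by ring
      _ ≤ (2 * (t : ℝ) ^ 4) * (D * (8 + 4 * CQ)) * Real.exp (-(t : ℝ)) := by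
          gcongr
      _ = 2 * (D * (8 + 4 * CQ)) * ((t : ℝ) ^ 4 * Real.exp (-(t : ℝ))) := by ring
      _ ≤ δ := h4

end Crest.Agent.R133.KL
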