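import Mathlib

/-! Row 133 (S0182): products of linear maps along a window (sections 7 and 8 of note 12068).
`Phi A i j = A_{j-1} ∘ ... ∘ A_i` for `i ≤ j` (and `1` for `j ≤ i`). -/

set_option autoImplicit false

namespace Crest.Agent.R133

variable {E : Type*} [NormedAddCommGroup E] [NormedSpace ℝ E]

/-- product of `k` factors starting at index `i`: `A (i+k-1) ∘ ... ∘ A i`. -/
noncomputable def PhiK (A : ℕ → E →L[ℝ] E) (i : ℕ) : ℕ → E →L[ℝ] E
  | 0 => ContinuousLinearMap.id ℝ E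
  | (k + 1) => (A (i + k)).comp (PhiK A i k)

/-- `Phi A i j = A_{j-1} ∘ ... ∘ A_i` for `i ≤ j` (identity for `j ≤ i`). -/
noncomputable def Phi (A : ℕ → E →L[ℝ] E) (i j : ℕ) : E →L[ℝ] E := PhiK A i (j - i)

@[simp] theorem Phi_self (A : ℕ → E →L[ℝ] E) (i : ℕ) : Phi A i i = ContinuousLinearMap.id ℝ E := by
  simp [Phi, PhiK]

theorem Phi_succ (A : ℕ → E →L[ℝ] E) {i j : ℕ} (h : i ≤ j) :
    Phi A i (j + 1) = (A j).comp (Phi A i j) := by
  obtain ⟨k, rfl⟩ := Nat.exists_eq_add_of_le h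
  simp [Phi, PhiK, show i + k + 1 - i = k + 1 by omega]

theorem Phi_trans (A : ℕ → E →L[ℝ] E) {i j k : ℕ} (hij : i ≤ j) (hjk : j ≤ k) :
    (Phi A j k).comp (Phi A i j) = Phi A i k := by
  obtain ⟨m, rfl⟩ := Nat.exists_eq_add_of_le hjk
  induction m with
  | zero => simp
  | succ m ih =>
    rw [← Nat.add_assoc, Phi_succ A (by omega : j ≤ j + m), Phi_succ A (by omega : i ≤ j + m),
      ContinuousLinearMap.comp_assoc, ih (by omega)]

theorem Phi_head (A : ℕ → E →L[ℝ] E) {i j : ℕ} (h : i < j) :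
    Phi A i j = (Phi A (i + 1) j).comp (A i) := by
  have h1 : Phi A i (i + 1) = A i := by
    rw [Phi_succ A le_rfl, Phi_self]; rfl
  rw [← Phi_trans A (by omega : i ≤ i + 1) (by omega : i + 1 ≤ j), h1]

end Crest.Agent.R133
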