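import Mathlib
import Crest.Agent.R133.Phi

/-!
Row 133, section 7 (Linear Lemma L1).
-/

set_option autoImplicit false

namespace Crest.Agent.R133

noncomputable section

open ContinuousAlternatingMap

variable {E : Type*} [NormedAddCommGroup E] [NormedSpace ℝ E]

/-- Pull-back of continuous alternating `p`-forms along `L`. -/
def pb (p : ℕ) (L : E →L[ℝ] E) : (E [⋀^Fin p]→L[ℝ] ℝ) →L[ℝ] (E [⋀^Fin p]→L[ℝ] ℝ) :=
  ContinuousAlternatingMap.compContinuousLinearMapCLM L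

/-- The operator norm of the pull-back on `p`-forms. -/
def pn (p : ℕ) (L : E →L[ℝ] E) : ℝ := ‖pb p L‖

@[simp] lemma pb_apply (p : ℕ) (L : E →L[ℝ] E) (ω : E [⋀^Fin p]→L[ℝ] ℝ) (v : Fin p → E) :
    pb p L ω v = ω (fun i => L (v i)) := rfl

lemma pn_nonneg (p : ℕ) (L : E →L[ℝ] E) : 0 ≤ pn p L := by
  unfold pn
  exact norm_nonneg (pb p L)

lemma pb_comp (p : ℕ) (L M : E →L[ℝ] E) : pb p (L.comp M) = (pb p M).comp (pb p L) := rfl

lemma pb_id (p : ℕ) : pb p (ContinuousLinearMap.id ℝ E) = ContinuousLinearMap.id ℝ _ := rfl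

lemma pn_comp_le (p : ℕ) (L M : E →L[ℝ] E) : pn p (L.comp M) ≤ pn p L * pn p M := by
  unfold pn
  rw [pb_comp, mul_comm]
  exact ContinuousLinearMap.opNorm_comp_le _ _

lemma norm_pb_apply_le (p : ℕ) (L : E →L[ℝ] E) (ω : E [⋀^Fin p]→L[ℝ] ℝ) :
    ‖pb p L ω‖ ≤ pn p L * ‖ω‖ := (pb p L).le_opNorm ω

lemma pn_le_pow (p : ℕ) (L : E →L[ℝ] E) : pn p L ≤ ‖L‖ ^ p := by
  refine ContinuousLinearMap.opNorm_le_bound _ (by positivity) fun ω => ?_
  have := ContinuousAlternatingMap.norm_compContinuousLinearMap_le ω L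
  rw [Fintype.card_fin] at this
  rw [mul_comm]
  exact this

lemma pb_zero_deg (L : E →L[ℝ] E) : pb 0 L = ContinuousLinearMap.id ℝ _ := by
  ext ω v
  simp only [pb_apply, ContinuousLinearMap.coe_id', id_eq]
  congr 1
  ext i
  exact i.elim0

/-- a vector tuple almost realising the norm of an alternating form -/
lemma exists_unit_tuple {p : ℕ} (f : E [⋀^Fin p]→L[ℝ] ℝ) {r : ℝ} (hr0 : 0 ≤ r) (hr : r < ‖f‖) :
    ∃ u : Fin p → E, (∀ b, ‖u b‖ ≤ 1) ∧ r < ‖f u‖ := by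
  by_contra hcon
  push Not at hcon
  have : ‖f‖ ≤ r := by
    refine ContinuousAlternatingMap.opNorm_le_bound f hr0 fun m => ?_
    by_cases hm : ∃ i, m i = 0
    · obtain ⟨i, hi⟩ := hm
      rw [f.map_coord_zero i hi]
      simp only [norm_zero]
      positivity
    · push Not at hm
      have hu : ∀ b, ‖(‖m b‖⁻¹ • m b)‖ ≤ 1 := fun b => by
        rw [norm_smul, norm_inv, norm_norm, inv_mul_cancel₀ (norm_ne_zero_iff.mpr (hm b))]
      have h1 := hcon (fun b => ‖m b‖⁻¹ • m b) hu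
      have h2 : f (fun b => ‖m b‖ • (‖m b‖⁻¹ • m b)) = (∏ b, ‖m b‖) • f (fun b => ‖m b‖⁻¹ • m b) :=
        f.toContinuousMultilinearMap.map_smul_univ (fun b => ‖m b‖) (fun b => ‖m b‖⁻¹ • m b)
      have h3 : (fun b => ‖m b‖ • (‖m b‖⁻¹ • m b)) = m := by
        ext b
        rw [smul_smul, mul_inv_cancel₀ (norm_ne_zero_iff.mpr (hm b)), one_smul]
      rw [h3] at h2
      rw [h2, norm_smul, mul_comm]
      have h4 : ‖∏ b, ‖m b‖‖ = ∏ b, ‖m b‖ := by
        rw [Real.norm_eq_abs, abs_of_nonneg (Finset.prod_nonneg fun _ _ => norm_nonneg _)]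
      rw [h4]
      exact mul_le_mul_of_nonneg_right h1 (Finset.prod_nonneg fun _ _ => norm_nonneg _)
  linarith

/-- `l ∧ η` -/
def wed {p : ℕ} (l : E →L[ℝ] ℝ) (η : E [⋀^Fin p]→L[ℝ] ℝ) : E [⋀^Fin (p + 1)]→L[ℝ] ℝ :=
  alternatizeUncurryFin (l.smulRight η)

lemma wed_apply {p : ℕ} (l : E →L[ℝ] ℝ) (η : E [⋀^Fin p]→L[ℝ] ℝ) (v : Fin (p + 1) → E) :
    wed l η v = ∑ i : Fin (p + 1), (-1) ^ (i : ℕ) * (l (v i) * η (Fin.removeNth i v)) := by
  rw [wed, alternatizeUncurryFin_apply]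
  refine Finset.sum_congr rfl fun i _ => ?_
  simp [zsmul_eq_mul]

lemma norm_wed_le {p : ℕ} (l : E →L[ℝ] ℝ) (η : E [⋀^Fin p]→L[ℝ] ℝ) :
    ‖wed l η‖ ≤ (p + 1) * (‖l‖ * ‖η‖) := by
  refine (norm_alternatizeUncurryFin_le _).trans_eq ?_
  rw [ContinuousLinearMap.norm_smulRight_apply]

lemma curryLeft_norm_le {p : ℕ} (ω : E [⋀^Fin (p + 1)]→L[ℝ] ℝ) (v : E) :
    ‖ω.curryLeft v‖ ≤ ‖ω‖ * ‖v‖ := by
  have := (ω.curryLeft).le_opNorm v
  rwa [norm_curryLeft] at this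

/-- value on a unit tuple -/
lemma le_unit {p : ℕ} (ω : E [⋀^Fin p]→L[ℝ] ℝ) (u : Fin p → E) (hu : ∀ b, ‖u b‖ ≤ 1) :
    |ω u| ≤ ‖ω‖ := by
  have h := ω.le_opNorm u
  rw [Real.norm_eq_abs] at h
  refine h.trans ?_
  have : ∏ b, ‖u b‖ ≤ 1 := Finset.prod_le_one (fun _ _ => norm_nonneg _) (fun b _ => hu b)
  nlinarith [norm_nonneg ω]

/-- sign lemma: update in slot `b` versus first slot. -/
lemma update_eq {p : ℕ} (ω : E [⋀^Fin (p + 1)]→L[ℝ] ℝ) (w : Fin (p + 1) → E) (b : Fin (p + 1))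
    (x : E) :
    (-1 : ℝ) ^ (b : ℕ) * ω (Matrix.vecCons x (Fin.removeNth b w)) = ω (Function.update w b x) := by
  have h := ω.map_insertNth b x (Fin.removeNth b w)
  rw [Fin.insertNth_removeNth] at h
  rw [h]
  simp [zsmul_eq_mul]

/-- the operator `S` of section 7. -/
def Sop {p : ℕ} (ω : E [⋀^Fin p]→L[ℝ] ℝ) (w u : Fin p → E) : E →L[ℝ] E :=
  ∑ b : Fin p, ((ω w)⁻¹ • (ω.toContinuousMultilinearMap.toContinuousLinearMap w b)).smulRight (u b)

lemma Sop_apply {p : ℕ} (ω : E [⋀^Fin p]→L[ℝ] ℝ) (w u : Fin p → E) (v : E) :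
    Sop ω w u v = ∑ b : Fin p, ((ω w)⁻¹ * ω (Function.update w b v)) • u b := by
  simp [Sop]


/-- first bound (algebraic form), `p = q + 1`. -/
lemma first_identity {q : ℕ} (ω : E [⋀^Fin (q + 1)]→L[ℝ] ℝ) (u : Fin (q + 1) → E)
    (P0i Pij Pjn P0n : E →L[ℝ] E) (h0n : P0n = Pjn.comp (Pij.comp P0i)) (l : E →L[ℝ] ℝ) (v : E)
    (hD : ω (fun b => P0n (u b)) ≠ 0) :
    ω (fun b => P0n (u b)) * l (P0i (Sop ω (fun b => P0n (u b)) u (Pjn v))) =
      pb (q + 1) P0i (wed l (pb q Pij ((pb (q + 1) Pjn ω).curryLeft v))) u := by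
  rw [Sop_apply, pb_apply, wed_apply, _root_.map_sum, _root_.map_sum, Finset.mul_sum]
  refine Finset.sum_congr rfl fun b _ => ?_
  rw [map_smul, map_smul, smul_eq_mul]
  have h1 := update_eq ω (fun b => P0n (u b)) b (Pjn v)
  rw [← h1]
  have h2 : pb q Pij ((pb (q + 1) Pjn ω).curryLeft v) (Fin.removeNth b fun i => P0i (u i)) =
      ω (Matrix.vecCons (Pjn v) (Fin.removeNth b fun b => P0n (u b))) := by
    rw [pb_apply, curryLeft_apply_apply, pb_apply]
    congr 1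
    ext k
    refine Fin.cases ?_ (fun k => ?_) k
    · simp
    · simp [Fin.removeNth, h0n]
  rw [h2]
  field_simp

/-- second bound (algebraic form). -/
lemma second_identity {p : ℕ} (ω : E [⋀^Fin p]→L[ℝ] ℝ) (u : Fin p → E)
    (P0j Pji Pin P0i Pjn P0n : E →L[ℝ] E) (h0i : P0i = Pji.comp P0j) (hjn : Pjn = Pin.comp Pji)
    (h0n : P0n = Pin.comp P0i) (l : E →L[ℝ] ℝ) (v : E)
    (hD : ω (fun b => P0n (u b)) ≠ 0) :
    ω (fun b => P0n (u b)) *
        l (Pji v - P0i (Sop ω (fun b => P0n (u b)) u (Pjn v))) =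
      pb p P0j ((pb (p + 1) Pji (wed l (pb p Pin ω))).curryLeft v) u := by
  rw [map_sub, mul_sub, pb_apply, curryLeft_apply_apply, pb_apply, wed_apply, Fin.sum_univ_succ]
  simp only [Fin.val_zero, pow_zero, one_mul, Matrix.cons_val_zero, Matrix.cons_val_succ,
    Fin.val_succ]
  have h0 : pb p Pin ω (Fin.removeNth 0 fun i : Fin (p + 1) =>
      Pji ((Matrix.vecCons v fun i => P0j (u i)) i)) = ω (fun b => P0n (u b)) := by
    rw [pb_apply]
    congr 1
    ext k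
    simp [Fin.removeNth, h0n, h0i]
  rw [h0, sub_eq_add_neg, mul_comm (l (Pji v))]
  congr 1
  rw [Sop_apply, _root_.map_sum, _root_.map_sum, Finset.mul_sum, ← Finset.sum_neg_distrib]
  refine Finset.sum_congr rfl fun b _ => ?_
  obtain ⟨q, rfl⟩ : ∃ q, p = q + 1 := ⟨p - 1, by have := b.pos; omega⟩
  rw [map_smul, map_smul, smul_eq_mul]
  have h1 := update_eq ω (fun b => P0n (u b)) b (Pjn v)
  rw [← h1]
  have h2 : pb (q + 1) Pin ω (Fin.removeNth b.succ fun i : Fin (q + 1 + 1) =>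
      Pji ((Matrix.vecCons v fun i => P0j (u i)) i)) =
      ω (Matrix.vecCons (Pjn v) (Fin.removeNth b fun b => P0n (u b))) := by
    rw [pb_apply]
    congr 1
    ext k
    refine Fin.cases ?_ (fun k => ?_) k
    · simp [Fin.removeNth, hjn]
    · simp [Fin.removeNth, h0n, h0i]
  rw [h2]
  have h3 : P0i (u b) = Pji (P0j (u b)) := by rw [h0i]; rfl
  rw [h3]
  field_simp
  ring


/-- the raw form of L1: bounds in terms of the norms `pn`. -/
theorem L1_raw (p : ℕ) (P0n : E →L[ℝ] E) (hpos : 0 < pn p P0n) :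
    ∃ S : E →L[ℝ] E,
      (∀ P0i Pij Pjn : E →L[ℝ] E, P0n = Pjn.comp (Pij.comp P0i) → ∀ q, p = q + 1 →
        ‖P0i.comp (S.comp Pjn)‖ * pn p P0n ≤ 2 * p * (pn p P0i * pn q Pij * pn p Pjn)) ∧
      (p = 0 → S = 0) ∧
      (∀ P0j Pji Pin P0i Pjn : E →L[ℝ] E, P0i = Pji.comp P0j → Pjn = Pin.comp Pji →
        P0n = Pin.comp P0i →
        ‖Pji - P0i.comp (S.comp Pjn)‖ * pn p P0n ≤
          2 * (p + 1) * (pn p P0j * pn (p + 1) Pji * pn p Pin)) := by
  have h34 : 3 / 4 * pn p P0n < ‖pb p P0n‖ := by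
    have : pn p P0n = ‖pb p P0n‖ := rfl
    rw [← this]; linarith
  obtain ⟨ω, hω1, hω2⟩ := ContinuousLinearMap.exists_lt_apply_of_lt_opNorm (pb p P0n) h34
  have h12 : 1 / 2 * pn p P0n < ‖pb p P0n ω‖ := by linarith
  obtain ⟨u, hu1, hu2⟩ := exists_unit_tuple (pb p P0n ω) (by positivity) h12
  rw [pb_apply, Real.norm_eq_abs] at hu2
  have hDne : ω (fun b => P0n (u b)) ≠ 0 := by
    intro h0
    rw [h0, abs_zero] at hu2
    linarith
  have hDpos : 0 < |ω (fun b => P0n (u b))| := abs_pos.mpr hDne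
  -- general conversion
  have key : ∀ (T : E →L[ℝ] E) (M : ℝ), 0 ≤ M →
      (∀ (l : E →L[ℝ] ℝ) (v : E), |ω (fun b => P0n (u b)) * l (T v)| ≤ M * ‖l‖ * ‖v‖) →
      ‖T‖ * pn p P0n ≤ 2 * M := by
    intro T M hM hT
    have h1 : ‖T‖ ≤ M / |ω (fun b => P0n (u b))| := by
      refine ContinuousLinearMap.opNorm_le_bound _ (by positivity) fun v => ?_
      refine NormedSpace.norm_le_dual_bound ℝ (T v) (by positivity) fun l => ?_
      have h2 := hT l v
      rw [abs_mul] at h2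
      rw [Real.norm_eq_abs]
      have h3 : M / |ω (fun b => P0n (u b))| * ‖v‖ * ‖l‖ =
        (M * ‖l‖ * ‖v‖) / |ω (fun b => P0n (u b))| := by ring
      rw [h3, le_div_iff₀ hDpos]
      linarith
    have h4 : ‖T‖ * |ω (fun b => P0n (u b))| ≤ M := by
      rwa [le_div_iff₀ hDpos] at h1
    have h5 : 0 ≤ ‖T‖ := norm_nonneg T
    nlinarith
  refine ⟨Sop ω (fun b => P0n (u b)) u, ?_, ?_, ?_⟩
  · rintro P0i Pij Pjn h0n q rfl
    have hM : 0 ≤ ((q + 1 : ℕ) : ℝ) * (pn (q + 1) P0i * pn q Pij * pn (q + 1) Pjn) := by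
      have := pn_nonneg (q + 1) P0i
      have := pn_nonneg q Pij
      have := pn_nonneg (q + 1) Pjn
      positivity
    have := key (P0i.comp ((Sop ω (fun b => P0n (u b)) u).comp Pjn)) _ hM ?_
    · linarith
    intro l v
    have h1 := first_identity ω u P0i Pij Pjn P0n h0n l v hDne
    change |ω (fun b => P0n (u b)) * l (P0i (Sop ω (fun b => P0n (u b)) u (Pjn v)))| ≤ _
    rw [h1]
    refine (le_unit _ u hu1).trans ?_
    refine (norm_pb_apply_le _ _ _).trans ?_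
    have h2 := norm_wed_le l (pb q Pij ((pb (q + 1) Pjn ω).curryLeft v))
    have h3 := norm_pb_apply_le q Pij ((pb (q + 1) Pjn ω).curryLeft v)
    have h4 := curryLeft_norm_le (pb (q + 1) Pjn ω) v
    have h5 := norm_pb_apply_le (q + 1) Pjn ω
    have n1 := pn_nonneg (q + 1) P0i
    have n2 := pn_nonneg q Pij
    have n3 := pn_nonneg (q + 1) Pjn
    have h6 : ‖pb (q + 1) Pjn ω‖ ≤ pn (q + 1) Pjn := by nlinarith [norm_nonneg ω]
    have h7 : ‖(pb (q + 1) Pjn ω).curryLeft v‖ ≤ pn (q + 1) Pjn * ‖v‖ :=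
      h4.trans (mul_le_mul_of_nonneg_right h6 (norm_nonneg v))
    have h8 : ‖pb q Pij ((pb (q + 1) Pjn ω).curryLeft v)‖ ≤
        pn q Pij * (pn (q + 1) Pjn * ‖v‖) :=
      h3.trans (mul_le_mul_of_nonneg_left h7 n2)
    have h9 : ‖l‖ * ‖pb q Pij ((pb (q + 1) Pjn ω).curryLeft v)‖ ≤
        ‖l‖ * (pn q Pij * (pn (q + 1) Pjn * ‖v‖)) :=
      mul_le_mul_of_nonneg_left h8 (norm_nonneg l)
    have h10 : ‖wed l (pb q Pij ((pb (q + 1) Pjn ω).curryLeft v))‖ ≤
        ((q : ℝ) + 1) * (‖l‖ * (pn q Pij * (pn (q + 1) Pjn * ‖v‖))) :=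
      h2.trans (mul_le_mul_of_nonneg_left h9 (by positivity))
    calc pn (q + 1) P0i * ‖wed l (pb q Pij ((pb (q + 1) Pjn ω).curryLeft v))‖
        ≤ pn (q + 1) P0i * (((q : ℝ) + 1) * (‖l‖ * (pn q Pij * (pn (q + 1) Pjn * ‖v‖)))) :=
          mul_le_mul_of_nonneg_left h10 n1
      _ = ((q + 1 : ℕ) : ℝ) * (pn (q + 1) P0i * pn q Pij * pn (q + 1) Pjn) * ‖l‖ * ‖v‖ := by
          push_cast; ring
  · rintro rfl
    ext v
    rw [Sop_apply]
    simp
  · intro P0j Pji Pin P0i Pjn h0i hjn h0n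
    have n1 := pn_nonneg p P0j
    have n2 := pn_nonneg (p + 1) Pji
    have n3 := pn_nonneg p Pin
    have hM : 0 ≤ ((p : ℝ) + 1) * (pn p P0j * pn (p + 1) Pji * pn p Pin) := by
      positivity
    have := key (Pji - P0i.comp ((Sop ω (fun b => P0n (u b)) u).comp Pjn)) _ hM ?_
    · linarith
    intro l v
    have h1 := second_identity ω u P0j Pji Pin P0i Pjn P0n h0i hjn h0n l v hDne
    change |ω (fun b => P0n (u b)) *
      l (Pji v - P0i (Sop ω (fun b => P0n (u b)) u (Pjn v)))| ≤ _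
    rw [h1]
    refine (le_unit _ u hu1).trans ?_
    refine (norm_pb_apply_le _ _ _).trans ?_
    have h2 := curryLeft_norm_le (pb (p + 1) Pji (wed l (pb p Pin ω))) v
    have h3 := norm_pb_apply_le (p + 1) Pji (wed l (pb p Pin ω))
    have h4 := norm_wed_le l (pb p Pin ω)
    have h5 := norm_pb_apply_le p Pin ω
    have h6 : ‖pb p Pin ω‖ ≤ pn p Pin := by nlinarith [norm_nonneg ω]
    have h7 : ‖wed l (pb p Pin ω)‖ ≤ ((p : ℝ) + 1) * (‖l‖ * pn p Pin) :=
      h4.trans (mul_le_mul_of_nonneg_left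
        (mul_le_mul_of_nonneg_left h6 (norm_nonneg l)) (by positivity))
    have h8 : ‖pb (p + 1) Pji (wed l (pb p Pin ω))‖ ≤
        pn (p + 1) Pji * (((p : ℝ) + 1) * (‖l‖ * pn p Pin)) :=
      h3.trans (mul_le_mul_of_nonneg_left h7 n2)
    have h9 : ‖(pb (p + 1) Pji (wed l (pb p Pin ω))).curryLeft v‖ ≤
        pn (p + 1) Pji * (((p : ℝ) + 1) * (‖l‖ * pn p Pin)) * ‖v‖ :=
      h2.trans (mul_le_mul_of_nonneg_right h8 (norm_nonneg v))
    calc pn p P0j * ‖(pb (p + 1) Pji (wed l (pb p Pin ω))).curryLeft v‖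
        ≤ pn p P0j * (pn (p + 1) Pji * (((p : ℝ) + 1) * (‖l‖ * pn p Pin)) * ‖v‖) :=
          mul_le_mul_of_nonneg_left h9 n1
      _ = ((p : ℝ) + 1) * (pn p P0j * pn (p + 1) Pji * pn p Pin) * ‖l‖ * ‖v‖ := by
          ring


section FinDim

variable [FiniteDimensional ℝ E]

lemma form_eq_zero {p : ℕ} (hp : Module.finrank ℝ E < p) (ω : E [⋀^Fin p]→L[ℝ] ℝ) : ω = 0 := by
  ext v
  have hdep : ¬ LinearIndependent ℝ v := by
    intro h
    have := h.fintype_card_le_finrank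
    rw [Fintype.card_fin] at this
    omega
  exact ω.toAlternatingMap.map_linearDependent v hdep

lemma pn_eq_zero {p : ℕ} (hp : Module.finrank ℝ E < p) (L : E →L[ℝ] E) : pn p L = 0 := by
  have h : pb p L = 0 := by
    refine ContinuousLinearMap.ext fun ω => ?_
    rw [form_eq_zero hp ω, _root_.map_zero, _root_.map_zero]
  unfold pn
  rw [h]
  exact ContinuousLinearMap.opNorm_zero

/-- existence of a nonzero `p`-form -/
lemma exists_form {p : ℕ} (hp : p ≤ Module.finrank ℝ E) : ∃ ω : E [⋀^Fin p]→L[ℝ] ℝ, ω ≠ 0 := by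
  let e := Module.finBasis ℝ E
  let φ : E →L[ℝ] (Fin p → ℝ) :=
    ContinuousLinearMap.pi fun i => LinearMap.toContinuousLinearMap (e.coord (Fin.castLE hp i))
  let a : E [⋀^Fin p]→ₗ[ℝ] ℝ := Matrix.detRowAlternating.compLinearMap (φ : E →ₗ[ℝ] (Fin p → ℝ))
  let ω : E [⋀^Fin p]→L[ℝ] ℝ :=
    { toMultilinearMap := a.toMultilinearMap
      cont := by
        change Continuous fun v : Fin p → E => Matrix.det (fun i => φ (v i))
        refine Continuous.matrix_det ?_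
        exact continuous_pi fun i => φ.continuous.comp (continuous_apply i)
      map_eq_zero_of_eq' := a.map_eq_zero_of_eq' }
  refine ⟨ω, fun h => ?_⟩
  have h1 : ω (fun i => e (Fin.castLE hp i)) = 1 := by
    change Matrix.det (fun i => φ (e (Fin.castLE hp i))) = 1
    have : (fun i => φ (e (Fin.castLE hp i))) = (1 : Matrix (Fin p) (Fin p) ℝ) := by
      ext i j
      simp only [φ, ContinuousLinearMap.coe_pi', LinearMap.coe_toContinuousLinearMap',
        Module.Basis.coord_apply, Module.Basis.repr_self, Matrix.one_apply]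
      rw [Finsupp.single_apply]
      simp [Fin.castLE_inj]
    rw [this, Matrix.det_one]
  rw [h] at h1
  simp at h1

lemma pn_id {p : ℕ} (hp : p ≤ Module.finrank ℝ E) : pn p (ContinuousLinearMap.id ℝ E) = 1 := by
  obtain ⟨ω, hω⟩ := exists_form (E := E) hp
  unfold pn
  rw [pb_id]
  have : Nontrivial (E [⋀^Fin p]→L[ℝ] ℝ) := ⟨⟨ω, 0, hω⟩⟩
  exact ContinuousLinearMap.norm_id

lemma one_le_pn_mul {p : ℕ} (hp : p ≤ Module.finrank ℝ E) (B L : E →L[ℝ] E)
    (h : B.comp L = ContinuousLinearMap.id ℝ E) : 1 ≤ pn p B * pn p L := by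
  rw [← pn_id hp, ← h]
  exact pn_comp_le p B L

lemma pn_pos {p : ℕ} (hp : p ≤ Module.finrank ℝ E) (B L : E →L[ℝ] E)
    (h : B.comp L = ContinuousLinearMap.id ℝ E) : 0 < pn p L := by
  have h1 := one_le_pn_mul hp B L h
  by_contra h2
  have h3 : pn p L = 0 := le_antisymm (not_lt.mp h2) (pn_nonneg p L)
  rw [h3, mul_zero] at h1
  linarith

/-- if `B` is a left inverse of `L` with `‖B‖ ≤ b` then `b⁻¹ ^ p ≤ pn p L`. -/
lemma inv_pow_le_pn {p : ℕ} (hp : p ≤ Module.finrank ℝ E) (B L : E →L[ℝ] E)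
    (h : B.comp L = ContinuousLinearMap.id ℝ E) {b : ℝ} (hb : ‖B‖ ≤ b) :
    (b ^ p)⁻¹ ≤ pn p L := by
  have h1 := one_le_pn_mul hp B L h
  have h2 : pn p B ≤ b ^ p := (pn_le_pow p B).trans (pow_le_pow_left₀ (norm_nonneg B) hb p)
  have h3 : 0 < pn p L := pn_pos hp B L h
  have h4 : 1 ≤ b ^ p * pn p L := h1.trans (mul_le_mul_of_nonneg_right h2 h3.le)
  have h5 : 0 < b ^ p := by
    by_contra h6
    have : b ^ p * pn p L ≤ 0 := mul_nonpos_of_nonpos_of_nonneg (not_lt.mp h6) h3.le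
    linarith
  rw [inv_le_iff_one_le_mul₀ h5]
  linarith

/-- if `L` has a left inverse and `‖L‖ ≤ exp D`, `‖B‖ ≤ exp D`, then `|log |L|_p| ≤ p D`. -/
lemma abs_log_pn_le {p : ℕ} (hp : p ≤ Module.finrank ℝ E) (B L : E →L[ℝ] E)
    (h : B.comp L = ContinuousLinearMap.id ℝ E) {D : ℝ} (hL : ‖L‖ ≤ Real.exp D)
    (hB : ‖B‖ ≤ Real.exp D) : |Real.log (pn p L)| ≤ p * D := by
  have h1 := inv_pow_le_pn hp B L h hB
  have h2 : pn p L ≤ Real.exp D ^ p :=
    (pn_le_pow p L).trans (pow_le_pow_left₀ (norm_nonneg L) hL p)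
  have h3 : 0 < pn p L := pn_pos hp B L h
  rw [abs_le]
  constructor
  · have := Real.log_le_log (by positivity) h1
    rw [Real.log_inv, Real.log_pow, Real.log_exp] at this
    linarith
  · have := Real.log_le_log h3 h2
    rwa [Real.log_pow, Real.log_exp] at this

/-- **Linear lemma L1** (abstract product form). -/
theorem L1_abs (n : ℕ) (Φ : ℕ → ℕ → E →L[ℝ] E)
    (htr : ∀ i j k, i ≤ j → j ≤ k → k ≤ n → (Φ j k).comp (Φ i j) = Φ i k)
    (β : ℕ → ℝ) (C : ℝ)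
    (hpos : ∀ p ≤ Module.finrank ℝ E, ∀ i j, i ≤ j → j ≤ n → 0 < pn p (Φ i j))
    (hlin : ∀ p ≤ Module.finrank ℝ E, ∀ i j, i ≤ j → j ≤ n →
      |Real.log (pn p (Φ i j)) - ((j : ℝ) - i) * β p| ≤ C) :
    ∃ S : E →L[ℝ] E,
      (∀ i j, i < j → j ≤ n → ‖(Φ 0 i).comp (S.comp (Φ j n))‖ ≤
        2 * (Module.finrank ℝ E + 1) * Real.exp (4 * C)) ∧
      (∀ i j, j ≤ i → i ≤ n → ‖Φ j i - (Φ 0 i).comp (S.comp (Φ j n))‖ ≤
        2 * (Module.finrank ℝ E + 1) * Real.exp (4 * C)) := by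
  set d := Module.finrank ℝ E with hd
  -- argmax of β over `p ≤ d`
  obtain ⟨p, hpm, hpmax⟩ := Finset.exists_max_image (Finset.range (d + 1)) β ⟨0, by simp⟩
  have hp : p ≤ d := by
    have := Finset.mem_range.mp hpm
    omega
  have hmax : ∀ q ≤ d, β q ≤ β p := fun q hq => hpmax q (Finset.mem_range.mpr (by omega))
  -- exponential bounds
  have hup : ∀ q ≤ d, ∀ i j, i ≤ j → j ≤ n →
      pn q (Φ i j) ≤ Real.exp (((j : ℝ) - i) * β q + C) := by
    intro q hq i j hij hjn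
    have h1 := (abs_le.mp (hlin q hq i j hij hjn)).2
    rw [← Real.exp_log (hpos q hq i j hij hjn)]
    exact Real.exp_le_exp.mpr (by linarith)
  have hlow : Real.exp ((n : ℝ) * β p - C) ≤ pn p (Φ 0 n) := by
    have h1 := (abs_le.mp (hlin p hp 0 n (Nat.zero_le _) le_rfl)).1
    rw [← Real.exp_log (hpos p hp 0 n (Nat.zero_le _) le_rfl)]
    refine Real.exp_le_exp.mpr ?_
    push_cast at h1
    linarith
  obtain ⟨S, hS1, hS0, hS2⟩ := L1_raw p (Φ 0 n) (hpos p hp 0 n (Nat.zero_le _) le_rfl)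
  have hfin : ∀ (x c E' : ℝ), 0 ≤ x → 0 ≤ c → c ≤ (d : ℝ) + 1 →
      E' ≤ (n : ℝ) * β p + 3 * C →
      x * pn p (Φ 0 n) ≤ 2 * c * Real.exp E' →
      x ≤ 2 * (d + 1) * Real.exp (4 * C) := by
    intro x c E' hx hc hcd hE hle
    have h1 : x * Real.exp ((n : ℝ) * β p - C) ≤ 2 * c * Real.exp E' :=
      (mul_le_mul_of_nonneg_left hlow hx).trans hle
    have h2 : Real.exp E' ≤ Real.exp (4 * C) * Real.exp ((n : ℝ) * β p - C) := by
      rw [← Real.exp_add]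
      exact Real.exp_le_exp.mpr (by linarith)
    have h3 : 0 < Real.exp ((n : ℝ) * β p - C) := Real.exp_pos _
    have h4 : x * Real.exp ((n : ℝ) * β p - C) ≤
        (2 * (d + 1) * Real.exp (4 * C)) * Real.exp ((n : ℝ) * β p - C) := by
      calc x * Real.exp ((n : ℝ) * β p - C) ≤ 2 * c * Real.exp E' := h1
        _ ≤ 2 * (d + 1) * (Real.exp (4 * C) * Real.exp ((n : ℝ) * β p - C)) := by
            apply mul_le_mul _ h2 (Real.exp_pos _).le (by positivity)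
            linarith
        _ = _ := by ring
    exact le_of_mul_le_mul_right h4 h3
  refine ⟨S, ?_, ?_⟩
  · intro i j hij hjn
    rcases Nat.eq_zero_or_pos p with hp0 | hp0
    · rw [hS0 hp0]
      simp only [ContinuousLinearMap.zero_comp, ContinuousLinearMap.comp_zero, norm_zero]
      positivity
    obtain ⟨q, rfl⟩ : ∃ q, p = q + 1 := ⟨p - 1, by omega⟩
    have h0n : Φ 0 n = (Φ j n).comp ((Φ i j).comp (Φ 0 i)) := by
      rw [htr 0 i j (Nat.zero_le _) hij.le hjn, htr 0 j n (Nat.zero_le _) hjn le_rfl]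
    have h1 := hS1 (Φ 0 i) (Φ i j) (Φ j n) h0n q rfl
    refine hfin _ ((q + 1 : ℕ) : ℝ) (((i : ℝ) - 0) * β (q + 1) + C + (((j : ℝ) - i) * β q + C) +
      (((n : ℝ) - j) * β (q + 1) + C)) (norm_nonneg _) (by positivity) ?_ ?_ (h1.trans ?_)
    · push_cast
      have : ((q + 1 : ℕ) : ℝ) ≤ d := by exact_mod_cast hp
      push_cast at this
      linarith
    · have h2 := hmax q (by omega)
      have h3 : (i : ℝ) ≤ j := by exact_mod_cast hij.le
      nlinarith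
    · rw [Real.exp_add, Real.exp_add]
      have n1 := hup (q + 1) hp 0 i (Nat.zero_le _) (by omega)
      have n2 := hup q (by omega) i j hij.le hjn
      have n3 := hup (q + 1) hp j n hjn le_rfl
      have := pn_nonneg (q + 1) (Φ 0 i)
      have := pn_nonneg q (Φ i j)
      have := pn_nonneg (q + 1) (Φ j n)
      push_cast at n1 ⊢
      gcongr
  · intro i j hji hin
    have hjn : j ≤ n := hji.trans hin
    have h1 := hS2 (Φ 0 j) (Φ j i) (Φ i n) (Φ 0 i) (Φ j n)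
      (htr 0 j i (Nat.zero_le _) hji hin).symm (htr j i n hji hin le_rfl).symm
      (htr 0 i n (Nat.zero_le _) hin le_rfl).symm
    by_cases hpd : p + 1 ≤ d
    · refine hfin _ ((p : ℝ) + 1) (((j : ℝ) - 0) * β p + C + (((i : ℝ) - j) * β (p + 1) + C) +
        (((n : ℝ) - i) * β p + C)) (norm_nonneg _) (by positivity) ?_ ?_ (h1.trans ?_)
      · have : (p : ℝ) ≤ d := by exact_mod_cast hp
        linarith
      · have h2 := hmax (p + 1) hpd
        have h3 : (j : ℝ) ≤ i := by exact_mod_cast hji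
        nlinarith
      · rw [Real.exp_add, Real.exp_add]
        have n1 := hup p hp 0 j (Nat.zero_le _) hjn
        have n2 := hup (p + 1) hpd j i hji hin
        have n3 := hup p hp i n hin le_rfl
        have := pn_nonneg p (Φ 0 j)
        have := pn_nonneg (p + 1) (Φ j i)
        have := pn_nonneg p (Φ i n)
        push_cast at n1 ⊢
        gcongr
    · have h2 : pn (p + 1) (Φ j i) = 0 := pn_eq_zero (by omega) _
      rw [h2, mul_zero, zero_mul, mul_zero] at h1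
      have h3 : ‖Φ j i - (Φ 0 i).comp (S.comp (Φ j n))‖ ≤ 0 := by
        by_contra h4
        have h5 := hpos p hp 0 n (Nat.zero_le _) le_rfl
        have := mul_pos (not_le.mp h4) h5
        linarith
      exact h3.trans (by positivity)

/-- **Linear lemma L1** for products `Phi A i j`. -/
theorem L1 (n : ℕ) (A : ℕ → E →L[ℝ] E) (β : ℕ → ℝ) (C : ℝ)
    (hpos : ∀ p ≤ Module.finrank ℝ E, ∀ i j, i ≤ j → j ≤ n → 0 < pn p (Phi A i j))
    (hlin : ∀ p ≤ Module.finrank ℝ E, ∀ i j, i ≤ j → j ≤ n →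
      |Real.log (pn p (Phi A i j)) - ((j : ℝ) - i) * β p| ≤ C) :
    ∃ S : E →L[ℝ] E,
      (∀ i j, i < j → j ≤ n → ‖(Phi A 0 i).comp (S.comp (Phi A j n))‖ ≤
        2 * (Module.finrank ℝ E + 1) * Real.exp (4 * C)) ∧
      (∀ i j, j ≤ i → i ≤ n → ‖Phi A j i - (Phi A 0 i).comp (S.comp (Phi A j n))‖ ≤
        2 * (Module.finrank ℝ E + 1) * Real.exp (4 * C)) :=
  L1_abs n (Phi A) (fun _ _ _ hij hjk _ => Phi_trans A hij hjk) β C hpos hlin

/-- a left inverse of `Phi A i j` from left inverses of the factors. -/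
lemma exists_inv_Phi (A B : ℕ → E →L[ℝ] E) (i : ℕ) (k : ℕ)
    (h : ∀ l, i ≤ l → l < i + k → (B l).comp (A l) = ContinuousLinearMap.id ℝ E) :
    ∃ Q : E →L[ℝ] E, Q.comp (Phi A i (i + k)) = ContinuousLinearMap.id ℝ E ∧
      ∀ D : ℝ, (∀ l, i ≤ l → l < i + k → ‖B l‖ ≤ Real.exp D) → ‖Q‖ ≤ Real.exp (k * D) := by
  induction k with
  | zero =>
    refine ⟨ContinuousLinearMap.id ℝ E, ?_, fun D _ => ?_⟩
    · rw [Nat.add_zero, Phi_self]; rfl
    · simpa using ContinuousLinearMap.norm_id_le (𝕜 := ℝ) (E := E)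
  | succ k ih =>
    obtain ⟨Q, hQ1, hQ2⟩ := ih (fun l h1 h2 => h l h1 (by omega))
    refine ⟨Q.comp (B (i + k)), ?_, fun D hD => ?_⟩
    · rw [← Nat.add_assoc, Phi_succ A (by omega : i ≤ i + k), ContinuousLinearMap.comp_assoc,
        ← ContinuousLinearMap.comp_assoc (B (i + k)) (A (i + k)), h (i + k) (by omega) (by omega)]
      exact hQ1
    · have h1 := hQ2 D (fun l h1 h2 => hD l h1 (by omega))
      have h2 := hD (i + k) (by omega) (by omega)
      refine (ContinuousLinearMap.opNorm_comp_le _ _).trans ?_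
      calc ‖Q‖ * ‖B (i + k)‖ ≤ Real.exp (k * D) * Real.exp D :=
            mul_le_mul h1 h2 (norm_nonneg _) (Real.exp_pos _).le
        _ = Real.exp (((k + 1 : ℕ) : ℝ) * D) := by
            rw [← Real.exp_add]; congr 1; push_cast; ring

lemma norm_Phi_le (A : ℕ → E →L[ℝ] E) (i : ℕ) (k : ℕ) (D : ℝ)
    (h : ∀ l, i ≤ l → l < i + k → ‖A l‖ ≤ Real.exp D) :
    ‖Phi A i (i + k)‖ ≤ Real.exp (k * D) := by
  induction k with
  | zero => simpa using ContinuousLinearMap.norm_id_le (𝕜 := ℝ) (E := E)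
  | succ k ih =>
    rw [← Nat.add_assoc, Phi_succ A (by omega : i ≤ i + k)]
    refine (ContinuousLinearMap.opNorm_comp_le _ _).trans ?_
    calc ‖A (i + k)‖ * ‖Phi A i (i + k)‖ ≤ Real.exp D * Real.exp (k * D) :=
          mul_le_mul (h _ (by omega) (by omega)) (ih fun l h1 h2 => h l h1 (by omega))
            (norm_nonneg _) (Real.exp_pos _).le
      _ = Real.exp (((k + 1 : ℕ) : ℝ) * D) := by
          rw [← Real.exp_add]; congr 1; push_cast; ring

lemma pn_Phi_pos {p : ℕ} (hp : p ≤ Module.finrank ℝ E) (A B : ℕ → E →L[ℝ] E) {i j : ℕ}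
    (hij : i ≤ j) (h : ∀ l, i ≤ l → l < j → (B l).comp (A l) = ContinuousLinearMap.id ℝ E) :
    0 < pn p (Phi A i j) := by
  obtain ⟨k, rfl⟩ := Nat.exists_eq_add_of_le hij
  obtain ⟨Q, hQ, _⟩ := exists_inv_Phi A B i k h
  exact pn_pos hp Q _ hQ

/-- `|log |Phi(i,i+k)|_p| ≤ p k D`. -/
lemma abs_log_pn_Phi_le {p : ℕ} (hp : p ≤ Module.finrank ℝ E) (A B : ℕ → E →L[ℝ] E) (i k : ℕ)
    (D : ℝ) (h : ∀ l, i ≤ l → l < i + k → (B l).comp (A l) = ContinuousLinearMap.id ℝ E)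
    (hA : ∀ l, i ≤ l → l < i + k → ‖A l‖ ≤ Real.exp D)
    (hB : ∀ l, i ≤ l → l < i + k → ‖B l‖ ≤ Real.exp D) :
    |Real.log (pn p (Phi A i (i + k)))| ≤ p * (k * D) := by
  obtain ⟨Q, hQ, hQ2⟩ := exists_inv_Phi A B i k h
  exact abs_log_pn_le hp Q _ hQ (norm_Phi_le A i k D hA) (hQ2 D hB)

/-- submultiplicativity in logarithmic form. -/
lemma log_pn_Phi_le_add {p : ℕ} (A : ℕ → E →L[ℝ] E) {i j k : ℕ} (hij : i ≤ j) (hjk : j ≤ k)
    (h1 : 0 < pn p (Phi A i j)) (h2 : 0 < pn p (Phi A j k)) (h3 : 0 < pn p (Phi A i k)) :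
    Real.log (pn p (Phi A i k)) ≤ Real.log (pn p (Phi A i j)) + Real.log (pn p (Phi A j k)) := by
  rw [← Real.log_mul h1.ne' h2.ne', mul_comm]
  refine Real.log_le_log h3 ?_
  rw [← Phi_trans A hij hjk]
  exact pn_comp_le p _ _

end FinDim

end

end Crest.Agent.R133
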