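import Crest.Agent.R133.Phi

/-! Row 133, section 8 of note 12068 (nonlinear lemma), part a: the Green kernel of the
linear recursion `w (i+1) = A i (w i) + e i` with the boundary condition `w 0 + S (w n - Φ(0,n) w 0) = b`. -/

set_option autoImplicit false
open Finset

namespace Crest.Agent.R133.L2

open Crest.Agent.R133

variable {E : Type*} [NormedAddCommGroup E] [NormedSpace ℝ E]

/-- Green kernel -/
noncomputable def Gf (A : ℕ → E →L[ℝ] E) (S : E →L[ℝ] E) (n i j : ℕ) : E →L[ℝ] E :=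
  (if j ≤ i then Phi A j i else 0) - (Phi A 0 i).comp (S.comp (Phi A j n))

theorem Gf_apply (A : ℕ → E →L[ℝ] E) (S : E →L[ℝ] E) (n i j : ℕ) (v : E) :
    Gf A S n i j v = (if j ≤ i then Phi A j i v else 0) - Phi A 0 i (S (Phi A j n v)) := by
  unfold Gf
  split_ifs <;> simp

theorem norm_Gf_le {A : ℕ → E →L[ℝ] E} {S : E →L[ℝ] E} {n : ℕ} {G : ℝ}
    (hG1 : ∀ i j, i < j → j ≤ n → ‖(Phi A 0 i).comp (S.comp (Phi A j n))‖ ≤ G)
    (hG2 : ∀ i j, j ≤ i → i ≤ n → ‖Phi A j i - (Phi A 0 i).comp (S.comp (Phi A j n))‖ ≤ G)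
    {i j : ℕ} (hi : i ≤ n) (hj : j ≤ n) : ‖Gf A S n i j‖ ≤ G := by
  unfold Gf
  split_ifs with h
  · exact hG2 i j h hi
  · rw [zero_sub, norm_neg]
    exact hG1 i j (by omega) hj

theorem duhamel {A : ℕ → E →L[ℝ] E} {w e : ℕ → E} {n : ℕ}
    (h : ∀ i < n, w (i + 1) = A i (w i) + e i) :
    ∀ i ≤ n, w i = Phi A 0 i (w 0) + ∑ j ∈ range i, Phi A (j + 1) i (e j) := by
  intro i
  induction i with
  | zero => intro _; simp
  | succ i ih =>
    intro hi
    rw [h i (by omega), sum_range_succ, Phi_self, Phi_succ A (Nat.zero_le i)]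
    have h1 : ∀ j ∈ range i, Phi A (j + 1) (i + 1) (e j) = A i (Phi A (j + 1) i (e j)) := by
      intro j hj
      rw [mem_range] at hj
      rw [Phi_succ A (by omega : j + 1 ≤ i)]
      rfl
    rw [sum_congr rfl h1, ← map_sum]
    conv_lhs => rw [ih (by omega), map_add]
    simp [add_assoc]

/-- every solution of the recursion is given by the Green kernel. -/
theorem sol_formula {A : ℕ → E →L[ℝ] E} (S : E →L[ℝ] E) {w e : ℕ → E} {n : ℕ}
    (h : ∀ i < n, w (i + 1) = A i (w i) + e i) {i : ℕ} (hi : i ≤ n) :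
    w i = Phi A 0 i (w 0 + S (w n - Phi A 0 n (w 0))) +
      ∑ j ∈ range n, Gf A S n i (j + 1) (e j) := by
  have h1 : w n - Phi A 0 n (w 0) = ∑ j ∈ range n, Phi A (j + 1) n (e j) := by
    rw [duhamel h n le_rfl]; simp
  rw [h1]
  simp only [Gf_apply]
  rw [sum_sub_distrib, map_add, map_sum, map_sum]
  have h2 : (∑ j ∈ range n, if j + 1 ≤ i then Phi A (j + 1) i (e j) else 0) =
      ∑ j ∈ range i, Phi A (j + 1) i (e j) := by
    rw [← sum_filter]
    apply sum_congr
    · ext j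
      simp only [mem_filter, mem_range]
      omega
    · intros; rfl
  rw [h2]
  conv_lhs => rw [duhamel h i hi]
  abel

/-- the Green kernel gives a solution of the recursion. -/
theorem green_step (A : ℕ → E →L[ℝ] E) (S : E →L[ℝ] E) (b : E) (e : ℕ → E) {n i : ℕ}
    (hi : i < n) :
    Phi A 0 (i + 1) b + ∑ j ∈ range n, Gf A S n (i + 1) (j + 1) (e j) =
      A i (Phi A 0 i b + ∑ j ∈ range n, Gf A S n i (j + 1) (e j)) + e i := by
  have h1 : ∀ j ∈ range n, Gf A S n (i + 1) (j + 1) (e j) =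
      A i (Gf A S n i (j + 1) (e j)) + if j = i then e i else 0 := by
    intro j hj
    simp only [Gf_apply]
    rw [Phi_succ A (Nat.zero_le i), map_sub]
    by_cases hji : j = i
    · subst hji
      simp
      abel
    · by_cases hlt : j < i
      · rw [if_pos (by omega), if_pos (by omega), if_neg hji,
          Phi_succ A (by omega : j + 1 ≤ i)]
        simp
      · rw [if_neg (by omega), if_neg (by omega), if_neg hji]
        simp
  rw [sum_congr rfl h1, sum_add_distrib, ← map_sum, sum_ite_eq' (range n) i, if_pos (mem_range.2 hi),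
    Phi_succ A (Nat.zero_le i), map_add]
  simp [add_assoc]

theorem green_bdry (A : ℕ → E →L[ℝ] E) (S : E →L[ℝ] E) (b : E) (e : ℕ → E) (n : ℕ) :
    (Phi A 0 0 b + ∑ j ∈ range n, Gf A S n 0 (j + 1) (e j)) +
      S ((Phi A 0 n b + ∑ j ∈ range n, Gf A S n n (j + 1) (e j)) -
        Phi A 0 n (Phi A 0 0 b + ∑ j ∈ range n, Gf A S n 0 (j + 1) (e j))) = b := by
  have h0 : ∑ j ∈ range n, Gf A S n 0 (j + 1) (e j) =
      - S (∑ j ∈ range n, Phi A (j + 1) n (e j)) := by
    rw [map_sum, ← sum_neg_distrib]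
    apply sum_congr rfl
    intro j _
    rw [Gf_apply]
    simp
  have hn : ∑ j ∈ range n, Gf A S n n (j + 1) (e j) =
      ∑ j ∈ range n, Phi A (j + 1) n (e j) -
        Phi A 0 n (S (∑ j ∈ range n, Phi A (j + 1) n (e j))) := by
    rw [map_sum, map_sum, ← sum_sub_distrib]
    apply sum_congr rfl
    intro j hj
    rw [mem_range] at hj
    rw [Gf_apply, if_pos (by omega)]
  rw [h0, hn]
  simp

end Crest.Agent.R133.L2
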