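import Crest.Agent.R133.L2a

/-! Row 133, section 8 (c): the determinant of `1 + S (Φ_B(0,n) - Φ_A(0,n))`. -/

set_option autoImplicit false
open Finset Metric Set MeasureTheory Module
open scoped ENNReal

namespace Crest.Agent.R133.L2

open Crest.Agent.R133

variable {E : Type*} [NormedAddCommGroup E] [NormedSpace ℝ E]

section det
variable [FiniteDimensional ℝ E]

theorem det_one_add_comm (f g : E →L[ℝ] E) :
    (ContinuousLinearMap.id ℝ E + f.comp g).det = (ContinuousLinearMap.id ℝ E + g.comp f).det := by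
  have key : ∀ f g : E →ₗ[ℝ] E, LinearMap.det (LinearMap.id + f ∘ₗ g) =
      LinearMap.det (LinearMap.id + g ∘ₗ f) := by
    intro f g
    let b := Module.finBasis ℝ E
    rw [← LinearMap.det_toMatrix b, ← LinearMap.det_toMatrix b, map_add, map_add,
      LinearMap.toMatrix_comp b b b, LinearMap.toMatrix_comp b b b, LinearMap.toMatrix_id,
      Matrix.det_one_add_mul_comm]
  exact key f.toLinearMap g.toLinearMap

theorem det_comp' (f g : E →L[ℝ] E) : (f.comp g).det = f.det * g.det := by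
  show LinearMap.det (f.toLinearMap ∘ₗ g.toLinearMap) = _
  rw [LinearMap.det_comp]

theorem det_id' : (ContinuousLinearMap.id ℝ E).det = 1 := by
  show LinearMap.det (LinearMap.id : E →ₗ[ℝ] E) = 1
  exact LinearMap.det_id

theorem abs_det_le (L : E →L[ℝ] E) {c : ℝ} (hc : 0 ≤ c) (h : ∀ v, ‖L v‖ ≤ c * ‖v‖) :
    |L.det| ≤ c ^ finrank ℝ E := by
  letI : MeasurableSpace E := borel E
  haveI : BorelSpace E := ⟨rfl⟩
  let μ : Measure E := Measure.addHaar
  have h1 : μ (L '' closedBall 0 1) = ENNReal.ofReal |L.det| * μ (closedBall 0 1) :=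
    Measure.addHaar_image_continuousLinearMap μ L _
  have h2 : μ (L '' closedBall 0 1) ≤ ENNReal.ofReal (c ^ finrank ℝ E) * μ (closedBall 0 1) := by
    rw [← Measure.addHaar_closedBall' μ (0 : E) hc]
    apply measure_mono
    rintro _ ⟨v, hv, rfl⟩
    rw [mem_closedBall_zero_iff] at hv ⊢
    calc ‖L v‖ ≤ c * ‖v‖ := h v
      _ ≤ c * 1 := by gcongr
      _ = c := mul_one c
  rw [h1] at h2
  have hpos : μ (closedBall (0 : E) 1) ≠ 0 := (measure_closedBall_pos μ 0 one_pos).ne'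
  have hfin : μ (closedBall (0 : E) 1) ≠ ∞ := measure_closedBall_lt_top.ne
  have h3 := (ENNReal.mul_le_mul_iff_left hpos hfin).1 h2
  exact (ENNReal.ofReal_le_ofReal_iff (by positivity)).1 h3

theorem le_abs_det (L : E →L[ℝ] E) {c : ℝ} (hc : 0 < c) (h : ∀ v, c * ‖v‖ ≤ ‖L v‖) :
    c ^ finrank ℝ E ≤ |L.det| := by
  letI : MeasurableSpace E := borel E
  haveI : BorelSpace E := ⟨rfl⟩
  let μ : Measure E := Measure.addHaar
  have hinj : Function.Injective L.toLinearMap := by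
    rw [← LinearMap.ker_eq_bot, LinearMap.ker_eq_bot']
    intro v hv
    have := h v
    rw [show L v = 0 from hv, norm_zero] at this
    have h0 : ‖v‖ = 0 := by
      have := norm_nonneg v
      nlinarith
    exact norm_eq_zero.1 h0
  have hsurj : Function.Surjective L.toLinearMap := LinearMap.injective_iff_surjective.1 hinj
  have h1 : μ (L '' closedBall 0 1) = ENNReal.ofReal |L.det| * μ (closedBall 0 1) :=
    Measure.addHaar_image_continuousLinearMap μ L _
  have h2 : ENNReal.ofReal (c ^ finrank ℝ E) * μ (closedBall 0 1) ≤ μ (L '' closedBall 0 1) := by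
    rw [← Measure.addHaar_closedBall' μ (0 : E) hc.le]
    apply measure_mono
    intro v hv
    obtain ⟨u, hu⟩ := hsurj v
    refine ⟨u, ?_, hu⟩
    rw [mem_closedBall_zero_iff] at hv ⊢
    have := h u
    rw [show L u = v from hu] at this
    by_contra hcon
    push Not at hcon
    nlinarith
  rw [h1] at h2
  have hpos : μ (closedBall (0 : E) 1) ≠ 0 := (measure_closedBall_pos μ 0 one_pos).ne'
  have hfin : μ (closedBall (0 : E) 1) ≠ ∞ := measure_closedBall_lt_top.ne
  have h3 := (ENNReal.mul_le_mul_iff_left hpos hfin).1 h2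
  exact (ENNReal.ofReal_le_ofReal_iff (abs_nonneg _)).1 h3

end det

/-- a bounded solution estimate: if every `‖Gf‖ ≤ G`, the recursion holds with the boundary
condition `b = 0`, the inhomogeneity is `≤ η ‖w j‖` for `j < k`, `≤ c` at `k`, and `0` after `k`,
then `‖w i‖ ≤ 2 G c` for `i ≤ k`. -/
theorem sol_bound {A : ℕ → E →L[ℝ] E} {S : E →L[ℝ] E} {n : ℕ} {G η c : ℝ} (hη : 0 ≤ η)
    (hG : 0 ≤ G) (hc : 0 ≤ c)
    (hGf : ∀ i j, i ≤ n → j ≤ n → ‖Gf A S n i j‖ ≤ G) (hnG : n * G * η ≤ 1 / 8)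
    {w e : ℕ → E} (h : ∀ i < n, w (i + 1) = A i (w i) + e i)
    (hb : w 0 + S (w n - Phi A 0 n (w 0)) = 0) {k : ℕ} (hk : k < n)
    (he1 : ∀ j < k, ‖e j‖ ≤ η * ‖w j‖) (he2 : ‖e k‖ ≤ c) (he3 : ∀ j, k < j → e j = 0) :
    ∀ i ≤ k, ‖w i‖ ≤ 2 * G * c := by
  obtain ⟨i0, hi0, hmax⟩ := Finset.exists_max_image (range (k + 1)) (fun i => ‖w i‖) ⟨0, by simp⟩
  rw [Finset.mem_range] at hi0
  have hmax' : ∀ i ≤ k, ‖w i‖ ≤ ‖w i0‖ := fun i hi => hmax i (Finset.mem_range.2 (by omega))
  have hf := sol_formula S h (by omega : i0 ≤ n)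
  rw [hb, map_zero, zero_add] at hf
  have hsplit : ∑ j ∈ range n, Gf A S n i0 (j + 1) (e j) =
      ∑ j ∈ range (k + 1), Gf A S n i0 (j + 1) (e j) := by
    symm
    apply Finset.sum_subset
    · intro j hj
      rw [Finset.mem_range] at hj ⊢
      omega
    · intro j _ hj
      rw [Finset.mem_range] at hj
      rw [he3 j (by omega), map_zero]
  have hnorm : ‖w i0‖ ≤ n * G * η * ‖w i0‖ + G * c := by
    conv_lhs => rw [hf, hsplit, Finset.sum_range_succ]
    refine (norm_add_le _ _).trans ?_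
    have h1 : ‖∑ j ∈ range k, Gf A S n i0 (j + 1) (e j)‖ ≤ ∑ j ∈ range k, G * (η * ‖w i0‖) := by
      refine (norm_sum_le _ _).trans (Finset.sum_le_sum fun j hj => ?_)
      rw [Finset.mem_range] at hj
      refine (ContinuousLinearMap.le_opNorm _ _).trans ?_
      have := hGf i0 (j + 1) (by omega) (by omega)
      have h2 := he1 j hj
      have h3 := hmax' j hj.le
      calc ‖Gf A S n i0 (j + 1)‖ * ‖e j‖ ≤ G * (η * ‖w j‖) := by gcongr
        _ ≤ G * (η * ‖w i0‖) := by gcongr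
    rw [Finset.sum_const, card_range, nsmul_eq_mul] at h1
    have h2 : ‖Gf A S n i0 (k + 1) (e k)‖ ≤ G * c := by
      refine (ContinuousLinearMap.le_opNorm _ _).trans ?_
      have := hGf i0 (k + 1) (by omega) (by omega)
      gcongr
    have h3 : (k : ℝ) * (G * (η * ‖w i0‖)) ≤ n * G * η * ‖w i0‖ := by
      have : (k : ℝ) ≤ n := by exact_mod_cast hk.le
      have hp : 0 ≤ G * (η * ‖w i0‖) := by positivity
      nlinarith
    linarith
  intro i hi
  have h4 := hmax' i hi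
  have h5 := norm_nonneg (w i0)
  have h6 : n * G * η * ‖w i0‖ ≤ 1 / 8 * ‖w i0‖ := by gcongr
  have h7 : 0 ≤ G * c := by positivity
  nlinarith

/-- `M_k = 1 + S Φ_A(k,n) (Φ_B(0,k) - Φ_A(0,k))` -/
noncomputable def Mk (A B : ℕ → E →L[ℝ] E) (S : E →L[ℝ] E) (n k : ℕ) : E →L[ℝ] E :=
  ContinuousLinearMap.id ℝ E + S.comp ((Phi A k n).comp (Phi B 0 k - Phi A 0 k))

theorem Mk_zero (A B : ℕ → E →L[ℝ] E) (S : E →L[ℝ] E) (n : ℕ) :
    Mk A B S n 0 = ContinuousLinearMap.id ℝ E := by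
  simp [Mk]

theorem Mk_succ (A B : ℕ → E →L[ℝ] E) (S : E →L[ℝ] E) {n k : ℕ} (hk : k < n) :
    Mk A B S n (k + 1) = Mk A B S n k +
      (S.comp (Phi A (k + 1) n)).comp ((B k - A k).comp (Phi B 0 k)) := by
  ext v
  simp only [Mk, ContinuousLinearMap.add_apply, ContinuousLinearMap.coe_id', id_eq,
    ContinuousLinearMap.comp_apply, ContinuousLinearMap.sub_apply]
  rw [Phi_head A hk, Phi_succ A (Nat.zero_le k), Phi_succ B (Nat.zero_le k)]
  simp only [ContinuousLinearMap.comp_apply, map_sub]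
  abel

/-- the resolvent estimate. -/
theorem resolvent_bound {A B : ℕ → E →L[ℝ] E} {S : E →L[ℝ] E} {n : ℕ} {G η : ℝ} (hη : 0 ≤ η)
    (hG : 0 ≤ G)
    (hGf : ∀ i j, i ≤ n → j ≤ n → ‖Gf A S n i j‖ ≤ G) (hnG : n * G * η ≤ 1 / 8)
    (hAB : ∀ i < n, ‖B i - A i‖ ≤ η) {k : ℕ} (hk : k < n) {u v : E}
    (huv : Mk A B S n k u = S (Phi A (k + 1) n v)) :
    ‖Phi B 0 k u‖ ≤ 2 * G * ‖v‖ := by
  let w : ℕ → E := fun i => if i ≤ k then Phi B 0 i u else Phi A k i (Phi B 0 k u) - Phi A (k + 1) i v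
  let e : ℕ → E := fun i => if i < k then (B i - A i) (Phi B 0 i u) else if i = k then -v else 0
  have hw : ∀ i < n, w (i + 1) = A i (w i) + e i := by
    intro i hi
    simp only [w, e]
    rcases lt_trichotomy i k with h | h | h
    · rw [if_pos (by omega), if_pos (by omega), if_pos h, Phi_succ B (Nat.zero_le i)]
      simp
    · subst h
      rw [if_neg (by omega), if_pos le_rfl, if_neg (by omega), if_pos rfl,
        Phi_succ A (le_refl i)]
      simp [sub_eq_add_neg]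
    · rw [if_neg (by omega), if_neg (by omega), if_neg (by omega), if_neg (by omega),
        Phi_succ A h.le, Phi_succ A (by omega : k + 1 ≤ i)]
      simp
  have hb : w 0 + S (w n - Phi A 0 n (w 0)) = 0 := by
    have h0 : w 0 = u := by simp [w]
    have hn : w n = Phi A k n (Phi B 0 k u) - Phi A (k + 1) n v := by
      simp only [w]; rw [if_neg (by omega)]
    rw [h0, hn]
    have h1 : Phi A 0 n u = Phi A k n (Phi A 0 k u) := by
      rw [← Phi_trans A (Nat.zero_le k) hk.le]; rfl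
    rw [h1]
    simp only [Mk, ContinuousLinearMap.add_apply, ContinuousLinearMap.coe_id', id_eq,
      ContinuousLinearMap.comp_apply, ContinuousLinearMap.sub_apply, map_sub] at huv
    simp only [map_sub]
    rw [← huv]
    abel
  have hfin := sol_bound hη hG (norm_nonneg v) hGf hnG hw hb hk
    (by
      intro j hj
      simp only [e, w]
      rw [if_pos hj, if_pos hj.le]
      exact (ContinuousLinearMap.le_opNorm _ _).trans (by gcongr; exact hAB j (by omega)))
    (by simp [e]) (by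
      intro j hj
      simp only [e]
      rw [if_neg (by omega), if_neg (by omega)]) k le_rfl
  simpa [w] using hfin

variable [FiniteDimensional ℝ E]

/-- one step of the determinant recursion -/
theorem det_step {A B : ℕ → E →L[ℝ] E} {S : E →L[ℝ] E} {n : ℕ} {G η : ℝ} (hη : 0 ≤ η)
    (hG : 0 ≤ G)
    (hGf : ∀ i j, i ≤ n → j ≤ n → ‖Gf A S n i j‖ ≤ G) (hnG : n * G * η ≤ 1 / 8)
    (hAB : ∀ i < n, ‖B i - A i‖ ≤ η) {k : ℕ} (hk : k < n) (hM : (Mk A B S n k).det ≠ 0) :
    ∃ X : E →L[ℝ] E, (∀ v, ‖X v‖ ≤ 2 * G * η * ‖v‖) ∧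
      (Mk A B S n (k + 1)).det = (Mk A B S n k).det * (ContinuousLinearMap.id ℝ E + X).det := by
  let M := Mk A B S n k
  have hMu : IsUnit (LinearMap.det M.toLinearMap) := isUnit_iff_ne_zero.2 hM
  let e : E ≃ₗ[ℝ] E := LinearEquiv.ofIsUnitDet (f := M.toLinearMap) (v := Module.finBasis ℝ E) (v' := Module.finBasis ℝ E) (by
    rw [LinearMap.det_toMatrix]; exact hMu)
  let Mi : E →L[ℝ] E := LinearMap.toContinuousLinearMap e.symm.toLinearMap
  have he : ∀ v, M (Mi v) = v := fun v => e.apply_symm_apply v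
  let N : E →L[ℝ] E := Mi.comp (S.comp (Phi A (k + 1) n))
  let C : E →L[ℝ] E := (B k - A k).comp (Phi B 0 k)
  refine ⟨C.comp N, ?_, ?_⟩
  · intro v
    have h1 : Mk A B S n k (N v) = S (Phi A (k + 1) n v) := he _
    have h2 := resolvent_bound hη hG hGf hnG hAB hk h1
    calc ‖C.comp N v‖ = ‖(B k - A k) (Phi B 0 k (N v))‖ := rfl
      _ ≤ ‖B k - A k‖ * ‖Phi B 0 k (N v)‖ := ContinuousLinearMap.le_opNorm _ _
      _ ≤ η * (2 * G * ‖v‖) := by gcongr; exact hAB k hk
      _ = 2 * G * η * ‖v‖ := by ring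
  · have h1 : Mk A B S n (k + 1) = M.comp (ContinuousLinearMap.id ℝ E + N.comp C) := by
      rw [Mk_succ A B S hk]
      ext v
      simp only [ContinuousLinearMap.add_apply, ContinuousLinearMap.comp_apply,
        ContinuousLinearMap.coe_id', id_eq, map_add]
      congr 1
      exact (he _).symm
    rw [h1, det_comp', det_one_add_comm]

theorem abs_det_Mk {A B : ℕ → E →L[ℝ] E} {S : E →L[ℝ] E} {n : ℕ} {G η : ℝ} (hη : 0 ≤ η)
    (hG : 0 ≤ G)
    (hGf : ∀ i j, i ≤ n → j ≤ n → ‖Gf A S n i j‖ ≤ G) (hnG : n * G * η ≤ 1 / 8)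
    (hAB : ∀ i < n, ‖B i - A i‖ ≤ η) (hlt : 2 * G * η < 1) {k : ℕ} (hk : k ≤ n) :
    (1 - 2 * G * η) ^ (k * finrank ℝ E) ≤ |(Mk A B S n k).det| ∧
      |(Mk A B S n k).det| ≤ (1 + 2 * G * η) ^ (k * finrank ℝ E) := by
  induction k with
  | zero => simp [Mk_zero, det_id']
  | succ k ih =>
    obtain ⟨ih1, ih2⟩ := ih (by omega)
    have hpos : 0 < 1 - 2 * G * η := by linarith
    have hM : (Mk A B S n k).det ≠ 0 := by
      intro h0
      rw [h0, abs_zero] at ih1
      have : 0 < (1 - 2 * G * η) ^ (k * finrank ℝ E) := by positivity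
      linarith
    obtain ⟨X, hX, hdet⟩ := det_step hη hG hGf hnG hAB (by omega : k < n) hM
    have h2Gη : 0 ≤ 2 * G * η := by positivity
    have h1 : (1 - 2 * G * η) ^ finrank ℝ E ≤ |(ContinuousLinearMap.id ℝ E + X).det| := by
      apply le_abs_det _ hpos
      intro v
      have h3 := hX v
      have h4 : ‖v‖ ≤ ‖(ContinuousLinearMap.id ℝ E + X) v‖ + ‖X v‖ := by
        have : v = (ContinuousLinearMap.id ℝ E + X) v - X v := by simp
        calc ‖v‖ = ‖(ContinuousLinearMap.id ℝ E + X) v - X v‖ := by rw [← this]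
          _ ≤ _ := norm_sub_le _ _
      linarith
    have h2 : |(ContinuousLinearMap.id ℝ E + X).det| ≤ (1 + 2 * G * η) ^ finrank ℝ E := by
      apply abs_det_le _ (by linarith)
      intro v
      have h3 := hX v
      have h4 : ‖(ContinuousLinearMap.id ℝ E + X) v‖ ≤ ‖v‖ + ‖X v‖ := by
        simpa using norm_add_le v (X v)
      linarith
    rw [hdet, abs_mul, show (k + 1) * finrank ℝ E = k * finrank ℝ E + finrank ℝ E by ring,
      pow_add, pow_add]
    constructor
    · exact mul_le_mul ih1 h1 (by positivity) (abs_nonneg _)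
    · exact mul_le_mul ih2 h2 (abs_nonneg _) (by positivity)

/-- (8c): the determinant of `1 + S (Φ_B(0,n) - Φ_A(0,n))` is between `1/2` and `2`. -/
theorem abs_det_bounds {A B : ℕ → E →L[ℝ] E} {S : E →L[ℝ] E} {n : ℕ} {G η : ℝ} (hη : 0 ≤ η)
    (hG : 0 ≤ G)
    (hGf : ∀ i j, i ≤ n → j ≤ n → ‖Gf A S n i j‖ ≤ G)
    (hnG : n * G * η ≤ 1 / (8 * (finrank ℝ E + 1)))
    (hAB : ∀ i < n, ‖B i - A i‖ ≤ η) :
    1 / 2 ≤ |(ContinuousLinearMap.id ℝ E + S.comp (Phi B 0 n - Phi A 0 n)).det| ∧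
      |(ContinuousLinearMap.id ℝ E + S.comp (Phi B 0 n - Phi A 0 n)).det| ≤ 2 := by
  have hMn : Mk A B S n n = ContinuousLinearMap.id ℝ E + S.comp (Phi B 0 n - Phi A 0 n) := by
    simp [Mk]
  rcases Nat.eq_zero_or_pos n with hn | hn
  · subst hn
    rw [← hMn, Mk_zero, det_id']
    norm_num
  have hd : (0 : ℝ) ≤ (finrank ℝ E : ℝ) := by positivity
  have h8 : n * G * η ≤ 1 / 8 := by
    refine hnG.trans ?_
    apply one_div_le_one_div_of_le <;> linarith
  have hn1 : (1 : ℝ) ≤ n := by exact_mod_cast hn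
  have hGη : 0 ≤ G * η := by positivity
  have hlt : 2 * G * η ≤ 1 / 4 := by nlinarith
  obtain ⟨h1, h2⟩ := abs_det_Mk hη hG hGf h8 hAB (by linarith) (le_refl n)
  rw [hMn] at h1 h2
  have hm : ((n * finrank ℝ E : ℕ) : ℝ) * (2 * G * η) ≤ 1 / 4 := by
    push_cast
    have h3 : (n * G * η) * (8 * (finrank ℝ E + 1)) ≤ 1 := by
      rwa [le_div_iff₀ (by positivity)] at hnG
    have h4 : 0 ≤ n * G * η := by positivity
    nlinarith
  have hx : 0 ≤ 2 * G * η := by positivity
  have hber : 3 / 4 ≤ (1 - 2 * G * η) ^ (n * finrank ℝ E) := by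
    have := one_add_mul_le_pow (show (-2 : ℝ) ≤ -(2 * G * η) by linarith) (n * finrank ℝ E)
    rw [← sub_eq_add_neg] at this
    linarith
  constructor
  · linarith
  · refine h2.trans ?_
    have h5 : (1 + 2 * G * η) ^ (n * finrank ℝ E) * (1 - 2 * G * η) ^ (n * finrank ℝ E) ≤ 1 := by
      rw [← mul_pow]
      apply pow_le_one₀
      · nlinarith
      · nlinarith
    have h6 : 0 ≤ (1 + 2 * G * η) ^ (n * finrank ℝ E) := by positivity
    nlinarith

end Crest.Agent.R133.L2
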