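import Mathlib

/-!
# Row 133 (S0182): abstract smooth models (section 5 and 9 of the blueprint)

`Reg D f ν r x` : regularity of the map `f` and of the measure `ν` on the ball of radius `r`
about `x`; `SM D f ν` : abstract smooth model; `Close` : closeness of two models (section 9).
-/

set_option autoImplicit false

open MeasureTheory Metric Set
open scoped ENNReal

namespace Crest.Agent.R133

/-- The Euclidean space `ℝ^d`. -/
abbrev EE (d : ℕ) := EuclideanSpace ℝ (Fin d)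

/-- Regularity of `(f, ν)` on `ball x r` with constant `D`. -/
structure Reg {d : ℕ} (D : ℝ) (f : EE d → EE d) (ν : Measure (EE d)) (r : ℝ) (x : EE d) :
    Prop where
  diff : ∀ y ∈ ball x r, DifferentiableAt ℝ f y
  norm_le : ∀ y ∈ ball x r, ‖fderiv ℝ f y‖ ≤ Real.exp D
  inv : ∀ y ∈ ball x r, ∃ B : EE d →L[ℝ] EE d,
    B.comp (fderiv ℝ f y) = ContinuousLinearMap.id ℝ (EE d) ∧
    (fderiv ℝ f y).comp B = ContinuousLinearMap.id ℝ (EE d) ∧ ‖B‖ ≤ Real.exp D
  dom_le : ∀ y ∈ ball x r, ‖y‖ ≤ D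
  val_le : ∀ y ∈ ball x r, ‖f y‖ ≤ D
  lip : ∀ y ∈ ball x r, ∀ z ∈ ball x r, ‖fderiv ℝ f y - fderiv ℝ f z‖ ≤ D * ‖y - z‖
  vol : (volume : Measure (EE d)).restrict (ball x r) ≤ ENNReal.ofReal D • ν

/-- Abstract smooth model of dimension `d` with constant `D`. -/
structure SM {d : ℕ} (D : ℝ) (f : EE d → EE d) (ν : Measure (EE d)) : Prop where
  meas : Measurable f
  prob : IsProbabilityMeasure ν
  pres : ν.map f = ν
  le : ν ≤ ENNReal.ofReal D • (volume : Measure (EE d))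
  reg : ∀ r : ℝ, 0 < r → r ≤ 1 → ν {x | ¬ Reg D f ν r x} ≤ ENNReal.ofReal (D * r)

/-- `(g, νg)` is `(ε, r')`-close to `(f, ν)` (at the regular places of `f`). -/
def Close {d : ℕ} (D : ℝ) (f : EE d → EE d) (ν : Measure (EE d)) (g : EE d → EE d)
    (νg : Measure (EE d)) (ε r' : ℝ) : Prop :=
  ∀ x, Reg D f ν (2 * r') x →
    (volume : Measure (EE d)).restrict (ball x (r' / 2)) ≤ ENNReal.ofReal D • νg ∧
    ∀ y ∈ ball x (r' / 2), DifferentiableAt ℝ g y ∧ ‖g y - f y‖ ≤ ε ∧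
      ‖fderiv ℝ g y - fderiv ℝ f y‖ ≤ ε

theorem Reg.mono {d : ℕ} {D : ℝ} {f : EE d → EE d} {ν : Measure (EE d)} {r r' : ℝ} {x p : EE d}
    (h : Reg D f ν r x) (hs : ball p r' ⊆ ball x r) : Reg D f ν r' p where
  diff y hy := h.diff y (hs hy)
  norm_le y hy := h.norm_le y (hs hy)
  inv y hy := h.inv y (hs hy)
  dom_le y hy := h.dom_le y (hs hy)
  val_le y hy := h.val_le y (hs hy)
  lip y hy z hz := h.lip y (hs hy) z (hs hz)
  vol := (Measure.restrict_mono hs le_rfl).trans h.vol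

theorem Reg.norm_sub_le {d : ℕ} {D : ℝ} {f : EE d → EE d} {ν : Measure (EE d)} {r : ℝ}
    {x y z : EE d} (h : Reg D f ν r x) (hy : y ∈ ball x r) (hz : z ∈ ball x r) :
    ‖f y - f z‖ ≤ Real.exp D * ‖y - z‖ :=
  Convex.norm_image_sub_le_of_norm_fderiv_le (𝕜 := ℝ) (fun w hw => h.diff w hw)
    (fun w hw => h.norm_le w hw) (convex_ball x r) hz hy

end Crest.Agent.R133
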