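import Crest.Agent.R133.MfdEucl
import Crest.Agent.R133.SMDefs

/-!
Row 133 (S0182), section 10: a countable family of simple sets (finite unions of balls) which is
dense in the measure algebra of any finite measure, with small `r`-shells.
-/

set_option autoImplicit false

open MeasureTheory Metric Set TopologicalSpace
open scoped ENNReal

namespace Crest.Agent.R133.QSet

/-- finite union of balls with centres in a dense sequence and radii `1/(k+1)` -/
def qset (d : ℕ) (s : Finset (ℕ × ℕ)) : Set (EE d) :=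
  ⋃ p ∈ s, ball (denseSeq (EE d) p.1) (1 / ((p.2 : ℝ) + 1))

/-- the enumeration of the family by `ℕ` -/
def qs (d : ℕ) (k : ℕ) : Set (EE d) :=
  qset d (((Encodable.decode k : Option (Finset (ℕ × ℕ)))).getD ∅)

lemma exists_qs (d : ℕ) (s : Finset (ℕ × ℕ)) : ∃ k, qs d k = qset d s :=
  ⟨Encodable.encode s, by simp [qs]⟩

lemma isOpen_qset (d : ℕ) (s : Finset (ℕ × ℕ)) : IsOpen (qset d s) :=
  isOpen_biUnion fun _ _ => isOpen_ball

lemma isOpen_qs (d k : ℕ) : IsOpen (qs d k) := isOpen_qset _ _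

lemma measurableSet_qs (d k : ℕ) : MeasurableSet (qs d k) := (isOpen_qs d k).measurableSet

/-- shell estimate -/
theorem qset_shell (d : ℕ) (s : Finset (ℕ × ℕ)) :
    ∃ C : ℝ, 0 ≤ C ∧ ∀ r : ℝ, 0 < r → r ≤ 1 →
      (volume : Measure (EE d)) {x | (ball x r ∩ qset d s).Nonempty ∧
        (ball x r ∩ (qset d s)ᶜ).Nonempty} ≤ ENNReal.ofReal (C * r) := by
  classical
  have h := fun p : ℕ × ℕ => Crest.Agent.R133.Mfd.annulus_measure (volume : Measure (EE d)) (denseSeq (EE d) p.1)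
    (1 / ((p.2 : ℝ) + 1)) (by positivity)
  choose C hC0 hC using h
  refine ⟨∑ p ∈ s, C p, Finset.sum_nonneg fun p _ => hC0 p, fun r hr hr1 => ?_⟩
  have hsub : {x : EE d | (ball x r ∩ qset d s).Nonempty ∧ (ball x r ∩ (qset d s)ᶜ).Nonempty}
      ⊆ ⋃ p ∈ s, {z | |dist z (denseSeq (EE d) p.1) - 1 / ((p.2 : ℝ) + 1)| ≤ r} := by
    rintro x ⟨⟨y, hy, hyQ⟩, ⟨z, hz, hzQ⟩⟩
    simp only [qset, mem_iUnion] at hyQ
    obtain ⟨p, hp, hyp⟩ := hyQ
    have hzp : z ∉ ball (denseSeq (EE d) p.1) (1 / ((p.2 : ℝ) + 1)) := by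
      intro hz'
      apply hzQ
      simp only [qset, mem_iUnion]
      exact ⟨p, hp, hz'⟩
    simp only [mem_iUnion]
    refine ⟨p, hp, ?_⟩
    simp only [mem_setOf_eq]
    rw [mem_ball] at hy hz hyp
    rw [mem_ball, not_lt] at hzp
    rw [abs_le]
    have h1 := dist_triangle z x (denseSeq (EE d) p.1)
    have h2 := dist_triangle x y (denseSeq (EE d) p.1)
    rw [dist_comm x y] at h2
    constructor <;> linarith
  calc (volume : Measure (EE d)) _ ≤ (volume : Measure (EE d))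
        (⋃ p ∈ s, {z | |dist z (denseSeq (EE d) p.1) - 1 / ((p.2 : ℝ) + 1)| ≤ r}) :=
        measure_mono hsub
    _ ≤ ∑ p ∈ s, (volume : Measure (EE d))
        {z | |dist z (denseSeq (EE d) p.1) - 1 / ((p.2 : ℝ) + 1)| ≤ r} :=
        measure_biUnion_finset_le _ _
    _ ≤ ∑ p ∈ s, ENNReal.ofReal (C p * r) := Finset.sum_le_sum fun p _ => hC p r hr.le hr1
    _ = ENNReal.ofReal ((∑ p ∈ s, C p) * r) := by
        rw [Finset.sum_mul, ENNReal.ofReal_sum_of_nonneg]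
        exact fun p _ => mul_nonneg (hC0 p) hr.le

/-- shell estimate for the enumerated family -/
theorem qs_shell (d k : ℕ) :
    ∃ C : ℝ, 0 ≤ C ∧ ∀ r : ℝ, 0 < r → r ≤ 1 →
      (volume : Measure (EE d)) {x | (ball x r ∩ qs d k).Nonempty ∧
        (ball x r ∩ (qs d k)ᶜ).Nonempty} ≤ ENNReal.ofReal (C * r) :=
  qset_shell d _

/-- shell estimate for the measure of a smooth model -/
theorem qs_shell_SM (d k : ℕ) :
    ∃ C : ℝ, 0 ≤ C ∧ ∀ (D : ℝ) (ν : Measure (EE d)), 0 ≤ D →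
      ν ≤ ENNReal.ofReal D • (volume : Measure (EE d)) → ∀ r : ℝ, 0 < r → r ≤ 1 →
      ν {x | ¬ (ball x r ⊆ qs d k ∨ ball x r ⊆ (qs d k)ᶜ)} ≤ ENNReal.ofReal (C * D * r) := by
  obtain ⟨C, hC0, hC⟩ := qs_shell d k
  refine ⟨C, hC0, fun D ν hD hν r hr hr1 => ?_⟩
  calc ν {x | ¬ (ball x r ⊆ qs d k ∨ ball x r ⊆ (qs d k)ᶜ)}
      ≤ ν {x | (ball x r ∩ qs d k).Nonempty ∧ (ball x r ∩ (qs d k)ᶜ).Nonempty} := by
        apply measure_mono
        intro x hx
        simp only [mem_setOf_eq, not_or] at hx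
        obtain ⟨h1, h2⟩ := hx
        rw [not_subset] at h1 h2
        obtain ⟨a, ha, ha'⟩ := h1
        obtain ⟨b, hb, hb'⟩ := h2
        exact ⟨⟨b, hb, by simpa using hb'⟩, ⟨a, ha, ha'⟩⟩
    _ ≤ (ENNReal.ofReal D • (volume : Measure (EE d)))
        {x | (ball x r ∩ qs d k).Nonempty ∧ (ball x r ∩ (qs d k)ᶜ).Nonempty} := hν _
    _ = ENNReal.ofReal D * (volume : Measure (EE d))
        {x | (ball x r ∩ qs d k).Nonempty ∧ (ball x r ∩ (qs d k)ᶜ).Nonempty} := by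
        rw [Measure.smul_apply, smul_eq_mul]
    _ ≤ ENNReal.ofReal D * ENNReal.ofReal (C * r) := by gcongr; exact hC r hr hr1
    _ = ENNReal.ofReal (C * D * r) := by
        rw [← ENNReal.ofReal_mul hD]; congr 1; ring

/-- the family is dense in the measure algebra -/
theorem approx {d : ℕ} (ν : Measure (EE d)) [IsFiniteMeasure ν] {A : Set (EE d)}
    (hA : MeasurableSet A) {δ : ℝ≥0∞} (hδ : δ ≠ 0) : ∃ k, ν (symmDiff (qs d k) A) ≤ δ := by
  classical
  have hδ2 : δ / 2 ≠ 0 := by simpa using hδ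
  obtain ⟨U, hAU, hU, -, hUA⟩ := hA.exists_isOpen_diff_lt (measure_ne_top ν A) hδ2
  obtain ⟨K, hKA, hK, hAK⟩ := hA.exists_isCompact_diff_lt (measure_ne_top ν A) hδ2
  -- cover
  have hKU : K ⊆ U := hKA.trans hAU
  let P : Type := {p : ℕ × ℕ // ball (denseSeq (EE d) p.1) (1 / ((p.2 : ℝ) + 1)) ⊆ U}
  have hcov : K ⊆ ⋃ p : P, ball (denseSeq (EE d) p.1.1) (1 / ((p.1.2 : ℝ) + 1)) := by
    intro x hx
    obtain ⟨ρ, hρ, hball⟩ := Metric.isOpen_iff.mp hU x (hKU hx)
    obtain ⟨k, hk⟩ := exists_nat_one_div_lt (half_pos hρ)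
    have hk0 : (0:ℝ) < 1 / ((k:ℝ) + 1) := by positivity
    obtain ⟨n, hn⟩ : ∃ n, dist x (denseSeq (EE d) n) < 1 / ((k:ℝ) + 1) := by
      have := (denseRange_denseSeq (EE d)).exists_dist_lt x hk0
      exact this
    have hsub : ball (denseSeq (EE d) n) (1 / ((k:ℝ) + 1)) ⊆ U := by
      intro y hy
      apply hball
      rw [mem_ball] at hy ⊢
      have := dist_triangle y (denseSeq (EE d) n) x
      rw [dist_comm (denseSeq (EE d) n) x] at this
      linarith
    exact mem_iUnion.mpr ⟨⟨(n, k), hsub⟩, by simpa [mem_ball] using hn⟩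
  obtain ⟨t, ht⟩ := hK.elim_finite_subcover _ (fun _ => isOpen_ball) hcov
  obtain ⟨k, hk⟩ := exists_qs d (t.image Subtype.val)
  refine ⟨k, ?_⟩
  rw [hk]
  have h1 : K ⊆ qset d (t.image Subtype.val) := by
    intro x hx
    have := ht hx
    simp only [mem_iUnion] at this
    obtain ⟨p, hp, hxp⟩ := this
    simp only [qset, mem_iUnion]
    exact ⟨p.1, Finset.mem_image_of_mem _ hp, hxp⟩
  have h2 : qset d (t.image Subtype.val) ⊆ U := by
    intro x hx
    simp only [qset, mem_iUnion] at hx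
    obtain ⟨p, hp, hxp⟩ := hx
    obtain ⟨p', _, rfl⟩ := Finset.mem_image.mp hp
    exact p'.2 hxp
  calc ν (symmDiff (qset d (t.image Subtype.val)) A) ≤ ν ((U \ A) ∪ (A \ K)) := by
        apply measure_mono
        rintro x (⟨hx1, hx2⟩ | ⟨hx1, hx2⟩)
        · exact Or.inl ⟨h2 hx1, hx2⟩
        · exact Or.inr ⟨hx1, fun hxK => hx2 (h1 hxK)⟩
    _ ≤ ν (U \ A) + ν (A \ K) := measure_union_le _ _
    _ ≤ δ / 2 + δ / 2 := add_le_add hUA.le hAK.le
    _ = δ := ENNReal.add_halves δ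

open Classical in
/-- `Bool`-valued version: every measurable `v : E → Bool` is approximated by the indicator of a
member of the family -/
theorem approx_bool {d : ℕ} (ν : Measure (EE d)) [IsFiniteMeasure ν] {v : EE d → Bool}
    (hv : Measurable v) {δ : ℝ≥0∞} (hδ : δ ≠ 0) :
    ∃ k, ν {x | decide (x ∈ qs d k) ≠ v x} ≤ δ := by
  obtain ⟨k, hk⟩ := approx ν (hv (measurableSet_singleton true)) hδ
  refine ⟨k, le_trans (measure_mono ?_) hk⟩
  intro x hx
  simp only [mem_setOf_eq] at hx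
  by_cases h : x ∈ qs d k
  · left
    refine ⟨h, ?_⟩
    simp only [mem_preimage, mem_singleton_iff]
    intro h2
    apply hx
    rw [h2]; simpa using h
  · right
    refine ⟨?_, h⟩
    simp only [mem_preimage, mem_singleton_iff]
    by_contra h2
    apply hx
    rw [Bool.not_eq_true] at h2
    rw [h2]; simpa using h

/-- thin shells, in the form used by 957's `smoothAt` -/
theorem qs_thin (d k : ℕ) :
    ∃ CQ : ℝ, 0 ≤ CQ ∧ ∀ r : ℝ, 0 < r → r ≤ 1 →
      (volume : Measure (EE d)) {x | ¬ (ball x r ⊆ qs d k ∨ ball x r ⊆ (qs d k)ᶜ)}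
        ≤ ENNReal.ofReal (CQ * r) := by
  obtain ⟨C, hC0, hC⟩ := qs_shell d k
  refine ⟨C, hC0, fun r hr hr1 => le_trans (measure_mono ?_) (hC r hr hr1)⟩
  intro x hx
  simp only [mem_setOf_eq, not_or] at hx
  obtain ⟨h1, h2⟩ := hx
  rw [not_subset] at h1 h2
  obtain ⟨a, ha, ha'⟩ := h1
  obtain ⟨b, hb, hb'⟩ := h2
  exact ⟨⟨b, hb, by simpa using hb'⟩, ⟨a, ha, ha'⟩⟩

/-- density, in the form of the structure `QFam` of R133/Skel.lean -/
theorem qs_dense (d : ℕ) (ν : Measure (EE d)) [IsProbabilityMeasure ν] (A : Set (EE d))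
    (hA : MeasurableSet A) (δ : ℝ) (hδ : 0 < δ) :
    ∃ i, ν {x | ¬ (x ∈ qs d i ↔ x ∈ A)} ≤ ENNReal.ofReal δ := by
  obtain ⟨k, hk⟩ := approx ν hA (δ := ENNReal.ofReal δ) (by simpa using hδ)
  refine ⟨k, le_trans (measure_mono ?_) hk⟩
  intro x hx
  simp only [mem_setOf_eq] at hx
  by_cases h : x ∈ qs d k
  · exact Or.inl ⟨h, fun h2 => hx ⟨fun _ => h2, fun _ => h⟩⟩
  · refine Or.inr ⟨?_, h⟩
    by_contra h2
    exact hx ⟨fun h3 => absurd h3 h, fun h3 => absurd h3 h2⟩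

end Crest.Agent.R133.QSet
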