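import Crest.Agent.R133.Final
import Crest.Agent.R133.QSet

/-!
# Row 133 (S0182): the final assembly with the concrete family of sets
-/

set_option autoImplicit false

open MeasureTheory Filter Set Metric
open scoped ENNReal Topology

namespace Crest.Agent.R133.XF

theorem qfam_qs : QFam QSet.qs where
  meas := QSet.measurableSet_qs
  dense d ν _ A hA δ hδ := by
    obtain ⟨k, hk⟩ := QSet.approx ν hA (δ := ENNReal.ofReal δ) (by simpa using hδ)
    refine ⟨k, le_trans (measure_mono ?_) hk⟩
    intro x hx
    by_cases h1 : x ∈ QSet.qs d k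
    · by_cases h2 : x ∈ A
      · exact absurd (iff_of_true h1 h2) hx
      · exact Or.inl ⟨h1, h2⟩
    · by_cases h2 : x ∈ A
      · exact Or.inr ⟨h2, h1⟩
      · exact absurd (iff_of_false h1 h2) hx

/-- S0182 from the five nodes. -/
theorem main (hComb : StComb) (hA : StTheoremA) (hPot : StPot)
    (hSm : ∀ d i, StSmoothAt (QSet.qs (d + 1) i)) (hM : StNoModel) :
    ∃ (X : Type) (_ : MeasurableSpace X) (μ : Measure X) (T : X ≃ᵐ X),
      IsProbabilityMeasure μ ∧ Crest.AnalysisR.IsStandardProbability μ ∧
      MeasurePreserving T μ μ ∧ Ergodic T μ ∧ Crest.AnalysisR.HasZeroEntropy μ T ∧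
      Crest.AnalysisR.NoSmoothPositiveVolumeModel μ T :=
  final hComb hA hPot qfam_qs hSm hM

end Crest.Agent.R133.XF
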