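import Mathlib
import Crest.Prelude.Def_SmoothModel

set_option autoImplicit false

/-! Row 133, MFD: dimension zero (helper315). -/

open MeasureTheory Metric Set Topology
open scoped ENNReal NNReal Manifold ContDiff

namespace Crest.Agent.R133.Mfd

/-- a standard probability space is not conjugate to a system with an atom -/
theorem not_conj_of_atom {X M : Type*} [MeasurableSpace X] [MeasurableSpace M]
    [MeasurableSingletonClass M] (μ : Measure X) (T : X → X) (ν : Measure M) (S : M → M)
    (hstd : Crest.AnalysisR.IsStandardProbability μ) (x : M) (hx : ν {x} ≠ 0) :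
    ¬ Crest.AnalysisR.AreMeasConjugate μ T ν S := by
  rintro ⟨X₀, M₀, F, G, hX₀, hM₀, hX₀c, hM₀c, hTX, hSM, hF, hG, hbij, hGF, hmap, hconj⟩
  obtain ⟨X₁, Y₁, F', G', hX₁, hY₁, hX₁c, hY₁c, hF', hG', hbij', hGF', hmap'⟩ := hstd
  have h1 : μ (F ⁻¹' {x}) ≠ 0 := by
    rw [← Measure.map_apply hF (measurableSet_singleton x), hmap]
    exact hx
  have h2 : μ (F ⁻¹' {x} ∩ X₀) ≠ 0 := by
    intro h0
    apply h1
    refine measure_mono_null (t := (F ⁻¹' {x} ∩ X₀) ∪ X₀ᶜ) ?_ (measure_union_null h0 hX₀c)
    intro y hy
    by_cases hyX : y ∈ X₀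
    · exact Or.inl ⟨hy, hyX⟩
    · exact Or.inr hyX
  obtain ⟨p, hp⟩ : (F ⁻¹' {x} ∩ X₀).Nonempty := nonempty_of_measure_ne_zero h2
  have hsub : F ⁻¹' {x} ∩ X₀ ⊆ F' ⁻¹' {F' p} := by
    rintro q ⟨hq1, hq2⟩
    have : q = p := hbij.injOn hq2 hp.2 (by
      rw [mem_preimage, mem_singleton_iff] at hq1
      rw [hq1]; exact hp.1.symm)
    rw [this]; rfl
  apply h2
  refine measure_mono_null hsub ?_
  rw [← Measure.map_apply hF' (measurableSet_singleton _), hmap']
  exact measure_singleton _

/-- a compact manifold of dimension zero carries only atomic probability measures -/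
theorem exists_atom_of_dim_zero (M : Type) [TopologicalSpace M] [T2Space M] [CompactSpace M]
    [ChartedSpace (EuclideanSpace ℝ (Fin 0)) M] [MeasurableSpace M] [BorelSpace M]
    (ν : Measure M) [IsProbabilityMeasure ν] : ∃ x : M, ν {x} ≠ 0 := by
  have hdisc : DiscreteTopology M := by
    rw [discreteTopology_iff_isOpen_singleton]
    intro x
    have h1 : IsOpen (chartAt (EuclideanSpace ℝ (Fin 0)) x).source :=
      (chartAt (EuclideanSpace ℝ (Fin 0)) x).open_source
    have h2 : (chartAt (EuclideanSpace ℝ (Fin 0)) x).source = {x} := by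
      apply Subset.antisymm
      · intro y hy
        exact (chartAt (EuclideanSpace ℝ (Fin 0)) x).injOn hy (mem_chart_source _ x)
          (Subsingleton.elim _ _)
      · rw [singleton_subset_iff]; exact mem_chart_source _ x
    rwa [h2] at h1
  have hfin : Finite M := finite_of_compact_of_discrete
  by_contra hcon
  push Not at hcon
  have h0 : ν univ = 0 := by
    have : (univ : Set M) = ⋃ x : M, {x} := (iUnion_of_singleton M).symm
    rw [this]
    exact measure_iUnion_null hcon
  rw [measure_univ] at h0
  exact one_ne_zero h0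

/-- the zero-dimensional case of the first half of `NoSmoothPositiveVolumeModel` -/
theorem noModel_dim_zero {X : Type*} [MeasurableSpace X] (μ : Measure X) (T : X → X)
    (hstd : Crest.AnalysisR.IsStandardProbability μ)
    (M : Type) [TopologicalSpace M] [T2Space M] [CompactSpace M]
    [ChartedSpace (EuclideanSpace ℝ (Fin 0)) M] [MeasurableSpace M] [BorelSpace M]
    (ν : Measure M) [IsProbabilityMeasure ν] (S : M → M) :
    ¬ Crest.AnalysisR.AreMeasConjugate μ T ν S := by
  obtain ⟨x, hx⟩ := exists_atom_of_dim_zero M ν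
  exact not_conj_of_atom μ T ν S hstd x hx

end Crest.Agent.R133.Mfd
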