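import Crest.Agent.R133.Tower
import Crest.Agent.R133.SMDefs
import Crest.Prelude.Def_SmoothModel

/-!
# Row 133 (S0182): skeleton = interface Props between the nodes

* `TowerMaps`, `itin`, `Exc`, `StPot` : see `R133/Tower.lean` (helper404);
* `StTheoremA` : THEOREM A (helper52);
* `QName`, `StSmooth Qs` : the whole smooth side (sections 6-10) in "law form";
* `StNoModel` : the manifold layer (helper903).

`R133/Final.lean` deduces S0182 from `StComb`, `StTheoremA`, `StPot`, `StSmooth`, `StNoModel`.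
-/

set_option autoImplicit false

open MeasureTheory Filter Set
open scoped ENNReal Topology

namespace Crest.Agent.R133

/-- THEOREM A (proved in R133/TA*.lean): for every balanced `τ` there is a system with tower
maps. -/
def StTheoremA : Prop :=
  ∀ τ : Tau, (∀ s, Balanced (τ s)) →
    ∃ (X : Type) (_ : MeasurableSpace X) (μ : Measure X) (T : X ≃ᵐ X)
      (w : ∀ s, X → W s) (φ : ℕ → X → ℕ),
      IsProbabilityMeasure μ ∧ Crest.AnalysisR.IsStandardProbability μ ∧
      MeasurePreserving T μ μ ∧ Ergodic T μ ∧ Crest.AnalysisR.HasZeroEntropy μ T ∧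
      TowerMaps τ μ T w φ

open Classical in
/-- indicator of `Q` as a `Bool`-valued map -/
noncomputable def qOf {Ω : Type*} (Q : Set Ω) (x : Ω) : Bool := decide (x ∈ Q)

/-- the `Q`-name of `x` of length `N` -/
noncomputable def QName {Ω : Type*} (N : ℕ) (f : Ω → Ω) (Q : Set Ω) (x : Ω) : Fin N → Bool :=
  fun i => qOf Q (f^[(i : ℕ)] x)

open Classical in
/-- THE SMOOTH SIDE in law form (sections 6-10; proved from STAB, L1, L2, COUNT, KL), for one
set `Q` of one dimension `d`. -/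
def StSmoothAt {d : ℕ} (Q : Set (EE d)) : Prop :=
  ∀ D : ℝ, 1 ≤ D → ∃ (C : ℝ) (Fam : ∀ s, Finset ((Fin (NN (s + 1)) → Bool) → ℝ)),
    0 ≤ C ∧ (∀ s, ∀ p ∈ Fam s, IsLaw p) ∧
    (∀ᶠ s in atTop, ((Fam s).card : ℝ) ≤ Real.exp (Real.exp (C * tt s))) ∧
    ∀ (f : EE d → EE d) (ν : Measure (EE d)), SM D f ν →
      ∃ St : Set ℕ, Summable (Stᶜ.indicator kap) ∧
      ∀ B : ℕ → Set (EE d), (∀ s, MeasurableSet (B s)) →
        (∀ s, ∀ i < NN (s + 1), ∀ j < NN (s + 1), i ≠ j →
          ν (f^[i] ⁻¹' (B s) ∩ f^[j] ⁻¹' (B s)) = 0) →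
        ∀ᶠ s in atTop, s ∈ St →
          ∃ p ∈ Fam s, ∃ G : Set (EE d), MeasurableSet G ∧ G ⊆ B s ∧
            ν (B s \ G) ≤ ENNReal.ofReal (1 / (20 * (NN (s + 1) : ℝ))) ∧
            ∀ A : Set (Fin (NN (s + 1)) → Bool),
              ν {x | x ∈ G ∧ QName (NN (s + 1)) f Q x ∈ A} ≤
                ENNReal.ofReal (C * ∑ z ∈ Finset.univ.filter (fun z => z ∈ A), p z)

/-- THE MANIFOLD LAYER (helper903's `noModel_of_SM`, R133/Mfd.lean). -/
def StNoModel : Prop :=
  ∀ (X : Type) [MeasurableSpace X] (μ : Measure X) [IsProbabilityMeasure μ] (T : X → X),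
    Crest.AnalysisR.IsStandardProbability μ →
    (∀ (d : ℕ) (D : ℝ) (f : EE (d + 1) → EE (d + 1)) (F : X → EE (d + 1)) (G : EE (d + 1) → X),
      1 ≤ D → SM D f (μ.map F) → Measurable F → Measurable G →
      (∀ᵐ x ∂μ, G (F x) = x) → (∀ᵐ x ∂μ, f (F x) = F (T x)) → False) →
    Crest.AnalysisR.NoSmoothPositiveVolumeModel μ T

/-- a countable family of measurable sets in every `EE d` which is dense for every measure
bounded by a multiple of Lebesgue measure (R133/QSet.lean) -/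
structure QFam (Qs : ∀ d : ℕ, ℕ → Set (EE d)) : Prop where
  meas : ∀ d i, MeasurableSet (Qs d i)
  dense : ∀ (d : ℕ) (ν : Measure (EE d)) [IsProbabilityMeasure ν] (A : Set (EE d)),
    MeasurableSet A → ∀ δ : ℝ, 0 < δ →
      ∃ i, ν {x | ¬ (x ∈ Qs d i ↔ x ∈ A)} ≤ ENNReal.ofReal δ

end Crest.Agent.R133
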