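import Crest.Agent.R133.MfdE
import Crest.Agent.R133.MfdZero
import Crest.Agent.R133.Skel

/-! Row 133 (S0182), section 5 = MFD, final statement `StNoModel`. -/

set_option autoImplicit false

namespace Crest.Agent.R133.Mfd

open MeasureTheory Metric Set Filter
open scoped Manifold ContDiff Topology ENNReal

section
variable {d : ℕ} {H : Type*} [TopologicalSpace H]
  {I : ModelWithCorners ℝ (EuclideanSpace ℝ (Fin (d + 1))) H}

/-- transfer of a conjugacy to the abstract smooth model -/
theorem noConj (hI : GoodRange (range I)) {X : Type*} [MeasurableSpace X] (μ : Measure X)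
    (T : X → X)
    (hno : ∀ (D : ℝ) (f : EE (d + 1) → EE (d + 1)) (F : X → EE (d + 1)) (G : EE (d + 1) → X),
      1 ≤ D → SM D f (μ.map F) → Measurable F → Measurable G →
      (∀ᵐ x ∂μ, G (F x) = x) → (∀ᵐ x ∂μ, f (F x) = F (T x)) → False)
    {M : Type*} [TopologicalSpace M] [T2Space M] [CompactSpace M] [ChartedSpace H M]
    [IsManifold I ∞ M] [MeasurableSpace M] [BorelSpace M] (ν : Measure M)
    (S : Diffeomorph I I M M ∞) (hν1 : IsProbabilityMeasure ν)
    (hν : Crest.AnalysisR.HasSmoothPositiveDensity I ν) (hS : MeasurePreserving S ν ν) :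
    ¬ Crest.AnalysisR.AreMeasConjugate μ T ν S := by
  rintro ⟨X₀, M₀, F, G, hX₀, hM₀, hX₀c, hM₀c, hTX, hSM, hF, hG, hbij, hGF, hmap, hconj⟩
  obtain ⟨D, f, F', G', hD1, hSMf, hF', hG', hGF', hfF'⟩ := mfd hI ν hν S hS
  have hae : ∀ᵐ x ∂μ, x ∈ X₀ := by
    rw [ae_iff]; exact hX₀c
  refine hno D f (F' ∘ F) (G ∘ G') hD1 ?_ (hF'.comp hF) (hG.comp hG') ?_ ?_
  · rw [← Measure.map_map hF' hF, hmap]; exact hSMf
  · filter_upwards [hae] with x hx
    simp only [Function.comp, hGF', hGF x hx]
  · filter_upwards [hae] with x hx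
    simp only [Function.comp, hfF', hconj x hx]

end

end Crest.Agent.R133.Mfd

namespace Crest.Agent.R133

open Mfd

/-- THE MANIFOLD LAYER -/
theorem stNoModel : StNoModel := by
  intro X _ μ _ T hstd hno
  refine ⟨?_, ?_⟩
  · intro d M _ _ _ _ _ _ _ ν S hν1 hν hS
    rcases d with _ | d
    · exact noModel_dim_zero μ T hstd M ν S
    · exact noConj (goodRange_univ (d + 1)) μ T (hno d) ν S hν1 hν hS
  · intro d M _ _ _ _ _ _ _ ν S hν1 hν hS
    exact noConj (goodRange_half d) μ T (hno d) ν S hν1 hν hS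

end Crest.Agent.R133
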