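import Crest.Agent.R133.Stab
import Crest.Agent.R133.L1
import Crest.Agent.R133.SMDefs
import Crest.Agent.R133.Par

/-!
Row 133 (S0182), section 6 for the smooth models `SM D f ν` (helper823).
Output: `stab_sm`.
-/

set_option autoImplicit false
set_option linter.unusedSectionVars false
set_option linter.unusedVariables false
set_option linter.deprecated false

open MeasureTheory Metric Set
open scoped ENNReal

namespace Crest.Agent.R133.Stab

/-- LEMMA STAB, base form for a set with a.e. disjoint preimages. -/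
theorem stab_base_set {Ω : Type*} [MeasurableSpace Ω] {P : Type*} [Fintype P]
    {ν : Measure Ω} {f : Ω → Ω} {a : P → ℕ → Ω → ℝ} {c : ℝ}
    [IsProbabilityMeasure ν] (hf : MeasurePreserving f ν ν) (h : Coc ν f a c)
    {n t : ℕ} (ht : 1 ≤ t) (hn : 1 ≤ n) {τ eps : ℝ} (hτ : 0 < τ)
    (hτ2 : 4 * (Fintype.card P : ℝ) ≤ eps * τ ^ 2)
    (hst : Psi ν a c t - Psi ν a c (2 * n * t) ≤ 1 / (n : ℝ) ^ 2)
    (B : Set Ω) (hB : MeasurableSet B)
    (hd : ∀ i < n * t, ∀ j < n * t, i ≠ j → ν (f^[i] ⁻¹' B ∩ f^[j] ⁻¹' B) = 0) :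
    ((n * t : ℕ) : ℝ) *
      ν.real (B ∩ {x | ¬ LINs f a (n * t) (2 * ((2 * τ + 4 * c) * t)) x}) ≤ eps := by
  classical
  set N := n * t with hN
  have hN1 : 1 ≤ N := Nat.mul_pos hn ht
  set Z : Set Ω := B ∩ {x | ¬ LINs f a N (2 * ((2 * τ + 4 * c) * t)) x} with hZ
  have hZm : MeasurableSet Z := by
    apply MeasurableSet.inter hB
    exact (measurableSet_LINs hf.measurable h.meas N _).compl
  have hdis : (↑(Finset.range N) : Set ℕ).Pairwise
      (Function.onFun (AEDisjoint ν) (fun i => f^[i] ⁻¹' Z)) := by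
    intro i hi j hj hij
    rw [Finset.mem_coe, Finset.mem_range] at hi hj
    have h1 := hd i hi j hj hij
    exact measure_mono_null (by
      intro x hx
      exact ⟨hx.1.1, hx.2.1⟩) h1
  have hunion : ν (⋃ i ∈ Finset.range N, f^[i] ⁻¹' Z) = (N : ENNReal) * ν Z := by
    rw [measure_biUnion_finset₀ hdis (fun i _ =>
      ((hf.iterate i).measurable hZm).nullMeasurableSet)]
    rw [Finset.sum_congr rfl (fun i _ => (hf.iterate i).measure_preimage hZm.nullMeasurableSet)]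
    rw [Finset.sum_const, Finset.card_range, nsmul_eq_mul]
  have hsub : (⋃ i ∈ Finset.range N, f^[i] ⁻¹' Z) ≤ᵐ[ν] (GE f a c t (2 * n) τ)ᶜ := by
    filter_upwards [stab_window hf h ht hn hτ] with x hx
    intro hxm hxG
    have hL := hx hxG
    have hxm' : x ∈ ⋃ i ∈ Finset.range N, f^[i] ⁻¹' Z := hxm
    simp only [Set.mem_iUnion, Finset.mem_range] at hxm'
    obtain ⟨i, hi, hiZ⟩ := hxm'
    have hw := hL.window i N hN1 (by rw [mul_assoc, ← hN]; omega)
    exact hiZ.2 hw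
  have h1 : (N : ENNReal) * ν Z ≤ ν (GE f a c t (2 * n) τ)ᶜ := by
    rw [← hunion]
    exact measure_mono_ae hsub
  have h2 := measure_GE_compl hf h ht hn hτ hτ2 hst
  have h3 : (N : ℝ) * ν.real Z ≤ ν.real (GE f a c t (2 * n) τ)ᶜ := by
    have := ENNReal.toReal_mono (measure_ne_top _ _) h1
    rwa [ENNReal.toReal_mul, ENNReal.toReal_natCast] at this
  exact h3.trans h2

/-! ### measurability of `pn p` -/

section meas
variable {E : Type*} [NormedAddCommGroup E] [NormedSpace ℝ E]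

theorem pn_le_iff (p : ℕ) (L : E →L[ℝ] E) {C : ℝ} (hC : 0 ≤ C) :
    pn p L ≤ C ↔ ∀ (ω : E [⋀^Fin p]→L[ℝ] ℝ) (v : Fin p → E),
      ‖ω (fun i => L (v i))‖ ≤ C * ‖ω‖ * ∏ i, ‖v i‖ := by
  constructor
  · intro h ω v
    have h1 : ‖pb p L ω‖ ≤ C * ‖ω‖ :=
      (norm_pb_apply_le p L ω).trans (mul_le_mul_of_nonneg_right h (norm_nonneg _))
    exact ((pb p L ω).le_opNorm v).trans
      (mul_le_mul_of_nonneg_right h1 (Finset.prod_nonneg fun _ _ => norm_nonneg _))
  · intro h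
    refine ContinuousLinearMap.opNorm_le_bound _ hC fun ω => ?_
    refine ContinuousAlternatingMap.opNorm_le_bound _ (by positivity) fun v => ?_
    exact h ω v

theorem isClosed_pn_le (p : ℕ) (C : ℝ) : IsClosed {L : E →L[ℝ] E | pn p L ≤ C} := by
  by_cases hC : 0 ≤ C
  · have : {L : E →L[ℝ] E | pn p L ≤ C} = ⋂ (ω : E [⋀^Fin p]→L[ℝ] ℝ), ⋂ (v : Fin p → E),
        {L | ‖ω (fun i => L (v i))‖ ≤ C * ‖ω‖ * ∏ i, ‖v i‖} := by
      ext L
      simp only [Set.mem_iInter]
      exact pn_le_iff p L hC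
    rw [this]
    refine isClosed_iInter fun ω => isClosed_iInter fun v => ?_
    apply isClosed_le _ continuous_const
    apply Continuous.norm
    apply ω.cont.comp
    exact continuous_pi fun i => (ContinuousLinearMap.apply ℝ E (v i)).continuous
  · have : {L : E →L[ℝ] E | pn p L ≤ C} = ∅ := by
      ext L
      simp only [Set.mem_empty_iff_false, iff_false]
      intro h
      exact hC ((pn_nonneg p L).trans h)
    rw [this]; exact isClosed_empty

theorem measurable_pn (p : ℕ) : Measurable[borel (E →L[ℝ] E)] (pn p : (E →L[ℝ] E) → ℝ) := by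
  borelize (E →L[ℝ] E)
  exact measurable_of_Iic fun C => (isClosed_pn_le p C).measurableSet

end meas

section sm
variable {d : ℕ} {D : ℝ} {f : EE d → EE d} {ν : Measure (EE d)}

/-- the derivative cocycle along the orbit of `x`. -/
noncomputable def AA (f : EE d → EE d) (x : EE d) : ℕ → EE d →L[ℝ] EE d :=
  fun l => fderiv ℝ f (f^[l] x)

/-- `a_p^{(n)}(x)` -/
noncomputable def aSM (f : EE d → EE d) (p : Fin (d + 1)) (n : ℕ) (x : EE d) : ℝ :=
  Real.log (pn (p : ℕ) (Phi (AA f x) 0 n))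

theorem Phi_shift (f : EE d → EE d) (x : EE d) (m n : ℕ) :
    Phi (AA f (f^[m] x)) 0 n = Phi (AA f x) m (m + n) := by
  induction n with
  | zero => simp
  | succ n ih =>
    rw [Phi_succ _ (Nat.zero_le n), ← Nat.add_assoc, Phi_succ _ (Nat.le_add_right m n), ih]
    congr 1
    unfold AA
    rw [← Function.iterate_add_apply, Nat.add_comm]

theorem aSM_shift (f : EE d → EE d) (p : Fin (d + 1)) (m n : ℕ) (x : EE d) :
    aSM f p n (f^[m] x) = Real.log (pn (p : ℕ) (Phi (AA f x) m (m + n))) := by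
  unfold aSM
  rw [Phi_shift]

theorem measurable_Phi (hf : Measurable f) (n : ℕ) :
    Measurable (fun x => Phi (AA f x) 0 n) := by
  induction n with
  | zero =>
    simp only [Phi_self]
    exact measurable_const
  | succ n ih =>
    have h1 : (fun x => Phi (AA f x) 0 (n + 1)) =
        fun x => (fderiv ℝ f (f^[n] x)).comp (Phi (AA f x) 0 n) := by
      ext1 x
      rw [Phi_succ _ (Nat.zero_le n)]
      rfl
    rw [h1]
    have h2 : Measurable (fun x => fderiv ℝ f (f^[n] x)) :=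
      (measurable_fderiv ℝ f).comp (hf.iterate n)
    have h3 : Continuous (fun q : (EE d →L[ℝ] EE d) × (EE d →L[ℝ] EE d) => q.1.comp q.2) :=
      continuous_fst.clm_comp continuous_snd
    exact h3.measurable.comp (h2.prodMk ih)

theorem measurable_aSM (hf : Measurable f) (p : Fin (d + 1)) (n : ℕ) : Measurable (aSM f p n) := by
  unfold aSM
  apply Real.measurable_log.comp
  have h1 : Measurable (pn (p : ℕ) : (EE d →L[ℝ] EE d) → ℝ) := by
    have := measurable_pn (E := EE d) (p : ℕ)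
    rwa [← BorelSpace.measurable_eq (α := EE d →L[ℝ] EE d)] at this
  exact h1.comp (measurable_Phi hf n)

/-- pointwise regularity along the orbit. -/
def OReg (D : ℝ) (f : EE d → EE d) (x : EE d) : Prop :=
  ∀ l : ℕ, ‖fderiv ℝ f (f^[l] x)‖ ≤ Real.exp D ∧
    ∃ B : EE d →L[ℝ] EE d, B.comp (fderiv ℝ f (f^[l] x)) = ContinuousLinearMap.id ℝ (EE d) ∧
      ‖B‖ ≤ Real.exp D

theorem ae_reg (h : SM D f ν) : ∀ᵐ x ∂ν, ∃ r > 0, Reg D f ν r x := by
  rw [ae_iff]
  have h1 : ∀ k : ℕ, ν {x | ¬ ∃ r > 0, Reg D f ν r x} ≤ ENNReal.ofReal (D * (1 / ((k : ℝ) + 1))) := by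
    intro k
    have hk : (0 : ℝ) < 1 / ((k : ℝ) + 1) := by positivity
    have hk1 : 1 / ((k : ℝ) + 1) ≤ 1 := by
      rw [div_le_one (by positivity)]
      have : (0 : ℝ) ≤ k := Nat.cast_nonneg k
      linarith
    refine (measure_mono ?_).trans (h.reg _ hk hk1)
    intro x hx hreg
    exact hx ⟨_, hk, hreg⟩
  have h2 : Filter.Tendsto (fun k : ℕ => ENNReal.ofReal (D * (1 / ((k : ℝ) + 1)))) Filter.atTop
      (nhds 0) := by
    have h3 : Filter.Tendsto (fun k : ℕ => D * (1 / ((k : ℝ) + 1))) Filter.atTop (nhds (D * 0)) :=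
      (tendsto_one_div_add_atTop_nhds_zero_nat).const_mul D
    rw [mul_zero] at h3
    have h4 := ENNReal.tendsto_ofReal h3
    rwa [ENNReal.ofReal_zero] at h4
  exact le_antisymm (ge_of_tendsto' h2 h1) bot_le

theorem SM.mp (h : SM D f ν) : MeasurePreserving f ν ν := ⟨h.meas, h.pres⟩

theorem ae_OReg (h : SM D f ν) : ∀ᵐ x ∂ν, OReg D f x := by
  unfold OReg
  rw [ae_all_iff]
  intro l
  filter_upwards [((SM.mp h).iterate l).quasiMeasurePreserving.ae (ae_reg h)] with x hx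
  obtain ⟨r, hr, hreg⟩ := hx
  have hmem : f^[l] x ∈ ball (f^[l] x) r := mem_ball_self hr
  obtain ⟨B, hB1, _, hB3⟩ := hreg.inv _ hmem
  exact ⟨hreg.norm_le _ hmem, B, hB1, hB3⟩

theorem OReg.pos {x : EE d} (h : OReg D f x) (p : ℕ) (hp : p ≤ d) (i j : ℕ) (hij : i ≤ j) :
    0 < pn p (Phi (AA f x) i j) := by
  choose h1 B hB1 hB2 using h
  exact pn_Phi_pos (by simpa using hp) (AA f x) B hij (fun l _ _ => hB1 l)

theorem OReg.bd {x : EE d} (h : OReg D f x) (p : ℕ) (hp : p ≤ d) (i k : ℕ) :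
    |Real.log (pn p (Phi (AA f x) i (i + k)))| ≤ p * (k * D) := by
  choose h1 B hB1 hB2 using h
  exact abs_log_pn_Phi_le (by simpa using hp) (AA f x) B i k D (fun l _ _ => hB1 l)
    (fun l _ _ => h1 l) (fun l _ _ => hB2 l)

theorem coc_SM (hD : 0 ≤ D) (h : SM D f ν) : Coc ν f (aSM f) (d * D) where
  meas p n := measurable_aSM h.meas p n
  nonneg := by positivity
  bd := by
    filter_upwards [ae_OReg h] with x hx p n
    have h1 := hx.bd (p : ℕ) (Nat.lt_succ_iff.1 p.2) 0 n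
    rw [Nat.zero_add] at h1
    unfold aSM
    refine h1.trans ?_
    have h2 : ((p : ℕ) : ℝ) ≤ d := by exact_mod_cast Nat.lt_succ_iff.1 p.2
    have h3 : (0 : ℝ) ≤ n * D := by positivity
    calc ((p : ℕ) : ℝ) * (n * D) ≤ d * (n * D) := mul_le_mul_of_nonneg_right h2 h3
      _ = d * D * n := by ring
  sub := by
    filter_upwards [ae_OReg h] with x hx p m n
    have hp := Nat.lt_succ_iff.1 p.2
    rw [aSM_shift]
    unfold aSM
    exact log_pn_Phi_le_add (AA f x) (Nat.zero_le m) (Nat.le_add_right m n)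
      (hx.pos _ hp _ _ (Nat.zero_le m)) (hx.pos _ hp _ _ (Nat.le_add_right m n))
      (hx.pos _ hp _ _ (Nat.zero_le _))

/-- the constant of LIN (`eps_g = 1/40`). -/
noncomputable def C0 (d : ℕ) (D : ℝ) : ℝ := 2 * (2 * (160 * ((d : ℝ) + 1)) + 4 * (d * D))

/-- The good window property at `x` used by L1: orbit regularity, positivity and linearity. -/
def Window (D : ℝ) (f : EE d → EE d) (N : ℕ) (C : ℝ) (x : EE d) : Prop :=
  OReg D f x ∧ (∀ p ≤ d, ∀ i j, i ≤ j → j ≤ N → 0 < pn p (Phi (AA f x) i j)) ∧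
    ∃ β : ℕ → ℝ, ∀ p ≤ d, ∀ i j, i ≤ j → j ≤ N →
      |Real.log (pn p (Phi (AA f x) i j)) - ((j : ℝ) - i) * β p| ≤ C

theorem window_of_LINs {x : EE d} (hx : OReg D f x) {N : ℕ} {C : ℝ}
    (h : LINs f (aSM f) N C x) : Window D f N C x := by
  refine ⟨hx, fun p hp i j hij _ => hx.pos p hp i j hij,
    fun p => if hp : p ≤ d then aSM f ⟨p, Nat.lt_succ_iff.2 hp⟩ N x / N else 0, ?_⟩
  intro p hp i j hij hj
  simp only [dif_pos hp]
  have h1 := h ⟨p, Nat.lt_succ_iff.2 hp⟩ i j hij hj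
  rw [aSM_shift] at h1
  have e : i + (j - i) = j := by omega
  rw [e] at h1
  exact h1

/-- **STAB for smooth models.** -/
theorem stab_sm (hD : 0 ≤ D) (h : SM D f ν) :
    ∃ St : Set ℕ, Summable (Stᶜ.indicator kap) ∧ ∀ s ∈ St, ∀ B : Set (EE d), MeasurableSet B →
      (∀ i < NN (s + 1), ∀ j < NN (s + 1), i ≠ j → ν (f^[i] ⁻¹' B ∩ f^[j] ⁻¹' B) = 0) →
      ∃ Z : Set (EE d), MeasurableSet Z ∧
        ν Z ≤ ENNReal.ofReal (1 / (40 * (NN (s + 1) : ℝ))) ∧
        ∀ x ∈ B \ Z, Window D f (NN (s + 1)) (C0 d D * tt s) x := by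
  have := h.prob
  have hc := coc_SM hD h
  have hmp := SM.mp h
  set c : ℝ := d * D with hcdef
  refine ⟨{s | Psi ν (aSM f) c (tt s) - Psi ν (aSM f) c (2 * nn s * tt s) ≤
    1 / (nn s : ℝ) ^ 2}, ?_, ?_⟩
  · have hs := summable_unstable hmp hc nn tt (fun s => Par.nn_pos s) (fun s => Par.tt_pos s)
      (fun s => by
        have h1 := Par.two_mul_NN_dvd_tt s
        rw [Par.two_mul_NN_eq] at h1
        exact h1)
      {s | Psi ν (aSM f) c (tt s) - Psi ν (aSM f) c (2 * nn s * tt s) ≤ 1 / (nn s : ℝ) ^ 2}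
      (fun s hs => by
        simp only [Set.mem_setOf_eq, not_le] at hs
        exact hs.le)
    have hk : (kap : ℕ → ℝ) = fun s => 1 / (nn s : ℝ) ^ 2 := by
      ext s; exact Par.kap_eq s
    rw [hk]
    exact hs
  · intro s hs B hB hd
    have hNN : NN (s + 1) = nn s * tt s := Par.NN_succ' s
    set τ : ℝ := 160 * ((d : ℝ) + 1) with hτdef
    have hd0 : (0 : ℝ) ≤ d := Nat.cast_nonneg d
    have hτ : 0 < τ := by rw [hτdef]; positivity
    have hτ2 : 4 * (Fintype.card (Fin (d + 1)) : ℝ) ≤ (1 / 40) * τ ^ 2 := by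
      rw [Fintype.card_fin, hτdef]
      push_cast
      nlinarith
    have hmain := stab_base_set hmp hc (n := nn s) (t := tt s) (Par.tt_pos s) (Par.nn_pos s) hτ hτ2
      hs B hB (by rw [← hNN]; exact hd)
    rw [← hNN] at hmain
    set Z1 : Set (EE d) := B ∩ {x | ¬ LINs f (aSM f) (NN (s + 1))
      (2 * ((2 * τ + 4 * c) * tt s)) x} with hZ1
    have hZ1m : MeasurableSet Z1 :=
      hB.inter (measurableSet_LINs h.meas hc.meas _ _).compl
    have hNpos : (0 : ℝ) < NN (s + 1) := by exact_mod_cast Par.NN_pos (s + 1)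
    have hZ1le : ν Z1 ≤ ENNReal.ofReal (1 / (40 * (NN (s + 1) : ℝ))) := by
      rw [← ENNReal.ofReal_toReal (measure_ne_top ν Z1)]
      apply ENNReal.ofReal_le_ofReal
      rw [le_div_iff₀ (by positivity)]
      have h1 : (NN (s + 1) : ℝ) * (ν Z1).toReal ≤ 1 / 40 := hmain
      linarith
    have hnull : ν {x | ¬ OReg D f x} = 0 := ae_iff.1 (ae_OReg h)
    refine ⟨Z1 ∪ toMeasurable ν {x | ¬ OReg D f x}, hZ1m.union (measurableSet_toMeasurable _ _),
      ?_, ?_⟩
    · refine (measure_union_le _ _).trans ?_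
      rw [measure_toMeasurable, hnull, add_zero]
      exact hZ1le
    · intro x hx
      have hxO : OReg D f x := by
        by_contra hcon
        exact hx.2 (Or.inr (subset_toMeasurable ν _ hcon))
      have hxL : LINs f (aSM f) (NN (s + 1)) (2 * ((2 * τ + 4 * c) * tt s)) x := by
        by_contra hcon
        exact hx.2 (Or.inl ⟨hx.1, hcon⟩)
      have hw := window_of_LINs hxO hxL
      have hC : 2 * ((2 * τ + 4 * c) * (tt s : ℝ)) = C0 d D * tt s := by
        unfold C0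
        rw [hτdef, hcdef]; ring
      rw [hC] at hw
      exact hw

end sm

/-- the form used by helper957's `SmoothAt`. -/
theorem stab_sm' (d : ℕ) (D : ℝ) (hD : 1 ≤ D) : ∃ C0 : ℝ, 0 ≤ C0 ∧
    ∀ (f : EE d → EE d) (ν : Measure (EE d)), SM D f ν →
      ∃ St : Set ℕ, Summable (Stᶜ.indicator kap) ∧
      ∀ s ∈ St, ∀ B : Set (EE d), MeasurableSet B →
        (∀ i < NN (s + 1), ∀ j < NN (s + 1), i ≠ j → ν (f^[i] ⁻¹' B ∩ f^[j] ⁻¹' B) = 0) →
        ∃ Z : Set (EE d), MeasurableSet Z ∧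
          ν Z ≤ ENNReal.ofReal (1 / (40 * (NN (s + 1) : ℝ))) ∧
          ∀ᵐ x ∂ν, x ∈ B → x ∉ Z → ∃ β : ℕ → ℝ,
            (∀ p ≤ d, ∀ i j, i ≤ j → j ≤ NN (s + 1) →
              0 < pn p (Phi (fun l => fderiv ℝ f (f^[l] x)) i j)) ∧
            (∀ p ≤ d, ∀ i j, i ≤ j → j ≤ NN (s + 1) →
              |Real.log (pn p (Phi (fun l => fderiv ℝ f (f^[l] x)) i j))
                - ((j : ℝ) - i) * β p| ≤ C0 * tt s) := by
  have hD0 : 0 ≤ D := by linarith
  refine ⟨C0 d D, by unfold C0; positivity, ?_⟩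
  intro f ν h
  obtain ⟨St, h1, h2⟩ := stab_sm hD0 h
  refine ⟨St, h1, ?_⟩
  intro s hs B hB hd
  obtain ⟨Z, hZ1, hZ2, hZ3⟩ := h2 s hs B hB hd
  refine ⟨Z, hZ1, hZ2, Filter.Eventually.of_forall ?_⟩
  intro x hxB hxZ
  obtain ⟨_, hpos, β, hβ⟩ := hZ3 x ⟨hxB, hxZ⟩
  exact ⟨β, hpos, hβ⟩

end Crest.Agent.R133.Stab
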