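import Crest.Agent.R133.Skel
import Crest.Agent.R133.ExcCore
import Crest.Agent.R133.Cnt
import Crest.Agent.R133.KLGood
import Crest.Agent.R133.L1
import Crest.Agent.R133.Par
import Crest.Agent.R133.StabSM

/-!
Row 133: the smooth side in law form (`StSmoothAt`), from STAB, L1, L2, COUNT and KL.
-/

set_option autoImplicit false

open MeasureTheory Set Function Metric Filter
open scoped ENNReal Topology

namespace Crest.Agent.R133

/-- Output of the stability section (6) for the smooth models of dimension `d`, constant `D`. -/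
def StStab (d : ℕ) (D : ℝ) : Prop :=
  ∃ C0 : ℝ, 0 ≤ C0 ∧ ∀ (f : EE d → EE d) (ν : Measure (EE d)), SM D f ν →
    ∃ St : Set ℕ, Summable (Stᶜ.indicator kap) ∧ ∀ s ∈ St, ∀ B : Set (EE d), MeasurableSet B →
      (∀ i < NN (s + 1), ∀ j < NN (s + 1), i ≠ j → ν (f^[i] ⁻¹' B ∩ f^[j] ⁻¹' B) = 0) →
      ∃ Z : Set (EE d), MeasurableSet Z ∧ ν Z ≤ ENNReal.ofReal (1 / (40 * (NN (s + 1) : ℝ))) ∧
      ∀ᵐ x ∂ν, x ∈ B → x ∉ Z → ∃ β : ℕ → ℝ,
        (∀ p ≤ d, ∀ i j, i ≤ j → j ≤ NN (s + 1) →
          0 < pn p (Phi (fun l => fderiv ℝ f (f^[l] x)) i j)) ∧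
        (∀ p ≤ d, ∀ i j, i ≤ j → j ≤ NN (s + 1) →
          |Real.log (pn p (Phi (fun l => fderiv ℝ f (f^[l] x)) i j)) - ((j : ℝ) - i) * β p| ≤
            C0 * tt s)

/-- thin boundary -/
def Thin {d : ℕ} (Q : Set (EE d)) (CQ : ℝ) : Prop :=
  ∀ r : ℝ, 0 < r → r ≤ 1 →
    (volume : Measure (EE d)) {x | ¬ (ball x r ⊆ Q ∨ ball x r ⊆ Qᶜ)} ≤ ENNReal.ofReal (CQ * r)

lemma measurable_qOf {Ω : Type*} [MeasurableSpace Ω] {Q : Set Ω} (hQ : MeasurableSet Q) :
    Measurable (qOf Q) := by
  classical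
  refine measurable_to_bool ?_
  have : qOf Q ⁻¹' {true} = Q := by
    ext x; simp [qOf]
  rw [this]; exact hQ

theorem smoothAt_of {d : ℕ} {Q : Set (EE d)} (hQ : MeasurableSet Q) {CQ : ℝ} (hCQ : 0 ≤ CQ)
    (hthin : Thin Q CQ) (hst : ∀ D : ℝ, 1 ≤ D → StStab d D) : StSmoothAt Q := by
  classical
  intro D hD
  have hD0 : 0 ≤ D := by linarith
  obtain ⟨C0, hC0, hstab⟩ := hst D hD
  obtain ⟨Cc, hCc, hcount⟩ := Cnt.count d D
  set a : ℝ := 2 * ((d : ℝ) + 1) with ha
  set b : ℝ := 4 * C0 with hb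
  have hb0 : 0 ≤ b := by positivity
  have ha0 : 0 ≤ a := by positivity
  obtain ⟨t0, hscale⟩ := KL.scales d (δ := 1 / 40) hD0 hCQ ha0 hb0 (by norm_num)
  set r : ℕ → ℝ := fun s => Real.exp (-(b + 1) * tt s) with hr
  set ε : ℕ → ℝ := fun s => Real.exp (-(2 * b + 3) * tt s) with hε
  have hrpos : ∀ s, 0 < r s := fun s => Real.exp_pos _
  have hεpos : ∀ s, 0 < ε s := fun s => Real.exp_pos _
  have hεr : ∀ s, ε s ≤ 4 * r s := by
    intro s
    have h1 : ε s ≤ r s := by
      apply Real.exp_le_exp.2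
      have : (0 : ℝ) ≤ tt s := Nat.cast_nonneg _
      nlinarith
    linarith [hrpos s]
  have hR : ∀ s : ℕ, ∃ R : Finset ((EE d → EE d) × Measure (EE d)), (∀ p ∈ R, SM D p.1 p.2) ∧
      (4 * r s ≤ 1 → (R.card : ℝ) ≤ Real.exp ((Cc / ε s) ^ Cc) ∧
        ∀ f ν, SM D f ν → ∃ p ∈ R, Close D f ν p.1 p.2 (ε s) (4 * r s)) := by
    intro s
    by_cases h : 4 * r s ≤ 1
    · obtain ⟨R, h1, h2, h3⟩ := hcount (ε s) (4 * r s) (hεpos s) (hεr s) h
      exact ⟨R, h1, fun _ => ⟨h2, h3⟩⟩
    · exact ⟨∅, by simp, fun h' => absurd h' h⟩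
  choose R hR1 hR2 using hR
  have hqm : Measurable (qOf Q) := measurable_qOf hQ
  -- eventual facts
  have htt : Tendsto tt atTop atTop := Par.tt_tendsto
  have hev : ∀ᶠ s in atTop, max t0 1 ≤ tt s := htt.eventually (eventually_ge_atTop _)
  have hNt : ∀ s, NN (s + 1) ≤ tt s ^ 2 := by
    intro s
    rw [Par.NN_succ', sq]
    refine Nat.mul_le_mul_right _ ?_
    unfold tt
    exact Nat.le_mul_of_pos_right _ (Exc.NN_pos s)
  refine ⟨max (4 * 8 ^ d * D ^ 2) (Cc * (Real.log Cc + (2 * b + 3))),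
    fun s => (R s).image (fun p => Exc.law (NN (s + 1)) p.2 p.1 (qOf Q)), ?_, ?_, ?_, ?_⟩
  · exact le_max_of_le_left (by positivity)
  · intro s p hp
    obtain ⟨⟨g, νg⟩, hg, rfl⟩ := Finset.mem_image.1 hp
    have hSM := hR1 s _ hg
    have := hSM.prob
    exact Exc.law_isLaw νg hSM.meas hqm
  · filter_upwards [hev] with s hs
    have ht0 : t0 ≤ tt s := le_trans (le_max_left _ _) hs
    have ht1 : 1 ≤ tt s := le_trans (le_max_right _ _) hs
    have htr : (1 : ℝ) ≤ tt s := by exact_mod_cast ht1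
    obtain ⟨hs1, -, -, -⟩ := hscale (tt s) ht0 _ (hNt s)
    have h4r : 4 * r s ≤ 1 := by
      have : 8 * r s ≤ 1 := hs1
      linarith [hrpos s]
    have hcard : (((R s).image (fun p => Exc.law (NN (s + 1)) p.2 p.1 (qOf Q))).card : ℝ) ≤
        (R s).card := by exact_mod_cast Finset.card_image_le
    refine hcard.trans ((hR2 s h4r).1.trans (Real.exp_le_exp.2 ?_))
    have hCc' : (1 : ℝ) ≤ Cc := by exact_mod_cast hCc
    have hlog : 0 ≤ Real.log Cc := Real.log_nonneg hCc'
    have e1 : (Cc : ℝ) / ε s = Real.exp (Real.log Cc + (2 * b + 3) * tt s) := by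
      rw [Real.exp_add, Real.exp_log (by linarith), div_eq_mul_inv]
      congr 1
      simp only [hε]
      rw [← Real.exp_neg]
      congr 1
      ring
    rw [e1, ← Real.exp_nat_mul]
    apply Real.exp_le_exp.2
    calc (Cc : ℝ) * (Real.log Cc + (2 * b + 3) * tt s)
        ≤ (Cc : ℝ) * ((Real.log Cc + (2 * b + 3)) * tt s) := by
          gcongr
          nlinarith
      _ = (Cc * (Real.log Cc + (2 * b + 3))) * tt s := by ring
      _ ≤ _ := by
          gcongr
          exact le_max_right _ _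
  · intro f ν hf
    obtain ⟨St, hSt, hstab'⟩ := hstab f ν hf
    refine ⟨St, hSt, fun B hB hdisj => ?_⟩
    filter_upwards [hev] with s hs hsSt
    have ht0 : t0 ≤ tt s := le_trans (le_max_left _ _) hs
    obtain ⟨hs1, hs2, hs3, hs4⟩ := hscale (tt s) ht0 _ (hNt s)
    have h8r : 8 * r s ≤ 1 := hs1
    have h4r : 4 * r s ≤ 1 := by linarith [hrpos s]
    obtain ⟨⟨g, νg⟩, hg, hclose⟩ := (hR2 s h4r).2 f ν hf
    have hSMg := hR1 s _ hg
    have := hf.prob
    have hpg := hSMg.prob
    simp only at hSMg hpg hclose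
    obtain ⟨Z, hZ, hZν, hae⟩ := hstab' s hsSt (B s) (hB s) (hdisj s)
    set N := NN (s + 1) with hN
    have hNpos : 0 < N := Exc.NN_pos _
    have hNr : (0 : ℝ) < N := by exact_mod_cast hNpos
    -- the LIN set
    set L : Set (EE d) := {x | KL.HasS f N (a * Real.exp (b * tt s)) x} with hL
    set Good0 : Set (EE d) := L ∩ KL.GoodReg D f ν Q (r s) N with hGood0
    have hBL : ν (B s \ L) ≤ ENNReal.ofReal (1 / (40 * (N : ℝ))) := by
      refine le_trans ?_ hZν
      have hsub : (B s \ L) ≤ᵐ[ν] Z := by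
        filter_upwards [hae] with x hx hxBL
        by_contra hxZ
        obtain ⟨β, hpos, hlin⟩ := hx hxBL.1 hxZ
        apply hxBL.2
        have hfr : Module.finrank ℝ (EE d) = d := finrank_euclideanSpace_fin
        obtain ⟨S, hS1, hS2⟩ := L1 N (fun l => fderiv ℝ f (f^[l] x)) β (C0 * tt s)
          (by rw [hfr]; exact hpos) (by rw [hfr]; exact hlin)
        rw [hfr] at hS1 hS2
        refine ⟨S, fun i j hij hj => ?_, fun i j hij hj => ?_⟩
        · refine (hS1 i j hij hj).trans (le_of_eq ?_)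
          rw [ha, hb]; congr 2; ring
        · refine (hS2 i j hij hj).trans (le_of_eq ?_)
          rw [ha, hb]; congr 2; ring
      exact measure_mono_ae hsub
    have hBG0 : ν (B s \ Good0) ≤ ENNReal.ofReal (1 / (20 * (N : ℝ))) := by
      have h1 := KL.base_diff_good hD0 hf (hrpos s) h8r hCQ
        (hthin (4 * r s) (by linarith [hrpos s]) h4r) N (B s) L
      refine h1.trans ((add_le_add hBL le_rfl).trans ?_)
      rw [← ENNReal.ofReal_add (by positivity) (by have := hrpos s; positivity)]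
      apply ENNReal.ofReal_le_ofReal
      have h5 : ((N : ℝ) + 1) * (D * (8 + 4 * CQ) * r s) ≤ 1 / (40 * N) := by
        rw [le_div_iff₀ (by positivity)]
        have := hs4
        have e : ((N : ℝ) + 1) * (D * (8 + 4 * CQ) * r s) * (40 * N) =
          40 * (((N : ℝ) + 1) * (D * (8 + 4 * CQ) * r s) * N) := by ring
        rw [e]
        have h6 : ((N : ℝ) + 1) * (D * (8 + 4 * CQ) * r s) * N ≤ 1 / 40 := hs4
        linarith
      have h7 : (1 : ℝ) / (20 * N) = 1 / (40 * N) + 1 / (40 * N) := by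
        field_simp
        norm_num
      rw [h7]
      linarith
    set T := toMeasurable ν (B s \ Good0) with hT
    refine ⟨Exc.law N νg g (qOf Q), Finset.mem_image_of_mem _ hg, B s \ T,
      (hB s).diff (measurableSet_toMeasurable _ _), Set.sdiff_subset, ?_, ?_⟩
    · calc ν (B s \ (B s \ T)) ≤ ν T := measure_mono (by
            intro x hx
            by_contra h
            exact hx.2 ⟨hx.1, h⟩)
        _ = ν (B s \ Good0) := measure_toMeasurable _
        _ ≤ _ := hBG0
    · intro A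
      have hGsub : B s \ T ⊆ Good0 := by
        intro x hx
        by_contra h
        exact hx.2 (subset_toMeasurable _ _ ⟨hx.1, h⟩)
      set G' : Set (EE d) := {x | x ∈ B s \ T ∧ QName N f Q x ∈ A} with hG'
      have hG'sub : ∀ x ∈ G', x ∈ Good0 := fun x hx => hGsub hx.1
      have hkl := KL.kl (N := N) (G := a * Real.exp (b * tt s)) hD0 hf hSMg (hrpos s) (hεpos s).le
        (by positivity) hclose ?_ ?_ G' (fun x hx k hk => ((hG'sub x hx).2 k hk).1)
        (fun x hx => (hG'sub x hx).1)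
      · have hsub2 : (⋃ x ∈ G', KL.BB g N (fun i => f^[i] x) (r s / 8)) ⊆
            {y | (fun i : Fin N => qOf Q (g^[(i : ℕ)] y)) ∈ Finset.univ.filter (fun z => z ∈ A)} := by
          intro y hy
          simp only [Set.mem_iUnion] at hy
          obtain ⟨x, hx, hxy⟩ := hy
          have hname : (fun i : Fin N => qOf Q (g^[(i : ℕ)] y)) = QName N f Q x := by
            funext i
            have := KL.name_eq (hrpos s) (fun k hk => ((hG'sub x hx).2 k hk).2) hxy
              (k := (i : ℕ)) i.2.le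
            simp only [QName, qOf]
            exact decide_eq_decide.2 this
          show _ ∈ Finset.univ.filter (fun z => z ∈ A)
          rw [hname]
          simp only [Finset.mem_filter, Finset.mem_univ, true_and]
          exact hx.2
        calc ν G' ≤ ENNReal.ofReal (4 * 8 ^ d * D ^ 2) *
              νg (⋃ x ∈ G', KL.BB g N (fun i => f^[i] x) (r s / 8)) := hkl
          _ ≤ ENNReal.ofReal (4 * 8 ^ d * D ^ 2) *
              ENNReal.ofReal (∑ z ∈ Finset.univ.filter (fun z => z ∈ A),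
                Exc.law N νg g (qOf Q) z) := by
              rw [← Exc.law_sum_eq νg hSMg.meas hqm]
              exact mul_le_mul_right (measure_mono hsub2) _
          _ = ENNReal.ofReal ((4 * 8 ^ d * D ^ 2) *
              (∑ z ∈ Finset.univ.filter (fun z => z ∈ A), Exc.law N νg g (qOf Q) z)) := by
              rw [ENNReal.ofReal_mul (p := 4 * 8 ^ d * D ^ 2) (by positivity)]
          _ ≤ _ := by
              apply ENNReal.ofReal_le_ofReal
              have hs0 : 0 ≤ ∑ z ∈ Finset.univ.filter (fun z => z ∈ A),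
                  Exc.law N νg g (qOf Q) z := Finset.sum_nonneg fun z _ => Exc.law_nonneg νg z
              exact mul_le_mul_of_nonneg_right (le_max_left _ _) hs0
      · exact hs2
      · exact hs3

theorem stStab (d : ℕ) (D : ℝ) (hD : 1 ≤ D) : StStab d D := Stab.stab_sm' d D hD

/-- **The smooth side** (sections 6-10) for a set `Q` with thin boundary. -/
theorem smoothAt {d : ℕ} {Q : Set (EE d)} (hQ : MeasurableSet Q)
    (hthin : ∃ CQ : ℝ, 0 ≤ CQ ∧ ∀ r : ℝ, 0 < r → r ≤ 1 →
      (volume : Measure (EE d)) {x | ¬ (ball x r ⊆ Q ∨ ball x r ⊆ Qᶜ)} ≤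
        ENNReal.ofReal (CQ * r)) : StSmoothAt Q := by
  obtain ⟨CQ, h0, h⟩ := hthin
  exact smoothAt_of hQ h0 h fun D hD => stStab d D hD

end Crest.Agent.R133
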