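import Crest.Agent.R133.Main
import Crest.Agent.R133.Mfd
import Crest.Agent.R133.SmoothAt

/-!
# Row 133 (S0182): the final assembly, smooth side discharged
-/

set_option autoImplicit false

open MeasureTheory Filter Set Metric
open scoped ENNReal Topology

namespace Crest.Agent.R133.XF

/-- S0182 from the three remaining nodes. -/
theorem main' (hComb : StComb) (hA : StTheoremA) (hPot : StPot) :
    ∃ (X : Type) (_ : MeasurableSpace X) (μ : Measure X) (T : X ≃ᵐ X),
      IsProbabilityMeasure μ ∧ Crest.AnalysisR.IsStandardProbability μ ∧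
      MeasurePreserving T μ μ ∧ Ergodic T μ ∧ Crest.AnalysisR.HasZeroEntropy μ T ∧
      Crest.AnalysisR.NoSmoothPositiveVolumeModel μ T :=
  main hComb hA hPot (fun d i => smoothAt (QSet.measurableSet_qs (d + 1) i) (QSet.qs_thin (d + 1) i))
    stNoModel

end Crest.Agent.R133.XF
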