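import Mathlib
import Crest.Prelude.Def_SmoothModel

/-! Row 133 (S0182), section 5 = MFD, part A: finite atlas data, index, embedding into Euclidean
space by far translations, measurability. -/

set_option autoImplicit false

namespace Crest.Agent.R133.Mfd

open MeasureTheory Metric Set Filter
open scoped Manifold ContDiff Topology ENNReal

section
variable {d : ℕ} {H : Type*} [TopologicalSpace H]
  (I : ModelWithCorners ℝ (EuclideanSpace ℝ (Fin (d + 1))) H)
  (M : Type*) [TopologicalSpace M] [ChartedSpace H M]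

/-- Finite family of bump functions whose `7/8`-superlevel sets cover. -/
structure Data where
  n : ℕ
  p : Fin n → M
  b : ∀ i, SmoothBumpFunction I (p i)
  cover : ∀ x : M, ∃ i, 7 / 8 < b i x

variable [T2Space M] [CompactSpace M] [IsManifold I ∞ M]

theorem exists_data : Nonempty (Data I M) := by
  classical
  have h1 : ∀ c : M, Nonempty (SmoothBumpFunction I c) := fun c => inferInstance
  have f : ∀ c : M, SmoothBumpFunction I c := fun c => (h1 c).some
  have hU : ∀ c : M, {x | 7 / 8 < f c x} ∈ 𝓝 c := by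
    intro c
    apply IsOpen.mem_nhds
    · exact isOpen_lt continuous_const (f c).continuous
    · simp only [mem_ofPred_eq, (f c).eq_one]; norm_num
  obtain ⟨t, ht⟩ := CompactSpace.elim_nhds_subcover _ hU
  refine ⟨⟨t.card, fun i => (t.equivFin.symm i : M), fun i => f _, ?_⟩⟩
  intro x
  have hx : x ∈ ⋃ c ∈ t, {x | 7 / 8 < f c x} := by rw [ht]; trivial
  simp only [mem_iUnion, mem_ofPred_eq] at hx
  obtain ⟨c, hc, hx⟩ := hx
  have key : ∀ a : M, a = c → 7 / 8 < f a x := by rintro _ rfl; exact hx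
  exact ⟨t.equivFin ⟨c, hc⟩, key _ (by simp)⟩

end

section
variable {d : ℕ} {H : Type*} [TopologicalSpace H]
  {I : ModelWithCorners ℝ (EuclideanSpace ℝ (Fin (d + 1))) H}
  {M : Type*} [TopologicalSpace M] [ChartedSpace H M]

namespace Data
variable (A : Data I M)

/-- chart -/
noncomputable def φ (i : Fin A.n) : PartialEquiv M (EuclideanSpace ℝ (Fin (d + 1))) :=
  extChartAt I (A.p i)

/-- center -/
noncomputable def c (i : Fin A.n) : EuclideanSpace ℝ (Fin (d + 1)) := A.φ i (A.p i)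

/-- the compact chart piece -/
def K (i : Fin A.n) : Set (EuclideanSpace ℝ (Fin (d + 1))) :=
  closedBall (A.c i) (A.b i).rOut ∩ range I

theorem K_subset (i : Fin A.n) : A.K i ⊆ (A.φ i).target := (A.b i).closedBall_subset

theorem K_compact (i : Fin A.n) : IsCompact (A.K i) :=
  (isCompact_closedBall _ _).inter_right I.isClosed_range

theorem K_convex (i : Fin A.n) : Convex ℝ (A.K i) :=
  (convex_closedBall _ _).inter I.convex_range

/-- separation constant -/
noncomputable def Λ : ℝ := 1 + 2 * ∑ i, (A.b i).rOut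

/-- unit vector -/
noncomputable def e0 (d : ℕ) : EuclideanSpace ℝ (Fin (d + 1)) := EuclideanSpace.single 0 1

theorem norm_e0 (d : ℕ) : ‖e0 d‖ = 1 := by simp [e0]

/-- translation vector -/
noncomputable def v (i : Fin A.n) : EuclideanSpace ℝ (Fin (d + 1)) :=
  ((i : ℕ) * A.Λ) • e0 d - A.c i

theorem rOut_le_sum (i : Fin A.n) : (A.b i).rOut ≤ ∑ i, (A.b i).rOut :=
  Finset.single_le_sum (f := fun i => (A.b i).rOut) (fun j _ => (A.b j).rOut_pos.le)
    (Finset.mem_univ i)

theorem one_le_Λ : 1 ≤ A.Λ := by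
  have : 0 ≤ ∑ i, (A.b i).rOut := Finset.sum_nonneg fun j _ => (A.b j).rOut_pos.le
  unfold Λ; linarith

/-- the image piece `B_i` in Euclidean space -/
def B (i : Fin A.n) : Set (EuclideanSpace ℝ (Fin (d + 1))) :=
  {z | z - A.v i ∈ A.K i}

theorem B_disjoint {i j : Fin A.n} {z : EuclideanSpace ℝ (Fin (d + 1))} (hi : z ∈ A.B i)
    (hj : z ∈ A.B j) : i = j := by
  by_contra hij
  have h1 : ‖z - ((i : ℕ) * A.Λ) • e0 d‖ ≤ (A.b i).rOut := by
    have := hi.1
    rw [mem_closedBall, dist_eq_norm] at this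
    have e : z - ((i : ℕ) * A.Λ) • e0 d = z - A.v i - A.c i := by simp only [v]; abel
    rw [e]; exact this
  have h2 : ‖z - ((j : ℕ) * A.Λ) • e0 d‖ ≤ (A.b j).rOut := by
    have := hj.1
    rw [mem_closedBall, dist_eq_norm] at this
    have e : z - ((j : ℕ) * A.Λ) • e0 d = z - A.v j - A.c j := by simp only [v]; abel
    rw [e]; exact this
  have h3 : ‖((i : ℕ) * A.Λ) • e0 d - ((j : ℕ) * A.Λ) • e0 d‖ ≤ (A.b i).rOut + (A.b j).rOut := by
    have : ((i : ℕ) * A.Λ) • e0 d - ((j : ℕ) * A.Λ) • e0 d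
        = (z - ((j : ℕ) * A.Λ) • e0 d) - (z - ((i : ℕ) * A.Λ) • e0 d) := by abel
    rw [this]
    exact (norm_sub_le _ _).trans (by linarith)
  rw [← sub_smul, norm_smul, norm_e0, mul_one, ← sub_mul, norm_mul, Real.norm_eq_abs,
    Real.norm_eq_abs, abs_of_nonneg (le_trans zero_le_one A.one_le_Λ)] at h3
  have h4 : (1 : ℝ) ≤ |((i : ℕ) : ℝ) - ((j : ℕ) : ℝ)| := by
    have h5 : ((i : ℕ) : ℤ) ≠ ((j : ℕ) : ℤ) := by
      intro h; apply hij; ext; exact_mod_cast h
    have h6 : (1 : ℤ) ≤ |((i : ℕ) : ℤ) - ((j : ℕ) : ℤ)| := by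
      apply Int.one_le_abs; omega
    have : ((1 : ℤ) : ℝ) ≤ ((|((i : ℕ) : ℤ) - ((j : ℕ) : ℤ)| : ℤ) : ℝ) := by exact_mod_cast h6
    simpa using this
  have h5 := A.rOut_le_sum i
  have h6 := A.rOut_le_sum j
  have h7 : A.Λ ≤ |((i : ℕ) : ℝ) - ((j : ℕ) : ℝ)| * A.Λ :=
    le_mul_of_one_le_left (le_trans zero_le_one A.one_le_Λ) h4
  have h8 : A.Λ = 1 + 2 * ∑ i, (A.b i).rOut := rfl
  linarith

theorem exists_lt (t : ℝ) (ht : t ≤ 7 / 8) (x : M) : ∃ i, t < A.b i x := by
  obtain ⟨i, hi⟩ := A.cover x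
  exact ⟨i, ht.trans_lt hi⟩

open Classical in
/-- least element of a set of indices -/
noncomputable def minS {n : ℕ} [Nonempty (Fin n)] (s : Set (Fin n)) : Fin n :=
  if h : ∃ i, i ∈ s then Finset.min' (Finset.univ.filter (· ∈ s))
    (by obtain ⟨i, hi⟩ := h; exact ⟨i, by simp [hi]⟩)
  else Classical.arbitrary _

theorem minS_mem {n : ℕ} [Nonempty (Fin n)] {s : Set (Fin n)} (h : ∃ i, i ∈ s) :
    minS s ∈ s := by
  classical
  rw [minS, dif_pos h]
  have := Finset.min'_mem (Finset.univ.filter (· ∈ s))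
    (by obtain ⟨i, hi⟩ := h; exact ⟨i, by simp [hi]⟩)
  simpa using this

theorem minS_le {n : ℕ} [Nonempty (Fin n)] {s : Set (Fin n)} {i : Fin n} (h : i ∈ s) :
    minS s ≤ i := by
  classical
  rw [minS, dif_pos ⟨i, h⟩]
  exact Finset.min'_le _ _ (by simp [h])

/-- index of the first chart piece containing `x` -/
noncomputable def idx [Nonempty (Fin A.n)] (t : ℝ) (x : M) : Fin A.n :=
  minS ({i | t < A.b i x} : Set (Fin A.n))

variable [Nonempty (Fin A.n)]

theorem idx_spec {t : ℝ} (ht : t ≤ 7 / 8) (x : M) : t < A.b (A.idx t x) x :=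
  minS_mem (s := {i | t < A.b i x}) (A.exists_lt t ht x)

theorem idx_congr {t : ℝ} {x y : M} (h : ∀ j, t < A.b j x ↔ t < A.b j y) :
    A.idx t x = A.idx t y := by
  have : ({i | t < A.b i x} : Set (Fin A.n)) = {i | t < A.b i y} := by
    ext i; exact h i
  exact congrArg minS this

theorem idx_eq_iff {t : ℝ} (ht : t ≤ 7 / 8) (x : M) (i : Fin A.n) :
    A.idx t x = i ↔ t < A.b i x ∧ ∀ j < i, ¬ t < A.b j x := by
  constructor
  · rintro rfl
    refine ⟨A.idx_spec ht x, fun j hj hj' => ?_⟩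
    exact absurd (minS_le (s := {i | t < A.b i x}) hj') (not_le.mpr hj)
  · rintro ⟨h1, h2⟩
    apply le_antisymm (minS_le (s := {i | t < A.b i x}) h1)
    by_contra hlt
    rw [not_le] at hlt
    exact h2 _ hlt (A.idx_spec ht x)

variable [T2Space M] [IsManifold I ∞ M]

theorem measurable_idx [MeasurableSpace M] [BorelSpace M] {t : ℝ} (ht : t ≤ 7 / 8) :
    Measurable (A.idx t) := by
  apply measurable_to_countable'
  intro i
  have : A.idx t ⁻¹' {i} = {x | t < A.b i x} ∩ ⋂ j, ⋂ (_ : j < i), {x | t < A.b j x}ᶜ := by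
    ext x
    simp only [mem_preimage, mem_singleton_iff, mem_inter_iff, mem_iInter, mem_compl_iff]
    exact A.idx_eq_iff ht x i
  rw [this]
  refine MeasurableSet.inter (isOpen_lt continuous_const (A.b i).continuous).measurableSet ?_
  refine MeasurableSet.iInter fun j => MeasurableSet.iInter fun _ => ?_
  exact (isOpen_lt continuous_const (A.b j).continuous).measurableSet.compl

omit [T2Space M] [IsManifold I ∞ M] [Nonempty (Fin A.n)] in
/-- The set of points of the chart `i` with positive bump. -/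
theorem mem_of_pos {i : Fin A.n} {x : M} (h : 0 < A.b i x) :
    x ∈ (A.φ i).source ∧ A.φ i x ∈ ball (A.c i) (A.b i).rOut ∧ A.φ i x ∈ A.K i := by
  have h1 : x ∈ Function.support (A.b i) := h.ne'
  rw [SmoothBumpFunction.support_eq_inter_preimage] at h1
  have h2 : x ∈ (A.φ i).source := by rw [φ, extChartAt_source]; exact h1.1
  refine ⟨h2, h1.2, ball_subset_closedBall h1.2, ?_⟩
  exact extChartAt_target_subset_range _ ((A.φ i).map_source h2)

end Data

end

end Crest.Agent.R133.Mfd
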