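import Crest.Agent.R133.MfdA

/-! Row 133 (S0182), section 5 = MFD, part B: the embedding `F`, its inverse `G`,
measurability. -/

set_option autoImplicit false

namespace Crest.Agent.R133.Mfd

open MeasureTheory Metric Set Filter
open scoped Manifold ContDiff Topology ENNReal

theorem measurable_glue {α β : Type*} [MeasurableSpace α] [MeasurableSpace β] {n : ℕ}
    {k : α → Fin n} (hk : Measurable k) {g : Fin n → α → β} (hg : ∀ i, Measurable (g i)) :
    Measurable (fun x => g (k x) x) := by
  have h1 : Measurable (fun q : α × Fin n => g q.2 q.1) := measurable_from_prod_countable_left hg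
  exact h1.comp (measurable_id.prodMk hk)

section
variable {d : ℕ} {H : Type*} [TopologicalSpace H]
  {I : ModelWithCorners ℝ (EuclideanSpace ℝ (Fin (d + 1))) H}
  {M : Type*} [TopologicalSpace M] [ChartedSpace H M]

namespace Data
variable (A : Data I M) [Nonempty (Fin A.n)]

/-- the embedding -/
noncomputable def F (t : ℝ) (x : M) : EuclideanSpace ℝ (Fin (d + 1)) :=
  A.φ (A.idx t x) x + A.v (A.idx t x)

open Classical in
/-- chart piece index of a point of Euclidean space -/
noncomputable def kdx (z : EuclideanSpace ℝ (Fin (d + 1))) : Fin A.n :=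
  minS {i | z ∈ A.B i}

open Classical in
/-- piecewise inverse chart -/
noncomputable def Gt (x0 : M) (i : Fin A.n) : EuclideanSpace ℝ (Fin (d + 1)) → M :=
  (A.B i).piecewise (fun z => (A.φ i).symm (z - A.v i)) (fun _ => x0)

/-- the inverse of the embedding -/
noncomputable def G (x0 : M) (z : EuclideanSpace ℝ (Fin (d + 1))) : M :=
  A.Gt x0 (A.kdx z) z

theorem kdx_eq {i : Fin A.n} {z : EuclideanSpace ℝ (Fin (d + 1))} (h : z ∈ A.B i) :
    A.kdx z = i :=
  A.B_disjoint (minS_mem (s := {i | z ∈ A.B i}) ⟨i, h⟩) h

theorem G_eq (x0 : M) {i : Fin A.n} {z : EuclideanSpace ℝ (Fin (d + 1))} (h : z ∈ A.B i) :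
    A.G x0 z = (A.φ i).symm (z - A.v i) := by
  classical
  rw [G, A.kdx_eq h, Gt, piecewise_eq_of_mem _ _ _ h]

theorem F_mem {t : ℝ} (ht0 : 0 < t) (ht : t ≤ 7 / 8) (x : M) : A.F t x ∈ A.B (A.idx t x) := by
  show A.F t x - A.v (A.idx t x) ∈ A.K (A.idx t x)
  rw [F, add_sub_cancel_right]
  exact (A.mem_of_pos (ht0.trans (A.idx_spec ht x))).2.2

theorem G_F (x0 : M) {t : ℝ} (ht0 : 0 < t) (ht : t ≤ 7 / 8) (x : M) : A.G x0 (A.F t x) = x := by
  rw [A.G_eq x0 (A.F_mem ht0 ht x), F, add_sub_cancel_right]
  exact (A.φ _).left_inv (A.mem_of_pos (ht0.trans (A.idx_spec ht x))).1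

omit [Nonempty (Fin A.n)] in
theorem B_closed (i : Fin A.n) : IsClosed (A.B i) :=
  (A.K_compact i).isClosed.preimage (continuous_id.sub continuous_const)

theorem measurable_kdx : Measurable A.kdx := by
  classical
  apply measurable_to_countable'
  intro i
  have : A.kdx ⁻¹' {i} = A.B i ∪ ((⋂ j, (A.B j)ᶜ) ∩ {_z | i = minS (∅ : Set (Fin A.n))}) := by
    ext z
    simp only [mem_preimage, mem_singleton_iff, mem_union, mem_inter_iff, mem_iInter,
      mem_compl_iff, mem_ofPred_eq]
    constructor
    · intro h
      by_cases hz : ∃ j, z ∈ A.B j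
      · obtain ⟨j, hj⟩ := hz
        left
        rw [← h, A.kdx_eq hj]; exact hj
      · push Not at hz
        right
        refine ⟨hz, ?_⟩
        rw [← h, kdx]
        congr 1
        ext j
        simp [hz j]
    · rintro (h | ⟨h1, h2⟩)
      · exact A.kdx_eq h
      · rw [h2, kdx]
        congr 1
        ext j
        simp [h1 j]
  rw [this]
  refine (A.B_closed i).measurableSet.union
    ((MeasurableSet.iInter fun j => (A.B_closed j).measurableSet.compl).inter ?_)
  exact MeasurableSet.const _

theorem measurable_Gt [MeasurableSpace M] [BorelSpace M] (x0 : M) (i : Fin A.n) :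
    Measurable (A.Gt x0 i) := by
  classical
  refine ContinuousOn.measurable_piecewise ?_ continuousOn_const (A.B_closed i).measurableSet
  have h : ContinuousOn (A.φ i).symm (A.φ i).target := continuousOn_extChartAt_symm _
  refine h.comp (continuous_id.sub continuous_const).continuousOn ?_
  intro z hz
  exact A.K_subset i hz

theorem measurable_G [MeasurableSpace M] [BorelSpace M] (x0 : M) : Measurable (A.G x0) :=
  measurable_glue (g := A.Gt x0) A.measurable_kdx (fun i => A.measurable_Gt x0 i)

variable [T2Space M] [IsManifold I ∞ M]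

theorem measurable_F [MeasurableSpace M] [BorelSpace M] {t : ℝ} (ht0 : 0 < t) (ht : t ≤ 7 / 8) :
    Measurable (A.F t) := by
  classical
  have h1 : ∀ i : Fin A.n, Measurable ((A.φ i).source.piecewise (fun x => A.φ i x)
      (fun _ => (0 : EuclideanSpace ℝ (Fin (d + 1))))) := by
    intro i
    refine ContinuousOn.measurable_piecewise ?_ continuousOn_const
      (isOpen_extChartAt_source _).measurableSet
    exact continuousOn_extChartAt _
  have h3 := measurable_glue (A.measurable_idx ht)
    (g := fun i x => (A.φ i).source.piecewise (fun x => A.φ i x)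
      (fun _ => (0 : EuclideanSpace ℝ (Fin (d + 1)))) x + A.v i)
    (fun i => (h1 i).add measurable_const)
  convert h3 using 1
  ext1 x
  simp only [F]
  rw [piecewise_eq_of_mem]
  exact (A.mem_of_pos (ht0.trans (A.idx_spec ht x))).1

end Data

end

end Crest.Agent.R133.Mfd
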