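import Mathlib

set_option autoImplicit false

/-! Row 133, MFD, sub-lemmas E3, E4, E5 of helper903's interface (helper315). -/

open MeasureTheory Metric Set Topology
open scoped ENNReal NNReal

namespace Crest.Agent.R133.Mfd

variable {E : Type*} [NormedAddCommGroup E] [NormedSpace ℝ E] [FiniteDimensional ℝ E]

/-- (E3) uniform C² bounds on balls inside a compact set -/
theorem c2_bounds {F : E → E} {U C : Set E} (hU : UniqueDiffOn ℝ U) (hF : ContDiffOn ℝ 2 F U)
    (hC : IsCompact C) (hCU : C ⊆ U) :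
    ∃ K : ℝ, 0 ≤ K ∧ ∀ (a : E) (r : ℝ), ball a r ⊆ C →
      (∀ y ∈ ball a r, DifferentiableAt ℝ F y ∧ ‖fderiv ℝ F y‖ ≤ K) ∧
      (∀ y ∈ ball a r, ∀ z ∈ ball a r, ‖fderiv ℝ F y - fderiv ℝ F z‖ ≤ K * ‖y - z‖) := by
  have h1 : ContDiffOn ℝ 1 (fderivWithin ℝ F U) U := hF.fderivWithin hU (by norm_num)
  have h2 : ContinuousOn (fderivWithin ℝ (fderivWithin ℝ F U) U) U :=
    h1.continuousOn_fderivWithin hU (by norm_num)
  obtain ⟨K1, hK1⟩ := (hC.exists_bound_of_continuousOn (h1.continuousOn.mono hCU))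
  obtain ⟨K2, hK2⟩ := (hC.exists_bound_of_continuousOn (h2.mono hCU))
  refine ⟨max (max K1 K2) 0, le_max_right _ _, ?_⟩
  intro a r hball
  have hopen : IsOpen (ball a r) := isOpen_ball
  have hnhds : ∀ y ∈ ball a r, U ∈ 𝓝 y := fun y hy =>
    Filter.mem_of_superset (hopen.mem_nhds hy) (hball.trans hCU)
  have hdiff : ∀ y ∈ ball a r, DifferentiableAt ℝ F y := fun y hy =>
    ((hF.differentiableOn (by norm_num)) y (hCU (hball hy))).differentiableAt (hnhds y hy)
  have heq : ∀ y ∈ ball a r, fderivWithin ℝ F U y = fderiv ℝ F y := fun y hy =>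
    fderivWithin_of_mem_nhds (hnhds y hy)
  refine ⟨fun y hy => ⟨hdiff y hy, ?_⟩, ?_⟩
  · rw [← heq y hy]
    exact (hK1 y (hball hy)).trans ((le_max_left _ _).trans (le_max_left _ _))
  · intro y hy z hz
    have hD : ∀ x ∈ ball a r, HasFDerivWithinAt (fderivWithin ℝ F U)
        (fderivWithin ℝ (fderivWithin ℝ F U) U x) (ball a r) x := by
      intro x hx
      have hx' : DifferentiableWithinAt ℝ (fderivWithin ℝ F U) U x :=
        (h1.differentiableOn (by norm_num)) x (hCU (hball hx))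
      exact (hx'.hasFDerivWithinAt).mono (hball.trans hCU)
    have hbound : ∀ x ∈ ball a r, ‖fderivWithin ℝ (fderivWithin ℝ F U) U x‖ ≤
        max (max K1 K2) 0 := fun x hx =>
      (hK2 x (hball hx)).trans ((le_max_right _ _).trans (le_max_left _ _))
    have := (convex_ball a r).norm_image_sub_le_of_norm_hasFDerivWithin_le hD hbound hz hy
    rwa [heq y hy, heq z hz] at this

/-- (E4) uniform bound for the inverse of the derivative -/
theorem inv_bound {G : E → E} {U' C' : Set E} (hU' : UniqueDiffOn ℝ U')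
    (hG : ContDiffOn ℝ 1 G U') (hC' : IsCompact C') (hCU' : C' ⊆ U') :
    ∃ K : ℝ, 0 ≤ K ∧ ∀ (F : E → E) (y : E), DifferentiableAt ℝ F y → F y ∈ C' →
      (∀ᶠ z in 𝓝 y, F z ∈ U' ∧ G (F z) = z) →
      ∃ B : E →L[ℝ] E, B.comp (fderiv ℝ F y) = ContinuousLinearMap.id ℝ E ∧
        (fderiv ℝ F y).comp B = ContinuousLinearMap.id ℝ E ∧ ‖B‖ ≤ K := by
  have h1 : ContinuousOn (fderivWithin ℝ G U') U' :=
    hG.continuousOn_fderivWithin hU' (by norm_num)
  obtain ⟨K1, hK1⟩ := (hC'.exists_bound_of_continuousOn (h1.mono hCU'))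
  refine ⟨max K1 0, le_max_right _ _, ?_⟩
  intro F y hFy hFC hev
  have hGd : HasFDerivWithinAt G (fderivWithin ℝ G U' (F y)) U' (F y) :=
    ((hG.differentiableOn (by norm_num)) (F y) (hCU' hFC)).hasFDerivWithinAt
  set V : Set E := {z | F z ∈ U' ∧ G (F z) = z} with hV
  have hVn : V ∈ 𝓝 y := hev
  have hcomp : HasFDerivWithinAt (G ∘ F) ((fderivWithin ℝ G U' (F y)).comp (fderiv ℝ F y)) V y :=
    hGd.comp y (hFy.hasFDerivAt.hasFDerivWithinAt) (fun z hz => hz.1)
  have hcomp2 : HasFDerivAt (G ∘ F) ((fderivWithin ℝ G U' (F y)).comp (fderiv ℝ F y)) y :=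
    hcomp.hasFDerivAt hVn
  have hid : HasFDerivAt (G ∘ F) (ContinuousLinearMap.id ℝ E) y := by
    have : HasFDerivAt (fun z : E => z) (ContinuousLinearMap.id ℝ E) y := hasFDerivAt_id y
    refine this.congr_of_eventuallyEq ?_
    filter_upwards [hev] with z hz using hz.2
  have hB : (fderivWithin ℝ G U' (F y)).comp (fderiv ℝ F y) = ContinuousLinearMap.id ℝ E :=
    hcomp2.unique hid
  refine ⟨fderivWithin ℝ G U' (F y), hB, ?_, (hK1 _ hFC).trans (le_max_left _ _)⟩
  have hinj : Function.Injective (fderiv ℝ F y) := by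
    intro v w hvw
    have h1 := congrArg (fun L : E →L[ℝ] E => L v) hB
    have h2 := congrArg (fun L : E →L[ℝ] E => L w) hB
    simp only [ContinuousLinearMap.comp_apply, ContinuousLinearMap.id_apply] at h1 h2
    rw [← h1, ← h2, hvw]
  have hsurj : Function.Surjective (fderiv ℝ F y) :=
    LinearMap.surjective_of_injective (f := ((fderiv ℝ F y : E →L[ℝ] E) : E →ₗ[ℝ] E)) hinj
  ext v
  obtain ⟨w, rfl⟩ := hsurj v
  have h1 := congrArg (fun L : E →L[ℝ] E => L w) hB
  simp only [ContinuousLinearMap.comp_apply, ContinuousLinearMap.id_apply] at h1 ⊢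
  rw [h1]

/-- (E5) Lipschitz bound on compact convex sets -/
theorem lip_convex {h : E → ℝ} {U K : Set E} (hU : UniqueDiffOn ℝ U) (hh : ContDiffOn ℝ 1 h U)
    (hK : IsCompact K) (hKU : K ⊆ U) (hconv : Convex ℝ K) :
    ∃ L : ℝ, 0 ≤ L ∧ ∀ x ∈ K, ∀ y ∈ K, |h x - h y| ≤ L * ‖x - y‖ := by
  have h1 : ContinuousOn (fderivWithin ℝ h U) U :=
    hh.continuousOn_fderivWithin hU (by norm_num)
  obtain ⟨K1, hK1⟩ := (hK.exists_bound_of_continuousOn (h1.mono hKU))
  refine ⟨max K1 0, le_max_right _ _, ?_⟩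
  intro x hx y hy
  have hD : ∀ z ∈ K, HasFDerivWithinAt h (fderivWithin ℝ h U z) K z := fun z hz =>
    (((hh.differentiableOn (by norm_num)) z (hKU hz)).hasFDerivWithinAt).mono hKU
  have := hconv.norm_image_sub_le_of_norm_hasFDerivWithin_le hD
    (fun z hz => (hK1 z hz).trans (le_max_left K1 0)) hy hx
  rwa [Real.norm_eq_abs] at this

end Crest.Agent.R133.Mfd
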