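import Mathlib
import Crest.Prelude.Def_SmoothModel

set_option autoImplicit false

/-! Row 133, MFD: density bounds in charts (helper315). -/

open MeasureTheory Metric Set Topology
open scoped ENNReal NNReal Manifold ContDiff

namespace Crest.Agent.R133.Mfd

variable {d : ℕ} {H : Type*} [TopologicalSpace H]
  {I : ModelWithCorners ℝ (EuclideanSpace ℝ (Fin d)) H}
  {M : Type*} [TopologicalSpace M] [ChartedSpace H M] [MeasurableSpace M] [BorelSpace M]

/-- two-sided density bounds on compact subsets of the chart image -/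
theorem density_bounds {ν : Measure M} (hν : Crest.AnalysisR.HasSmoothPositiveDensity I ν)
    {e : OpenPartialHomeomorph M H} (he : e ∈ atlas H M)
    {C : Set (EuclideanSpace ℝ (Fin d))} (hC : IsCompact C) (hCt : C ⊆ (e.extend I).target) :
    ∃ D : ℝ, 1 ≤ D ∧ ∀ A : Set (EuclideanSpace ℝ (Fin d)), MeasurableSet A → A ⊆ C →
      ν ((e.extend I).source ∩ (e.extend I) ⁻¹' A) ≤ ENNReal.ofReal D * volume A ∧
      volume A ≤ ENNReal.ofReal D * ν ((e.extend I).source ∩ (e.extend I) ⁻¹' A) := by
  obtain ⟨f, hf, hpos, hmap⟩ := hν e he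
  have htarget : (e.extend I).target = I '' e.target := by
    rw [e.extend_target, ← I.image_eq]
  rw [htarget] at hCt
  have hcont : ContinuousOn f C := hf.continuousOn.mono hCt
  obtain ⟨K1, hK1⟩ := hC.exists_bound_of_continuousOn hcont
  have hcont2 : ContinuousOn (fun x => (f x)⁻¹) C :=
    hcont.inv₀ (fun x hx => (hpos x (hCt hx)).ne')
  obtain ⟨K2, hK2⟩ := hC.exists_bound_of_continuousOn hcont2
  set D : ℝ := max 1 (max K1 K2) with hD
  have hD1 : (1:ℝ) ≤ D := le_max_left _ _
  have hfD : ∀ x ∈ C, f x ≤ D := fun x hx =>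
    (le_abs_self _).trans ((hK1 x hx).trans ((le_max_left _ _).trans (le_max_right _ _)))
  have hfD' : ∀ x ∈ C, (1:ℝ) ≤ D * f x := by
    intro x hx
    have h1 : (f x)⁻¹ ≤ D :=
      (le_abs_self _).trans ((hK2 x hx).trans ((le_max_right _ _).trans (le_max_right _ _)))
    have h2 := hpos x (hCt hx)
    rw [inv_le_iff_one_le_mul₀ h2] at h1
    exact h1
  refine ⟨D, hD1, fun A hA hAC => ?_⟩
  have hsrc : (e.extend I).source = e.source := e.extend_source
  have hmeasI : AEMeasurable (I ∘ e) (ν.restrict e.source) := by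
    have hco : ContinuousOn (I ∘ e) e.source := I.continuous.comp_continuousOn e.continuousOn
    exact hco.aemeasurable e.open_source.measurableSet
  have hkey : ν ((e.extend I).source ∩ (e.extend I) ⁻¹' A) =
      ∫⁻ y in A, ENNReal.ofReal (f y) := by
    have h1 : ((ν.restrict e.source).map (I ∘ e)) A =
        ν ((e.extend I).source ∩ (e.extend I) ⁻¹' A) := by
      rw [Measure.map_apply_of_aemeasurable hmeasI hA, Measure.restrict_apply₀', hsrc]
      · rw [inter_comm]; rfl
      · exact e.open_source.measurableSet.nullMeasurableSet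
    rw [← h1, hmap, withDensity_apply _ hA, Measure.restrict_restrict hA]
    congr 2
    exact inter_eq_left.mpr (hAC.trans hCt)
  rw [hkey]
  constructor
  · calc ∫⁻ y in A, ENNReal.ofReal (f y) ≤ ∫⁻ y in A, ENNReal.ofReal D := by
          apply setLIntegral_mono' hA
          intro x hx
          exact ENNReal.ofReal_le_ofReal (hfD x (hAC hx))
      _ = ENNReal.ofReal D * volume A := by rw [setLIntegral_const]
  · calc volume A = ∫⁻ y in A, 1 := by rw [setLIntegral_const, one_mul]
      _ ≤ ∫⁻ y in A, ENNReal.ofReal D * ENNReal.ofReal (f y) := by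
          apply setLIntegral_mono' hA
          intro x hx
          rw [← ENNReal.ofReal_mul (by linarith)]
          rw [← ENNReal.ofReal_one]
          exact ENNReal.ofReal_le_ofReal (hfD' x (hAC hx))
      _ = ENNReal.ofReal D * ∫⁻ y in A, ENNReal.ofReal (f y) := by
          rw [lintegral_const_mul' _ _ ENNReal.ofReal_ne_top]

end Crest.Agent.R133.Mfd
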