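import Mathlib

set_option autoImplicit false

/-! Row 133, MFD, sub-lemma M1: Euclidean measure facts (helper315). -/

open MeasureTheory Metric Set
open scoped ENNReal NNReal Manifold

namespace Crest.Agent.R133.Mfd

/-- annulus estimate -/
theorem annulus_measure {E : Type*} [NormedAddCommGroup E] [NormedSpace ℝ E]
    [MeasurableSpace E] [BorelSpace E] [FiniteDimensional ℝ E] (μ : Measure E)
    [μ.IsAddHaarMeasure] (c : E) (ρ : ℝ) (hρ : 0 < ρ) :
    ∃ C : ℝ, 0 ≤ C ∧ ∀ s : ℝ, 0 ≤ s → s ≤ 1 →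
      μ {z | |dist z c - ρ| ≤ s} ≤ ENNReal.ofReal (C * s) := by
  set n := Module.finrank ℝ E with hn
  set v : ℝ := (μ (ball (0 : E) 1)).toReal with hv
  have hvfin : μ (ball (0 : E) 1) ≠ ⊤ := measure_ball_lt_top.ne
  have hv0 : 0 ≤ v := ENNReal.toReal_nonneg
  have hvE : μ (ball (0 : E) 1) = ENNReal.ofReal v := (ENNReal.ofReal_toReal hvfin).symm
  refine ⟨max ((ρ + 1) ^ n * v / ρ) (2 * n * (ρ + 1) ^ (n - 1) * v), by positivity, ?_⟩
  intro s hs0 hs1
  by_cases hsρ : s < ρ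
  · have hsub : {z | |dist z c - ρ| ≤ s} ⊆ closedBall c (ρ + s) \ ball c (ρ - s) := by
      intro z hz
      rw [mem_ofPred_eq, abs_le] at hz
      constructor
      · rw [mem_closedBall]; linarith [hz.2]
      · rw [mem_ball, not_lt]; linarith [hz.1]
    refine (measure_mono hsub).trans ?_
    have hb : ball c (ρ - s) ⊆ closedBall c (ρ + s) :=
      (ball_subset_ball (by linarith)).trans ball_subset_closedBall
    rw [measure_sdiff hb measurableSet_ball.nullMeasurableSet measure_ball_lt_top.ne,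
      Measure.addHaar_closedBall μ c (by linarith : (0:ℝ) ≤ ρ + s),
      Measure.addHaar_ball_of_pos μ c (by linarith : (0:ℝ) < ρ - s), hvE,
      ← ENNReal.ofReal_mul (by positivity), ← ENNReal.ofReal_mul (pow_nonneg (by linarith) _),
      ← ENNReal.ofReal_sub _ (mul_nonneg (pow_nonneg (by linarith) _) hv0)]
    apply ENNReal.ofReal_le_ofReal
    have h1 : |(ρ + s) ^ n - (ρ - s) ^ n| ≤
        |(ρ + s) - (ρ - s)| * n * max |ρ + s| |ρ - s| ^ (n - 1) := abs_pow_sub_pow_le _ _ _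
    have h2 : max |ρ + s| |ρ - s| ≤ ρ + 1 := by
      rw [abs_of_nonneg (by linarith), abs_of_nonneg (by linarith)]
      exact max_le (by linarith) (by linarith)
    have h3 : max |ρ + s| |ρ - s| ^ (n - 1) ≤ (ρ + 1) ^ (n - 1) :=
      pow_le_pow_left₀ (le_max_of_le_left (abs_nonneg _)) h2 _
    have h4 : |(ρ + s) - (ρ - s)| = 2 * s := by
      rw [show (ρ + s) - (ρ - s) = 2 * s by ring, abs_of_nonneg (by linarith)]
    rw [h4] at h1
    have h5 : (ρ + s) ^ n - (ρ - s) ^ n ≤ 2 * s * n * (ρ + 1) ^ (n - 1) :=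
      (le_abs_self _).trans (h1.trans (by gcongr))
    calc (ρ + s) ^ n * v - (ρ - s) ^ n * v = ((ρ + s) ^ n - (ρ - s) ^ n) * v := by ring
      _ ≤ (2 * s * n * (ρ + 1) ^ (n - 1)) * v := by gcongr
      _ = (2 * n * (ρ + 1) ^ (n - 1) * v) * s := by ring
      _ ≤ _ := by gcongr; exact le_max_right _ _
  · push Not at hsρ
    have hsub : {z | |dist z c - ρ| ≤ s} ⊆ closedBall c (ρ + 1) := by
      intro z hz
      rw [mem_ofPred_eq, abs_le] at hz
      rw [mem_closedBall]; linarith [hz.2]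
    refine (measure_mono hsub).trans ?_
    rw [Measure.addHaar_closedBall μ c (by linarith : (0:ℝ) ≤ ρ + 1), hvE,
      ← ENNReal.ofReal_mul (by positivity)]
    apply ENNReal.ofReal_le_ofReal
    have h1 : (ρ + 1) ^ n * v ≤ ((ρ + 1) ^ n * v / ρ) * s := by
      rw [div_mul_eq_mul_div, le_div_iff₀ hρ]
      gcongr
    exact h1.trans (by gcongr; exact le_max_left _ _)

/-- slab estimate -/
theorem slab_measure (d : ℕ) (R : ℝ) :
    ∃ C : ℝ, 0 ≤ C ∧ ∀ s : ℝ, 0 ≤ s →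
      (volume : Measure (EuclideanSpace ℝ (Fin (d + 1))))
        (closedBall 0 R ∩ {z | |z 0| ≤ s}) ≤ ENNReal.ofReal (C * s) := by
  refine ⟨2 * (2 * |R|) ^ d, by positivity, ?_⟩
  intro s hs
  have hsub : (closedBall (0 : EuclideanSpace ℝ (Fin (d + 1))) R ∩ {z | |z 0| ≤ s}) ⊆
      (WithLp.ofLp ⁻¹' (Set.pi univ
        (Fin.cons (Icc (-s) s) (fun _ => Icc (-|R|) |R|) : Fin (d+1) → Set ℝ))) := by
    rintro z ⟨hz1, hz2⟩
    rw [mem_preimage, mem_pi]
    intro i _
    have hzi : ∀ i, |z i| ≤ |R| := by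
      intro i
      have h1 : ‖z i‖ ≤ ‖z‖ := PiLp.norm_apply_le z i
      rw [mem_closedBall, dist_zero_right] at hz1
      rw [Real.norm_eq_abs] at h1
      exact h1.trans (hz1.trans (le_abs_self R))
    refine Fin.cases ?_ ?_ i
    · simpa [abs_le] using hz2
    · intro j
      simpa [abs_le] using hzi j.succ
  refine (measure_mono hsub).trans ?_
  have hmp := (PiLp.volume_preserving_ofLp (Fin (d+1)))
  have hm : MeasurableSet (Set.pi univ
        (Fin.cons (Icc (-s) s) (fun _ => Icc (-|R|) |R|) : Fin (d+1) → Set ℝ)) := by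
    apply MeasurableSet.univ_pi
    intro i
    refine Fin.cases ?_ ?_ i
    · simpa using measurableSet_Icc
    · intro j
      simpa using measurableSet_Icc
  have := hmp.measure_preimage hm.nullMeasurableSet
  rw [show (volume : Measure (EuclideanSpace ℝ (Fin (d+1)))) _ = _ from this]
  rw [volume_pi_pi, Fin.prod_univ_succ]
  simp only [Fin.cons_zero, Fin.cons_succ, Real.volume_Icc, Finset.prod_const, Finset.card_univ,
    Fintype.card_fin]
  rw [← ENNReal.ofReal_pow (by linarith [abs_nonneg R]), ← ENNReal.ofReal_mul (by linarith)]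
  apply ENNReal.ofReal_le_ofReal
  apply le_of_eq
  ring

/-- slab estimate, form (E1) -/
theorem slab_form (d : ℕ) (R : ℝ) : ∃ C : ℝ, 0 ≤ C ∧ ∀ r : ℝ, 0 < r →
    (volume {z : EuclideanSpace ℝ (Fin (d+1)) | ‖z‖ ≤ R ∧ 0 ≤ z 0 ∧ z 0 ≤ r}) ≤
      ENNReal.ofReal (C * r) := by
  obtain ⟨C, hC0, hC⟩ := slab_measure d R
  refine ⟨C, hC0, fun r hr => (measure_mono ?_).trans (hC r hr.le)⟩
  rintro z ⟨h1, h2, h3⟩
  refine ⟨by simpa using h1, ?_⟩
  rw [mem_ofPred_eq, abs_of_nonneg h2]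
  exact h3

/-- What the manifold layer needs to know about the range of the model with corners. -/
structure GoodRange {d : ℕ} (Rg : Set (EuclideanSpace ℝ (Fin d))) : Prop where
  convex : Convex ℝ Rg
  closed : IsClosed Rg
  thin : ∀ R : ℝ, ∃ C : ℝ, 0 ≤ C ∧ ∀ r : ℝ, 0 ≤ r →
    volume {z | z ∈ Rg ∧ z ∈ closedBall (0 : EuclideanSpace ℝ (Fin d)) R ∧ ¬ ball z r ⊆ Rg} ≤
      ENNReal.ofReal (C * r)

theorem goodRange_univ (d : ℕ) : GoodRange (range (𝓡 d)) := by
  have h : range (𝓡 d) = univ := (𝓡 d).range_eq_univ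
  rw [h]
  refine ⟨convex_univ, isClosed_univ, fun R => ⟨0, le_rfl, fun r _ => ?_⟩⟩
  simp

theorem goodRange_half (d : ℕ) : GoodRange (range (𝓡∂ (d + 1))) := by
  have h : range (𝓡∂ (d + 1)) = {z : EuclideanSpace ℝ (Fin (d+1)) | 0 ≤ z 0} := by
    simpa using range_modelWithCornersEuclideanHalfSpace (d+1)
  refine ⟨(𝓡∂ (d + 1)).convex_range, (𝓡∂ (d + 1)).isClosed_range, fun R => ?_⟩
  obtain ⟨C, hC0, hC⟩ := slab_measure d R
  refine ⟨C, hC0, fun r hr => (measure_mono ?_).trans (hC r hr)⟩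
  rintro z ⟨hz1, hz2, hz3⟩
  refine ⟨hz2, ?_⟩
  rw [h] at hz1 hz3
  rw [mem_ofPred_eq] at hz1 ⊢
  by_contra hcon
  apply hz3
  intro y hy
  rw [mem_ofPred_eq]
  rw [abs_of_nonneg hz1, not_le] at hcon
  have h1 : ‖(z - y) 0‖ ≤ ‖z - y‖ := PiLp.norm_apply_le (z - y) 0
  rw [mem_ball, dist_comm, dist_eq_norm] at hy
  have h2 : |z 0 - y 0| < r := by
    have : ‖(z - y) 0‖ = |z 0 - y 0| := by simp [Real.norm_eq_abs]
    rw [← this]; exact h1.trans_lt hy
  rw [abs_lt] at h2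
  linarith [h2.2]

end Crest.Agent.R133.Mfd
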