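import Crest.Agent.R133.MfdB
import Crest.Agent.R133.MfdC2
import Crest.Agent.R133.SMDefs
import Crest.Agent.R133.MfdDens
import Crest.Agent.R133.MfdEucl

/-! Row 133 (S0182), section 5 = MFD, part C: chart expressions of smooth maps, uniform
constants. -/

set_option autoImplicit false

namespace Crest.Agent.R133.Mfd

open MeasureTheory Metric Set Filter
open scoped Manifold ContDiff Topology ENNReal

section
variable {d : ℕ} {H : Type*} [TopologicalSpace H]
  {I : ModelWithCorners ℝ (EuclideanSpace ℝ (Fin (d + 1))) H}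
  {M : Type*} [TopologicalSpace M] [ChartedSpace H M]

namespace Data
variable (A : Data I M)

/-- chart expression of a map -/
noncomputable def expr (S : M → M) (i k : Fin A.n) (y : EuclideanSpace ℝ (Fin (d + 1))) :
    EuclideanSpace ℝ (Fin (d + 1)) := A.φ k (S ((A.φ i).symm y))

/-- domain of the chart expression -/
def U (S : M → M) (i k : Fin A.n) : Set (EuclideanSpace ℝ (Fin (d + 1))) :=
  (A.φ i).target ∩ (A.φ i).symm ⁻¹' (S ⁻¹' (A.φ k).source)

/-- compact part of the domain -/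
def C (S : M → M) (i k : Fin A.n) : Set (EuclideanSpace ℝ (Fin (d + 1))) :=
  {y | y ∈ A.K i ∧ 1 / 2 ≤ A.b k (S ((A.φ i).symm y))}

theorem C_subset (S : M → M) (i k : Fin A.n) : A.C S i k ⊆ A.U S i k := by
  rintro y ⟨h1, h2⟩
  refine ⟨A.K_subset i h1, ?_⟩
  exact (A.mem_of_pos (lt_of_lt_of_le (by norm_num) h2)).1

theorem C_subset_K (S : M → M) (i k : Fin A.n) : A.C S i k ⊆ A.K i := fun _ h => h.1

variable [IsManifold I ∞ M]

instance : IsManifold I 1 M := IsManifold.of_le (m := 1) (n := ∞) (by norm_num)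

theorem expr_contDiffOn {S : M → M} (hS : ContMDiff I I ∞ S) (i k : Fin A.n) :
    ContDiffOn ℝ ∞ (A.expr S i k) (A.U S i k) :=
  (contMDiff_iff.mp hS).2 (A.p i) (A.p k)

theorem U_unique {S : M → M} (hS : Continuous S) (i k : Fin A.n) :
    UniqueDiffOn ℝ (A.U S i k) := by
  have h1 : IsOpen (S ⁻¹' (A.φ k).source) := (isOpen_extChartAt_source _).preimage hS
  have h2 : UniqueMDiffOn I (S ⁻¹' (A.φ k).source) := h1.uniqueMDiffOn
  exact h2.uniqueDiffOn_target_inter (A.p i)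

variable [T2Space M]

theorem C_compact {S : M → M} (hS : Continuous S) (i k : Fin A.n) :
    IsCompact (A.C S i k) := by
  have h1 : ContinuousOn (fun y => A.b k (S ((A.φ i).symm y))) (A.K i) := by
    have h : ContinuousOn (A.φ i).symm (A.φ i).target := continuousOn_extChartAt_symm _
    exact ((A.b k).continuous.comp hS).comp_continuousOn (h.mono (A.K_subset i))
  have h2 : IsClosed (A.C S i k) := by
    have := h1.preimage_isClosed_of_isClosed (A.K_compact i).isClosed (isClosed_Ici (a := (1/2 : ℝ)))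
    exact this
  exact (A.K_compact i).of_isClosed_subset h2 (A.C_subset_K S i k)

theorem bump_contDiffOn {S : M → M} (hS : ContMDiff I I ∞ S) (i j : Fin A.n) :
    ContDiffOn ℝ ∞ (fun y => A.b j (S ((A.φ i).symm y))) (A.φ i).target := by
  have h1 : ContMDiff I 𝓘(ℝ, ℝ) ∞ (fun x => A.b j (S x)) := (A.b j).contMDiff.comp hS
  have h2 := (contMDiff_iff.mp h1).2 (A.p i) 0
  rw [extChartAt_model_space_eq_id] at h2
  exact h2.mono (fun y hy => ⟨hy, trivial⟩)

omit [IsManifold I ∞ M] [T2Space M] in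
theorem target_unique (i : Fin A.n) : UniqueDiffOn ℝ (A.φ i).target :=
  uniqueDiffOn_extChartAt_target _

/-- uniform Lipschitz constant of the bumps (composed with `S`) in charts -/
theorem exists_lip {S : M → M} (hS : ContMDiff I I ∞ S) :
    ∃ L : ℝ, 1 ≤ L ∧ ∀ i j, ∀ x ∈ A.K i, ∀ y ∈ A.K i,
      |A.b j (S ((A.φ i).symm x)) - A.b j (S ((A.φ i).symm y))| ≤ L * ‖x - y‖ := by
  have h := fun q : Fin A.n × Fin A.n => lip_convex (A.target_unique q.1)
    ((A.bump_contDiffOn hS q.1 q.2).of_le (by norm_num)) (A.K_compact q.1) (A.K_subset q.1)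
    (A.K_convex q.1)
  choose L hL0 hL using h
  obtain ⟨L0, hL0'⟩ := (Set.finite_range L).bddAbove
  refine ⟨max 1 L0, le_max_left _ _, fun i j x hx y hy => ?_⟩
  refine (hL (i, j) x hx y hy).trans ?_
  exact mul_le_mul_of_nonneg_right ((hL0' (mem_range_self (i, j))).trans (le_max_right _ _))
    (norm_nonneg _)

/-- uniform C² bounds -/
theorem exists_c2 {S : M → M} (hS : ContMDiff I I ∞ S) :
    ∃ K : ℝ, 0 ≤ K ∧ ∀ (i k : Fin A.n) (a : EuclideanSpace ℝ (Fin (d + 1))) (r : ℝ),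
      ball a r ⊆ A.C S i k →
      (∀ y ∈ ball a r, DifferentiableAt ℝ (A.expr S i k) y ∧ ‖fderiv ℝ (A.expr S i k) y‖ ≤ K) ∧
      (∀ y ∈ ball a r, ∀ z ∈ ball a r,
        ‖fderiv ℝ (A.expr S i k) y - fderiv ℝ (A.expr S i k) z‖ ≤ K * ‖y - z‖) := by
  have h := fun q : Fin A.n × Fin A.n => c2_bounds (A.U_unique hS.continuous q.1 q.2)
    ((A.expr_contDiffOn hS q.1 q.2).of_le (by norm_cast)) (A.C_compact hS.continuous q.1 q.2)
    (A.C_subset S q.1 q.2)
  choose K hK0 hK using h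
  obtain ⟨K0, hK0'⟩ := (Set.finite_range K).bddAbove
  refine ⟨max 0 K0, le_max_left _ _, fun i k a r hball => ?_⟩
  have hle : K (i, k) ≤ max 0 K0 := (hK0' (mem_range_self (i, k))).trans (le_max_right _ _)
  obtain ⟨h1, h2⟩ := hK (i, k) a r hball
  refine ⟨fun y hy => ⟨(h1 y hy).1, (h1 y hy).2.trans hle⟩, fun y hy z hz => ?_⟩
  exact (h2 y hy z hz).trans (mul_le_mul_of_nonneg_right hle (norm_nonneg _))

/-- uniform inverse bounds; `T` is the inverse map -/
theorem exists_inv {T : M → M} (hT : ContMDiff I I ∞ T) :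
    ∃ K : ℝ, 0 ≤ K ∧ ∀ (k i : Fin A.n)
      (F : EuclideanSpace ℝ (Fin (d + 1)) → EuclideanSpace ℝ (Fin (d + 1)))
      (y : EuclideanSpace ℝ (Fin (d + 1))), DifferentiableAt ℝ F y → F y ∈ A.C T k i →
      (∀ᶠ z in 𝓝 y, F z ∈ A.U T k i ∧ A.expr T k i (F z) = z) →
      ∃ B : EuclideanSpace ℝ (Fin (d + 1)) →L[ℝ] EuclideanSpace ℝ (Fin (d + 1)),
        B.comp (fderiv ℝ F y) = ContinuousLinearMap.id ℝ _ ∧
        (fderiv ℝ F y).comp B = ContinuousLinearMap.id ℝ _ ∧ ‖B‖ ≤ K := by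
  have h := fun q : Fin A.n × Fin A.n => inv_bound (A.U_unique hT.continuous q.1 q.2)
    ((A.expr_contDiffOn hT q.1 q.2).of_le (by norm_cast)) (A.C_compact hT.continuous q.1 q.2)
    (A.C_subset T q.1 q.2)
  choose K hK0 hK using h
  obtain ⟨K0, hK0'⟩ := (Set.finite_range K).bddAbove
  refine ⟨max 0 K0, le_max_left _ _, fun k i F y hd hm he => ?_⟩
  have hle : K (k, i) ≤ max 0 K0 := (hK0' (mem_range_self (k, i))).trans (le_max_right _ _)
  obtain ⟨B, h1, h2, h3⟩ := hK (k, i) F y hd hm he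
  exact ⟨B, h1, h2, h3.trans hle⟩

/-- uniform margin -/
theorem exists_margin : ∃ δ : ℝ, 0 < δ ∧ ∀ (i : Fin A.n) (x : M), 1 / 2 ≤ A.b i x →
    ball (A.φ i x) δ ⊆ ball (A.c i) (A.b i).rOut := by
  rcases isEmpty_or_nonempty (Fin A.n) with he | he
  · exact ⟨1, one_pos, fun i => he.elim i⟩
  have h : ∀ i : Fin A.n, ∃ δ : ℝ, 0 < δ ∧ ∀ x : M, 1 / 2 ≤ A.b i x →
      ball (A.φ i x) δ ⊆ ball (A.c i) (A.b i).rOut := by
    intro i
    obtain ⟨r, hr, hsub⟩ := (A.b i).exists_r_pos_lt_subset_ball (s := {x | 1 / 2 ≤ A.b i x})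
      (isClosed_le continuous_const (A.b i).continuous) (by
        intro x hx
        have hx' : (1 : ℝ) / 2 ≤ A.b i x := hx
        exact (lt_of_lt_of_le (by norm_num : (0 : ℝ) < 1 / 2) hx').ne')
    refine ⟨(A.b i).rOut - r, by linarith [hr.2], fun x hx => ?_⟩
    apply ball_subset_ball'
    have h2 := (hsub hx).2
    rw [mem_preimage, mem_ball] at h2
    have h3 : dist (A.φ i x) (A.c i) < r := h2
    linarith
  choose δ hδ0 hδ using h
  obtain ⟨i0, hi0⟩ := Finite.exists_min δ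
  exact ⟨δ i0, hδ0 i0, fun i x hx => (ball_subset_ball (hi0 i)).trans (hδ i x hx)⟩

omit [IsManifold I ∞ M] [T2Space M] in
/-- uniform density bounds -/
theorem exists_dens [MeasurableSpace M] [BorelSpace M] {ν : Measure M}
    (hν : Crest.AnalysisR.HasSmoothPositiveDensity I ν) :
    ∃ D : ℝ, 1 ≤ D ∧ ∀ (i : Fin A.n) (s : Set (EuclideanSpace ℝ (Fin (d + 1)))),
      MeasurableSet s → s ⊆ A.K i →
      ν ((A.φ i).source ∩ (A.φ i) ⁻¹' s) ≤ ENNReal.ofReal D * volume s ∧
      volume s ≤ ENNReal.ofReal D * ν ((A.φ i).source ∩ (A.φ i) ⁻¹' s) := by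
  have h := fun i : Fin A.n => density_bounds hν (e := chartAt H (A.p i)) (chart_mem_atlas _ _)
    (A.K_compact i) (A.K_subset i)
  choose D hD1 hD using h
  obtain ⟨D0, hD0⟩ := (Set.finite_range D).bddAbove
  refine ⟨max 1 D0, le_max_left _ _, fun i s hs hsK => ?_⟩
  have hle : D i ≤ max 1 D0 := (hD0 (mem_range_self i)).trans (le_max_right _ _)
  obtain ⟨h1, h2⟩ := hD i s hs hsK
  exact ⟨h1.trans (mul_le_mul_left (ENNReal.ofReal_le_ofReal hle) _),
    h2.trans (mul_le_mul_left (ENNReal.ofReal_le_ofReal hle) _)⟩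

end Data

end

end Crest.Agent.R133.Mfd
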