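import Mathlib
import Crest.Prelude.Def_SmoothModel

set_option autoImplicit false

/-! Row 133, MFD: chart expressions (helper315). -/

open MeasureTheory Metric Set Topology
open scoped ENNReal NNReal Manifold ContDiff

namespace Crest.Agent.R133.Mfd

variable {E : Type*} [NormedAddCommGroup E] [NormedSpace ℝ E]
  {H : Type*} [TopologicalSpace H] {I : ModelWithCorners ℝ E H}
  {M : Type*} [TopologicalSpace M] [ChartedSpace H M] [IsManifold I ∞ M]

/-- domain of the expression of `S` in the charts at `x0`, `y0` -/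
def dom (I : ModelWithCorners ℝ E H) (S : M → M) (x0 y0 : M) : Set E :=
  (extChartAt I x0).target ∩ (extChartAt I x0).symm ⁻¹' (S ⁻¹' (extChartAt I y0).source)

omit [IsManifold I ∞ M] in
/-- the chart target with an open condition is relatively open in `range I` -/
theorem exists_open_target_inter (x0 : M) {O : Set M} (hO : IsOpen O) :
    ∃ W : Set E, IsOpen W ∧
      (extChartAt I x0).target ∩ (extChartAt I x0).symm ⁻¹' O = W ∩ range I := by
  refine ⟨I.symm ⁻¹' ((chartAt H x0).target ∩ (chartAt H x0).symm ⁻¹' O), ?_, ?_⟩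
  · exact ((chartAt H x0).symm.isOpen_inter_preimage hO).preimage I.continuous_symm
  · ext z
    simp only [extChartAt, OpenPartialHomeomorph.extend_target, mem_inter_iff, mem_preimage,
      OpenPartialHomeomorph.extend_coe_symm, Function.comp_apply]
    tauto

omit [IsManifold I ∞ M] in
theorem uniqueDiffOn_target_inter (x0 : M) {O : Set M} (hO : IsOpen O) :
    UniqueDiffOn ℝ ((extChartAt I x0).target ∩ (extChartAt I x0).symm ⁻¹' O) := by
  obtain ⟨W, hW, hEq⟩ := exists_open_target_inter (I := I) x0 hO
  rw [hEq, inter_comm]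
  exact I.uniqueDiffOn.inter hW

omit [IsManifold I ∞ M] in
theorem uniqueDiffOn_dom {S : M → M} (hS : Continuous S) (x0 y0 : M) :
    UniqueDiffOn ℝ (dom I S x0 y0) :=
  uniqueDiffOn_target_inter x0 ((isOpen_extChartAt_source y0).preimage hS)

theorem contDiffOn_dom {S : M → M} (hS : ContMDiff I I ∞ S) (x0 y0 : M) :
    ContDiffOn ℝ ∞ (extChartAt I y0 ∘ S ∘ (extChartAt I x0).symm) (dom I S x0 y0) :=
  (contMDiff_iff.mp hS).2 x0 y0

theorem contDiffOn_real {f : M → ℝ} (hf : ContMDiff I 𝓘(ℝ, ℝ) ∞ f) (x0 : M) :
    ContDiffOn ℝ ∞ (f ∘ (extChartAt I x0).symm) (extChartAt I x0).target := by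
  have := (contMDiff_iff.mp hf).2 x0 0
  simpa [chartAt_self_eq, inter_assoc] using this

omit [IsManifold I ∞ M] in
/-- a ball inside `range I` around a chart point: if `h ∘ φ⁻¹`-type conditions hold then the
ball is in the target. Topological version: the image of a compact set `C ⊆ source` is compact
in the target. -/
theorem isCompact_image_chart (x0 : M) {C : Set M} (hC : IsCompact C)
    (hCs : C ⊆ (extChartAt I x0).source) :
    IsCompact (extChartAt I x0 '' C) ∧ extChartAt I x0 '' C ⊆ (extChartAt I x0).target := by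
  refine ⟨hC.image_of_continuousOn ((continuousOn_extChartAt x0).mono hCs), ?_⟩
  rintro _ ⟨x, hx, rfl⟩
  exact (extChartAt I x0).map_source (hCs hx)

omit [IsManifold I ∞ M] in
/-- the expression of `S⁻¹ = G` in charts inverts the expression of `S` -/
theorem chart_inverse {S G : M → M} (hGS : ∀ x, G (S x) = x) (x0 y0 : M) :
    ∀ z ∈ dom I S x0 y0,
      (extChartAt I y0 ∘ S ∘ (extChartAt I x0).symm) z ∈ dom I G y0 x0 ∧
      (extChartAt I x0 ∘ G ∘ (extChartAt I y0).symm)
        ((extChartAt I y0 ∘ S ∘ (extChartAt I x0).symm) z) = z := by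
  rintro z ⟨hz1, hz2⟩
  simp only [mem_preimage] at hz2
  have h1 : (extChartAt I y0).symm (extChartAt I y0 (S ((extChartAt I x0).symm z))) =
      S ((extChartAt I x0).symm z) := (extChartAt I y0).left_inv hz2
  refine ⟨⟨?_, ?_⟩, ?_⟩
  · simp only [Function.comp_apply]
    exact (extChartAt I y0).map_source hz2
  · simp only [mem_preimage, Function.comp_apply, h1, hGS]
    exact (extChartAt I x0).map_target hz1
  · simp only [Function.comp_apply, h1, hGS]
    exact (extChartAt I x0).right_inv hz1

end Crest.Agent.R133.Mfd
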