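import Crest.Agent.R133.MfdC

/-! Row 133 (S0182), section 5 = MFD, part D: local structure near good points and `Reg`. -/

set_option autoImplicit false

namespace Crest.Agent.R133.Mfd

open MeasureTheory Metric Set Filter
open scoped Manifold ContDiff Topology ENNReal

section
variable {d : ℕ} {H : Type*} [TopologicalSpace H]
  {I : ModelWithCorners ℝ (EuclideanSpace ℝ (Fin (d + 1))) H}
  {M : Type*} [TopologicalSpace M] [ChartedSpace H M]

namespace Data
variable (A : Data I M) [Nonempty (Fin A.n)]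

/-- all constants needed for the local analysis of `S` -/
structure Cst (S T : M → M) (t : ℝ) [MeasurableSpace M] (ν : Measure M) where
  L : ℝ
  K1 : ℝ
  K2 : ℝ
  δ : ℝ
  D0 : ℝ
  ht0 : 1 / 2 < t
  ht1 : t ≤ 7 / 8
  hL1 : 1 ≤ L
  hL : ∀ i j, ∀ x ∈ A.K i, ∀ y ∈ A.K i,
      |A.b j ((A.φ i).symm x) - A.b j ((A.φ i).symm y)| ≤ L * ‖x - y‖
  hLS : ∀ i j, ∀ x ∈ A.K i, ∀ y ∈ A.K i,
      |A.b j (S ((A.φ i).symm x)) - A.b j (S ((A.φ i).symm y))| ≤ L * ‖x - y‖
  hK1 : ∀ (i k : Fin A.n) (a : EuclideanSpace ℝ (Fin (d + 1))) (r : ℝ),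
      ball a r ⊆ A.C S i k →
      (∀ y ∈ ball a r, DifferentiableAt ℝ (A.expr S i k) y ∧ ‖fderiv ℝ (A.expr S i k) y‖ ≤ K1) ∧
      (∀ y ∈ ball a r, ∀ z ∈ ball a r,
        ‖fderiv ℝ (A.expr S i k) y - fderiv ℝ (A.expr S i k) z‖ ≤ K1 * ‖y - z‖)
  hK2 : ∀ (k i : Fin A.n)
      (F : EuclideanSpace ℝ (Fin (d + 1)) → EuclideanSpace ℝ (Fin (d + 1)))
      (y : EuclideanSpace ℝ (Fin (d + 1))), DifferentiableAt ℝ F y → F y ∈ A.C T k i →
      (∀ᶠ z in 𝓝 y, F z ∈ A.U T k i ∧ A.expr T k i (F z) = z) →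
      ∃ B : EuclideanSpace ℝ (Fin (d + 1)) →L[ℝ] EuclideanSpace ℝ (Fin (d + 1)),
        B.comp (fderiv ℝ F y) = ContinuousLinearMap.id ℝ _ ∧
        (fderiv ℝ F y).comp B = ContinuousLinearMap.id ℝ _ ∧ ‖B‖ ≤ K2
  hδ0 : 0 < δ
  hδ : ∀ (i : Fin A.n) (x : M), 1 / 2 ≤ A.b i x →
    ball (A.φ i x) δ ⊆ ball (A.c i) (A.b i).rOut
  hD1 : 1 ≤ D0
  hD : ∀ (i : Fin A.n) (s : Set (EuclideanSpace ℝ (Fin (d + 1)))),
      MeasurableSet s → s ⊆ A.K i →
      ν ((A.φ i).source ∩ (A.φ i) ⁻¹' s) ≤ ENNReal.ofReal D0 * volume s ∧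
      volume s ≤ ENNReal.ofReal D0 * ν ((A.φ i).source ∩ (A.φ i) ⁻¹' s)

variable {A} {S T : M → M} {t : ℝ} [MeasurableSpace M] {ν : Measure M}

/-- local structure near a good point -/
theorem local_struct (c : A.Cst S T t ν) {r : ℝ} (hrδ : r ≤ c.δ) {x : M}
    (h1 : ∀ j, c.L * r ≤ |A.b j x - t|) (h2 : ∀ j, c.L * r ≤ |A.b j (S x) - t|)
    (h3 : ball (A.φ (A.idx t x) x) r ⊆ range I)
    {y : EuclideanSpace ℝ (Fin (d + 1))} (hy : y ∈ ball (A.φ (A.idx t x) x) r) :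
    y ∈ A.K (A.idx t x) ∧ A.idx t ((A.φ (A.idx t x)).symm y) = A.idx t x ∧
      A.idx t (S ((A.φ (A.idx t x)).symm y)) = A.idx t (S x) := by
  set i := A.idx t x with hi
  have hbi : t < A.b i x := A.idx_spec c.ht1 x
  have hpos : 0 < A.b i x := by linarith [c.ht0]
  obtain ⟨hs, -, hK⟩ := A.mem_of_pos hpos
  have hyK : y ∈ A.K i := by
    refine ⟨ball_subset_closedBall (c.hδ i x (by linarith [c.ht0]) (ball_subset_ball hrδ hy)),
      h3 hy⟩
  have hnorm : ‖y - A.φ i x‖ < r := by rwa [mem_ball, dist_eq_norm] at hy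
  have hinv : (A.φ i).symm (A.φ i x) = x := (A.φ i).left_inv hs
  have hL0 : 0 < c.L := lt_of_lt_of_le one_pos c.hL1
  have hsign : ∀ a b : ℝ, c.L * r ≤ |a - t| → |b - a| < c.L * r → (t < b ↔ t < a) := by
    intro a b ha hb
    rw [abs_lt] at hb
    constructor
    · intro h
      by_contra hle
      rw [not_lt] at hle
      rw [abs_of_nonpos (by linarith)] at ha
      linarith
    · intro h
      rw [abs_of_pos (by linarith)] at ha
      linarith
  refine ⟨hyK, ?_, ?_⟩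
  · apply A.idx_congr
    intro j
    apply hsign _ _ (h1 j)
    have := c.hL i j y hyK _ hK
    rw [hinv] at this
    exact lt_of_le_of_lt this ((mul_lt_mul_iff_right₀ hL0).mpr hnorm)
  · apply A.idx_congr
    intro j
    apply hsign _ _ (h2 j)
    have := c.hLS i j y hyK _ hK
    rw [hinv] at this
    exact lt_of_le_of_lt this ((mul_lt_mul_iff_right₀ hL0).mpr hnorm)

/-- bound on the values of the embedding -/
theorem norm_F_le (ht0 : 0 < t) (ht1 : t ≤ 7 / 8) (x : M) :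
    ‖A.F t x‖ ≤ A.Λ + A.n * A.Λ := by
  have h := (A.mem_of_pos (ht0.trans (A.idx_spec ht1 x))).2.2.1
  rw [mem_closedBall, dist_eq_norm] at h
  have h2 : A.F t x = (A.φ (A.idx t x) x - A.c (A.idx t x)) +
      ((A.idx t x : ℕ) * A.Λ) • e0 d := by
    simp only [F, v]; abel
  rw [h2]
  refine (norm_add_le _ _).trans (add_le_add ?_ ?_)
  · refine h.trans ((A.rOut_le_sum _).trans ?_)
    have h3 : A.Λ = 1 + 2 * ∑ i, (A.b i).rOut := rfl
    have : 0 ≤ ∑ i, (A.b i).rOut := Finset.sum_nonneg fun j _ => (A.b j).rOut_pos.le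
    linarith
  · have hΛ : 0 ≤ A.Λ := le_trans zero_le_one A.one_le_Λ
    rw [norm_smul, norm_e0, mul_one, Real.norm_eq_abs, abs_of_nonneg (by positivity)]
    apply mul_le_mul_of_nonneg_right _ hΛ
    exact_mod_cast (A.idx t x).2.le

/-- the map in Euclidean space -/
noncomputable def fm (A : Data I M) [Nonempty (Fin A.n)] (S : M → M) (t : ℝ) (x0 : M)
    (z : EuclideanSpace ℝ (Fin (d + 1))) : EuclideanSpace ℝ (Fin (d + 1)) :=
  A.F t (S (A.G x0 z))

variable [BorelSpace M]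

/-- regularity at good points -/
theorem reg_of_good (c : A.Cst S T t ν) (x0 : M) (hTS : ∀ x, T (S x) = x)
    (hFm : Measurable (A.F t))
    {r : ℝ} (hr : 0 < r) (hrδ : r ≤ c.δ) {x : M}
    (h1 : ∀ j, c.L * r ≤ |A.b j x - t|) (h2 : ∀ j, c.L * r ≤ |A.b j (S x) - t|)
    (h3 : ball (A.φ (A.idx t x) x) r ⊆ range I)
    {D : ℝ} (hDD : c.D0 ≤ D) (hDK1 : c.K1 ≤ D) (hDK2 : c.K2 ≤ D) (hDΛ : A.Λ + A.n * A.Λ ≤ D) :
    Reg D (A.fm S t x0) (ν.map (A.F t)) r (A.F t x) := by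
  set i := A.idx t x with hi
  set k := A.idx t (S x) with hk
  have hFx : A.F t x = A.φ i x + A.v i := rfl
  have ht0 : 0 < t := by linarith [c.ht0]
  -- translation to chart coordinates
  have htr : ∀ y ∈ ball (A.F t x) r, y - A.v i ∈ ball (A.φ i x) r := by
    intro y hy
    rw [mem_ball, dist_eq_norm] at hy ⊢
    rw [hFx] at hy
    have : y - A.v i - A.φ i x = y - (A.φ i x + A.v i) := by abel
    rw [this]; exact hy
  have hloc := fun y hy => local_struct c hrδ h1 h2 h3 (y := y) hy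
  have hG : ∀ y ∈ ball (A.F t x) r, A.G x0 y = (A.φ i).symm (y - A.v i) := by
    intro y hy
    exact A.G_eq x0 (hloc _ (htr y hy)).1
  -- membership in the compact sets
  have hC : ball (A.φ i x) r ⊆ A.C S i k := by
    intro y hy
    obtain ⟨hy1, hy2, hy3⟩ := hloc y hy
    refine ⟨hy1, ?_⟩
    have := A.idx_spec c.ht1 (S ((A.φ i).symm y))
    rw [hy3] at this
    linarith [c.ht0]
  have hw : ∀ y ∈ ball (A.φ i x) r, S ((A.φ i).symm y) ∈ (A.φ k).source ∧
      A.φ k (S ((A.φ i).symm y)) ∈ A.K k := by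
    intro y hy
    obtain ⟨hy1, hy2, hy3⟩ := hloc y hy
    have := A.idx_spec c.ht1 (S ((A.φ i).symm y))
    rw [hy3] at this
    obtain ⟨e1, -, e2⟩ := A.mem_of_pos (ht0.trans this)
    exact ⟨e1, e2⟩
  have hfm : ∀ y ∈ ball (A.F t x) r, A.fm S t x0 y = A.expr S i k (y - A.v i) + A.v k := by
    intro y hy
    rw [fm, hG y hy, F, (hloc _ (htr y hy)).2.2]
    rfl
  obtain ⟨hd1, hd2⟩ := c.hK1 i k _ _ hC
  have hder : ∀ y ∈ ball (A.F t x) r,
      HasFDerivAt (A.fm S t x0) (fderiv ℝ (A.expr S i k) (y - A.v i)) y := by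
    intro y hy
    have e1 := (hd1 _ (htr y hy)).1.hasFDerivAt
    have e2 : HasFDerivAt (fun z => A.expr S i k (z - A.v i) + A.v k)
        (fderiv ℝ (A.expr S i k) (y - A.v i)) y :=
      ((hasFDerivAt_comp_sub (A.v i)).mpr e1).add_const _
    apply e2.congr_of_eventuallyEq
    filter_upwards [isOpen_ball.mem_nhds hy] with z hz using hfm z hz
  have hexp : ∀ a : ℝ, a ≤ D → a ≤ Real.exp D := fun a ha => by
    linarith [Real.add_one_le_exp D]
  have hGF : ∀ x, A.G x0 (A.F t x) = x := fun x => A.G_F x0 ht0 c.ht1 x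
  have hFG : ∀ y ∈ ball (A.F t x) r, A.F t (A.G x0 y) = y := by
    intro y hy
    obtain ⟨hy1, hy2, hy3⟩ := hloc _ (htr y hy)
    rw [hG y hy, F, hy2, (A.φ i).right_inv (A.K_subset i hy1)]
    abel
  refine ⟨fun y hy => (hder y hy).differentiableAt, fun y hy => ?_, fun y hy => ?_,
    fun y hy => ?_, fun y hy => ?_, fun y hy z hz => ?_, ?_⟩
  · rw [(hder y hy).fderiv]
    exact (hd1 _ (htr y hy)).2.trans (hexp _ hDK1)
  · rw [(hder y hy).fderiv]
    have hy' := htr y hy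
    obtain ⟨B, hB1, hB2, hB3⟩ := c.hK2 k i (A.expr S i k) (y - A.v i) (hd1 _ hy').1 (by
      refine ⟨(hw _ hy').2, ?_⟩
      show 1 / 2 ≤ A.b i (T ((A.φ k).symm (A.φ k (S ((A.φ i).symm (y - A.v i))))))
      rw [(A.φ k).left_inv (hw _ hy').1, hTS]
      have := A.idx_spec c.ht1 ((A.φ i).symm (y - A.v i))
      rw [(hloc _ hy').2.1] at this
      linarith [c.ht0]) (by
      filter_upwards [isOpen_ball.mem_nhds hy'] with z hz
      have hz1 := (hw z hz)
      have hz2 : (A.φ k).symm (A.expr S i k z) = S ((A.φ i).symm z) :=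
        (A.φ k).left_inv hz1.1
      refine ⟨⟨(A.φ k).map_source hz1.1, ?_⟩, ?_⟩
      · show T ((A.φ k).symm (A.expr S i k z)) ∈ (A.φ i).source
        rw [hz2, hTS]
        exact (A.φ i).map_target (A.K_subset i (hloc z hz).1)
      · show A.φ i (T ((A.φ k).symm (A.expr S i k z))) = z
        rw [hz2, hTS]
        exact (A.φ i).right_inv (A.K_subset i (hloc z hz).1))
    exact ⟨B, hB1, hB2, hB3.trans (hexp _ hDK2)⟩
  · rw [← hFG y hy]
    exact (norm_F_le ht0 c.ht1 _).trans hDΛ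
  · exact (norm_F_le ht0 c.ht1 _).trans hDΛ
  · rw [(hder y hy).fderiv, (hder z hz).fderiv]
    refine (hd2 _ (htr y hy) _ (htr z hz)).trans ?_
    have : y - A.v i - (z - A.v i) = y - z := by abel
    rw [this]
    exact mul_le_mul_of_nonneg_right hDK1 (norm_nonneg _)
  · rw [Measure.le_iff]
    intro s hs
    rw [Measure.restrict_apply hs, Measure.smul_apply, Measure.map_apply hFm hs, smul_eq_mul]
    set s' : Set (EuclideanSpace ℝ (Fin (d + 1))) :=
      (fun y => y + A.v i) ⁻¹' (s ∩ ball (A.F t x) r) with hs'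
    have hs'm : MeasurableSet s' :=
      (hs.inter isOpen_ball.measurableSet).preimage (measurable_id.add_const _)
    have hs'ball : ∀ y ∈ s', y ∈ ball (A.φ i x) r := by
      intro y hy
      have := htr _ hy.2
      rwa [add_sub_cancel_right] at this
    have hvol : volume s' = volume (s ∩ ball (A.F t x) r) :=
      measure_preimage_add_right _ _ _
    rw [← hvol]
    refine ((c.hD i s' hs'm (fun y hy => (hloc y (hs'ball y hy)).1)).2).trans ?_
    refine mul_le_mul' (ENNReal.ofReal_le_ofReal hDD) (measure_mono ?_)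
    rintro w ⟨hw1, hw2⟩
    have hwb := hs'ball _ hw2
    obtain ⟨e1, e2, e3⟩ := hloc _ hwb
    rw [(A.φ i).left_inv hw1] at e2
    show A.F t w ∈ s
    rw [F, e2]
    exact hw2.1

end Data

end

end Crest.Agent.R133.Mfd
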