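import Mathlib
import Crest.Prelude.Def_SmoothModel
import Crest.Agent.R133.MfdC2
import Crest.Agent.R133.MfdChart

set_option autoImplicit false

/-! Row 133, MFD: the derivative part of `Reg` for one pair of charts (helper315). -/

open MeasureTheory Metric Set Topology
open scoped ENNReal NNReal Manifold ContDiff

namespace Crest.Agent.R133.Mfd

variable {E : Type*} [NormedAddCommGroup E] [NormedSpace ℝ E] [FiniteDimensional ℝ E]
  {H : Type*} [TopologicalSpace H] {I : ModelWithCorners ℝ E H}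
  {M : Type*} [TopologicalSpace M] [ChartedSpace H M] [IsManifold I ∞ M]

/-- derivative bounds for the chart expression of a diffeomorphism -/
theorem der_bounds (S G : M → M) (hS : ContMDiff I I ∞ S) (hG : ContMDiff I I ∞ G)
    (hGS : ∀ x, G (S x) = x) (x0 y0 : M) {C : Set M} (hC : IsCompact C)
    (hC1 : C ⊆ (extChartAt I x0).source) (hC2 : C ⊆ S ⁻¹' (extChartAt I y0).source) :
    ∃ K : ℝ, 0 ≤ K ∧ ∀ (a : E) (r : ℝ), ball a r ⊆ extChartAt I x0 '' C →
      (∀ y ∈ ball a r,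
        DifferentiableAt ℝ (extChartAt I y0 ∘ S ∘ (extChartAt I x0).symm) y ∧
        ‖fderiv ℝ (extChartAt I y0 ∘ S ∘ (extChartAt I x0).symm) y‖ ≤ K ∧
        ∃ B : E →L[ℝ] E,
          B.comp (fderiv ℝ (extChartAt I y0 ∘ S ∘ (extChartAt I x0).symm) y) =
            ContinuousLinearMap.id ℝ E ∧
          (fderiv ℝ (extChartAt I y0 ∘ S ∘ (extChartAt I x0).symm) y).comp B =
            ContinuousLinearMap.id ℝ E ∧ ‖B‖ ≤ K) ∧
      (∀ y ∈ ball a r, ∀ z ∈ ball a r,
        ‖fderiv ℝ (extChartAt I y0 ∘ S ∘ (extChartAt I x0).symm) y -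
          fderiv ℝ (extChartAt I y0 ∘ S ∘ (extChartAt I x0).symm) z‖ ≤ K * ‖y - z‖) := by
  have hcS : Continuous S := hS.continuous
  have hcG : Continuous G := hG.continuous
  have hCdom : extChartAt I x0 '' C ⊆ dom I S x0 y0 := by
    rintro _ ⟨x, hx, rfl⟩
    refine ⟨(extChartAt I x0).map_source (hC1 hx), ?_⟩
    rw [mem_preimage, (extChartAt I x0).left_inv (hC1 hx)]
    exact hC2 hx
  obtain ⟨K1, hK10, hK1⟩ := c2_bounds (uniqueDiffOn_dom (I := I) hcS x0 y0)
    (contDiffOn_infty.mp (contDiffOn_dom hS x0 y0) 2)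
    (isCompact_image_chart x0 hC hC1).1 hCdom
  have hC' : IsCompact (extChartAt I y0 '' (S '' C)) := by
    refine (isCompact_image_chart y0 (hC.image hcS) ?_).1
    rintro _ ⟨x, hx, rfl⟩
    exact hC2 hx
  have hC'U : extChartAt I y0 '' (S '' C) ⊆ dom I G y0 x0 := by
    rintro _ ⟨_, ⟨x, hx, rfl⟩, rfl⟩
    refine ⟨(extChartAt I y0).map_source (hC2 hx), ?_⟩
    rw [mem_preimage, (extChartAt I y0).left_inv (hC2 hx), mem_preimage, hGS]
    exact hC1 hx
  obtain ⟨K2, hK20, hK2⟩ := inv_bound (uniqueDiffOn_dom (I := I) hcG y0 x0)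
    (contDiffOn_infty.mp (contDiffOn_dom hG y0 x0) 1) hC' hC'U
  refine ⟨max K1 K2, le_max_of_le_left hK10, ?_⟩
  intro a r hball
  obtain ⟨h1, h2⟩ := hK1 a r hball
  refine ⟨fun y hy => ⟨(h1 y hy).1, (h1 y hy).2.trans (le_max_left _ _), ?_⟩, ?_⟩
  · obtain ⟨x, hx, hxy⟩ := hball hy
    have hFy : (extChartAt I y0 ∘ S ∘ (extChartAt I x0).symm) y ∈
        extChartAt I y0 '' (S '' C) := by
      refine ⟨S x, ⟨x, hx, rfl⟩, ?_⟩
      simp only [Function.comp_apply]
      rw [← hxy, (extChartAt I x0).left_inv (hC1 hx)]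
    obtain ⟨B, hB1, hB2, hB3⟩ := hK2 _ y (h1 y hy).1 hFy (by
      filter_upwards [isOpen_ball.mem_nhds hy] with z hz
      exact chart_inverse (I := I) hGS x0 y0 z (hCdom (hball hz)))
    exact ⟨B, hB1, hB2, hB3.trans (le_max_right _ _)⟩
  · intro y hy z hz
    exact (h2 y hy z hz).trans (by gcongr; exact le_max_left _ _)

/-- version for a map `f` which is the chart expression of `S` up to translations on a ball -/
theorem der_bounds' (S G : M → M) (hS : ContMDiff I I ∞ S) (hG : ContMDiff I I ∞ G)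
    (hGS : ∀ x, G (S x) = x) (x0 y0 : M) {C : Set M} (hC : IsCompact C)
    (hC1 : C ⊆ (extChartAt I x0).source) (hC2 : C ⊆ S ⁻¹' (extChartAt I y0).source) :
    ∃ K : ℝ, 0 ≤ K ∧ ∀ (f : E → E) (α β a : E) (r : ℝ),
      (∀ y ∈ ball a r, y - α ∈ extChartAt I x0 '' C ∧
        f y = extChartAt I y0 (S ((extChartAt I x0).symm (y - α))) + β) →
      (∀ y ∈ ball a r, DifferentiableAt ℝ f y) ∧
      (∀ y ∈ ball a r, ‖fderiv ℝ f y‖ ≤ K) ∧
      (∀ y ∈ ball a r, ∃ B : E →L[ℝ] E,
          B.comp (fderiv ℝ f y) = ContinuousLinearMap.id ℝ E ∧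
          (fderiv ℝ f y).comp B = ContinuousLinearMap.id ℝ E ∧ ‖B‖ ≤ K) ∧
      (∀ y ∈ ball a r, ∀ z ∈ ball a r, ‖fderiv ℝ f y - fderiv ℝ f z‖ ≤ K * ‖y - z‖) := by
  obtain ⟨K, hK0, hK⟩ := der_bounds (I := I) S G hS hG hGS x0 y0 hC hC1 hC2
  refine ⟨K, hK0, ?_⟩
  intro f α β a r hf
  set F : E → E := extChartAt I y0 ∘ S ∘ (extChartAt I x0).symm with hF
  have hball : ball (a - α) r ⊆ extChartAt I x0 '' C := by
    intro z hz
    have : z + α ∈ ball a r := by
      rw [mem_ball, dist_eq_norm] at hz ⊢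
      rwa [show z + α - a = z - (a - α) by abel]
    have h := (hf _ this).1
    rwa [add_sub_cancel_right] at h
  obtain ⟨h1, h2⟩ := hK (a - α) r hball
  have hmem : ∀ y ∈ ball a r, y - α ∈ ball (a - α) r := by
    intro y hy
    rw [mem_ball, dist_eq_norm] at hy ⊢
    rwa [show y - α - (a - α) = y - a by abel]
  have hder : ∀ y ∈ ball a r, HasFDerivAt f (fderiv ℝ F (y - α)) y := by
    intro y hy
    have h3 : HasFDerivAt F (fderiv ℝ F (y - α)) (y - α) :=
      (h1 (y - α) (hmem y hy)).1.hasFDerivAt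
    have h4 : HasFDerivAt (fun z : E => z - α) (ContinuousLinearMap.id ℝ E) y :=
      (hasFDerivAt_id y).sub_const α
    have h5 : HasFDerivAt (fun z : E => F (z - α) + β) (fderiv ℝ F (y - α)) y := by
      have := (h3.comp y h4).add_const β
      simpa using this
    refine h5.congr_of_eventuallyEq ?_
    filter_upwards [isOpen_ball.mem_nhds hy] with z hz
    rw [(hf z hz).2]
    rfl
  have hfd : ∀ y ∈ ball a r, fderiv ℝ f y = fderiv ℝ F (y - α) := fun y hy =>
    (hder y hy).fderiv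
  refine ⟨fun y hy => (hder y hy).differentiableAt, ?_, ?_, ?_⟩
  · intro y hy
    rw [hfd y hy]
    exact (h1 _ (hmem y hy)).2.1
  · intro y hy
    rw [hfd y hy]
    exact (h1 _ (hmem y hy)).2.2
  · intro y hy z hz
    rw [hfd y hy, hfd z hz]
    have := h2 _ (hmem y hy) _ (hmem z hz)
    rwa [show y - α - (z - α) = y - z by abel] at this

end Crest.Agent.R133.Mfd
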