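import Mathlib

/-! Row 133, manifold layer: choice of a good level (E2 of helper903's plan). -/

set_option autoImplicit false

namespace Crest.Agent.R133.Mfd

open MeasureTheory Metric Set Topology Filter
open scoped ENNReal

/-- one finite measure: a point with finite density has linear growth of balls -/
theorem ball_le_of_tendsto (lam : Measure ℝ) [IsFiniteMeasure lam] {t : ℝ} {L : ℝ≥0∞}
    (hL : L ≠ ∞)
    (h : Tendsto (fun r => lam (closedBall t r) / volume (closedBall t r)) (𝓝[>] 0) (𝓝 L)) :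
    ∃ C : ℝ, 0 ≤ C ∧ ∀ ε : ℝ, 0 < ε → lam {s | |s - t| < ε} ≤ ENNReal.ofReal (C * ε) := by
  have h1 : ∀ᶠ r in 𝓝[>] (0:ℝ), lam (closedBall t r) / volume (closedBall t r) < L + 1 :=
    h.eventually (gt_mem_nhds (ENNReal.lt_add_right hL one_ne_zero))
  obtain ⟨δ, hδ, hδ'⟩ : ∃ δ : ℝ, 0 < δ ∧ ∀ r, 0 < r → r < δ →
      lam (closedBall t r) / volume (closedBall t r) < L + 1 := by
    rw [eventually_nhdsWithin_iff, Metric.eventually_nhds_iff] at h1
    obtain ⟨δ, hδ, h2⟩ := h1
    refine ⟨δ, hδ, fun r hr hrδ => h2 ?_ hr⟩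
    simpa [Real.dist_eq, abs_of_pos hr] using hrδ
  have hsub : ∀ ε : ℝ, {s | |s - t| < ε} ⊆ closedBall t ε := fun ε s hs => by
    rw [mem_closedBall, Real.dist_eq]; exact le_of_lt hs
  set A : ℝ := (L + 1).toReal with hA
  have hA0 : 0 ≤ A := ENNReal.toReal_nonneg
  have hLA : L + 1 = ENNReal.ofReal A := by
    rw [hA, ENNReal.ofReal_toReal (by simp [hL])]
  set B : ℝ := (lam univ).toReal with hB
  have hB0 : 0 ≤ B := ENNReal.toReal_nonneg
  have hBu : lam univ = ENNReal.ofReal B := by
    rw [hB, ENNReal.ofReal_toReal (measure_ne_top _ _)]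
  refine ⟨2 * A + B / δ, by positivity, fun ε hε => ?_⟩
  by_cases hlt : ε < δ
  · have h3 := hδ' ε hε hlt
    have hv : (volume (closedBall t ε) : ℝ≥0∞) = ENNReal.ofReal (2 * ε) := by
      rw [Real.volume_closedBall]
    have hv0 : (volume (closedBall t ε) : ℝ≥0∞) ≠ 0 := by
      rw [hv]; simp; linarith
    have hvt : (volume (closedBall t ε) : ℝ≥0∞) ≠ ∞ := by
      rw [hv]; exact ENNReal.ofReal_ne_top
    have h4 : lam (closedBall t ε) ≤ (L + 1) * volume (closedBall t ε) := by
      rw [← ENNReal.div_le_iff hv0 hvt]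
      exact h3.le
    calc lam {s | |s - t| < ε} ≤ lam (closedBall t ε) := measure_mono (hsub ε)
      _ ≤ (L + 1) * volume (closedBall t ε) := h4
      _ = ENNReal.ofReal (A * (2 * ε)) := by
          rw [hLA, hv, ← ENNReal.ofReal_mul hA0]
      _ ≤ ENNReal.ofReal ((2 * A + B / δ) * ε) := by
          apply ENNReal.ofReal_le_ofReal
          have : 0 ≤ B / δ * ε := by positivity
          nlinarith
  · have hge : δ ≤ ε := not_lt.mp hlt
    calc lam {s | |s - t| < ε} ≤ lam univ := measure_mono (subset_univ _)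
      _ = ENNReal.ofReal B := hBu
      _ ≤ ENNReal.ofReal ((2 * A + B / δ) * ε) := by
          apply ENNReal.ofReal_le_ofReal
          have h5 : B ≤ B / δ * ε := by
            rw [div_mul_eq_mul_div, le_div_iff₀ hδ]
            exact mul_le_mul_of_nonneg_left hge hB0
          have h6 : 0 ≤ 2 * A * ε := by positivity
          nlinarith

/-- (E2) finitely many finite measures on the line have a common level in `(a, b)` at which all of
them have linear growth -/
theorem good_level {ι : Type*} [Finite ι] (lam : ι → Measure ℝ) [∀ j, IsFiniteMeasure (lam j)]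
    {a b : ℝ} (hab : a < b) :
    ∃ t ∈ Ioo a b, ∃ C : ℝ, 0 ≤ C ∧ ∀ j, ∀ ε : ℝ, 0 < ε →
      lam j {s | |s - t| < ε} ≤ ENNReal.ofReal (C * ε) := by
  classical
  have h1 : ∀ᵐ t : ℝ, ∀ j, (lam j).rnDeriv volume t < ∞ ∧
      Tendsto (fun r => lam j (closedBall t r) / volume (closedBall t r)) (𝓝[>] 0)
        (𝓝 ((lam j).rnDeriv volume t)) := by
    rw [ae_all_iff]
    intro j
    filter_upwards [(lam j).rnDeriv_lt_top volume,
      Besicovitch.ae_tendsto_rnDeriv (lam j) (volume : Measure ℝ)] with t h2 h3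
    exact ⟨h2, h3⟩
  obtain ⟨t, htI, ht⟩ : ∃ t ∈ Ioo a b, ∀ j, (lam j).rnDeriv volume t < ∞ ∧
      Tendsto (fun r => lam j (closedBall t r) / volume (closedBall t r)) (𝓝[>] 0)
        (𝓝 ((lam j).rnDeriv volume t)) := by
    by_contra hcon
    push_neg at hcon
    have h2 : (volume : Measure ℝ) (Ioo a b) = 0 := by
      refine measure_mono_null ?_ (ae_iff.mp h1)
      intro t ht hall
      obtain ⟨j, hj⟩ := hcon t ht
      exact hj (hall j).1 (hall j).2
    rw [Real.volume_Ioo] at h2
    simp only [ENNReal.ofReal_eq_zero] at h2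
    linarith
  choose C hC0 hC using fun j => ball_le_of_tendsto (lam j) (ht j).1.ne (ht j).2
  haveI := Fintype.ofFinite ι
  refine ⟨t, htI, ∑ j, C j, Finset.sum_nonneg fun j _ => hC0 j, fun j ε hε => ?_⟩
  refine (hC j ε hε).trans (ENNReal.ofReal_le_ofReal ?_)
  exact mul_le_mul_of_nonneg_right
    (Finset.single_le_sum (f := C) (fun i _ => hC0 i) (Finset.mem_univ j)) hε.le

end Crest.Agent.R133.Mfd
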