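import Crest.Agent.R133.MfdD
import Crest.Agent.R133.MfdE1

/-! Row 133 (S0182), section 5 = MFD, part E: the abstract smooth model of a compact
manifold. -/

set_option autoImplicit false

namespace Crest.Agent.R133.Mfd

open MeasureTheory Metric Set Filter
open scoped Manifold ContDiff Topology ENNReal

section
variable {d : ℕ} {H : Type*} [TopologicalSpace H]
  {I : ModelWithCorners ℝ (EuclideanSpace ℝ (Fin (d + 1))) H}
  {M : Type*} [TopologicalSpace M] [ChartedSpace H M]

namespace Data
variable (A : Data I M) [Nonempty (Fin A.n)]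

/-- upper bound of the push-forward measure -/
theorem map_le [T2Space M] [IsManifold I ∞ M] [MeasurableSpace M] [BorelSpace M] {ν : Measure M}
    {t : ℝ} (ht0 : 0 < t) (ht1 : t ≤ 7 / 8) {D0 : ℝ} (_hD0 : 1 ≤ D0)
    (hD : ∀ (i : Fin A.n) (s : Set (EuclideanSpace ℝ (Fin (d + 1)))),
      MeasurableSet s → s ⊆ A.K i →
      ν ((A.φ i).source ∩ (A.φ i) ⁻¹' s) ≤ ENNReal.ofReal D0 * volume s) :
    ν.map (A.F t) ≤ ENNReal.ofReal (A.n * D0) • volume := by
  rw [Measure.le_iff]
  intro s hs
  rw [Measure.map_apply (A.measurable_F ht0 ht1) hs, Measure.smul_apply, smul_eq_mul]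
  have hsub : A.F t ⁻¹' s ⊆ ⋃ i : Fin A.n, (A.φ i).source ∩ (A.φ i) ⁻¹'
      (((fun y => y + A.v i) ⁻¹' s) ∩ A.K i) := by
    intro x hx
    rw [mem_iUnion]
    obtain ⟨h1, -, h2⟩ := A.mem_of_pos (ht0.trans (A.idx_spec ht1 x))
    exact ⟨A.idx t x, h1, hx, h2⟩
  refine (measure_mono hsub).trans ((measure_iUnion_fintype_le _ _).trans ?_)
  have h1 : ∀ i : Fin A.n, ν ((A.φ i).source ∩ (A.φ i) ⁻¹'
      (((fun y => y + A.v i) ⁻¹' s) ∩ A.K i)) ≤ ENNReal.ofReal D0 * volume s := by
    intro i
    refine (hD i _ ((hs.preimage (measurable_id.add_const _)).inter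
      (A.K_compact i).isClosed.measurableSet) inter_subset_right).trans ?_
    refine mul_le_mul' le_rfl ((measure_mono inter_subset_left).trans ?_)
    exact (measure_preimage_add_right volume (A.v i) s).le
  refine (Finset.sum_le_sum fun i _ => h1 i).trans ?_
  rw [Finset.sum_const, Finset.card_univ, Fintype.card_fin, nsmul_eq_mul, ← mul_assoc,
    ENNReal.ofReal_mul (by positivity), ENNReal.ofReal_natCast]

end Data

/-- the manifold layer -/
theorem mfd (hI : GoodRange (range I)) [T2Space M] [CompactSpace M] [IsManifold I ∞ M]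
    [MeasurableSpace M] [BorelSpace M] (ν : Measure M) [IsProbabilityMeasure ν]
    (hν : Crest.AnalysisR.HasSmoothPositiveDensity I ν) (S : Diffeomorph I I M M ∞)
    (hS : MeasurePreserving S ν ν) :
    ∃ (D : ℝ) (f : EuclideanSpace ℝ (Fin (d + 1)) → EuclideanSpace ℝ (Fin (d + 1)))
      (F : M → EuclideanSpace ℝ (Fin (d + 1))) (G : EuclideanSpace ℝ (Fin (d + 1)) → M),
      1 ≤ D ∧ SM D f (ν.map F) ∧ Measurable F ∧ Measurable G ∧ (∀ x, G (F x) = x) ∧
      ∀ x, f (F x) = F (S x) := by
  classical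
  obtain ⟨A⟩ := exists_data I M
  have hne : Nonempty M := ν.nonempty_of_neZero
  obtain ⟨x0⟩ := hne
  have : Nonempty (Fin A.n) := ⟨(A.cover x0).choose⟩
  obtain ⟨t, ht, Cl, hCl0, hCl⟩ := good_level (fun j => ν.map (A.b j)) (a := 1 / 2) (b := 3 / 4)
    (by norm_num)
  have ht0 : 1 / 2 < t := ht.1
  have ht0' : 0 < t := by linarith
  have ht1 : t ≤ 7 / 8 := by linarith [ht.2]
  obtain ⟨L1, hL11, hL1⟩ := A.exists_lip (S := id) contMDiff_id
  obtain ⟨L2, hL21, hL2⟩ := A.exists_lip S.contMDiff
  obtain ⟨K1, hK10, hK1⟩ := A.exists_c2 S.contMDiff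
  obtain ⟨K2, hK20, hK2⟩ := A.exists_inv S.symm.contMDiff
  obtain ⟨δ, hδ0, hδ⟩ := A.exists_margin
  obtain ⟨D0, hD01, hD0⟩ := A.exists_dens hν
  let c : A.Cst S S.symm t ν :=
    { L := max L1 L2, K1 := K1, K2 := K2, δ := δ, D0 := D0, ht0 := ht0, ht1 := ht1
      hL1 := hL11.trans (le_max_left _ _)
      hL := fun i j x hx y hy => (hL1 i j x hx y hy).trans
        (mul_le_mul_of_nonneg_right (le_max_left _ _) (norm_nonneg _))
      hLS := fun i j x hx y hy => (hL2 i j x hx y hy).trans
        (mul_le_mul_of_nonneg_right (le_max_right _ _) (norm_nonneg _))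
      hK1 := hK1, hK2 := hK2, hδ0 := hδ0, hδ := hδ, hD1 := hD01, hD := hD0 }
  have hFm : Measurable (A.F t) := A.measurable_F ht0' ht1
  have hGm : Measurable (A.G x0) := A.measurable_G x0
  have hGF : ∀ x, A.G x0 (A.F t x) = x := fun x => A.G_F x0 ht0' ht1 x
  have hL0 : 0 < c.L := lt_of_lt_of_le one_pos c.hL1
  have hΛ : 0 ≤ A.Λ := le_trans zero_le_one A.one_le_Λ
  -- radius bound
  obtain ⟨R, hR⟩ : ∃ R : ℝ, ∀ i, A.K i ⊆ closedBall 0 R := by
    have : ∀ i : Fin A.n, ∃ R : ℝ, A.K i ⊆ closedBall 0 R := fun i =>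
      (A.K_compact i).isBounded.subset_closedBall 0
    choose R hR using this
    obtain ⟨R0, hR0⟩ := (Set.finite_range R).bddAbove
    exact ⟨R0, fun i => (hR i).trans (closedBall_subset_closedBall (hR0 (mem_range_self i)))⟩
  obtain ⟨Cs, hCs0, hCs⟩ := hI.thin R
  obtain ⟨n, hn⟩ : ∃ n : ℝ, n = (A.n : ℝ) := ⟨_, rfl⟩
  have hn0 : 0 ≤ n := hn ▸ Nat.cast_nonneg _
  set D : ℝ := 1 + n * D0 + D0 + K1 + K2 + (A.Λ + n * A.Λ) + 1 / δ +
    (n * (Cl * c.L) + n * (Cl * c.L) + n * (D0 * Cs)) with hD
  have hp1 : 0 ≤ n * D0 := by positivity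
  have hp2 : 0 ≤ D0 := by linarith
  have hp3 : 0 ≤ A.Λ + n * A.Λ := by positivity
  have hp4 : 0 ≤ 1 / δ := by positivity
  have hp5 : 0 ≤ n * (Cl * c.L) := by positivity
  have hp6 : 0 ≤ n * (D0 * Cs) := by positivity
  have hD1 : 1 ≤ D := by linarith
  have hSm : Measurable (S : M → M) := S.continuous.measurable
  have hfm : Measurable (A.fm S t x0) := hFm.comp (hSm.comp hGm)
  have hfF : ∀ x, A.fm S t x0 (A.F t x) = A.F t (S x) := fun x => by
    rw [Data.fm, hGF]
  have hprob : IsProbabilityMeasure (ν.map (A.F t)) := Measure.isProbabilityMeasure_map hFm.aemeasurable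
  refine ⟨D, A.fm S t x0, A.F t, A.G x0, hD1, ⟨hfm, hprob, ?_, ?_, ?_⟩, hFm, hGm, hGF, hfF⟩
  · rw [Measure.map_map hfm hFm]
    have : A.fm S t x0 ∘ A.F t = A.F t ∘ S := funext hfF
    rw [this, ← Measure.map_map hFm hSm, hS.map_eq]
  · refine (A.map_le ht0' ht1 hD01 (fun i s hs hsK => (hD0 i s hs hsK).1)).trans ?_
    rw [Measure.le_iff]
    intro s hs
    rw [Measure.smul_apply, Measure.smul_apply, smul_eq_mul, smul_eq_mul]
    exact mul_le_mul' (ENNReal.ofReal_le_ofReal (by rw [← hn]; linarith)) le_rfl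
  · intro r hr0 hr1
    by_cases hrδ : r ≤ δ
    · -- the bad sets
      set N : Set (EuclideanSpace ℝ (Fin (d + 1))) := toMeasurable volume
        {z | z ∈ range I ∧ z ∈ closedBall (0 : EuclideanSpace ℝ (Fin (d + 1))) R ∧
          ¬ ball z r ⊆ range I} with hN
      have hNvol : volume N ≤ ENNReal.ofReal (Cs * r) := by
        rw [hN, measure_toMeasurable]; exact hCs r hr0.le
      set Z1 : Set M := ⋃ j : Fin A.n, {x | |A.b j x - t| < c.L * r} with hZ1
      set Z3 : Set M := ⋃ i : Fin A.n, (A.φ i).source ∩ (A.φ i) ⁻¹' (N ∩ A.K i) with hZ3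
      have hZ1m : MeasurableSet Z1 := by
        refine MeasurableSet.iUnion fun j => ?_
        exact (isOpen_lt (((A.b j).continuous.sub continuous_const).abs)
          continuous_const).measurableSet
      have hb1 : ν Z1 ≤ ENNReal.ofReal (n * (Cl * c.L) * r) := by
        refine (measure_iUnion_fintype_le _ _).trans ?_
        have h1 : ∀ j : Fin A.n, ν {x | |A.b j x - t| < c.L * r} ≤
            ENNReal.ofReal (Cl * (c.L * r)) := by
          intro j
          have := hCl j (c.L * r) (by positivity)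
          have hms : MeasurableSet {s : ℝ | |s - t| < c.L * r} :=
            (isOpen_lt ((continuous_id.sub continuous_const).abs)
              continuous_const).measurableSet
          rwa [Measure.map_apply (A.b j).continuous.measurable hms] at this
        refine (Finset.sum_le_sum fun i _ => h1 i).trans ?_
        rw [Finset.sum_const, Finset.card_univ, Fintype.card_fin, nsmul_eq_mul,
          ← ENNReal.ofReal_natCast, ← ENNReal.ofReal_mul (by positivity)]
        apply le_of_eq
        congr 1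
        rw [hn]; ring
      have hb2 : ν (S ⁻¹' Z1) ≤ ENNReal.ofReal (n * (Cl * c.L) * r) := by
        rw [hS.measure_preimage hZ1m.nullMeasurableSet]; exact hb1
      have hb3 : ν Z3 ≤ ENNReal.ofReal (n * (D0 * Cs) * r) := by
        refine (measure_iUnion_fintype_le _ _).trans ?_
        have h1 : ∀ i : Fin A.n, ν ((A.φ i).source ∩ (A.φ i) ⁻¹' (N ∩ A.K i)) ≤
            ENNReal.ofReal (D0 * (Cs * r)) := by
          intro i
          refine ((hD0 i _ ((measurableSet_toMeasurable _ _).inter
            (A.K_compact i).isClosed.measurableSet) inter_subset_right).1).trans ?_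
          rw [ENNReal.ofReal_mul hp2]
          exact mul_le_mul' le_rfl ((measure_mono inter_subset_left).trans hNvol)
        refine (Finset.sum_le_sum fun i _ => h1 i).trans ?_
        rw [Finset.sum_const, Finset.card_univ, Fintype.card_fin, nsmul_eq_mul,
          ← ENNReal.ofReal_natCast, ← ENNReal.ofReal_mul (by positivity)]
        apply le_of_eq
        congr 1
        rw [hn]; ring
      -- good points are regular
      have hgood : ∀ x : M, x ∉ Z1 → x ∉ S ⁻¹' Z1 → x ∉ Z3 →
          Reg D (A.fm S t x0) (ν.map (A.F t)) r (A.F t x) := by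
        intro x h1 h2 h3
        have h1' : ∀ j, c.L * r ≤ |A.b j x - t| := by
          intro j
          by_contra h
          exact h1 (mem_iUnion.mpr ⟨j, not_le.mp h⟩)
        have h2' : ∀ j, c.L * r ≤ |A.b j (S x) - t| := by
          intro j
          by_contra h
          exact h2 (mem_iUnion.mpr ⟨j, not_le.mp h⟩)
        have h3' : ball (A.φ (A.idx t x) x) r ⊆ range I := by
          by_contra h
          apply h3
          obtain ⟨e1, -, e2⟩ := A.mem_of_pos (ht0'.trans (A.idx_spec ht1 x))
          refine mem_iUnion.mpr ⟨A.idx t x, e1, subset_toMeasurable _ _ ?_, e2⟩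
          exact ⟨e2.2, hR _ e2, h⟩
        exact Data.reg_of_good c x0 (fun x => S.symm_apply_apply x) hFm hr0 hrδ h1' h2' h3'
          (by linarith [show c.D0 = D0 from rfl]) (by linarith [show c.K1 = K1 from rfl])
          (by linarith [show c.K2 = K2 from rfl]) (by rw [← hn]; linarith)
      have hνZ : ν (Z1 ∪ S ⁻¹' Z1 ∪ Z3) ≤ ENNReal.ofReal (D * r) := by
        refine (measure_union_le _ _).trans ((add_le_add (measure_union_le _ _) le_rfl).trans ?_)
        refine (add_le_add (add_le_add hb1 hb2) hb3).trans ?_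
        rw [← ENNReal.ofReal_add (by positivity) (by positivity),
          ← ENNReal.ofReal_add (by positivity) (by positivity)]
        apply ENNReal.ofReal_le_ofReal
        rw [← add_mul, ← add_mul]
        exact mul_le_mul_of_nonneg_right (by linarith) hr0.le
      set Z : Set M := toMeasurable ν (Z1 ∪ S ⁻¹' Z1 ∪ Z3) with hZ
      have hZm : MeasurableSet Z := measurableSet_toMeasurable _ _
      have hsub : {z | ¬ Reg D (A.fm S t x0) (ν.map (A.F t)) r z} ⊆
          A.G x0 ⁻¹' Z ∪ {z | A.F t (A.G x0 z) ≠ z} := by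
        intro z hz
        by_cases hzz : A.F t (A.G x0 z) = z
        · left
          apply subset_toMeasurable
          by_contra hcon
          simp only [mem_union, not_or] at hcon
          have := hgood _ hcon.1.1 hcon.1.2 hcon.2
          rw [hzz] at this
          exact hz this
        · right; exact hzz
      have hEm : MeasurableSet {z | A.F t (A.G x0 z) ≠ z} :=
        (measurableSet_eq_fun (hFm.comp hGm) measurable_id).compl
      refine (measure_mono hsub).trans ((measure_union_le _ _).trans ?_)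
      rw [Measure.map_apply hFm (hZm.preimage hGm), Measure.map_apply hFm hEm]
      have e1 : A.F t ⁻¹' (A.G x0 ⁻¹' Z) = Z := by
        ext x; simp only [mem_preimage, hGF]
      have e2 : A.F t ⁻¹' {z | A.F t (A.G x0 z) ≠ z} = ∅ := by
        ext x; simp [hGF]
      rw [e1, e2, measure_empty, add_zero, hZ, measure_toMeasurable]
      exact hνZ
    · rw [not_le] at hrδ
      have h1 : (1 : ℝ) ≤ D * r := by
        have h2 : 1 / δ ≤ D := by linarith
        calc (1 : ℝ) = (1 / δ) * δ := by field_simp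
          _ ≤ D * r := mul_le_mul h2 hrδ.le hδ0.le (by linarith)
      refine prob_le_one.trans ?_
      rw [← ENNReal.ofReal_one]
      exact ENNReal.ofReal_le_ofReal h1

end

end Crest.Agent.R133.Mfd
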