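import Mathlib
import Crest.Prelude.Def_SmoothModel
import Crest.Agent.R133.MfdC2
import Crest.Agent.R133.MfdChart

set_option autoImplicit false

/-! Row 133, MFD (version X, helper315), part 1: chart balls and their distance functions. -/

open MeasureTheory Metric Set Topology
open scoped ENNReal NNReal Manifold ContDiff

namespace Crest.Agent.R133.MfdX

open Crest.Agent.R133.Mfd

/-- chart ball data -/
structure CB {E : Type*} [NormedAddCommGroup E] [NormedSpace ℝ E] {H : Type*} [TopologicalSpace H]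
    (I : ModelWithCorners ℝ E H) (M : Type*) [TopologicalSpace M] [ChartedSpace H M] where
  p : M
  ρ : ℝ
  pos : 0 < ρ
  sub : closedBall (extChartAt I p p) (2 * ρ) ∩ range I ⊆ (extChartAt I p).target

section
variable {E : Type*} [NormedAddCommGroup E] [NormedSpace ℝ E] [FiniteDimensional ℝ E]
  {H : Type*} [TopologicalSpace H] {I : ModelWithCorners ℝ E H}
  {M : Type*} [TopologicalSpace M] [ChartedSpace H M]

/-- center -/
noncomputable def CB.c (b : CB I M) : E := extChartAt I b.p b.p

/-- the closed chart ball of twice the radius, in the model space -/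
noncomputable def CB.Q (b : CB I M) : Set E := closedBall b.c (2 * b.ρ) ∩ range I

open Classical in
/-- the distance function -/
noncomputable def CB.g (b : CB I M) (x : M) : ℝ :=
  if x ∈ (extChartAt I b.p).source then min ‖extChartAt I b.p x - b.c‖ (2 * b.ρ) else 2 * b.ρ

/-- the compact piece of `M` -/
noncomputable def CB.K (b : CB I M) : Set M := (extChartAt I b.p).symm '' b.Q

omit [FiniteDimensional ℝ E] in
theorem CB.Q_sub (b : CB I M) : b.Q ⊆ (extChartAt I b.p).target := b.sub

theorem CB.isCompact_Q (b : CB I M) : IsCompact b.Q :=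
  (isCompact_closedBall _ _).inter_right I.isClosed_range

omit [FiniteDimensional ℝ E] in
theorem CB.convex_Q (b : CB I M) : Convex ℝ b.Q := (convex_closedBall _ _).inter I.convex_range

theorem CB.isCompact_K (b : CB I M) : IsCompact b.K :=
  b.isCompact_Q.image_of_continuousOn ((continuousOn_extChartAt_symm b.p).mono b.Q_sub)

omit [FiniteDimensional ℝ E] in
theorem CB.K_sub (b : CB I M) : b.K ⊆ (extChartAt I b.p).source := by
  rintro _ ⟨z, hz, rfl⟩
  exact (extChartAt I b.p).map_target (b.Q_sub hz)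

omit [FiniteDimensional ℝ E] in
theorem CB.mem_K (b : CB I M) {x : M} (hx : x ∈ (extChartAt I b.p).source)
    (h : ‖extChartAt I b.p x - b.c‖ ≤ 2 * b.ρ) : x ∈ b.K := by
  refine ⟨extChartAt I b.p x, ⟨?_, ?_⟩, (extChartAt I b.p).left_inv hx⟩
  · rw [mem_closedBall, dist_eq_norm]; exact h
  · exact extChartAt_target_subset_range b.p ((extChartAt I b.p).map_source hx)

omit [FiniteDimensional ℝ E] in
theorem CB.g_lt (b : CB I M) {x : M} {s : ℝ} (hs : s ≤ 2 * b.ρ) :
    b.g x < s ↔ x ∈ (extChartAt I b.p).source ∧ ‖extChartAt I b.p x - b.c‖ < s := by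
  unfold CB.g
  split_ifs with h
  · rw [min_lt_iff]
    constructor
    · rintro (h1 | h1)
      · exact ⟨h, h1⟩
      · exact absurd h1 (not_lt.mpr hs)
    · rintro ⟨_, h1⟩; exact Or.inl h1
  · constructor
    · intro h1; exact absurd h1 (not_lt.mpr hs)
    · rintro ⟨h1, _⟩; exact absurd h1 h

omit [FiniteDimensional ℝ E] in
theorem CB.g_eq (b : CB I M) {x : M} (h : b.g x < 2 * b.ρ) :
    x ∈ (extChartAt I b.p).source ∧ b.g x = ‖extChartAt I b.p x - b.c‖ := by
  have h1 := (b.g_lt le_rfl).mp h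
  refine ⟨h1.1, ?_⟩
  unfold CB.g
  rw [if_pos h1.1, min_eq_left h1.2.le]

omit [FiniteDimensional ℝ E] in
theorem CB.g_eq_of_notMem (b : CB I M) {x : M} (h : x ∉ b.K) : b.g x = 2 * b.ρ := by
  unfold CB.g
  split_ifs with h1
  · rw [min_eq_right]
    by_contra h2
    exact h (b.mem_K h1 (not_le.mp h2).le)
  · rfl

omit [FiniteDimensional ℝ E] in
theorem CB.g_meas (b : CB I M) [MeasurableSpace M] [BorelSpace M] : Measurable b.g := by
  classical
  have h : b.g = (extChartAt I b.p).source.piecewise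
      (fun x => min ‖extChartAt I b.p x - b.c‖ (2 * b.ρ)) (fun _ => 2 * b.ρ) := by
    funext x
    unfold CB.g Set.piecewise
    rfl
  rw [h]
  refine ContinuousOn.measurable_piecewise ?_ continuousOn_const
    (isOpen_extChartAt_source b.p).measurableSet
  have h1 : ContinuousOn (fun x => ‖extChartAt I b.p x - b.c‖) (extChartAt I b.p).source :=
    continuous_norm.comp_continuousOn ((continuousOn_extChartAt b.p).sub continuousOn_const)
  exact continuous_min.comp_continuousOn (h1.prodMk continuousOn_const)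

/-- locally Lipschitz in charts, also after a smooth map -/
theorem CB.locLip [T2Space M] [IsManifold I ∞ M] (b b' : CB I M) {T : M → M}
    (hT : ContMDiff I I ∞ T) :
    LocallyLipschitzOn b.Q (fun z => b'.g (T ((extChartAt I b.p).symm z))) := by
  intro z hz
  have hzt : z ∈ (extChartAt I b.p).target := b.Q_sub hz
  have hcont : ContinuousWithinAt (fun z => T ((extChartAt I b.p).symm z)) (range I) z := by
    have h1 : ContinuousAt T ((extChartAt I b.p).symm z) := hT.continuous.continuousAt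
    exact h1.comp_continuousWithinAt (continuousAt_extChartAt_symm'' hzt).continuousWithinAt
  by_cases hsrc : T ((extChartAt I b.p).symm z) ∈ (extChartAt I b'.p).source
  · -- near `z` the function is `min ‖F - c‖ (2ρ)` with `F` smooth
    set F : E → E := extChartAt I b'.p ∘ T ∘ (extChartAt I b.p).symm with hF
    have hzdom : z ∈ dom I T b.p b'.p := ⟨hzt, hsrc⟩
    obtain ⟨W, hW, hWeq⟩ := exists_open_target_inter (I := I) b.p
      ((isOpen_extChartAt_source (I := I) b'.p).preimage hT.continuous)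
    have hdomW : dom I T b.p b'.p = W ∩ range I := hWeq
    have hzW : z ∈ W := (hdomW ▸ hzdom).1
    have hzR : z ∈ range I := (hdomW ▸ hzdom).2
    have hCD : ContDiffWithinAt ℝ 1 F (range I) z := by
      have h1 : ContDiffWithinAt ℝ 1 F (dom I T b.p b'.p) z :=
        (contDiffOn_infty.mp (contDiffOn_dom hT b.p b'.p) 1) z hzdom
      refine h1.mono_of_mem_nhdsWithin ?_
      rw [hdomW, inter_comm]
      exact inter_mem_nhdsWithin _ (hW.mem_nhds hzW)
    obtain ⟨K, t, ht, hKt⟩ := hCD.exists_lipschitzOnWith I.convex_range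
    refine ⟨K, t ∩ W ∩ b.Q, ?_, ?_⟩
    · have h2 : t ∈ 𝓝[b.Q] z := nhdsWithin_mono _ inter_subset_right ht
      exact Filter.inter_mem (Filter.inter_mem h2 (mem_nhdsWithin_of_mem_nhds (hW.mem_nhds hzW)))
        self_mem_nhdsWithin
    · have hform : ∀ y ∈ t ∩ W ∩ b.Q, b'.g (T ((extChartAt I b.p).symm y)) =
          min ‖F y - b'.c‖ (2 * b'.ρ) := by
        rintro y ⟨⟨_, hyW⟩, hyQ⟩
        have hyd : y ∈ dom I T b.p b'.p := by rw [hdomW]; exact ⟨hyW, hyQ.2⟩
        have hyd2 : T ((extChartAt I b.p).symm y) ∈ (extChartAt I b'.p).source := hyd.2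
        unfold CB.g
        rw [if_pos hyd2]
        rfl
      rw [lipschitzOnWith_iff_dist_le_mul]
      intro y hy y' hy'
      rw [hform y hy, hform y' hy', Real.dist_eq]
      have h3 : |min ‖F y - b'.c‖ (2 * b'.ρ) - min ‖F y' - b'.c‖ (2 * b'.ρ)| ≤
          |‖F y - b'.c‖ - ‖F y' - b'.c‖| := by
        refine (abs_min_sub_min_le_max _ _ _ _).trans ?_
        simp
      refine h3.trans ?_
      refine (abs_norm_sub_norm_le _ _).trans ?_
      rw [sub_sub_sub_cancel_right, ← dist_eq_norm]
      exact (lipschitzOnWith_iff_dist_le_mul.mp hKt) y hy.1.1 y' hy'.1.1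
  · -- near `z` the function is constant
    have hK : T ((extChartAt I b.p).symm z) ∈ (b'.K)ᶜ := fun h => hsrc (b'.K_sub h)
    have hopen : IsOpen (b'.K)ᶜ := b'.isCompact_K.isClosed.isOpen_compl
    have hev : (fun z => T ((extChartAt I b.p).symm z)) ⁻¹' (b'.K)ᶜ ∈ 𝓝[range I] z :=
      hcont (hopen.mem_nhds hK)
    refine ⟨0, (fun z => T ((extChartAt I b.p).symm z)) ⁻¹' (b'.K)ᶜ,
      nhdsWithin_mono _ inter_subset_right hev, ?_⟩
    rw [lipschitzOnWith_iff_dist_le_mul]
    intro y hy y' hy'
    rw [b'.g_eq_of_notMem hy, b'.g_eq_of_notMem hy']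
    simp

theorem CB.lip [T2Space M] [IsManifold I ∞ M] (b b' : CB I M) {T : M → M}
    (hT : ContMDiff I I ∞ T) :
    ∃ L : ℝ, 0 ≤ L ∧ ∀ z ∈ b.Q, ∀ z' ∈ b.Q,
      |b'.g (T ((extChartAt I b.p).symm z)) - b'.g (T ((extChartAt I b.p).symm z'))| ≤
        L * ‖z - z'‖ := by
  obtain ⟨K, hK⟩ := (b.locLip b' hT).exists_lipschitzOnWith_of_compact b.isCompact_Q
  refine ⟨K, K.2, fun z hz z' hz' => ?_⟩
  have := (lipschitzOnWith_iff_dist_le_mul.mp hK) z hz z' hz'
  rwa [Real.dist_eq, dist_eq_norm] at this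

omit [FiniteDimensional ℝ E] in
theorem exists_cb (p : M) : ∃ b : CB I M, b.p = p := by
  have h := extChartAt_target_mem_nhdsWithin (I := I) p
  obtain ⟨ε, hε, hsub⟩ := Metric.mem_nhdsWithin_iff.mp h
  refine ⟨⟨p, ε / 4, by positivity, ?_⟩, rfl⟩
  refine (inter_subset_inter_left _ ?_).trans hsub
  exact closedBall_subset_ball (by linarith)

omit [FiniteDimensional ℝ E] in
/-- the open chart ball -/
theorem CB.isOpen_V (b : CB I M) : IsOpen {x | b.g x < b.ρ} := by
  have hle : b.ρ ≤ 2 * b.ρ := by linarith [b.pos]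
  have : {x | b.g x < b.ρ} =
      (extChartAt I b.p).source ∩ (extChartAt I b.p) ⁻¹' (ball b.c b.ρ) := by
    ext x
    rw [mem_ofPred_eq, b.g_lt hle]
    simp only [mem_inter_iff, mem_preimage, mem_ball, dist_eq_norm]
  rw [this]
  exact (continuousOn_extChartAt b.p).isOpen_inter_preimage (isOpen_extChartAt_source b.p)
    isOpen_ball

omit [FiniteDimensional ℝ E] in
theorem CB.p_mem (b : CB I M) : b.g b.p < b.ρ := by
  have hle : b.ρ ≤ 2 * b.ρ := by linarith [b.pos]
  rw [b.g_lt hle]
  refine ⟨mem_extChartAt_source b.p, ?_⟩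
  have : extChartAt I b.p b.p - b.c = 0 := sub_self _
  rw [this, norm_zero]; exact b.pos

omit [FiniteDimensional ℝ E] in
theorem exists_cover [CompactSpace M] :
    ∃ (m : ℕ) (B : Fin m → CB I M), ∀ x : M, ∃ i, (B i).g x < (B i).ρ := by
  choose b hb using fun p : M => exists_cb (I := I) p
  obtain ⟨t, ht⟩ := isCompact_univ.elim_finite_subcover (fun p : M => {x | (b p).g x < (b p).ρ})
    (fun p => (b p).isOpen_V) (by
      intro p _
      rw [mem_iUnion]
      refine ⟨p, ?_⟩
      have := (b p).p_mem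
      rwa [hb p] at this)
  refine ⟨t.card, fun i => b (t.equivFin.symm i), fun x => ?_⟩
  have hx := ht (mem_univ x)
  rw [mem_iUnion₂] at hx
  obtain ⟨p, hp, hxp⟩ := hx
  refine ⟨t.equivFin ⟨p, hp⟩, ?_⟩
  simpa using hxp

end

end Crest.Agent.R133.MfdX
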