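import Mathlib
import Crest.Prelude.Def_SmoothModel
import Crest.Agent.R133.MfdX1

set_option autoImplicit false

/-! Row 133, MFD (version X, helper315), part 2: the gluing map `Θ : M → E`, its left inverse `Ψ`,
and `f = Θ ∘ S ∘ Ψ`. -/

open MeasureTheory Metric Set Topology
open scoped ENNReal NNReal Manifold ContDiff

namespace Crest.Agent.R133.MfdX

open Crest.Agent.R133.Mfd

/-- gluing finitely many measurable functions along a measurable index -/
theorem glue_meas {α β : Type*} [MeasurableSpace α] [MeasurableSpace β] {n : ℕ} {k : α → Fin n}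
    (hk : Measurable k) {u : Fin n → α → β} (hu : ∀ i, Measurable (u i)) :
    Measurable (fun x => u (k x) x) := by
  have h1 : Measurable (fun p : Fin n × α => u p.1 p.2) :=
    measurable_from_prod_countable_right (fun i => hu i)
  exact h1.comp (hk.prodMk measurable_id)

/-- the set-up data -/
structure Setup {E : Type*} [NormedAddCommGroup E] [NormedSpace ℝ E] {H : Type*}
    [TopologicalSpace H] (I : ModelWithCorners ℝ E H) (M : Type*) [TopologicalSpace M]
    [ChartedSpace H M] where
  m : ℕ
  B : Fin m → CB I M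
  cov : ∀ x, ∃ i, (B i).g x < (B i).ρ
  x0 : M
  a : Fin m → E
  R : ℝ
  R_bound : ∀ i, ∀ z ∈ (B i).Q, ‖z‖ ≤ R
  sep : ∀ i j, i ≠ j → 2 * R < ‖a i - a j‖

section
variable {E : Type*} [NormedAddCommGroup E] [NormedSpace ℝ E] [FiniteDimensional ℝ E]
  {H : Type*} [TopologicalSpace H] {I : ModelWithCorners ℝ E H}
  {M : Type*} [TopologicalSpace M] [ChartedSpace H M]

namespace Setup

/-- default index -/
noncomputable def i0 (s : Setup I M) : Fin s.m := (s.cov s.x0).choose

open Classical in
/-- choice of an index from a Boolean vector -/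
noncomputable def ch (s : Setup I M) (v : Fin s.m → Bool) : Fin s.m :=
  if h : ∃ i, v i = true then h.choose else s.i0

omit [FiniteDimensional ℝ E] in
theorem ch_spec (s : Setup I M) (v : Fin s.m → Bool) (h : ∃ i, v i = true) :
    v (s.ch v) = true := by
  unfold ch
  rw [dif_pos h]
  exact h.choose_spec

open Classical in
/-- the index of the chart used at a point -/
noncomputable def idx (s : Setup I M) (x : M) : Fin s.m :=
  s.ch (fun i => decide ((s.B i).g x < (s.B i).ρ))

omit [FiniteDimensional ℝ E] in
theorem idx_spec (s : Setup I M) (x : M) : (s.B (s.idx x)).g x < (s.B (s.idx x)).ρ := by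
  classical
  have h := s.ch_spec (fun i => decide ((s.B i).g x < (s.B i).ρ)) (by
    obtain ⟨i, hi⟩ := s.cov x
    exact ⟨i, by simpa using hi⟩)
  simpa [idx] using h

omit [FiniteDimensional ℝ E] in
theorem idx_congr (s : Setup I M) {x y : M}
    (h : ∀ i, (s.B i).g x < (s.B i).ρ ↔ (s.B i).g y < (s.B i).ρ) : s.idx x = s.idx y := by
  classical
  unfold idx
  congr 1
  funext i
  simp only [h i]

omit [FiniteDimensional ℝ E] in
theorem idx_meas (s : Setup I M) [MeasurableSpace M] [BorelSpace M] : Measurable s.idx := by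
  classical
  have h1 : Measurable (fun x : M => fun i => decide ((s.B i).g x < (s.B i).ρ)) := by
    rw [measurable_pi_iff]
    intro i
    apply measurable_to_bool
    have : ((fun x : M => decide ((s.B i).g x < (s.B i).ρ)) ⁻¹' {true}) =
        {x | (s.B i).g x < (s.B i).ρ} := by
      ext x; simp
    rw [this]
    exact measurableSet_lt (s.B i).g_meas measurable_const
  exact (measurable_of_countable s.ch).comp h1

/-- the piece of `E` used by chart `i` -/
noncomputable def P (s : Setup I M) (i : Fin s.m) : Set E := {z | z - s.a i ∈ (s.B i).Q}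

theorem P_meas (s : Setup I M) [MeasurableSpace E] [BorelSpace E] (i : Fin s.m) :
    MeasurableSet (s.P i) := by
  have : IsClosed (s.P i) :=
    (s.B i).isCompact_Q.isClosed.preimage (continuous_id.sub continuous_const)
  exact this.measurableSet

omit [FiniteDimensional ℝ E] in
theorem P_disj (s : Setup I M) {i j : Fin s.m} {z : E} (hi : z ∈ s.P i) (hj : z ∈ s.P j) :
    i = j := by
  by_contra hne
  have h1 := s.R_bound i _ hi
  have h2 := s.R_bound j _ hj
  have h3 := s.sep i j hne
  have h4 : ‖s.a i - s.a j‖ ≤ ‖z - s.a j‖ + ‖z - s.a i‖ := by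
    have : s.a i - s.a j = (z - s.a j) - (z - s.a i) := by abel
    rw [this]; exact norm_sub_le _ _
  linarith

open Classical in
/-- index of the piece containing a point of `E` -/
noncomputable def kk (s : Setup I M) (z : E) : Fin s.m :=
  s.ch (fun i => decide (z ∈ s.P i))

omit [FiniteDimensional ℝ E] in
theorem kk_eq (s : Setup I M) {z : E} {i : Fin s.m} (h : z ∈ s.P i) : s.kk z = i := by
  classical
  have h1 := s.ch_spec (fun i => decide (z ∈ s.P i)) ⟨i, by simpa using h⟩
  have h2 : z ∈ s.P (s.kk z) := by simpa [kk] using h1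
  exact s.P_disj h2 h

theorem kk_meas (s : Setup I M) [MeasurableSpace E] [BorelSpace E] : Measurable s.kk := by
  classical
  have h1 : Measurable (fun z : E => fun i => decide (z ∈ s.P i)) := by
    rw [measurable_pi_iff]
    intro i
    apply measurable_to_bool
    have : ((fun z : E => decide (z ∈ s.P i)) ⁻¹' {true}) = s.P i := by
      ext x; simp
    rw [this]
    exact s.P_meas i
  exact (measurable_of_countable s.ch).comp h1

open Classical in
/-- chart with translation, extended by a constant -/
noncomputable def th (s : Setup I M) (i : Fin s.m) : M → E :=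
  (extChartAt I (s.B i).p).source.piecewise (fun x => extChartAt I (s.B i).p x + s.a i)
    (fun _ => 0)

/-- the gluing map -/
noncomputable def Th (s : Setup I M) (x : M) : E := s.th (s.idx x) x

omit [FiniteDimensional ℝ E] in
theorem Th_eq (s : Setup I M) {x : M} {i : Fin s.m} (h : s.idx x = i) :
    s.Th x = extChartAt I (s.B i).p x + s.a i := by
  classical
  subst h
  have hle : (s.B (s.idx x)).ρ ≤ 2 * (s.B (s.idx x)).ρ := by linarith [(s.B (s.idx x)).pos]
  have h1 := ((s.B (s.idx x)).g_lt hle).mp (s.idx_spec x)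
  unfold Th th Set.piecewise
  rw [if_pos h1.1]

omit [FiniteDimensional ℝ E] in
theorem src_of_idx (s : Setup I M) {x : M} {i : Fin s.m} (h : s.idx x = i) :
    x ∈ (extChartAt I (s.B i).p).source ∧ ‖extChartAt I (s.B i).p x - (s.B i).c‖ < (s.B i).ρ := by
  subst h
  have hle : (s.B (s.idx x)).ρ ≤ 2 * (s.B (s.idx x)).ρ := by linarith [(s.B (s.idx x)).pos]
  exact ((s.B (s.idx x)).g_lt hle).mp (s.idx_spec x)

omit [FiniteDimensional ℝ E] in
theorem chart_mem_Q (s : Setup I M) {x : M} {i : Fin s.m} (h : s.idx x = i) :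
    extChartAt I (s.B i).p x ∈ (s.B i).Q := by
  have h1 := s.src_of_idx h
  refine ⟨?_, extChartAt_target_subset_range _ ((extChartAt I (s.B i).p).map_source h1.1)⟩
  rw [mem_closedBall, dist_eq_norm]
  linarith [(s.B i).pos, h1.2]

omit [FiniteDimensional ℝ E] in
theorem Th_mem_P (s : Setup I M) {x : M} {i : Fin s.m} (h : s.idx x = i) : s.Th x ∈ s.P i := by
  rw [s.Th_eq h]
  have := s.chart_mem_Q h
  simpa [P] using this

omit [FiniteDimensional ℝ E] in
theorem th_meas (s : Setup I M) [MeasurableSpace M] [BorelSpace M] [MeasurableSpace E]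
    [BorelSpace E] (i : Fin s.m) : Measurable (s.th i) := by
  classical
  unfold th
  refine ContinuousOn.measurable_piecewise ?_ continuousOn_const
    (isOpen_extChartAt_source _).measurableSet
  exact (continuousOn_extChartAt _).add continuousOn_const

omit [FiniteDimensional ℝ E] in
theorem Th_meas (s : Setup I M) [MeasurableSpace M] [BorelSpace M] [MeasurableSpace E]
    [BorelSpace E] : Measurable s.Th := by
  unfold Th
  exact glue_meas s.idx_meas (fun i => s.th_meas i)

open Classical in
/-- inverse chart with translation, extended by a constant -/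
noncomputable def ps (s : Setup I M) (i : Fin s.m) : E → M :=
  (s.P i).piecewise (fun z => (extChartAt I (s.B i).p).symm (z - s.a i)) (fun _ => s.x0)

/-- the left inverse of the gluing map -/
noncomputable def Ps (s : Setup I M) (z : E) : M := s.ps (s.kk z) z

theorem ps_meas (s : Setup I M) [MeasurableSpace M] [BorelSpace M] [MeasurableSpace E]
    [BorelSpace E] (i : Fin s.m) : Measurable (s.ps i) := by
  classical
  unfold ps
  refine ContinuousOn.measurable_piecewise ?_ continuousOn_const (s.P_meas i)
  refine (continuousOn_extChartAt_symm (s.B i).p).comp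
    (continuous_id.sub continuous_const).continuousOn ?_
  intro z hz
  exact (s.B i).Q_sub hz

theorem Ps_meas (s : Setup I M) [MeasurableSpace M] [BorelSpace M] [MeasurableSpace E]
    [BorelSpace E] : Measurable s.Ps := by
  unfold Ps
  exact glue_meas s.kk_meas (fun i => s.ps_meas i)

omit [FiniteDimensional ℝ E] in
theorem Ps_eq (s : Setup I M) {z : E} {i : Fin s.m} (h : z ∈ s.P i) :
    s.Ps z = (extChartAt I (s.B i).p).symm (z - s.a i) := by
  classical
  unfold Ps
  rw [s.kk_eq h]
  unfold ps Set.piecewise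
  rw [if_pos h]

omit [FiniteDimensional ℝ E] in
theorem Ps_Th (s : Setup I M) (x : M) : s.Ps (s.Th x) = x := by
  rw [s.Ps_eq (s.Th_mem_P rfl), s.Th_eq rfl, add_sub_cancel_right]
  exact (extChartAt I (s.B (s.idx x)).p).left_inv (s.src_of_idx rfl).1

/-- the glued map -/
noncomputable def f (s : Setup I M) (S : M → M) (z : E) : E := s.Th (S (s.Ps z))

omit [FiniteDimensional ℝ E] in
theorem f_Th (s : Setup I M) (S : M → M) (x : M) : s.f S (s.Th x) = s.Th (S x) := by
  unfold f; rw [s.Ps_Th]

theorem f_meas (s : Setup I M) [MeasurableSpace M] [BorelSpace M] [MeasurableSpace E]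
    [BorelSpace E] {S : M → M} (hS : Measurable S) : Measurable (s.f S) :=
  s.Th_meas.comp (hS.comp s.Ps_meas)

theorem map_f (s : Setup I M) [MeasurableSpace M] [BorelSpace M] [MeasurableSpace E]
    [BorelSpace E] (ν : Measure M) {S : M → M} (hS : MeasurePreserving S ν ν) :
    (ν.map s.Th).map (s.f S) = ν.map s.Th := by
  rw [Measure.map_map (s.f_meas hS.measurable) s.Th_meas]
  have : s.f S ∘ s.Th = s.Th ∘ S := by
    funext x; exact s.f_Th S x
  rw [this, ← Measure.map_map s.Th_meas hS.measurable, hS.map_eq]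

end Setup

end

/-- existence of a set-up -/
theorem exists_setup {d : ℕ} {H : Type*} [TopologicalSpace H]
    (I : ModelWithCorners ℝ (EuclideanSpace ℝ (Fin (d + 1))) H)
    (M : Type*) [TopologicalSpace M] [ChartedSpace H M] [CompactSpace M] [Nonempty M] :
    Nonempty (Setup I M) := by
  obtain ⟨m, B, hB⟩ := exists_cover (I := I) (M := M)
  have hR : ∃ R : ℝ, ∀ i, ∀ z ∈ (B i).Q, ‖z‖ ≤ R := by
    have h1 : ∀ i, ∃ R : ℝ, ∀ z ∈ (B i).Q, ‖z‖ ≤ R := fun i =>
      (B i).isCompact_Q.exists_bound_of_continuousOn continuousOn_id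
    choose R hR using h1
    by_cases hm : Nonempty (Fin m)
    · refine ⟨Finset.univ.sup' Finset.univ_nonempty R, fun i z hz => (hR i z hz).trans ?_⟩
      exact Finset.le_sup' R (Finset.mem_univ i)
    · exact ⟨0, fun i => absurd ⟨i⟩ hm⟩
  obtain ⟨R, hR⟩ := hR
  set T : ℝ := 2 * |R| + 1 with hT
  refine ⟨⟨m, B, hB, Classical.arbitrary M,
    fun i => ((i : ℕ) : ℝ) • (EuclideanSpace.single 0 T : EuclideanSpace ℝ (Fin (d+1))),
    R, hR, ?_⟩⟩
  intro i j hij
  rw [← sub_smul, norm_smul, PiLp.norm_single, Real.norm_eq_abs, Real.norm_eq_abs]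
  have h1 : (1:ℝ) ≤ |((i : ℕ) : ℝ) - ((j : ℕ) : ℝ)| := by
    have hne : ((i : ℕ) : ℤ) - ((j : ℕ) : ℤ) ≠ 0 := by
      intro h
      apply hij
      apply Fin.ext
      omega
    have h2 : (1 : ℤ) ≤ |((i : ℕ) : ℤ) - ((j : ℕ) : ℤ)| := Int.one_le_abs hne
    exact_mod_cast h2
  have hT0 : 0 < T := by positivity
  rw [abs_of_pos hT0]
  have h3 : R ≤ |R| := le_abs_self R
  nlinarith

end Crest.Agent.R133.MfdX
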