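import Crest.Agent.R133.Par

/-!
Row 133 (S0182), section 4: the final numeric contradiction of the potential argument.
-/

set_option autoImplicit false

namespace Crest.Agent.R133.Par

open Filter Topology

/-- `N_{s0+k} / N_{s0} ≥ 1600^k` -/
lemma NN_ratio_ge (s0 k : ℕ) : (1600:ℝ) ^ k * NN s0 ≤ NN (s0 + k) := by
  induction k with
  | zero => simp
  | succ k ih =>
    rw [← Nat.add_assoc, NN_succ, pow_succ]
    push_cast
    have h1 : (1600:ℝ) ≤ mm (s0 + k) := by exact_mod_cast mm_ge _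
    calc (1600:ℝ) ^ k * 1600 * NN s0 = 1600 * ((1600:ℝ) ^ k * NN s0) := by ring
      _ ≤ mm (s0 + k) * NN (s0 + k) := mul_le_mul h1 ih (by positivity) (by positivity)

lemma log_le_sqrt {x : ℝ} (hx : 1 ≤ x) : Real.log x ≤ Real.sqrt x := by
  have h0 : 0 < x := by linarith
  have hs : 0 < Real.sqrt x := Real.sqrt_pos.mpr h0
  -- log x = 4 log x^{1/4}... use log y ≤ y / e ; simpler: log (√x /2) ≤ √x/2 - 1
  have h1 := Real.log_le_sub_one_of_pos (show 0 < Real.sqrt x / 2 by positivity)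
  rw [Real.log_div hs.ne' (by norm_num), Real.log_sqrt h0.le] at h1
  have h2 := Real.log_two_lt_d9
  nlinarith

/-- one error term -/
lemma err_le (s0 k : ℕ) :
    (Real.log (NN (s0 + (k+1))) + 1) / ((NN (s0 + (k+1)) : ℝ) / NN s0)
      ≤ (Real.log (NN s0) + 2) * (1/40) ^ (k+1) := by
  have hN0 := NNr_pos s0
  have hN1 := NNr_pos (s0 + (k+1))
  set x : ℝ := (NN (s0 + (k+1)) : ℝ) / NN s0 with hx
  have hx1 : (1600:ℝ) ^ (k+1) ≤ x := by
    rw [hx, le_div_iff₀ hN0]; exact NN_ratio_ge s0 (k+1)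
  have h1600 : (1:ℝ) ≤ 1600 ^ (k+1) := one_le_pow₀ (by norm_num)
  have hx2 : 1 ≤ x := h1600.trans hx1
  have hx0 : 0 < x := by linarith
  have hlogN : Real.log (NN (s0 + (k+1))) = Real.log (NN s0) + Real.log x := by
    rw [hx, Real.log_div hN1.ne' hN0.ne']; ring
  have hs : (40:ℝ) ^ (k+1) ≤ Real.sqrt x := by
    rw [show (40:ℝ) ^ (k+1) = Real.sqrt (1600 ^ (k+1)) by
      rw [show (1600:ℝ) ^ (k+1) = (40 ^ (k+1)) ^ 2 by
        rw [← pow_mul, mul_comm, pow_mul]; norm_num]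
      rw [Real.sqrt_sq (by positivity)]]
    exact Real.sqrt_le_sqrt hx1
  have h40 : (1:ℝ) ≤ 40 ^ (k+1) := one_le_pow₀ (by norm_num)
  have hs0 : 0 < Real.sqrt x := by linarith
  have hL0 : 0 ≤ Real.log (NN s0) := Real.log_nonneg (by exact_mod_cast NN_pos s0)
  have hxs : x = Real.sqrt x * Real.sqrt x := (Real.mul_self_sqrt hx0.le).symm
  have h1 : 1 / x ≤ (1/40) ^ (k+1) := by
    rw [one_div_pow]
    apply one_div_le_one_div_of_le (by positivity)
    rw [hxs]
    nlinarith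
  have h2 : Real.log x / x ≤ (1/40) ^ (k+1) := by
    rw [one_div_pow]
    calc Real.log x / x ≤ Real.sqrt x / x := by
          apply div_le_div_of_nonneg_right (log_le_sqrt hx2) hx0.le
      _ = 1 / Real.sqrt x := by
          rw [div_eq_div_iff hx0.ne' hs0.ne', one_mul]; exact hxs.symm
      _ ≤ 1 / 40 ^ (k+1) := one_div_le_one_div_of_le (by positivity) hs
  rw [hlogN]
  have e : (Real.log (NN s0) + Real.log x + 1) / x
      = (Real.log (NN s0) + 1) * (1 / x) + Real.log x / x := by field_simp; ring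
  rw [e]
  calc (Real.log (NN s0) + 1) * (1 / x) + Real.log x / x
      ≤ (Real.log (NN s0) + 1) * (1/40) ^ (k+1) + (1/40) ^ (k+1) :=
        add_le_add (mul_le_mul_of_nonneg_left h1 (by linarith)) h2
    _ = _ := by ring

lemma sum_err_le (s0 n : ℕ) :
    ∑ k ∈ Finset.range n, (Real.log (NN (s0 + (k+1))) + 1) / ((NN (s0 + (k+1)) : ℝ) / NN s0)
      ≤ Real.log (NN s0) + 2 := by
  have hL0 : 0 ≤ Real.log (NN s0) := Real.log_nonneg (by exact_mod_cast NN_pos s0)
  calc ∑ k ∈ Finset.range n, (Real.log (NN (s0 + (k+1))) + 1) / ((NN (s0 + (k+1)) : ℝ) / NN s0)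
      ≤ ∑ k ∈ Finset.range n, (Real.log (NN s0) + 2) * (1/40) ^ (k+1) :=
        Finset.sum_le_sum fun k _ => err_le s0 k
    _ = (Real.log (NN s0) + 2) * ((1/40) * ∑ k ∈ Finset.range n, (1/40:ℝ) ^ k) := by
        rw [Finset.mul_sum, Finset.mul_sum]
        exact Finset.sum_congr rfl fun k _ => by rw [pow_succ]; ring
    _ ≤ (Real.log (NN s0) + 2) * 1 := by
        apply mul_le_mul_of_nonneg_left _ (by linarith)
        rw [geom_sum_eq (by norm_num)]
        have : (0:ℝ) ≤ (1/40) ^ n := by positivity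
        have e : (1/40:ℝ) * (((1/40) ^ n - 1) / (1/40 - 1)) = (1 - (1/40)^n) / 39 := by
          field_simp; ring
        rw [e]
        linarith
    _ = _ := by ring

/-- domination: `C s0 + C log N_{s0} ≤ ε N_{s0} h_{s0}` eventually -/
lemma dom (C ε : ℝ) (hε : 0 < ε) :
    ∀ᶠ s in atTop, C * (s + 1) + C * Real.log (NN s) ≤ ε * (hh s * NN s) := by
  -- a = |C|
  have hgrow : Tendsto (fun s : ℕ => (40:ℝ) ^ s / ((s:ℝ) + 1)) atTop atTop := by
    have h1 : Tendsto (fun s : ℕ => (2:ℝ) ^ s) atTop atTop :=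
      tendsto_pow_atTop_atTop_of_one_lt (by norm_num)
    refine tendsto_atTop_mono (fun s => ?_) h1
    rw [le_div_iff₀ (by positivity)]
    have h2 : ((s:ℝ) + 1) ≤ 2 ^ s := by
      exact_mod_cast Nat.lt_two_pow_self (n := s)
    calc (2:ℝ) ^ s * ((s:ℝ) + 1) ≤ 2 ^ s * 2 ^ s := mul_le_mul_of_nonneg_left h2 (by positivity)
      _ = 4 ^ s := by rw [← mul_pow]; norm_num
      _ ≤ 40 ^ s := pow_le_pow_left₀ (by norm_num) (by norm_num) s
  have h2 : Tendsto (fun s : ℕ => ε * (Real.log 2) * ((40:ℝ) ^ s / ((s:ℝ) + 1))) atTop atTop :=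
    Tendsto.const_mul_atTop (by have := Real.log_two_gt_d9; positivity) hgrow
  filter_upwards [tendsto_atTop.mp h2 (2 * |C|)] with s hs
  have hN := NNr_pos s
  have h1600 : (1600:ℝ) ^ s ≤ NN s := by exact_mod_cast NN_ge s
  have hsq : (40:ℝ) ^ s ≤ Real.sqrt (NN s) := by
    rw [show (40:ℝ) ^ s = Real.sqrt (1600 ^ s) by
      rw [show (1600:ℝ) ^ s = (40 ^ s) ^ 2 by
        rw [← pow_mul, mul_comm, pow_mul]; norm_num]
      rw [Real.sqrt_sq (by positivity)]]
    exact Real.sqrt_le_sqrt h1600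
  have h40 : (1:ℝ) ≤ 40 ^ s := one_le_pow₀ (by norm_num)
  have hs1 : ((s:ℝ) + 1) ≤ Real.sqrt (NN s) := by
    have h3 : ((s:ℝ) + 1) ≤ 2 ^ s := by exact_mod_cast Nat.lt_two_pow_self (n := s)
    have h4 : (2:ℝ) ^ s ≤ 40 ^ s := pow_le_pow_left₀ (by norm_num) (by norm_num) s
    linarith
  have hlog : Real.log (NN s) ≤ Real.sqrt (NN s) := log_le_sqrt (by exact_mod_cast NN_pos s)
  have hlog0 : 0 ≤ Real.log (NN s) := Real.log_nonneg (by exact_mod_cast NN_pos s)
  have hh1 : Real.log 2 / ((s:ℝ) + 1) ≤ hh s := by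
    refine le_trans ?_ (hh_ge_rpow s)
    rw [div_eq_mul_inv, ← Real.rpow_neg_one]
    apply mul_le_mul_of_nonneg_left _ (by have := Real.log_two_gt_d9; linarith)
    apply Real.rpow_le_rpow_of_exponent_le (by linarith [show (0:ℝ) ≤ s by positivity])
    norm_num
  set q := Real.sqrt (NN s) with hq
  have hqq : (NN s : ℝ) = q * q := (Real.mul_self_sqrt hN.le).symm
  have hq0 : 0 < q := by linarith
  have hsp : (0:ℝ) < (s:ℝ) + 1 := by positivity
  have hC : C ≤ |C| := le_abs_self C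
  have hC0 : 0 ≤ |C| := abs_nonneg C
  calc C * (s + 1) + C * Real.log (NN s) ≤ |C| * q + |C| * q := by
        apply add_le_add
        · exact (mul_le_mul_of_nonneg_right hC hsp.le).trans (mul_le_mul_of_nonneg_left hs1 hC0)
        · exact (mul_le_mul_of_nonneg_right hC hlog0).trans (mul_le_mul_of_nonneg_left hlog hC0)
    _ = (2 * |C|) * q := by ring
    _ ≤ (ε * Real.log 2 * ((40:ℝ) ^ s / ((s:ℝ) + 1))) * q :=
        mul_le_mul_of_nonneg_right hs hq0.le
    _ ≤ (ε * Real.log 2 * (q / ((s:ℝ) + 1))) * q := by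
        apply mul_le_mul_of_nonneg_right _ hq0.le
        apply mul_le_mul_of_nonneg_left
        · exact div_le_div_of_nonneg_right hsq hsp.le
        · have := Real.log_two_gt_d9; positivity
    _ = ε * (Real.log 2 / ((s:ℝ) + 1) * NN s) := by rw [hqq]; ring
    _ ≤ ε * (hh s * NN s) := by
        apply mul_le_mul_of_nonneg_left _ hε.le
        exact mul_le_mul_of_nonneg_right hh1 hN.le

/-- The final contradiction of the potential argument.  `A s` is the potential `E_s hid_s / M_s`,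
`M_{s+1} = N_{s+1}/N_{s0}`. -/
theorem pot_final (C : ℝ) (hC : 0 ≤ C) (St : Set ℕ) (hSt : Summable (Set.indicator Stᶜ kap)) :
    ∃ s00 : ℕ, ∀ s0, s00 ≤ s0 → ∀ A : ℕ → ℝ, (∀ s, s0 ≤ s → 0 ≤ A s) →
      A s0 ≤ 1 / 8 * Real.log (KK s0) →
      (∀ s, s0 ≤ s → A (s+1) ≤ A s
        + C * ((Real.log (NN (s+1)) + 1) / ((NN (s+1) : ℝ) / NN s0))) →
      (∀ s, s0 ≤ s → s ∈ St → A (s+1) ≤ A s - 9 / 10 * (kap s * hh s * NN s0) + C
        + C * ((Real.log (NN (s+1)) + 1) / ((NN (s+1) : ℝ) / NN s0))) → False := by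
  classical
  have htail : ∀ᶠ s0 in atTop, ∑' s, (Set.indicator Stᶜ kap) (s + s0) < 1/10 := by
    have := tendsto_sum_nat_add (Set.indicator Stᶜ kap)
    exact this.eventually_lt_const (by norm_num)
  have hdom := dom (C * (256 * 401) + 2 * C + 1) (1/10) (by norm_num)
  obtain ⟨s00, hs00⟩ := eventually_atTop.mp (htail.and hdom)
  refine ⟨s00, fun s0 hs0 A hA0 hA1 hA2 hA3 => ?_⟩
  obtain ⟨ht, hd⟩ := hs00 s0 hs0
  set n : ℕ := 256 * (s0 + 400) - s0 with hn
  have hn1 : s0 + n = 256 * (s0 + 400) := by omega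
  set κ' := Set.indicator Stᶜ kap with hκ'
  -- telescoping
  have tele : ∀ k : ℕ, A (s0 + k) ≤ A s0
      - 9/10 * NN s0 * (∑ j ∈ Finset.range k, (kap (s0+j) - κ' (s0+j)) * hh (s0+j))
      + C * k + C * ∑ j ∈ Finset.range k,
        (Real.log (NN (s0 + (j+1))) + 1) / ((NN (s0 + (j+1)) : ℝ) / NN s0) := by
    intro k
    induction k with
    | zero => simp
    | succ k ih =>
      rw [Finset.sum_range_succ, Finset.sum_range_succ]
      push_cast
      by_cases hk : s0 + k ∈ St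
      · have h1 := hA3 (s0 + k) (by omega) hk
        have h2 : κ' (s0 + k) = 0 := by
          rw [hκ']; exact Set.indicator_of_notMem (by simpa using hk) _
        rw [h2]
        rw [show s0 + k + 1 = s0 + (k + 1) by ring] at h1
        nlinarith [ih, h1]
      · have h1 := hA2 (s0 + k) (by omega)
        have h2 : κ' (s0 + k) = kap (s0 + k) := by
          rw [hκ']; exact Set.indicator_of_mem (by simpa using hk) _
        rw [h2]
        rw [show s0 + k + 1 = s0 + (k + 1) by ring] at h1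
        nlinarith [ih, h1]
  have h1 := tele n
  have h2 := sum_err_le s0 n
  have h0 := hA0 (s0 + n) (by omega)
  have hNs := NNr_pos s0
  have hhs := hh_pos s0
  -- the kap sum
  have h3 : ∑ j ∈ Finset.range n, kap (s0+j) * hh (s0+j) = hh s0 - hh (s0 + n) := by
    have := sum_kap_mul_hh s0 (s0+n) (by omega)
    rw [Finset.sum_Ico_eq_sum_range] at this
    rw [← this]
    simp
  have h4 : hh (s0 + n) ≤ hh s0 / 2 := by
    rw [hn1]; exact hh_half s0 _ le_rfl
  have hκ0 : ∀ s, 0 ≤ κ' s := fun s => Set.indicator_nonneg (fun s _ => (kap_pos s).le) s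
  have h5 : ∑ j ∈ Finset.range n, κ' (s0+j) * hh (s0+j) ≤ 1/10 * hh s0 := by
    calc ∑ j ∈ Finset.range n, κ' (s0+j) * hh (s0+j)
        ≤ ∑ j ∈ Finset.range n, κ' (s0+j) * hh s0 :=
          Finset.sum_le_sum fun j _ => mul_le_mul_of_nonneg_left (hh_anti (by omega)) (hκ0 _)
      _ = (∑ j ∈ Finset.range n, κ' (j + s0)) * hh s0 := by
          rw [Finset.sum_mul]; exact Finset.sum_congr rfl fun j _ => by rw [add_comm]
      _ ≤ (∑' s, κ' (s + s0)) * hh s0 := by
          apply mul_le_mul_of_nonneg_right _ hhs.le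
          apply Summable.sum_le_tsum _ (fun j _ => hκ0 _)
          exact (summable_nat_add_iff s0).mpr hSt
      _ ≤ 1/10 * hh s0 := mul_le_mul_of_nonneg_right ht.le hhs.le
  have h6 : 4/10 * hh s0 ≤
      ∑ j ∈ Finset.range n, (kap (s0+j) - κ' (s0+j)) * hh (s0+j) := by
    have e : ∑ j ∈ Finset.range n, (kap (s0+j) - κ' (s0+j)) * hh (s0+j)
        = ∑ j ∈ Finset.range n, kap (s0+j) * hh (s0+j)
          - ∑ j ∈ Finset.range n, κ' (s0+j) * hh (s0+j) := by
      rw [← Finset.sum_sub_distrib]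
      exact Finset.sum_congr rfl fun j _ => by ring
    rw [e, h3]
    linarith
  set S := ∑ j ∈ Finset.range n, (kap (s0+j) - κ' (s0+j)) * hh (s0+j) with hS
  set E := ∑ j ∈ Finset.range n,
        (Real.log (NN (s0 + (j+1))) + 1) / ((NN (s0 + (j+1)) : ℝ) / NN s0) with hE
  have h7 : 9/10 * NN s0 * (4/10 * hh s0) ≤ 9/10 * NN s0 * S :=
    mul_le_mul_of_nonneg_left h6 (by positivity)
  have h8 : C * E ≤ C * (Real.log (NN s0) + 2) := mul_le_mul_of_nonneg_left h2 hC
  have h9 : C * (n:ℝ) ≤ C * (256 * 401) * (s0 + 1) := by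
    have : (n:ℝ) ≤ (256 * 401) * (s0 + 1) := by
      have : n ≤ (256 * 401) * (s0 + 1) := by omega
      exact_mod_cast this
    calc C * (n:ℝ) ≤ C * ((256 * 401) * (s0 + 1)) := mul_le_mul_of_nonneg_left this hC
      _ = _ := by ring
  have hL0 : 0 ≤ Real.log (NN s0) := Real.log_nonneg (by exact_mod_cast NN_pos s0)
  have hlogK := log_KK s0
  rw [hlogK] at hA1
  have hsp : (0:ℝ) ≤ s0 := by positivity
  have hP : 0 < hh s0 * NN s0 := mul_pos hhs hNs
  -- combine
  have h10 : (C * (256 * 401) + 2 * C + 1) * (s0 + 1) + (C * (256 * 401) + 2 * C + 1) * Real.log (NN s0)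
      ≤ 1/10 * (hh s0 * NN s0) := hd
  have h11 : C * (256 * 401) * (s0 + 1) + C * (Real.log (NN s0) + 2)
      ≤ (C * (256 * 401) + 2 * C + 1) * (s0 + 1)
        + (C * (256 * 401) + 2 * C + 1) * Real.log (NN s0) := by
    nlinarith [mul_nonneg hC hsp, mul_nonneg hC hL0]
  have h12 : 9/10 * NN s0 * (4/10 * hh s0) = 36/100 * (hh s0 * NN s0) := by ring
  linarith

end Crest.Agent.R133.Par
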