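import Crest.Agent.R133.Pot2
import Crest.Agent.R133.Par

/-! # Row 133, THEOREM POT (section 4 of note 12067) -/

set_option autoImplicit false
set_option linter.unusedSectionVars false

open MeasureTheory Set

namespace Crest.Agent.R133.Pot

variable {τ : Tau} {Ω : Type*} [MeasurableSpace Ω] {ν : Measure Ω} {f : Ω → Ω}
  {w : ∀ s, Ω → W s} {φ : ℕ → Ω → ℕ}

/-- the integral of `hid` over the base -/
noncomputable def II (τ : Tau) (ν : Measure Ω) (f : Ω → Ω) (w : ∀ s, Ω → W s) (φ : ℕ → Ω → ℕ)
    (q : Ω → Bool) (s0 s : ℕ) : ℝ :=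
  ∫ x in {x | φ s x = 0}, hid τ f w q s0 s x ∂ν

lemma II_nonneg (q : Ω → Bool) (s0 s : ℕ) : 0 ≤ II τ ν f w φ q s0 s :=
  integral_nonneg (fun x => hid_nonneg q s0 s x)

lemma abs_hid_le (q : Ω → Bool) (s0 s : ℕ) (x : Ω) :
    |hid τ f w q s0 s x| ≤ Real.log (KK s) := by
  rw [abs_of_nonneg (hid_nonneg q s0 s x)]
  exact hid_le q s0 s x

lemma real_base (T : TowerMaps τ ν f w φ) (s : ℕ) :
    ν.real {x | φ s x = 0} = 1 / (NN s : ℝ) := by
  unfold Measure.real
  rw [meas_base T, ENNReal.toReal_ofReal (by positivity)]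

lemma II_rec1 [IsProbabilityMeasure ν] (hP1 : P1 τ) (hf : MeasurePreserving f ν ν)
    (T : TowerMaps τ ν f w φ) {q : Ω → Bool} (hq : Measurable q) {s0 s : ℕ} (hs : s0 ≤ s) :
    II τ ν f w φ q s0 (s + 1) ≤ II τ ν f w φ q s0 s +
      (4 * Real.log (NN (s + 1)) + 4) * (1 / (NN (s + 1) : ℝ)) := by
  have hm := meas_hid (τ := τ) hf.measurable T.w_meas hq s0
  unfold II
  rw [base_split hf T s (hm s) _ (abs_hid_le q s0 s), ← real_base T (s + 1)]
  have hc : (4 * Real.log (NN (s + 1)) + 4) * ν.real {x | φ (s + 1) x = 0} =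
      ∫ x in {x | φ (s + 1) x = 0}, (4 * Real.log (NN (s + 1)) + 4) ∂ν := by
    rw [setIntegral_const, smul_eq_mul, mul_comm]
  have hi1 : Integrable (fun x => ∑ j ∈ Finset.range (mm s),
      hid τ f w q s0 s (f^[j * NN s] x)) (ν.restrict {x | φ (s + 1) x = 0}) := by
    apply integrable_finsetSum
    intro j _
    exact integrable_bdd ((hm s).comp (hf.iterate _).measurable) _
      (fun x => abs_hid_le q s0 s _)
  rw [hc, ← integral_add hi1 (integrable_const _)]
  apply integral_mono_ae (integrable_bdd (hm (s + 1)) _ (abs_hid_le q s0 (s + 1)))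
    (hi1.add (integrable_const _))
  rw [Filter.EventuallyLE, ae_restrict_iff' (meas_phi T (s + 1) 0)]
  filter_upwards [ae_Gd hf T] with x hx h0
  exact hx.rec1 hP1 q hs h0

lemma II_rec2 [IsProbabilityMeasure ν] (hP1 : P1 τ) (hf : MeasurePreserving f ν ν)
    (T : TowerMaps τ ν f w φ) {q : Ω → Bool} (hq : Measurable q) {s0 s : ℕ} (hs : s0 ≤ s)
    (hE : ν (Exc τ f w φ q s0 s) ≤ ENNReal.ofReal (1 / (10 * NN (s + 1)))) :
    II τ ν f w φ q s0 (s + 1) ≤ II τ ν f w φ q s0 s +
      ((4 * Real.log (NN (s + 1)) + 4) + 3 * ((NN (s + 1) / NN s0 : ℕ) : ℝ)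
        - 9 / 10 * Real.log (KK s)) * (1 / (NN (s + 1) : ℝ)) := by
  have hm := meas_hid (τ := τ) hf.measurable T.w_meas hq s0
  set c : ℝ := (4 * Real.log (NN (s + 1)) + 4) + 3 * ((NN (s + 1) / NN s0 : ℕ) : ℝ)
    - Real.log (KK s) with hc
  set E : Set Ω := toMeasurable ν (Exc τ f w φ q s0 s) with hEdef
  have hEm : MeasurableSet E := measurableSet_toMeasurable _ _
  have hEν : ν.real E ≤ 1 / (10 * NN (s + 1)) := by
    unfold Measure.real
    rw [hEdef, measure_toMeasurable]
    exact ENNReal.toReal_le_of_le_ofReal (by positivity) hE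
  have hlogK : 0 ≤ Real.log (KK s) := Real.log_natCast_nonneg _
  have hN : (1:ℝ) ≤ NN (s + 1) := by exact_mod_cast NN_pos (s + 1)
  have hlogN : 0 ≤ Real.log (NN (s + 1)) := Real.log_nonneg hN
  have hi1 : Integrable (fun x => ∑ j ∈ Finset.range (mm s),
      hid τ f w q s0 s (f^[j * NN s] x)) (ν.restrict {x | φ (s + 1) x = 0}) := by
    apply integrable_finsetSum
    intro j _
    exact integrable_bdd ((hm s).comp (hf.iterate _).measurable) _
      (fun x => abs_hid_le q s0 s _)
  have hi2 : Integrable (indicator E (fun _ => Real.log (KK s)))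
      (ν.restrict {x | φ (s + 1) x = 0}) := (integrable_const _).indicator hEm
  have h1 : II τ ν f w φ q s0 (s + 1) ≤ ∫ x in {x | φ (s + 1) x = 0},
      ((∑ j ∈ Finset.range (mm s), hid τ f w q s0 s (f^[j * NN s] x)) + c
        + indicator E (fun _ => Real.log (KK s)) x) ∂ν := by
    unfold II
    apply integral_mono_ae (integrable_bdd (hm (s + 1)) _ (abs_hid_le q s0 (s + 1)))
      ((hi1.add (integrable_const _)).add hi2)
    rw [Filter.EventuallyLE, ae_restrict_iff' (meas_phi T (s + 1) 0)]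
    filter_upwards [ae_Gd hf T] with x hx h0
    by_cases hxE : x ∈ E
    · have h2 := hx.rec1 hP1 q hs h0
      have h3 : indicator E (fun _ => Real.log (KK s)) x = Real.log (KK s) :=
        indicator_of_mem hxE _
      show hid τ f w q s0 (s + 1) x ≤ (∑ j ∈ Finset.range (mm s), hid τ f w q s0 s (f^[j * NN s] x))
        + c + indicator E (fun _ => Real.log (KK s)) x
      rw [h3]
      have h4 : (0:ℝ) ≤ 3 * ((NN (s + 1) / NN s0 : ℕ) : ℝ) := by positivity
      rw [hc]
      linarith
    · have h2 := hx.rec2 hP1 q hs h0 (fun h => hxE (subset_toMeasurable _ _ h))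
      have h3 : indicator E (fun _ => Real.log (KK s)) x = 0 := indicator_of_notMem hxE _
      show hid τ f w q s0 (s + 1) x ≤ (∑ j ∈ Finset.range (mm s), hid τ f w q s0 s (f^[j * NN s] x))
        + c + indicator E (fun _ => Real.log (KK s)) x
      rw [h3]
      rw [hc]
      linarith
  have h5 : ∫ x in {x | φ (s + 1) x = 0},
      ((∑ j ∈ Finset.range (mm s), hid τ f w q s0 s (f^[j * NN s] x)) + c
        + indicator E (fun _ => Real.log (KK s)) x) ∂ν =
      II τ ν f w φ q s0 s + c * (1 / (NN (s + 1) : ℝ)) +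
        ∫ x in {x | φ (s + 1) x = 0}, indicator E (fun _ => Real.log (KK s)) x ∂ν := by
    have e1 := integral_add (f := fun x => (∑ j ∈ Finset.range (mm s),
      hid τ f w q s0 s (f^[j * NN s] x)) + c) (g := indicator E (fun _ => Real.log (KK s)))
      (hi1.add (integrable_const c)) hi2
    have e2 := integral_add hi1 (integrable_const (μ := ν.restrict {x | φ (s + 1) x = 0}) c)
    rw [e1, e2]
    rw [setIntegral_const, smul_eq_mul, real_base T, mul_comm (1 / (NN (s + 1) : ℝ)) c]
    unfold II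
    rw [base_split hf T s (hm s) _ (abs_hid_le q s0 s)]
  have h6 : ∫ x in {x | φ (s + 1) x = 0}, indicator E (fun _ => Real.log (KK s)) x ∂ν ≤
      Real.log (KK s) * (1 / (10 * NN (s + 1))) := by
    rw [integral_indicator hEm, setIntegral_const, smul_eq_mul, mul_comm]
    apply mul_le_mul_of_nonneg_left _ hlogK
    refine le_trans ?_ hEν
    unfold Measure.real
    apply ENNReal.toReal_mono (measure_ne_top _ _)
    exact Measure.restrict_apply_le _ _
  rw [h5] at h1
  refine h1.trans ?_
  have h7 : Real.log (KK s) * (1 / (10 * (NN (s + 1) : ℝ))) =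
      (1 / 10 * Real.log (KK s)) * (1 / (NN (s + 1) : ℝ)) := by
    field_simp
  rw [h7] at h6
  have h8 : ((4 * Real.log (NN (s + 1)) + 4) + 3 * ((NN (s + 1) / NN s0 : ℕ) : ℝ)
        - 9 / 10 * Real.log (KK s)) * (1 / (NN (s + 1) : ℝ)) =
      c * (1 / (NN (s + 1) : ℝ)) + (1 / 10 * Real.log (KK s)) * (1 / (NN (s + 1) : ℝ)) := by
    rw [hc]; ring
  rw [h8]
  linarith

/-! ## the initial bound -/

open Classical in
/-- Hamming ball of radius `2ρN` around the word `u` -/
noncomputable def Ball (τ : Tau) (s : ℕ) (u : W s) : Finset (W s) :=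
  Finset.univ.filter (fun u' => (ham (NN s) (nm τ s u) (nm τ s u') : ℝ) ≤ 2 * rho * NN s)

lemma self_mem_Ball (s : ℕ) (u : W s) : u ∈ Ball τ s u := by
  unfold Ball
  rw [Finset.mem_filter]
  refine ⟨Finset.mem_univ _, ?_⟩
  rw [ham_self, Nat.cast_zero]
  unfold rho
  positivity

lemma sh_zero (z : ℕ → Bool) (N : ℕ) : sh (0 * N) z = z := by
  funext i
  unfold sh
  rw [zero_mul, zero_add]

lemma Gd.hid_init {x : Ω} (h : Gd τ f w φ x) (q : Ω → Bool) {s : ℕ} (h0 : φ s x = 0) :
    hid τ f w q s s x ≤ Real.log ((Ball τ s (w s x)).card : ℝ) +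
      Real.log (KK s) / (rho * NN s) * (ham (NN s) (pn f w x) (itin f q x) : ℝ) := by
  have hNp : (0:ℝ) < NN s := by exact_mod_cast NN_pos s
  have hr : 0 < rho := by unfold rho; norm_num
  have hlogK : 0 ≤ Real.log (KK s) := Real.log_natCast_nonneg _
  have hball : 0 ≤ Real.log ((Ball τ s (w s x)).card : ℝ) := Real.log_natCast_nonneg _
  by_cases hg : (ham (NN s) (pn f w x) (itin f q x) : ℝ) ≤ rho * NN s
  · have h1 : hid τ f w q s s x ≤ Real.log ((Ball τ s (w s x)).card : ℝ) := by
      unfold hid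
      apply Real.log_le_log
      · exact_mod_cast h.card_pos q le_rfl h0
      · have hsub : Lx τ f w q s s x ⊆ Ball τ s (w s x) := by
          intro u hu
          unfold Lx at hu
          rw [mem_Lst] at hu
          have h2 := hu 0 (by rw [Nat.div_self (NN_pos s)]; exact one_pos) (by
            show (ham (NN s) (sh (0 * NN s) (pn f w x)) (sh (0 * NN s) (itin f q x)) : ℝ)
              ≤ rho * NN s
            rw [sh_zero, sh_zero]; exact hg)
          rw [sh_zero, sh_zero] at h2
          unfold Ball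
          rw [Finset.mem_filter]
          refine ⟨Finset.mem_univ _, ?_⟩
          have h3 : ham (NN s) (nm τ s (w s x)) (itin f q x) =
              ham (NN s) (pn f w x) (itin f q x) := by
            apply ham_congr _ (fun _ _ => rfl)
            intro i hi
            exact (h.pn_eq h0 hi).symm
          have h4 := ham_triangle (NN s) (nm τ s (w s x)) (itin f q x) (nm τ s u)
          rw [h3, ham_comm (NN s) (itin f q x)] at h4
          have h5 : (ham (NN s) (nm τ s (w s x)) (nm τ s u) : ℝ) ≤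
              (ham (NN s) (pn f w x) (itin f q x) : ℝ) +
                (ham (NN s) (nm τ s u) (itin f q x) : ℝ) := by exact_mod_cast h4
          linarith
        exact_mod_cast Finset.card_le_card hsub
    have h2 : 0 ≤ Real.log (KK s) / (rho * NN s) *
        (ham (NN s) (pn f w x) (itin f q x) : ℝ) := by positivity
    linarith
  · rw [not_le] at hg
    have h1 := hid_le (τ := τ) (f := f) (w := w) q s s x
    have h2 : Real.log (KK s) ≤ Real.log (KK s) / (rho * NN s) *
        (ham (NN s) (pn f w x) (itin f q x) : ℝ) := by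
      calc Real.log (KK s) = Real.log (KK s) / (rho * NN s) * (rho * NN s) := by
            field_simp
        _ ≤ _ := mul_le_mul_of_nonneg_left hg.le (by positivity)
    linarith

/-- row sums -/
noncomputable def RS (τ : Tau) (s : ℕ) (l : ℝ) (u : W s) : ℝ :=
  ∑ u' : W s, Real.exp (-l * (ham (NN s) (nm τ s u) (nm τ s u') : ℝ))

lemma RS_pos (s : ℕ) (l : ℝ) (u : W s) : 0 < RS τ s l u := by
  unfold RS
  exact Finset.sum_pos (fun _ _ => Real.exp_pos _) ⟨u, Finset.mem_univ _⟩

lemma log_Ball_le {s : ℕ} {l : ℝ} (hl : 0 ≤ l) (u : W s) :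
    Real.log ((Ball τ s u).card : ℝ) ≤ Real.log (RS τ s l u) + l * (2 * rho * NN s) := by
  have hc : (0:ℝ) < (Ball τ s u).card := by
    exact_mod_cast Finset.card_pos.2 ⟨u, self_mem_Ball s u⟩
  have h1 : ((Ball τ s u).card : ℝ) * Real.exp (-l * (2 * rho * NN s)) ≤ RS τ s l u := by
    calc ((Ball τ s u).card : ℝ) * Real.exp (-l * (2 * rho * NN s))
        = ∑ u' ∈ Ball τ s u, Real.exp (-l * (2 * rho * NN s)) := by
          rw [Finset.sum_const, nsmul_eq_mul]
      _ ≤ ∑ u' ∈ Ball τ s u, Real.exp (-l * (ham (NN s) (nm τ s u) (nm τ s u') : ℝ)) := by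
          apply Finset.sum_le_sum
          intro u' hu'
          unfold Ball at hu'
          rw [Finset.mem_filter] at hu'
          apply Real.exp_le_exp.2
          nlinarith [hu'.2]
      _ ≤ RS τ s l u := by
          unfold RS
          exact Finset.sum_le_sum_of_subset_of_nonneg (Finset.subset_univ _)
            (fun _ _ _ => (Real.exp_pos _).le)
  have h2 := Real.log_le_log (mul_pos hc (Real.exp_pos _)) h1
  rw [Real.log_mul hc.ne' (Real.exp_pos _).ne', Real.log_exp] at h2
  linarith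

lemma sum_log_RS_le (s : ℕ) (l : ℝ) :
    ∑ u : W s, Real.log (RS τ s l u) ≤ KK s * Real.log (Z τ s l) := by
  have hK : (0:ℝ) < KK s := by exact_mod_cast KK_pos s
  have hZ : 0 < Z τ s l := lt_of_lt_of_le one_pos (Z_ge_one τ s l)
  have hZe : ∑ u : W s, RS τ s l u = KK s * Z τ s l := by
    unfold Z RS
    field_simp
  have h1 : ∀ u : W s, Real.log (RS τ s l u) ≤ Real.log (Z τ s l) + (RS τ s l u / Z τ s l - 1) := by
    intro u
    have h2 := Real.log_le_sub_one_of_pos (div_pos (RS_pos (τ := τ) s l u) hZ)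
    rw [Real.log_div (RS_pos s l u).ne' hZ.ne'] at h2
    linarith
  calc ∑ u : W s, Real.log (RS τ s l u)
      ≤ ∑ u : W s, (Real.log (Z τ s l) + (RS τ s l u / Z τ s l - 1)) :=
        Finset.sum_le_sum (fun u _ => h1 u)
    _ = KK s * Real.log (Z τ s l) + ((∑ u : W s, RS τ s l u) / Z τ s l - KK s) := by
        rw [Finset.sum_add_distrib, Finset.sum_sub_distrib, Finset.sum_div, Finset.sum_const,
          Finset.sum_const, Finset.card_univ, card_W, nsmul_eq_mul, nsmul_eq_mul, mul_one]
    _ = KK s * Real.log (Z τ s l) := by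
        rw [hZe]
        field_simp
        ring

lemma int_word [IsFiniteMeasure ν] (T : TowerMaps τ ν f w φ) (s : ℕ) (F : W s → ℝ) :
    ∫ x in {x | φ s x = 0}, F (w s x) ∂ν =
      (1 / ((KK s : ℝ) * NN s)) * ∑ u : W s, F u := by
  classical
  have hms : ∀ u : W s, MeasurableSet {x | w s x = u} := fun u =>
    T.w_meas s (measurableSet_singleton u)
  have h1 : ∀ x, F (w s x) = ∑ u : W s, indicator {x | w s x = u} (fun _ => F u) x := by
    intro x
    rw [Finset.sum_eq_single (w s x)]
    · rw [indicator_of_mem (show x ∈ {y | w s y = w s x} from rfl)]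
    · intro u _ hu
      exact indicator_of_notMem (fun h => hu (h : w s x = u).symm) _
    · intro h; exact absurd (Finset.mem_univ _) h
  simp_rw [h1]
  rw [integral_finsetSum _ (fun u _ => (integrable_const _).indicator (hms u)), Finset.mul_sum]
  apply Finset.sum_congr rfl
  intro u _
  rw [integral_indicator (hms u), Measure.restrict_restrict (hms u), setIntegral_const, smul_eq_mul]
  congr 1
  have h2 : {x | w s x = u} ∩ {x | φ s x = 0} = {x | w s x = u ∧ φ s x = 0} := rfl
  rw [h2]
  unfold Measure.real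
  rw [T.unif s u 0 (NN_pos s), ENNReal.toReal_ofReal (by positivity)]

lemma int_ham [IsProbabilityMeasure ν] (hf : MeasurePreserving f ν ν)
    (T : TowerMaps τ ν f w φ) {q : Ω → Bool} (hq : Measurable q)
    (hδ : ν {x | q x ≠ (show Bool from w 0 x)} ≤ ENNReal.ofReal (rho ^ 2)) (s : ℕ) :
    ∫ x in {x | φ s x = 0}, (ham (NN s) (pn f w x) (itin f q x) : ℝ) ∂ν ≤ rho ^ 2 := by
  classical
  have hw0 : Measurable (fun x => (show Bool from w 0 x)) :=
    (measurable_from_top (f := fun u : W 0 => (show Bool from u))).comp (T.w_meas 0)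
  set g : Ω → ℝ := fun x => if (show Bool from w 0 x) ≠ q x then (1:ℝ) else 0 with hg
  have hgm : Measurable g :=
    Measurable.ite (measurableSet_eq_fun hw0 hq).compl measurable_const measurable_const
  have h1 : ∀ x, (ham (NN s) (pn f w x) (itin f q x) : ℝ) =
      ∑ i ∈ Finset.range (NN s), g (f^[i] x) := by
    intro x
    rw [ham_eq_sum]
    push_cast
    rfl
  simp_rw [h1]
  rw [kac hf T s hgm 1 (by intro x; rw [hg]; dsimp only; split_ifs <;> simp)]
  have h2 : ∫ x, g x ∂ν = ν.real {x | (show Bool from w 0 x) ≠ q x} := by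
    have h3 : g = indicator {x | (show Bool from w 0 x) ≠ q x} (fun _ => (1:ℝ)) := by
      funext x
      rw [hg]
      dsimp only
      by_cases h : (show Bool from w 0 x) ≠ q x
      · rw [if_pos h, indicator_of_mem (show x ∈ {x | (show Bool from w 0 x) ≠ q x} from h)]
      · rw [if_neg h, indicator_of_notMem (show x ∉ {x | (show Bool from w 0 x) ≠ q x} from h)]
    have hms : MeasurableSet {x | (show Bool from w 0 x) ≠ q x} :=
      (measurableSet_eq_fun hw0 hq).compl
    rw [h3, integral_indicator hms, setIntegral_const, smul_eq_mul, mul_one]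
  rw [h2]
  unfold Measure.real
  apply ENNReal.toReal_le_of_le_ofReal (by positivity)
  refine le_trans (measure_mono ?_) hδ
  intro x hx
  exact Ne.symm hx

lemma II_init [IsProbabilityMeasure ν] (hf : MeasurePreserving f ν ν)
    (T : TowerMaps τ ν f w φ) {q : Ω → Bool} (hq : Measurable q)
    (hδ : ν {x | q x ≠ (show Bool from w 0 x)} ≤ ENNReal.ofReal (rho ^ 2)) (s : ℕ)
    (hζ : Real.log (Z τ s (lam s)) ≤ 0.01 * Real.log (KK s)) :
    II τ ν f w φ q s s ≤ (29 / 1000) * Real.log (KK s) * (1 / (NN s : ℝ)) := by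
  have hm := meas_hid (τ := τ) hf.measurable T.w_meas hq s
  have hNp : (0:ℝ) < NN s := by exact_mod_cast NN_pos s
  have hKp : (0:ℝ) < KK s := by exact_mod_cast KK_pos s
  have hr : 0 < rho := by unfold rho; norm_num
  have hlogK : 0 ≤ Real.log (KK s) := Real.log_natCast_nonneg _
  set c : ℝ := Real.log (KK s) / (rho * NN s) with hc
  have hc0 : 0 ≤ c := by positivity
  have hi1 : Integrable (fun x => Real.log ((Ball τ s (w s x)).card : ℝ))
      (ν.restrict {x | φ s x = 0}) := by
    have hmm : Measurable (fun x => Real.log ((Ball τ s (w s x)).card : ℝ)) :=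
      (measurable_from_top (f := fun u : W s => Real.log ((Ball τ s u).card : ℝ))).comp
        (T.w_meas s)
    apply integrable_bdd hmm (Real.log (KK s))
    intro x
    rw [abs_of_nonneg (Real.log_natCast_nonneg _)]
    apply Real.log_le_log
    · exact_mod_cast Finset.card_pos.2 ⟨_, self_mem_Ball s (w s x)⟩
    · rw [← card_W s]
      exact_mod_cast Finset.card_le_univ _
  have hi2 : Integrable (fun x => c * (ham (NN s) (pn f w x) (itin f q x) : ℝ))
      (ν.restrict {x | φ s x = 0}) := by
    apply Integrable.const_mul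
    apply integrable_bdd (meas_ham (meas_pn hf.measurable T.w_meas) (meas_itin hf.measurable hq) _)
      (NN s : ℝ)
    intro x
    rw [abs_of_nonneg (Nat.cast_nonneg _)]
    exact_mod_cast ham_le _ _ _
  have h1 : II τ ν f w φ q s s ≤ ∫ x in {x | φ s x = 0},
      (Real.log ((Ball τ s (w s x)).card : ℝ) +
        c * (ham (NN s) (pn f w x) (itin f q x) : ℝ)) ∂ν := by
    unfold II
    apply integral_mono_ae (integrable_bdd (hm s) _ (abs_hid_le q s s)) (hi1.add hi2)
    rw [Filter.EventuallyLE, ae_restrict_iff' (meas_phi T s 0)]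
    filter_upwards [ae_Gd hf T] with x hx h0
    exact hx.hid_init q h0
  rw [integral_add hi1 hi2, integral_const_mul,
    int_word T s (fun u => Real.log ((Ball τ s u).card : ℝ))] at h1
  have h2 := int_ham hf T hq hδ s
  have h3 : ∑ u : W s, Real.log ((Ball τ s u).card : ℝ) ≤
      KK s * (0.01 * Real.log (KK s)) + KK s * (lam s * (2 * rho * NN s)) := by
    have hlam : 0 ≤ lam s := by
      unfold lam hh
      positivity
    calc ∑ u : W s, Real.log ((Ball τ s u).card : ℝ)
        ≤ ∑ u : W s, (Real.log (RS τ s (lam s) u) + lam s * (2 * rho * NN s)) :=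
          Finset.sum_le_sum (fun u _ => log_Ball_le hlam u)
      _ = (∑ u : W s, Real.log (RS τ s (lam s) u)) + KK s * (lam s * (2 * rho * NN s)) := by
          rw [Finset.sum_add_distrib, Finset.sum_const, Finset.card_univ, card_W, nsmul_eq_mul]
      _ ≤ KK s * Real.log (Z τ s (lam s)) + KK s * (lam s * (2 * rho * NN s)) :=
          add_le_add (sum_log_RS_le s _) le_rfl
      _ ≤ _ := by
          apply add_le_add _ le_rfl
          exact mul_le_mul_of_nonneg_left hζ hKp.le
  have h4 : lam s * (2 * rho * NN s) = 18 * rho * Real.log (KK s) := by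
    unfold lam
    rw [← hh_mul s]
    ring
  rw [h4] at h3
  have h5 : 1 / ((KK s : ℝ) * NN s) * ∑ u : W s, Real.log ((Ball τ s u).card : ℝ) ≤
      (28 / 1000) * Real.log (KK s) * (1 / (NN s : ℝ)) := by
    calc 1 / ((KK s : ℝ) * NN s) * ∑ u : W s, Real.log ((Ball τ s u).card : ℝ)
        ≤ 1 / ((KK s : ℝ) * NN s) * (KK s * (0.01 * Real.log (KK s)) +
          KK s * (18 * rho * Real.log (KK s))) := mul_le_mul_of_nonneg_left h3 (by positivity)
      _ = _ := by
          unfold rho
          field_simp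
          ring
  have h6 : c * ∫ x in {x | φ s x = 0}, (ham (NN s) (pn f w x) (itin f q x) : ℝ) ∂ν ≤
      (1 / 1000) * Real.log (KK s) * (1 / (NN s : ℝ)) := by
    calc c * ∫ x in {x | φ s x = 0}, (ham (NN s) (pn f w x) (itin f q x) : ℝ) ∂ν
        ≤ c * rho ^ 2 := mul_le_mul_of_nonneg_left h2 hc0
      _ = _ := by
          rw [hc]
          unfold rho
          field_simp
  have h7 : (29 / 1000) * Real.log (KK s) * (1 / (NN s : ℝ)) =
    (28 / 1000) * Real.log (KK s) * (1 / (NN s : ℝ)) +
      (1 / 1000) * Real.log (KK s) * (1 / (NN s : ℝ)) := by ring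
  rw [h7]
  linarith

lemma numP : NumP mm NN hh where
  hm _ := rfl
  hN0 := rfl
  hN _ := rfl
  hh0 := Par.hh_zero
  hh s := Par.hh_succ s

/-- THEOREM POT (from the consequence of (B)) -/
theorem stPot_of_zeta (hZ : StZeta) : StPot := by
  intro τ hB hP1 Ω _ ν _ f w φ q hf T hq hδ St hSt S0 hE
  refine numP.pot_num St hSt (fun s0 s => NN s0 * II τ ν f w φ q s0 s) S0 ?_ ?_ ?_ ?_
  · intro s0 s _
    exact mul_nonneg (Nat.cast_nonneg _) (II_nonneg q s0 s)
  · intro s0 _
    have h1 := II_init hf T hq hδ s0 (hZ τ hB s0)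
    have hNp : (0:ℝ) < NN s0 := by exact_mod_cast NN_pos s0
    have hlogK : 0 ≤ Real.log (KK s0) := Real.log_natCast_nonneg _
    have h2 := hh_mul s0
    rw [mul_comm] at h2
    rw [h2]
    calc (NN s0 : ℝ) * II τ ν f w φ q s0 s0
        ≤ NN s0 * ((29 / 1000) * Real.log (KK s0) * (1 / (NN s0 : ℝ))) :=
          mul_le_mul_of_nonneg_left h1 hNp.le
      _ = (29 / 1000) * Real.log (KK s0) := by field_simp
      _ ≤ 1 / 8 * Real.log (KK s0) := by nlinarith
  · intro s0 s _ hs
    have h1 := II_rec1 hP1 hf T hq hs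
    have hNp : (0:ℝ) < NN s0 := by exact_mod_cast NN_pos s0
    have hNp1 : (0:ℝ) < NN (s + 1) := by exact_mod_cast NN_pos (s + 1)
    calc (NN s0 : ℝ) * II τ ν f w φ q s0 (s + 1)
        ≤ NN s0 * (II τ ν f w φ q s0 s + (4 * Real.log (NN (s + 1)) + 4) *
          (1 / (NN (s + 1) : ℝ))) := mul_le_mul_of_nonneg_left h1 hNp.le
      _ = NN s0 * II τ ν f w φ q s0 s + (4 * Real.log (NN (s + 1)) + 4) /
          ((NN (s + 1) : ℝ) / NN s0) := by
          field_simp
  · intro s0 s hS hs hst
    have h1 := II_rec2 hP1 hf T hq hs (hE s0 s hS hs hst)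
    have hNp : (0:ℝ) < NN s0 := by exact_mod_cast NN_pos s0
    have hNps : (0:ℝ) < NN s := by exact_mod_cast NN_pos s
    have hmp : (0:ℝ) < mm s := by exact_mod_cast mm_pos s
    have hNp1 : (0:ℝ) < NN (s + 1) := by exact_mod_cast NN_pos (s + 1)
    have hM : ((NN (s + 1) / NN s0 : ℕ) : ℝ) = (NN (s + 1) : ℝ) / NN s0 :=
      Nat.cast_div (NN_dvd (by omega)) hNp.ne'
    have hlog : Real.log (KK s) = hh s * NN s := (hh_mul s).symm
    have hNs : (NN (s + 1) : ℝ) = mm s * NN s := by rw [NN_succ]; push_cast; ring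
    calc (NN s0 : ℝ) * II τ ν f w φ q s0 (s + 1)
        ≤ NN s0 * (II τ ν f w φ q s0 s +
      ((4 * Real.log (NN (s + 1)) + 4) + 3 * ((NN (s + 1) / NN s0 : ℕ) : ℝ)
        - 9 / 10 * Real.log (KK s)) * (1 / (NN (s + 1) : ℝ))) :=
          mul_le_mul_of_nonneg_left h1 hNp.le
      _ = NN s0 * II τ ν f w φ q s0 s + (4 * Real.log (NN (s + 1)) + 4) /
          ((NN (s + 1) : ℝ) / NN s0) + 3 - 9 / 10 * (Real.log (KK s) / NN (s + 1)) * NN s0 := by
          rw [hM]
          field_simp
          ring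
      _ = _ := by
          rw [hlog, hNs]
          field_simp
          ring

end Crest.Agent.R133.Pot
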