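import Mathlib

set_option autoImplicit false

namespace Crest.Agent.R133.Pot

open Filter Topology Finset

/-- numeric end of POT: parameters. -/
structure NumP (m N : ℕ → ℕ) (h : ℕ → ℝ) : Prop where
  hm : ∀ s, m s = (2 * (Nat.sqrt s + 20)) ^ 2
  hN0 : N 0 = 1
  hN : ∀ s, N (s + 1) = m s * N s
  hh0 : h 0 = Real.log 2
  hh : ∀ s, h (s + 1) = (1 - 1 / (m s : ℝ)) * h s

variable {m N : ℕ → ℕ} {h : ℕ → ℝ}

lemma NumP.m_ge (P : NumP m N h) (s : ℕ) : 1600 ≤ m s := by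
  rw [P.hm s]
  have : 40 ≤ 2 * (Nat.sqrt s + 20) := by omega
  calc 1600 = 40 ^ 2 := by norm_num
    _ ≤ _ := Nat.pow_le_pow_left this 2

lemma NumP.m_le (P : NumP m N h) (s : ℕ) : m s ≤ 8 * (s + 400) := by
  rw [P.hm s]
  have h1 : Nat.sqrt s * Nat.sqrt s ≤ s := Nat.sqrt_le s
  have h2 : (Nat.sqrt s : ℤ) * Nat.sqrt s ≤ s := by exact_mod_cast h1
  have : ((2 * (Nat.sqrt s + 20)) ^ 2 : ℤ) ≤ 8 * (s + 400) := by
    nlinarith [sq_nonneg ((Nat.sqrt s : ℤ) - 20)]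
  exact_mod_cast this

lemma NumP.m_ge2 (P : NumP m N h) (s : ℕ) : s + 2 ≤ m s := by
  rw [P.hm s]
  have h1 : s < Nat.succ (Nat.sqrt s) * Nat.succ (Nat.sqrt s) := Nat.lt_succ_sqrt s
  have h2 : s < (Nat.sqrt s + 1) * (Nat.sqrt s + 1) := h1
  nlinarith [h2]

lemma NumP.N_pos (P : NumP m N h) (s : ℕ) : 1 ≤ N s := by
  induction s with
  | zero => rw [P.hN0]
  | succ s ih =>
      rw [P.hN]
      have := P.m_ge s
      nlinarith

lemma NumP.N_ge (P : NumP m N h) (s : ℕ) : 1600 ^ s ≤ N s := by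
  induction s with
  | zero => simp [P.hN0]
  | succ s ih =>
      rw [P.hN, pow_succ]
      have := P.m_ge s
      nlinarith [Nat.mul_le_mul ih this]

lemma NumP.N_mono (P : NumP m N h) {a b : ℕ} (hab : a ≤ b) : N a ≤ N b := by
  induction b, hab using Nat.le_induction with
  | base => exact le_rfl
  | succ n _ ih =>
      rw [P.hN]
      have := P.m_ge n
      nlinarith [P.N_pos n]

lemma NumP.m_posR (P : NumP m N h) (s : ℕ) : (0:ℝ) < m s := by
  have := P.m_ge s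
  exact_mod_cast (by omega : 0 < m s)

lemma NumP.kap_le (P : NumP m N h) (s : ℕ) : 1 / (m s : ℝ) ≤ 1 / 1600 := by
  have h1 : (1600:ℝ) ≤ m s := by exact_mod_cast P.m_ge s
  exact one_div_le_one_div_of_le (by norm_num) h1

lemma NumP.kap_pos (P : NumP m N h) (s : ℕ) : 0 < 1 / (m s : ℝ) :=
  one_div_pos.2 (P.m_posR s)

lemma NumP.h_pos (P : NumP m N h) (s : ℕ) : 0 < h s := by
  induction s with
  | zero => rw [P.hh0]; exact Real.log_pos (by norm_num)
  | succ s ih =>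
      rw [P.hh]
      have := P.kap_le s
      apply mul_pos _ ih
      linarith

lemma NumP.h_anti (P : NumP m N h) (s : ℕ) : h (s + 1) ≤ h s := by
  rw [P.hh]
  have h1 := P.kap_pos s
  have h2 := P.h_pos s
  nlinarith

lemma NumP.h_anti' (P : NumP m N h) {a b : ℕ} (hab : a ≤ b) : h b ≤ h a :=
  antitone_nat_of_succ_le P.h_anti hab

/-- `h_s (s+1)` is nondecreasing -/
lemma NumP.h_ge (P : NumP m N h) (s : ℕ) : Real.log 2 / (s + 1) ≤ h s := by
  rw [div_le_iff₀ (by positivity)]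
  induction s with
  | zero => rw [P.hh0]; simp
  | succ s ih =>
      rw [P.hh]
      have h1 : ((s:ℝ) + 2) ≤ m s := by exact_mod_cast P.m_ge2 s
      have h2 : 1 / (m s : ℝ) ≤ 1 / ((s:ℝ) + 2) := one_div_le_one_div_of_le (by positivity) h1
      have h3 : (1 - 1 / (m s : ℝ)) * ((s:ℝ) + 2) ≥ s + 1 := by
        have : (1 - 1 / (m s : ℝ)) * ((s:ℝ) + 2) ≥ (1 - 1 / ((s:ℝ) + 2)) * ((s:ℝ) + 2) := by
          apply mul_le_mul_of_nonneg_right _ (by positivity)
          linarith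
        have h4 : (1 - 1 / ((s:ℝ) + 2)) * ((s:ℝ) + 2) = s + 1 := by
          field_simp
          ring
        linarith
      have h5 := P.h_pos s
      calc Real.log 2 ≤ h s * (s + 1) := ih
        _ ≤ h s * ((1 - 1 / (m s : ℝ)) * ((s:ℝ) + 2)) := mul_le_mul_of_nonneg_left h3 h5.le
        _ = (1 - 1 / (m s : ℝ)) * h s * (((s + 1 : ℕ) : ℝ) + 1) := by push_cast; ring

lemma NumP.h8_step (P : NumP m N h) (s : ℕ) :
    h (s + 1) ^ 8 * ((s:ℝ) + 1 + 400) ≤ h s ^ 8 * ((s:ℝ) + 400) := by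
  rw [P.hh, mul_pow]
  have hu : (0:ℝ) < (s:ℝ) + 400 := by positivity
  have h1 : (m s : ℝ) ≤ 8 * ((s:ℝ) + 400) := by exact_mod_cast P.m_le s
  have h2 : 1 / (8 * ((s:ℝ) + 400)) ≤ 1 / (m s : ℝ) := one_div_le_one_div_of_le (P.m_posR s) h1
  have h3 : (1 - 1 / (m s : ℝ)) ≤ Real.exp (-(1 / (8 * ((s:ℝ) + 400)))) := by
    have := Real.add_one_le_exp (-(1 / (8 * ((s:ℝ) + 400))))
    linarith
  have h0 : 0 ≤ (1 - 1 / (m s : ℝ)) := by have := P.kap_le s; linarith
  have h4 : (1 - 1 / (m s : ℝ)) ^ 8 ≤ Real.exp (-(1 / ((s:ℝ) + 400))) := by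
    calc (1 - 1 / (m s : ℝ)) ^ 8 ≤ Real.exp (-(1 / (8 * ((s:ℝ) + 400)))) ^ 8 :=
          pow_le_pow_left₀ h0 h3 8
      _ = Real.exp (-(1 / ((s:ℝ) + 400))) := by
          rw [← Real.exp_nat_mul]
          congr 1
          field_simp
          norm_num
  have h5 : Real.exp (-(1 / ((s:ℝ) + 400))) * ((s:ℝ) + 1 + 400) ≤ (s:ℝ) + 400 := by
    have h6 : 1 / ((s:ℝ) + 400) + 1 ≤ Real.exp (1 / ((s:ℝ) + 400)) := Real.add_one_le_exp _
    have h7 : (s:ℝ) + 1 + 400 = ((s:ℝ) + 400) * (1 / ((s:ℝ) + 400) + 1) := by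
      field_simp
      ring
    rw [h7]
    have h8 : Real.exp (-(1 / ((s:ℝ) + 400))) * Real.exp (1 / ((s:ℝ) + 400)) = 1 := by
      rw [← Real.exp_add]; simp
    calc Real.exp (-(1 / ((s:ℝ) + 400))) * (((s:ℝ) + 400) * (1 / ((s:ℝ) + 400) + 1))
        = ((s:ℝ) + 400) * (Real.exp (-(1 / ((s:ℝ) + 400))) * (1 / ((s:ℝ) + 400) + 1)) := by ring
      _ ≤ ((s:ℝ) + 400) * (Real.exp (-(1 / ((s:ℝ) + 400))) * Real.exp (1 / ((s:ℝ) + 400))) := by
          apply mul_le_mul_of_nonneg_left _ hu.le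
          apply mul_le_mul_of_nonneg_left h6 (Real.exp_pos _).le
      _ = (s:ℝ) + 400 := by rw [h8]; ring
  have h9 : 0 < h s ^ 8 := pow_pos (P.h_pos s) 8
  calc (1 - 1 / (m s : ℝ)) ^ 8 * h s ^ 8 * ((s:ℝ) + 1 + 400)
      = h s ^ 8 * ((1 - 1 / (m s : ℝ)) ^ 8 * ((s:ℝ) + 1 + 400)) := by ring
    _ ≤ h s ^ 8 * (Real.exp (-(1 / ((s:ℝ) + 400))) * ((s:ℝ) + 1 + 400)) := by
        apply mul_le_mul_of_nonneg_left _ h9.le
        apply mul_le_mul_of_nonneg_right h4 (by positivity)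
    _ ≤ h s ^ 8 * ((s:ℝ) + 400) := mul_le_mul_of_nonneg_left h5 h9.le

lemma NumP.h8 (P : NumP m N h) {a b : ℕ} (hab : a ≤ b) :
    h b ^ 8 * ((b:ℝ) + 400) ≤ h a ^ 8 * ((a:ℝ) + 400) := by
  induction b, hab using Nat.le_induction with
  | base => exact le_rfl
  | succ n _ ih =>
      refine le_trans ?_ ih
      have := P.h8_step n
      push_cast
      linarith

lemma NumP.h_half (P : NumP m N h) (s : ℕ) : h (256 * (s + 400)) ≤ h s / 2 := by
  have hab : s ≤ 256 * (s + 400) := by omega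
  have h1 := P.h8 hab
  push_cast at h1
  have h2 : (0:ℝ) < (s:ℝ) + 400 := by positivity
  have h3 := P.h_pos s
  have h4 := P.h_pos (256 * (s + 400))
  have h5 : h (256 * (s + 400)) ^ 8 * (256 * ((s:ℝ) + 400)) ≤ h s ^ 8 * ((s:ℝ) + 400) := by
    refine le_trans ?_ h1
    apply mul_le_mul_of_nonneg_left _ (pow_pos h4 8).le
    linarith
  have h6 : h (256 * (s + 400)) ^ 8 ≤ (h s / 2) ^ 8 := by
    have h7 : h (256 * (s + 400)) ^ 8 * 256 ≤ h s ^ 8 := by
      have : h (256 * (s + 400)) ^ 8 * 256 * ((s:ℝ) + 400) ≤ h s ^ 8 * ((s:ℝ) + 400) := by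
        calc _ = h (256 * (s + 400)) ^ 8 * (256 * ((s:ℝ) + 400)) := by ring
          _ ≤ _ := h5
      exact le_of_mul_le_mul_right this h2
    rw [div_pow]
    rw [le_div_iff₀ (by norm_num)]
    calc _ = h (256 * (s + 400)) ^ 8 * 256 := by norm_num
      _ ≤ _ := h7
  exact le_of_pow_le_pow_left₀ (by norm_num) (by positivity) h6

/-- growth : eventually `N h` dominates. -/
lemma NumP.eventually_big (P : NumP m N h) :
    ∀ᶠ s : ℕ in atTop, 256 * ((s:ℝ) + 400) * (4 * Real.log (N s) + 11) < (1/4) * (N s * h s) := by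
  have hNt : Tendsto (fun s => (N s : ℝ)) atTop atTop := by
    have h1 : Tendsto (fun s : ℕ => (1600:ℝ) ^ s) atTop atTop :=
      tendsto_pow_atTop_atTop_of_one_lt (by norm_num)
    refine tendsto_atTop_mono (fun s => ?_) h1
    exact_mod_cast P.N_ge s
  have h2 : Tendsto (fun s => (N s : ℝ) ^ (1/4 : ℝ)) atTop atTop :=
    (tendsto_rpow_atTop (by norm_num : (0:ℝ) < 1/4)).comp hNt
  filter_upwards [h2.eventually_gt_atTop (20000000:ℝ)] with s hs
  set x : ℝ := (N s : ℝ) ^ (1/4 : ℝ) with hx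
  have hN1 : (1:ℝ) ≤ N s := by exact_mod_cast P.N_pos s
  have hx4 : x ^ 4 = N s := by
    rw [hx, ← Real.rpow_natCast, ← Real.rpow_mul (by linarith)]
    norm_num
  have hxpos : 0 < x := by linarith
  have hlog : Real.log (N s) ≤ 4 * x := by
    have := Real.log_le_rpow_div (by linarith : (0:ℝ) ≤ N s) (by norm_num : (0:ℝ) < 1/4)
    rw [← hx] at this
    linarith
  have hsx : (s:ℝ) + 1 ≤ x := by
    have h3 : ((s:ℝ) + 1) ^ 4 ≤ x ^ 4 := by
      rw [hx4]
      have h4 : (s + 1) ^ 4 ≤ 1600 ^ s := by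
        calc (s + 1) ^ 4 ≤ (2 ^ s) ^ 4 := Nat.pow_le_pow_left (Nat.lt_two_pow_self) 4
          _ = 16 ^ s := by rw [← pow_mul, mul_comm, pow_mul]; norm_num
          _ ≤ 1600 ^ s := Nat.pow_le_pow_left (by norm_num) s
      exact_mod_cast h4.trans (P.N_ge s)
    exact le_of_pow_le_pow_left₀ (by norm_num) hxpos.le h3
  have hh1 := P.h_ge s
  have hl2 : (0.69:ℝ) < Real.log 2 := by have := Real.log_two_gt_d9; linarith
  have hh2 : 0.69 / x ≤ h s := by
    refine le_trans ?_ hh1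
    have : (0.69:ℝ) / x ≤ 0.69 / ((s:ℝ) + 1) :=
      div_le_div_of_nonneg_left (by norm_num) (by positivity) hsx
    refine this.trans ?_
    exact div_le_div_of_nonneg_right hl2.le (by positivity)
  have h5 : 0.69 * x ^ 3 ≤ N s * h s := by
    have : (N s : ℝ) * (0.69 / x) = 0.69 * x ^ 3 := by
      rw [← hx4]; field_simp
    rw [← this]
    exact mul_le_mul_of_nonneg_left hh2 (by linarith)
  have h6 : 256 * ((s:ℝ) + 400) * (4 * Real.log (N s) + 11) ≤ 256 * (400 * x) * (27 * x) := by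
    have ha : (s:ℝ) + 400 ≤ 400 * x := by
      have h7 : (0:ℝ) ≤ s := Nat.cast_nonneg s
      nlinarith
    have hb : 4 * Real.log (N s) + 11 ≤ 27 * x := by nlinarith
    have hc : 0 ≤ 4 * Real.log (N s) + 11 := by
      have := Real.log_nonneg hN1
      linarith
    have hd : 256 * ((s:ℝ) + 400) ≤ 256 * (400 * x) := by linarith
    calc 256 * ((s:ℝ) + 400) * (4 * Real.log (N s) + 11)
        ≤ 256 * (400 * x) * (4 * Real.log (N s) + 11) := mul_le_mul_of_nonneg_right hd hc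
      _ ≤ 256 * (400 * x) * (27 * x) := mul_le_mul_of_nonneg_left hb (by positivity)
  have h7 : 256 * (400 * x) * (27 * x) < (1/4) * (0.69 * x ^ 3) := by
    have : x ^ 3 = x * (x * x) := by ring
    rw [this]
    have hx2 : 0 < x * x := by positivity
    nlinarith
  calc _ ≤ 256 * (400 * x) * (27 * x) := h6
    _ < (1/4) * (0.69 * x ^ 3) := h7
    _ ≤ (1/4) * (N s * h s) := by linarith

/-- THE NUMERIC CONTRADICTION. -/
theorem NumP.pot_num (P : NumP m N h) (St : Set ℕ)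
    (hSt : Summable (Stᶜ.indicator (fun s => 1 / (m s : ℝ))))
    (A : ℕ → ℕ → ℝ) (S0 : ℕ)
    (hA0 : ∀ s0, ∀ s, s0 ≤ s → 0 ≤ A s0 s)
    (hA1 : ∀ s0, S0 ≤ s0 → A s0 s0 ≤ (1/8) * (N s0 * h s0))
    (hA2 : ∀ s0 s, S0 ≤ s0 → s0 ≤ s → A s0 (s + 1) ≤ A s0 s +
      (4 * Real.log (N (s + 1)) + 4) / (N (s + 1) / N s0))
    (hA3 : ∀ s0 s, S0 ≤ s0 → s0 ≤ s → s ∈ St → A s0 (s + 1) ≤ A s0 s
      - (9/10) * (1 / (m s : ℝ)) * h s * N s0 + 3 +
      (4 * Real.log (N (s + 1)) + 4) / (N (s + 1) / N s0)) : False := by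
  classical
  set g : ℕ → ℝ := Stᶜ.indicator (fun s => 1 / (m s : ℝ)) with hg
  have hg0 : ∀ s, 0 ≤ g s := by
    intro s
    rw [hg]
    exact Set.indicator_nonneg (fun s _ => (P.kap_pos s).le) s
  -- tail of the sum over unstable stages
  have htail : ∀ᶠ s0 : ℕ in atTop, ∀ b, ∑ s ∈ Finset.Ico s0 b, g s ≤ 1 / 20 := by
    have h1 : Tendsto (fun n => ∑ i ∈ Finset.range n, g i) atTop (𝓝 (∑' i, g i)) :=
      hSt.hasSum.tendsto_sum_nat
    have h2 : ∀ᶠ n : ℕ in atTop, (∑' i, g i) - 1/20 < ∑ i ∈ Finset.range n, g i :=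
      h1.eventually_const_lt (by linarith)
    filter_upwards [h2] with s0 hs0 b
    rcases le_or_gt s0 b with hb | hb
    · rw [Finset.sum_Ico_eq_sub _ hb]
      have h3 : ∑ i ∈ Finset.range b, g i ≤ ∑' i, g i := hSt.sum_le_tsum _ (fun i _ => hg0 i)
      linarith
    · rw [Finset.Ico_eq_empty (by omega)]
      norm_num
  obtain ⟨s0, ⟨hs1, hs2⟩, hs3⟩ := ((P.eventually_big.and htail).and
    (eventually_ge_atTop S0)).exists
  have hN0 : (1:ℝ) ≤ N s0 := by exact_mod_cast P.N_pos s0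
  have hlog0 : 0 ≤ Real.log (N s0) := Real.log_nonneg hN0
  have herr : ∀ s, s0 ≤ s → (4 * Real.log (N (s + 1)) + 4) / ((N (s + 1) : ℝ) / N s0)
      ≤ 4 * Real.log (N s0) + 8 := by
    intro s hs
    set M : ℝ := (N (s + 1) : ℝ) / N s0 with hM
    have hM1 : 1 ≤ M := by
      rw [hM, one_le_div (by linarith)]
      exact_mod_cast P.N_mono (by omega : s0 ≤ s + 1)
    have hNM : (N (s + 1) : ℝ) = N s0 * M := by
      rw [hM]; field_simp
    have hlogM : Real.log M ≤ M := (Real.log_le_sub_one_of_pos (by linarith)).trans (by linarith)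
    rw [div_le_iff₀ (by linarith), hNM, Real.log_mul (by linarith) (by linarith)]
    nlinarith
  have hstep : ∀ s, s0 ≤ s → A s0 (s + 1) ≤ A s0 s
      - (9/10) * N s0 * ((h s - h (s + 1)) - g s * h s0) + (4 * Real.log (N s0) + 11) := by
    intro s hs
    have hk : 1 / (m s : ℝ) * h s = h s - h (s + 1) := by rw [P.hh]; ring
    have hhs := P.h_pos s
    have hhs0 := P.h_anti' hs
    by_cases hst : s ∈ St
    · have h1 := hA3 s0 s hs3 hs hst
      have h2 := herr s hs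
      have h3 : g s = 0 := by rw [hg]; simp [hst]
      rw [h3]
      have h4 : (9/10) * (1 / (m s : ℝ)) * h s * N s0 = (9/10) * N s0 * (h s - h (s + 1)) := by
        rw [← hk]; ring
      rw [h4] at h1
      linarith
    · have h1 := hA2 s0 s hs3 hs
      have h2 := herr s hs
      have h3 : g s = 1 / (m s : ℝ) := by rw [hg]; simp [hst]
      rw [h3, ← hk]
      have h5 : 1 / (m s : ℝ) * h s - 1 / (m s : ℝ) * h s0 ≤ 0 := by
        have := P.kap_pos s
        nlinarith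
      have h6 : (9/10) * (N s0 : ℝ) * (1 / (m s : ℝ) * h s - 1 / (m s : ℝ) * h s0) ≤ 0 := by
        apply mul_nonpos_of_nonneg_of_nonpos (by linarith) h5
      linarith
  have hsum : ∀ b, s0 ≤ b → A s0 b ≤ A s0 s0
      - (9/10) * N s0 * ((h s0 - h b) - (∑ s ∈ Finset.Ico s0 b, g s) * h s0)
      + ((b:ℝ) - s0) * (4 * Real.log (N s0) + 11) := by
    intro b hb
    induction b, hb using Nat.le_induction with
    | base => simp
    | succ n hn ih =>
        have h1 := hstep n hn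
        rw [Finset.sum_Ico_succ_top hn]
        push_cast
        nlinarith
  have hb : s0 ≤ 256 * (s0 + 400) := by omega
  have hfin := hsum _ hb
  have h0 := hA0 s0 _ hb
  have h1 := hA1 s0 hs3
  have h2 := hs2 (256 * (s0 + 400))
  have h3 := P.h_half s0
  have h4 := P.h_pos s0
  have h5 : (9/10) * (N s0 : ℝ) * ((h s0 - h (256 * (s0 + 400))) -
      (∑ s ∈ Finset.Ico s0 (256 * (s0 + 400)), g s) * h s0) ≥ (9/10) * N s0 * ((9/20) * h s0) := by
    apply mul_le_mul_of_nonneg_left _ (by linarith)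
    nlinarith
  have h6 : (((256 * (s0 + 400) : ℕ) : ℝ) - s0) * (4 * Real.log (N s0) + 11) ≤
      256 * ((s0:ℝ) + 400) * (4 * Real.log (N s0) + 11) := by
    apply mul_le_mul_of_nonneg_right _ (by linarith)
    push_cast
    have : (0:ℝ) ≤ s0 := Nat.cast_nonneg s0
    linarith
  have h7 : 0 < (N s0 : ℝ) * h s0 := mul_pos (by linarith) h4
  nlinarith

end Crest.Agent.R133.Pot
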