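import Crest.Agent.R133.CombDefs

/-! # Row 133: tower maps, and the statement of THEOREM POT (section 4 of note 12067) -/

set_option autoImplicit false

open MeasureTheory Set

namespace Crest.Agent.R133

/-- TOWER MAPS `w_s : Ω → W s`, `φ_s : Ω → {0..N_s-1}` of a system `(Ω, ν, f)`
(all clauses a.e.; words and heights with respect to `τ`). -/
structure TowerMaps (τ : Tau) {Ω : Type*} [MeasurableSpace Ω] (ν : Measure Ω) (f : Ω → Ω)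
    (w : ∀ s, Ω → W s) (φ : ℕ → Ω → ℕ) : Prop where
  w_meas : ∀ s, Measurable (w s)
  φ_meas : ∀ s, Measurable (φ s)
  φ_lt : ∀ s, ∀ᵐ x ∂ν, φ s x < NN s
  /-- (T1) -/
  unif : ∀ s (u : W s) (i : ℕ), i < NN s →
    ν {x | w s x = u ∧ φ s x = i} = ENNReal.ofReal (1 / ((KK s : ℝ) * NN s))
  /-- (T2) -/
  φ_step : ∀ s, ∀ᵐ x ∂ν, φ s (f x) = (φ s x + 1) % NN s
  w_step : ∀ s, ∀ᵐ x ∂ν, φ s x + 1 < NN s → w s (f x) = w s x
  /-- (T3) -/
  φ_cons : ∀ s, ∀ᵐ x ∂ν, φ s x = φ (s + 1) x % NN s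
  w_cons : ∀ s, ∀ᵐ x ∂ν, w s x = blk τ s (w (s + 1) x) (φ (s + 1) x / NN s)

/-- the `q`-name of `x` (an infinite sequence; `Lst`, `Bd` at stage `s` read only `i < N_s`) -/
def itin {Ω : Type*} (f : Ω → Ω) (q : Ω → Bool) (x : Ω) : ℕ → Bool := fun i => q (f^[i] x)

/-- `Exc_{s0,s}`: at the beginning of an `(s+1)`-word, there is some `γ` such that
`(z,γ)` is bad and the true word belongs to the list of `(z,γ)`. -/
def Exc (τ : Tau) {Ω : Type*} (f : Ω → Ω) (w : ∀ s, Ω → W s) (φ : ℕ → Ω → ℕ) (q : Ω → Bool)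
    (s0 s : ℕ) : Set Ω :=
  {x | φ (s + 1) x = 0 ∧ ∃ γ : Set ℕ, Bd τ s0 s (itin f q x) γ ∧
    w (s + 1) x ∈ Lst τ s0 (s + 1) (itin f q x) γ}

/-- THEOREM POT as a Prop (proved in R133/Pot.lean).  `ε_b = 1/10`, `δ = ρ^2`;
the bound on `Exc` is an outer-measure bound, no measurability of `Exc` is needed. -/
def StPot : Prop :=
  ∀ (τ : Tau),
    (∀ s, Z τ (s + 1) (lam (s + 1)) ≤ 1 + 4 * Z τ s (lam (s + 1)) ^ (mm s) / KK s) →
    (∀ s0 s, s0 ≤ s → ∀ (z : ℕ → Bool) (γ : Set ℕ),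
      ((Lst τ s0 (s + 1) z γ).card : ℝ) ≤ 30 * prodLst τ s0 s z γ / KK s + 10 * NN (s + 1)) →
    ∀ (Ω : Type) [MeasurableSpace Ω] (ν : Measure Ω) [IsProbabilityMeasure ν] (f : Ω → Ω)
      (w : ∀ s, Ω → W s) (φ : ℕ → Ω → ℕ) (q : Ω → Bool),
      MeasurePreserving f ν ν → TowerMaps τ ν f w φ → Measurable q →
      ν {x | q x ≠ (show Bool from w 0 x)} ≤ ENNReal.ofReal (rho ^ 2) →
      ∀ St : Set ℕ, Summable (Stᶜ.indicator kap) →
      ∀ S0 : ℕ, (∀ s0 s, S0 ≤ s0 → s0 ≤ s → s ∈ St →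
        ν (Exc τ f w φ q s0 s) ≤ ENNReal.ofReal (1 / (10 * NN (s + 1)))) →
      False

end Crest.Agent.R133
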