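import Crest.Agent.R133.CombBasic
import Crest.Agent.R133.Tower
import Crest.Agent.R133.PotNum

/-! # Row 133, POT part 1: pointwise consequences of the tower maps -/

set_option autoImplicit false
set_option linter.unusedSectionVars false

open MeasureTheory Set

namespace Crest.Agent.R133.Pot

variable {τ : Tau} {Ω : Type*} [MeasurableSpace Ω] {ν : Measure Ω} {f : Ω → Ω}
  {w : ∀ s, Ω → W s} {φ : ℕ → Ω → ℕ}

/-- all tower clauses hold along the forward orbit -/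
def Gd (τ : Tau) (f : Ω → Ω) (w : ∀ s, Ω → W s) (φ : ℕ → Ω → ℕ) (x : Ω) : Prop :=
  ∀ s i, φ s (f^[i] x) < NN s ∧ φ s (f (f^[i] x)) = (φ s (f^[i] x) + 1) % NN s ∧
    (φ s (f^[i] x) + 1 < NN s → w s (f (f^[i] x)) = w s (f^[i] x)) ∧
    φ s (f^[i] x) = φ (s + 1) (f^[i] x) % NN s ∧
    w s (f^[i] x) = blk τ s (w (s + 1) (f^[i] x)) (φ (s + 1) (f^[i] x) / NN s)

lemma ae_iter (hf : MeasurePreserving f ν ν) {P : Ω → Prop} (h : ∀ᵐ x ∂ν, P x) (i : ℕ) :
    ∀ᵐ x ∂ν, P (f^[i] x) :=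
  (hf.iterate i).quasiMeasurePreserving.ae h

lemma ae_Gd (hf : MeasurePreserving f ν ν) (T : TowerMaps τ ν f w φ) :
    ∀ᵐ x ∂ν, Gd τ f w φ x := by
  unfold Gd
  rw [ae_all_iff]; intro s
  rw [ae_all_iff]; intro i
  filter_upwards [ae_iter hf (T.φ_lt s) i, ae_iter hf (T.φ_step s) i, ae_iter hf (T.w_step s) i,
    ae_iter hf (T.φ_cons s) i, ae_iter hf (T.w_cons s) i] with x h1 h2 h3 h4 h5
  exact ⟨h1, h2, h3, h4, h5⟩

lemma Gd.iter {x : Ω} (h : Gd τ f w φ x) (k : ℕ) : Gd τ f w φ (f^[k] x) := by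
  intro s i
  have := h s (i + k)
  rwa [Function.iterate_add_apply] at this

lemma Gd.lt {x : Ω} (h : Gd τ f w φ x) (s : ℕ) : φ s x < NN s := (h s 0).1

lemma Gd.phi {x : Ω} (h : Gd τ f w φ x) (s i : ℕ) :
    φ s (f^[i] x) = (φ s x + i) % NN s := by
  induction i with
  | zero => simp [Nat.mod_eq_of_lt (h.lt s)]
  | succ i ih =>
      rw [Function.iterate_succ_apply', (h s i).2.1, ih]
      simp [← add_assoc]

lemma Gd.phi0 {x : Ω} (h : Gd τ f w φ x) {s i : ℕ} (h0 : φ s x = 0) (hi : i < NN s) :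
    φ s (f^[i] x) = i := by
  rw [h.phi, h0, zero_add, Nat.mod_eq_of_lt hi]

lemma Gd.w0 {x : Ω} (h : Gd τ f w φ x) {s i : ℕ} (h0 : φ s x = 0) (hi : i < NN s) :
    w s (f^[i] x) = w s x := by
  induction i with
  | zero => rfl
  | succ i ih =>
      have h1 := ih (by omega)
      rw [Function.iterate_succ_apply', (h s i).2.2.1 (by rw [h.phi0 h0 (by omega)]; exact hi), h1]

lemma Gd.name {x : Ω} (h : Gd τ f w φ x) (s : ℕ) :
    (show Bool from w 0 x) = nm τ s (w s x) (φ s x) := by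
  induction s with
  | zero => rfl
  | succ s ih =>
      rw [ih, nm_succ]
      have h1 := (h s 0).2.2.2.1
      have h2 := (h s 0).2.2.2.2
      simp only [Function.iterate_zero, id_eq] at h1 h2
      rw [← h2, ← h1]

/-- the true name -/
def pn (f : Ω → Ω) (w : ∀ s, Ω → W s) (x : Ω) : ℕ → Bool :=
  itin f (fun y => (show Bool from w 0 y)) x

lemma Gd.pn_eq {x : Ω} (h : Gd τ f w φ x) {s i : ℕ} (h0 : φ s x = 0) (hi : i < NN s) :
    pn f w x i = nm τ s (w s x) i := by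
  have h1 := (h.iter i).name s
  rw [h.phi0 h0 hi, h.w0 h0 hi] at h1
  exact h1

lemma sh_itin (f : Ω → Ω) (q : Ω → Bool) (x : Ω) (a : ℕ) :
    sh a (itin f q x) = itin f q (f^[a] x) := by
  funext i
  unfold sh itin
  rw [add_comm a i, Function.iterate_add_apply]

lemma sh_pn (f : Ω → Ω) (w : ∀ s, Ω → W s) (x : Ω) (a : ℕ) :
    sh a (pn f w x) = pn f w (f^[a] x) := sh_itin f _ x a

/-- good letters -/
def gam (f : Ω → Ω) (w : ∀ s, Ω → W s) (q : Ω → Bool) (s0 : ℕ) (x : Ω) : Set ℕ :=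
  {l | (ham (NN s0) (sh (l * NN s0) (pn f w x)) (sh (l * NN s0) (itin f q x)) : ℝ)
    ≤ rho * NN s0}

lemma shS_gam (f : Ω → Ω) (w : ∀ s, Ω → W s) (q : Ω → Bool) {s0 s : ℕ} (hs : s0 ≤ s)
    (x : Ω) (j : ℕ) :
    shS (j * (NN s / NN s0)) (gam f w q s0 x) = gam f w q s0 (f^[j * NN s] x) := by
  ext l
  show (ham (NN s0) (sh ((j * (NN s / NN s0) + l) * NN s0) (pn f w x))
    (sh ((j * (NN s / NN s0) + l) * NN s0) (itin f q x)) : ℝ) ≤ rho * NN s0 ↔ _
  have h1 : (j * (NN s / NN s0) + l) * NN s0 = j * NN s + l * NN s0 := by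
    rw [add_mul, mul_assoc, NN_div_mul hs]
  rw [h1, ← sh_sh, ← sh_sh, sh_pn, sh_itin]
  rfl

/-- the list of the point -/
noncomputable def Lx (τ : Tau) (f : Ω → Ω) (w : ∀ s, Ω → W s) (q : Ω → Bool) (s0 s : ℕ) (x : Ω) :
    Finset (W s) := Lst τ s0 s (itin f q x) (gam f w q s0 x)

noncomputable def hid (τ : Tau) (f : Ω → Ω) (w : ∀ s, Ω → W s) (q : Ω → Bool) (s0 s : ℕ) (x : Ω) :
    ℝ := Real.log ((Lx τ f w q s0 s x).card : ℝ)

lemma hid_nonneg (q : Ω → Bool) (s0 s : ℕ) (x : Ω) : 0 ≤ hid τ f w q s0 s x := by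
  unfold hid
  exact Real.log_natCast_nonneg _

lemma hid_le (q : Ω → Bool) (s0 s : ℕ) (x : Ω) : hid τ f w q s0 s x ≤ Real.log (KK s) := by
  unfold hid
  rcases Nat.eq_zero_or_pos (Lx τ f w q s0 s x).card with h | h
  · rw [h]
    simp only [Nat.cast_zero, Real.log_zero]
    exact Real.log_natCast_nonneg _
  · apply Real.log_le_log (by exact_mod_cast h)
    rw [← card_W s]
    exact_mod_cast Finset.card_le_univ _

lemma Gd.mem {x : Ω} (h : Gd τ f w φ x) (q : Ω → Bool) {s0 s : ℕ} (hs : s0 ≤ s)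
    (h0 : φ s x = 0) : w s x ∈ Lx τ f w q s0 s x := by
  unfold Lx
  rw [mem_Lst]
  intro j hj hjg
  have h1 : ham (NN s0) (sh (j * NN s0) (nm τ s (w s x))) (sh (j * NN s0) (itin f q x)) =
      ham (NN s0) (sh (j * NN s0) (pn f w x)) (sh (j * NN s0) (itin f q x)) := by
    apply ham_congr _ (fun _ _ => rfl)
    intro i hi
    unfold sh
    refine (h.pn_eq h0 ?_).symm
    calc j * NN s0 + i < (j + 1) * NN s0 := by rw [add_mul]; omega
      _ ≤ NN s / NN s0 * NN s0 := Nat.mul_le_mul_right _ hj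
      _ = NN s := NN_div_mul hs
  rw [h1]
  exact hjg

lemma Gd.card_pos {x : Ω} (h : Gd τ f w φ x) (q : Ω → Bool) {s0 s : ℕ} (hs : s0 ≤ s)
    (h0 : φ s x = 0) : 1 ≤ (Lx τ f w q s0 s x).card :=
  Finset.card_pos.2 ⟨_, h.mem q hs h0⟩

/-- positions of the blocks -/
lemma Gd.phi_blk {x : Ω} (h : Gd τ f w φ x) {s j : ℕ} (h0 : φ (s + 1) x = 0) (hj : j < mm s) :
    φ s (f^[j * NN s] x) = 0 := by
  have h1 : j * NN s < NN (s + 1) := by
    rw [NN_succ]
    exact Nat.mul_lt_mul_of_pos_right hj (NN_pos s)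
  have h2 := (h.iter (j * NN s) s 0).2.2.2.1
  simp only [Function.iterate_zero, id_eq] at h2
  rw [h2, h.phi0 h0 h1, Nat.mul_mod_left]

lemma prodLst_eq (q : Ω → Bool) {s0 s : ℕ} (hs : s0 ≤ s) (x : Ω) :
    prodLst τ s0 s (itin f q x) (gam f w q s0 x) =
      ∏ j ∈ Finset.range (mm s), ((Lx τ f w q s0 s (f^[j * NN s] x)).card : ℝ) := by
  unfold prodLst
  apply Finset.prod_congr rfl
  intro j _
  rw [sh_itin, shS_gam f w q hs]
  rfl

lemma Gd.log_prodLst {x : Ω} (h : Gd τ f w φ x) (q : Ω → Bool) {s0 s : ℕ} (hs : s0 ≤ s)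
    (h0 : φ (s + 1) x = 0) :
    Real.log (prodLst τ s0 s (itin f q x) (gam f w q s0 x)) =
      ∑ j ∈ Finset.range (mm s), hid τ f w q s0 s (f^[j * NN s] x) := by
  rw [prodLst_eq q hs, Real.log_prod]
  · rfl
  · intro j hj
    rw [Finset.mem_range] at hj
    have := (h.iter (j * NN s)).card_pos q hs (h.phi_blk h0 hj)
    exact_mod_cast (by omega : (Lx τ f w q s0 s (f^[j * NN s] x)).card ≠ 0)

lemma Gd.prodLst_ge {x : Ω} (h : Gd τ f w φ x) (q : Ω → Bool) {s0 s : ℕ} (hs : s0 ≤ s)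
    (h0 : φ (s + 1) x = 0) :
    1 ≤ prodLst τ s0 s (itin f q x) (gam f w q s0 x) := by
  rw [prodLst_eq q hs]
  have : ∀ j ∈ Finset.range (mm s),
      (1:ℝ) ≤ ((Lx τ f w q s0 s (f^[j * NN s] x)).card : ℝ) := by
    intro j hj
    rw [Finset.mem_range] at hj
    exact_mod_cast (h.iter (j * NN s)).card_pos q hs (h.phi_blk h0 hj)
  calc (1:ℝ) = ∏ j ∈ Finset.range (mm s), (1:ℝ) := by simp
    _ ≤ _ := Finset.prod_le_prod (fun _ _ => zero_le_one) this

/-- (P1) as a hypothesis -/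
def P1 (τ : Tau) : Prop := ∀ s0 s, s0 ≤ s → ∀ (z : ℕ → Bool) (γ : Set ℕ),
      ((Lst τ s0 (s + 1) z γ).card : ℝ) ≤ 30 * prodLst τ s0 s z γ / KK s + 10 * NN (s + 1)

lemma log40 : Real.log 40 ≤ 4 := by
  rw [Real.log_le_iff_le_exp (by norm_num)]
  have h1 : (2.7:ℝ) < Real.exp 1 := by have := Real.exp_one_gt_d9; linarith
  have h2 : Real.exp 4 = Real.exp 1 ^ 4 := by rw [← Real.exp_nat_mul]; norm_num
  rw [h2]
  calc (40:ℝ) ≤ 2.7 ^ 4 := by norm_num
    _ ≤ _ := pow_le_pow_left₀ (by norm_num) h1.le 4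

/-- recursion (always) -/
lemma Gd.rec1 (hP1 : P1 τ) {x : Ω} (h : Gd τ f w φ x) (q : Ω → Bool) {s0 s : ℕ} (hs : s0 ≤ s)
    (h0 : φ (s + 1) x = 0) :
    hid τ f w q s0 (s + 1) x ≤ (∑ j ∈ Finset.range (mm s), hid τ f w q s0 s (f^[j * NN s] x))
      + (4 * Real.log (NN (s + 1)) + 4) := by
  have h1 := hP1 s0 s hs (itin f q x) (gam f w q s0 x)
  have h2 := h.prodLst_ge q hs h0
  have h3 := h.card_pos q (by omega : s0 ≤ s + 1) h0
  have hK : (1:ℝ) ≤ KK s := by exact_mod_cast KK_pos s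
  have hN : (1:ℝ) ≤ NN (s + 1) := by exact_mod_cast NN_pos (s + 1)
  set P := prodLst τ s0 s (itin f q x) (gam f w q s0 x) with hP
  have h4 : ((Lx τ f w q s0 (s + 1) x).card : ℝ) ≤ 40 * NN (s + 1) * P := by
    refine le_trans h1 ?_
    have h5 : 30 * P / KK s ≤ 30 * P := div_le_self (by linarith) hK
    nlinarith
  have h6 : hid τ f w q s0 (s + 1) x ≤ Real.log (40 * NN (s + 1) * P) := by
    unfold hid
    exact Real.log_le_log (by exact_mod_cast h3) h4
  rw [Real.log_mul (by positivity) (by linarith), Real.log_mul (by norm_num) (by linarith),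
    hP, h.log_prodLst q hs h0] at h6
  have h7 := log40
  have h8 := Real.log_nonneg hN
  linarith

lemma real_rec {L P M N K : ℝ} (hL : 1 ≤ L) (h2 : 1 ≤ P) (hM : 0 ≤ M) (hN : 1 ≤ N) (hK : 1 ≤ K)
    (h1 : L ≤ 30 * P / K + 10 * N) (hB : K * Real.exp (-3 * M) / N ^ 3 < P) :
    Real.log L ≤ Real.log P - Real.log K + 3 * M + (4 * Real.log N + 4) := by
  have hKp : 0 < K := by linarith
  have hNp : 0 < N := by linarith
  have hPp : 0 < P := by linarith
  have he : Real.exp (-3 * M) * Real.exp (3 * M) = 1 := by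
    rw [← Real.exp_add]; simp
  have he1 : 1 ≤ Real.exp (3 * M) := Real.one_le_exp (by positivity)
  -- 1 ≤ P e^{3M} N^3 / K
  have h5 : 1 ≤ P * Real.exp (3 * M) * N ^ 3 / K := by
    rw [le_div_iff₀ hKp, one_mul]
    have hN3 : 0 < N ^ 3 := by positivity
    rw [div_lt_iff₀ hN3] at hB
    calc K = K * Real.exp (-3 * M) * Real.exp (3 * M) := by rw [mul_assoc, he, mul_one]
      _ ≤ (P * N ^ 3) * Real.exp (3 * M) := mul_le_mul_of_nonneg_right hB.le (Real.exp_pos _).le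
      _ = P * Real.exp (3 * M) * N ^ 3 := by ring
  have h4 : L ≤ 40 * N ^ 4 * (P * Real.exp (3 * M) / K) := by
    refine le_trans h1 ?_
    have hPK : 0 ≤ P / K := by positivity
    have h6 : 30 * P / K ≤ 30 * N ^ 4 * (P * Real.exp (3 * M) / K) := by
      have e1 : 30 * P / K = 30 * (P / K) * 1 := by ring
      have e2 : 30 * N ^ 4 * (P * Real.exp (3 * M) / K) =
          30 * (P / K) * (N ^ 4 * Real.exp (3 * M)) := by ring
      rw [e1, e2]
      have h7 : 1 ≤ N ^ 4 * Real.exp (3 * M) := by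
        have : (1:ℝ) ≤ N ^ 4 := one_le_pow₀ hN
        nlinarith
      exact mul_le_mul_of_nonneg_left h7 (by positivity)
    have h8 : 10 * N ≤ 10 * N ^ 4 * (P * Real.exp (3 * M) / K) := by
      have e3 : 10 * N ^ 4 * (P * Real.exp (3 * M) / K) =
          10 * N * (P * Real.exp (3 * M) * N ^ 3 / K) := by
        ring
      rw [e3]
      calc 10 * N = 10 * N * 1 := by ring
        _ ≤ _ := mul_le_mul_of_nonneg_left h5 (by positivity)
    have e4 : 40 * N ^ 4 * (P * Real.exp (3 * M) / K) =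
      30 * N ^ 4 * (P * Real.exp (3 * M) / K) + 10 * N ^ 4 * (P * Real.exp (3 * M) / K) := by ring
    rw [e4]
    exact add_le_add h6 h8
  have h6 : Real.log L ≤ Real.log (40 * N ^ 4 * (P * Real.exp (3 * M) / K)) :=
    Real.log_le_log (by linarith) h4
  rw [Real.log_mul (by positivity) (by positivity), Real.log_mul (by norm_num) (by positivity),
    Real.log_div (by positivity) (by positivity), Real.log_mul (by positivity) (by positivity),
    Real.log_exp, Real.log_pow] at h6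
  have h7 := log40
  push_cast at h6
  linarith

/-- recursion (not exceptional) -/
lemma Gd.rec2 (hP1 : P1 τ) {x : Ω} (h : Gd τ f w φ x) (q : Ω → Bool) {s0 s : ℕ} (hs : s0 ≤ s)
    (h0 : φ (s + 1) x = 0) (hE : x ∉ Exc τ f w φ q s0 s) :
    hid τ f w q s0 (s + 1) x ≤ (∑ j ∈ Finset.range (mm s), hid τ f w q s0 s (f^[j * NN s] x))
      - Real.log (KK s) + 3 * ((NN (s + 1) / NN s0 : ℕ) : ℝ) + (4 * Real.log (NN (s + 1)) + 4) := by
  have h1 := hP1 s0 s hs (itin f q x) (gam f w q s0 x)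
  have h2 := h.prodLst_ge q hs h0
  have h3 : (1:ℝ) ≤ ((Lx τ f w q s0 (s + 1) x).card : ℝ) := by
    exact_mod_cast h.card_pos q (by omega : s0 ≤ s + 1) h0
  have hK : (1:ℝ) ≤ KK s := by exact_mod_cast KK_pos s
  have hN : (1:ℝ) ≤ NN (s + 1) := by exact_mod_cast NN_pos (s + 1)
  have hB : ¬ Bd τ s0 s (itin f q x) (gam f w q s0 x) := by
    intro hB
    exact hE ⟨h0, gam f w q s0 x, hB, h.mem q (by omega) h0⟩
  unfold Bd at hB
  rw [not_le] at hB
  have h4 := real_rec h3 h2 (Nat.cast_nonneg _) hN hK h1 hB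
  rw [h.log_prodLst q hs h0] at h4
  exact h4

end Crest.Agent.R133.Pot
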