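import Crest.Agent.R133.Pot1

/-! # Row 133, POT part 2: measurability and shift formulas -/

set_option autoImplicit false
set_option linter.unusedSectionVars false

open MeasureTheory Set

namespace Crest.Agent.R133.Pot

variable {τ : Tau} {Ω : Type*} [MeasurableSpace Ω] {ν : Measure Ω} {f : Ω → Ω}
  {w : ∀ s, Ω → W s} {φ : ℕ → Ω → ℕ}

lemma meas_ham {a b : Ω → ℕ → Bool} (ha : ∀ i, Measurable fun x => a x i)
    (hb : ∀ i, Measurable fun x => b x i) (N : ℕ) :
    Measurable fun x => (ham N (a x) (b x) : ℝ) := by
  have h1 : (fun x => (ham N (a x) (b x) : ℝ)) =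
      fun x => ∑ i ∈ Finset.range N, if a x i ≠ b x i then (1:ℝ) else 0 := by
    funext x
    rw [ham_eq_sum]
    push_cast
    rfl
  rw [h1]
  apply Finset.measurable_sum
  intro i _
  exact Measurable.ite (measurableSet_eq_fun (ha i) (hb i)).compl measurable_const measurable_const

lemma meas_itin (hf : Measurable f) {q : Ω → Bool} (hq : Measurable q) (i : ℕ) :
    Measurable fun x => itin f q x i := hq.comp (hf.iterate i)

lemma meas_pn (hf : Measurable f) (hw : ∀ s, Measurable (w s)) (i : ℕ) :
    Measurable fun x => pn f w x i := by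
  apply meas_itin hf
  exact (measurable_from_top (f := fun u : W 0 => (show Bool from u))).comp (hw 0)

lemma meas_mem (hf : Measurable f) (hw : ∀ s, Measurable (w s)) {q : Ω → Bool} (hq : Measurable q)
    (s0 s : ℕ) (u : W s) : MeasurableSet {x | u ∈ Lx τ f w q s0 s x} := by
  have h1 : {x | u ∈ Lx τ f w q s0 s x} = ⋂ j ∈ Finset.range (NN s / NN s0),
      ({x | (ham (NN s0) (sh (j * NN s0) (pn f w x)) (sh (j * NN s0) (itin f q x)) : ℝ)
          ≤ rho * NN s0}ᶜ ∪
        {x | (ham (NN s0) (sh (j * NN s0) (nm τ s u)) (sh (j * NN s0) (itin f q x)) : ℝ)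
          ≤ rho * NN s0}) := by
    ext x
    simp only [mem_ofPred_eq, Lx, mem_Lst, mem_iInter, Finset.mem_range, mem_union, mem_compl_iff]
    apply forall_congr'; intro j
    apply imp_congr_right; intro _
    exact imp_iff_not_or
  rw [h1]
  apply Finset.measurableSet_biInter
  intro j _
  apply MeasurableSet.union
  · apply MeasurableSet.compl
    apply measurableSet_le _ measurable_const
    exact meas_ham (a := fun x => sh (j * NN s0) (pn f w x))
      (b := fun x => sh (j * NN s0) (itin f q x)) (fun i => meas_pn hf hw (j * NN s0 + i))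
      (fun i => meas_itin hf hq (j * NN s0 + i)) (NN s0)
  · apply measurableSet_le _ measurable_const
    exact meas_ham (a := fun _ => sh (j * NN s0) (nm τ s u))
      (b := fun x => sh (j * NN s0) (itin f q x)) (fun i => measurable_const)
      (fun i => meas_itin hf hq (j * NN s0 + i)) (NN s0)

lemma meas_hid (hf : Measurable f) (hw : ∀ s, Measurable (w s)) {q : Ω → Bool} (hq : Measurable q)
    (s0 s : ℕ) : Measurable (hid τ f w q s0 s) := by
  classical
  have h1 : (fun x => ((Lx τ f w q s0 s x).card : ℝ)) =
      fun x => ∑ u : W s, if u ∈ Lx τ f w q s0 s x then (1:ℝ) else 0 := by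
    funext x
    rw [Finset.sum_boole]
    congr 2
    ext u; simp
  have h2 : Measurable (fun x => ((Lx τ f w q s0 s x).card : ℝ)) := by
    rw [h1]
    apply Finset.measurable_sum
    intro u _
    exact Measurable.ite (meas_mem hf hw hq s0 s u) measurable_const measurable_const
  exact Real.measurable_log.comp h2

lemma meas_phi (T : TowerMaps τ ν f w φ) (s k : ℕ) : MeasurableSet {x | φ s x = k} :=
  T.φ_meas s (measurableSet_singleton k)

/-- integral over the level `k` -/
lemma shift_one (hf : MeasurePreserving f ν ν) (T : TowerMaps τ ν f w φ) {s k : ℕ}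
    (hk : k < NN s) {g : Ω → ℝ} (hg : Measurable g) :
    ∫ x in {x | φ s x = 0}, g (f^[k] x) ∂ν = ∫ x in {x | φ s x = k}, g x ∂ν := by
  rw [← integral_indicator (meas_phi T s 0), ← integral_indicator (meas_phi T s k)]
  have h1 : ∫ x, indicator {x | φ s x = k} g x ∂ν =
      ∫ x, indicator {x | φ s x = k} g (f^[k] x) ∂ν := by
    conv_lhs => rw [← (hf.iterate k).map_eq]
    rw [integral_map (hf.iterate k).measurable.aemeasurable]
    exact (hg.indicator (meas_phi T s k)).aestronglyMeasurable
  rw [h1]
  apply integral_congr_ae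
  filter_upwards [ae_Gd hf T] with x hx
  have h2 := hx.phi s k
  have h3 := hx.lt s
  by_cases h0 : φ s x = 0
  · rw [indicator_of_mem (show x ∈ {x | φ s x = 0} from h0),
      indicator_of_mem (show f^[k] x ∈ {x | φ s x = k} from hx.phi0 h0 hk)]
  · rw [indicator_of_notMem (show x ∉ {x | φ s x = 0} from h0), indicator_of_notMem]
    intro h4
    have h5 : φ s (f^[k] x) = k := h4
    rw [h2] at h5
    rcases lt_or_ge (φ s x + k) (NN s) with h6 | h6
    · rw [Nat.mod_eq_of_lt h6] at h5; omega
    · rw [Nat.mod_eq_sub_mod h6, Nat.mod_eq_of_lt (by omega)] at h5; omega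

/-- `ν{φ_s = 0} = 1/N_s` -/
lemma meas_base (T : TowerMaps τ ν f w φ) (s : ℕ) :
    ν {x | φ s x = 0} = ENNReal.ofReal (1 / (NN s : ℝ)) := by
  classical
  have h1 : {x | φ s x = 0} = ⋃ u ∈ (Finset.univ : Finset (W s)), {x | w s x = u ∧ φ s x = 0} := by
    ext x; simp
  have hK : (0:ℝ) < KK s := by exact_mod_cast KK_pos s
  rw [h1, measure_biUnion_finset]
  · simp only [T.unif s _ 0 (NN_pos s)]
    rw [Finset.sum_const, Finset.card_univ, card_W, nsmul_eq_mul,
      ← ENNReal.ofReal_natCast, ← ENNReal.ofReal_mul (by positivity)]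
    congr 1
    field_simp
  · intro u _ v _ huv
    rw [Function.onFun, Set.disjoint_left]
    rintro x ⟨hx, _⟩ ⟨hy, _⟩
    exact huv (hx.symm.trans hy)
  · intro u _
    exact (T.w_meas s (measurableSet_singleton u)).inter (meas_phi T s 0)

lemma integrable_bdd [IsFiniteMeasure ν] {g : Ω → ℝ} (hg : Measurable g) (C : ℝ)
    (h : ∀ x, |g x| ≤ C) : Integrable g ν :=
  Integrable.of_bound hg.aestronglyMeasurable C (Filter.Eventually.of_forall h)

/-- block decomposition of the base -/
lemma base_split [IsFiniteMeasure ν] (hf : MeasurePreserving f ν ν) (T : TowerMaps τ ν f w φ)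
    (s : ℕ) {g : Ω → ℝ} (hg : Measurable g) (C : ℝ) (hC : ∀ x, |g x| ≤ C) :
    ∫ x in {x | φ s x = 0}, g x ∂ν =
      ∫ x in {x | φ (s + 1) x = 0}, ∑ j ∈ Finset.range (mm s), g (f^[j * NN s] x) ∂ν := by
  have hgi := integrable_bdd (ν := ν) hg C hC
  rw [integral_finsetSum]
  · have h1 : ∀ j ∈ Finset.range (mm s), ∫ x in {x | φ (s + 1) x = 0}, g (f^[j * NN s] x) ∂ν =
        ∫ x in {x | φ (s + 1) x = j * NN s}, g x ∂ν := by
      intro j hj
      apply shift_one hf T _ hg
      rw [NN_succ]
      exact Nat.mul_lt_mul_of_pos_right (Finset.mem_range.1 hj) (NN_pos s)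
    rw [Finset.sum_congr rfl h1]
    rw [← integral_indicator (meas_phi T s 0)]
    have h2 : ∀ j ∈ Finset.range (mm s), ∫ x in {x | φ (s + 1) x = j * NN s}, g x ∂ν =
        ∫ x, indicator {x | φ (s + 1) x = j * NN s} g x ∂ν := by
      intro j _
      rw [← integral_indicator (meas_phi T (s + 1) _)]
    rw [Finset.sum_congr rfl h2, ← integral_finsetSum]
    · apply integral_congr_ae
      filter_upwards [ae_Gd hf T] with x hx
      have h3 := (hx s 0).2.2.2.1
      simp only [Function.iterate_zero, id_eq] at h3
      have h4 := hx.lt (s + 1)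
      rw [NN_succ] at h4
      by_cases h0 : φ s x = 0
      · rw [indicator_of_mem (show x ∈ {x | φ s x = 0} from h0)]
        rw [h3] at h0
        have h5 : φ (s + 1) x / NN s < mm s := Nat.div_lt_of_lt_mul (by rwa [mul_comm])
        have h6 : φ (s + 1) x = φ (s + 1) x / NN s * NN s :=
          (Nat.div_mul_cancel (Nat.dvd_of_mod_eq_zero h0)).symm
        rw [Finset.sum_eq_single (φ (s + 1) x / NN s)]
        · rw [indicator_of_mem (show x ∈ {y | φ (s + 1) y = φ (s + 1) x / NN s * NN s} from h6)]
        · intro j _ hj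
          apply indicator_of_notMem
          intro h7
          have h8 : φ (s + 1) x = j * NN s := h7
          apply hj
          rw [h8, Nat.mul_div_cancel _ (NN_pos s)]
        · intro h7
          exact absurd (Finset.mem_range.2 h5) h7
      · rw [indicator_of_notMem (show x ∉ {x | φ s x = 0} from h0)]
        symm
        apply Finset.sum_eq_zero
        intro j _
        apply indicator_of_notMem
        intro h7
        have h8 : φ (s + 1) x = j * NN s := h7
        apply h0
        rw [h3, h8, Nat.mul_mod_left]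
    · intro j _
      exact hgi.indicator (meas_phi T (s + 1) _)
  · intro j _
    apply Integrable.integrableOn
    exact integrable_bdd (hg.comp (hf.iterate _).measurable) C (fun x => hC _)

/-- Kac formula for the tower -/
lemma kac [IsFiniteMeasure ν] (hf : MeasurePreserving f ν ν) (T : TowerMaps τ ν f w φ)
    (s : ℕ) {g : Ω → ℝ} (hg : Measurable g) (C : ℝ) (hC : ∀ x, |g x| ≤ C) :
    ∫ x in {x | φ s x = 0}, ∑ i ∈ Finset.range (NN s), g (f^[i] x) ∂ν = ∫ x, g x ∂ν := by
  have hgi := integrable_bdd (ν := ν) hg C hC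
  rw [integral_finsetSum]
  · have h1 : ∀ i ∈ Finset.range (NN s), ∫ x in {x | φ s x = 0}, g (f^[i] x) ∂ν =
        ∫ x, indicator {x | φ s x = i} g x ∂ν := by
      intro i hi
      rw [shift_one hf T (Finset.mem_range.1 hi) hg, integral_indicator (meas_phi T s i)]
    rw [Finset.sum_congr rfl h1, ← integral_finsetSum]
    · apply integral_congr_ae
      filter_upwards [ae_Gd hf T] with x hx
      rw [Finset.sum_eq_single (φ s x)]
      · rw [indicator_of_mem (show x ∈ {y | φ s y = φ s x} from rfl)]
      · intro j _ hj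
        apply indicator_of_notMem
        intro h7
        exact hj (h7 : φ s x = j).symm
      · intro h7
        exact absurd (Finset.mem_range.2 (hx.lt s)) h7
    · intro j _
      exact hgi.indicator (meas_phi T s _)
  · intro j _
    apply Integrable.integrableOn
    exact integrable_bdd (hg.comp (hf.iterate _).measurable) C (fun x => hC _)

end Crest.Agent.R133.Pot
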