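import Crest.Agent.R133.Pot
import Crest.Agent.R133.CombZeta

set_option autoImplicit false

namespace Crest.Agent.R133

/-- THEOREM POT -/
theorem stPot : StPot := Pot.stPot_of_zeta stZeta

end Crest.Agent.R133
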