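import Crest.Agent.R133.StabDet

/-!
Row 133 (S0182), section 6 (STABILITY), helper823.  Abstract subadditive cocycles.

`Coc ν f a c`  : `a p n : Ω → ℝ` (`p` in a finite type `P`), measurable, `|a p n| ≤ c n`,
subadditive along the orbit (a.e.).
`Psi ν a c k = ∑ p, ∫ (a p k / k + c)^2`.
`LIN f a K C x` : there are `β p` with `|a p (k'-k) (f^[k] x) - (k'-k) β p| ≤ C`, `k ≤ k' ≤ K`.
`LINs` : the same with `β p = a p K x / K` (a measurable set).
-/

set_option autoImplicit false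
set_option linter.unusedSectionVars false
set_option linter.unusedVariables false
set_option linter.deprecated false

namespace Crest.Agent.R133.Stab

open MeasureTheory

variable {Ω : Type*} [MeasurableSpace Ω] {P : Type*} [Fintype P]

structure Coc (ν : Measure Ω) (f : Ω → Ω) (a : P → ℕ → Ω → ℝ) (c : ℝ) : Prop where
  meas : ∀ p n, Measurable (a p n)
  nonneg : 0 ≤ c
  bd : ∀ᵐ x ∂ν, ∀ p n, |a p n x| ≤ c * n
  sub : ∀ᵐ x ∂ν, ∀ p m n, a p (m + n) x ≤ a p m x + a p n (f^[m] x)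

/-- all conditions hold along the orbit of `x`. -/
def Good (f : Ω → Ω) (a : P → ℕ → Ω → ℝ) (c : ℝ) (x : Ω) : Prop :=
  ∀ i, (∀ p n, |a p n (f^[i] x)| ≤ c * n) ∧
    ∀ p m n, a p (m + n) (f^[i] x) ≤ a p m (f^[i] x) + a p n (f^[m] (f^[i] x))

noncomputable def Psi (ν : Measure Ω) (a : P → ℕ → Ω → ℝ) (c : ℝ) (k : ℕ) : ℝ :=
  ∑ p, ∫ x, (a p k x / k + c) ^ 2 ∂ν

def LIN (f : Ω → Ω) (a : P → ℕ → Ω → ℝ) (K : ℕ) (C : ℝ) (x : Ω) : Prop :=
  ∃ β : P → ℝ, ∀ p k k', k ≤ k' → k' ≤ K →
    |a p (k' - k) (f^[k] x) - ((k' : ℝ) - k) * β p| ≤ C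

def LINs (f : Ω → Ω) (a : P → ℕ → Ω → ℝ) (K : ℕ) (C : ℝ) (x : Ω) : Prop :=
  ∀ p k k', k ≤ k' → k' ≤ K →
    |a p (k' - k) (f^[k] x) - ((k' : ℝ) - k) * (a p K x / K)| ≤ C

theorem LINs.lin {f : Ω → Ω} {a : P → ℕ → Ω → ℝ} {K : ℕ} {C : ℝ} {x : Ω}
    (h : LINs f a K C x) : LIN f a K C x := ⟨fun p => a p K x / K, h⟩

/-- `LIN` on a window of length `L` gives `LINs` (constant doubled) on subwindows. -/
theorem LIN.window {f : Ω → Ω} {a : P → ℕ → Ω → ℝ} {L : ℕ} {C : ℝ} {x : Ω}
    (h : LIN f a L C x) (i K : ℕ) (hK : 1 ≤ K) (hi : i + K ≤ L) :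
    LINs f a K (2 * C) (f^[i] x) := by
  obtain ⟨β, hβ⟩ := h
  intro p k k' hk hk'
  have h1 := hβ p (i + k) (i + k') (by omega) (by omega)
  have h2 := hβ p i (i + K) (by omega) hi
  have e1 : i + k' - (i + k) = k' - k := by omega
  have e2 : i + K - i = K := by omega
  have e3 : f^[i + k] x = f^[k] (f^[i] x) := by
    rw [add_comm, Function.iterate_add_apply]
  rw [e1, e3] at h1
  rw [e2] at h2
  push_cast at h1 h2
  have hKR : (1 : ℝ) ≤ K := by exact_mod_cast hK
  have hKpos : (0 : ℝ) < K := by linarith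
  have hkR : (k : ℝ) ≤ k' := by exact_mod_cast hk
  have hk'R : (k' : ℝ) ≤ K := by exact_mod_cast hk'
  have hk0 : (0 : ℝ) ≤ k := Nat.cast_nonneg k
  set g := a p (k' - k) (f^[k] (f^[i] x)) with hg
  set G := a p K (f^[i] x) with hG
  have h3 : |g - ((k' : ℝ) - k) * β p| ≤ C := by
    have : ((i : ℝ) + k' - (i + k)) = (k' : ℝ) - k := by ring
    rwa [this] at h1
  have h4 : |G - K * β p| ≤ C := by
    have : ((i : ℝ) + K - i) = (K : ℝ) := by ring
    rwa [this] at h2
  have hC : 0 ≤ C := le_trans (abs_nonneg _) h4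
  have h5 : |((k' : ℝ) - k) * (G / K) - ((k' : ℝ) - k) * β p| ≤ C := by
    have e4 : ((k' : ℝ) - k) * (G / K) - ((k' : ℝ) - k) * β p =
        (((k' : ℝ) - k) / K) * (G - K * β p) := by
      field_simp
    rw [e4, abs_mul]
    have h6 : |((k' : ℝ) - k) / K| ≤ 1 := by
      rw [abs_of_nonneg (div_nonneg (by linarith) hKpos.le), div_le_one hKpos]
      linarith
    calc _ ≤ 1 * C := mul_le_mul h6 h4 (abs_nonneg _) zero_le_one
      _ = C := one_mul C
  have h6 : g - ((k' : ℝ) - k) * (G / K) =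
      (g - ((k' : ℝ) - k) * β p) - (((k' : ℝ) - k) * (G / K) - ((k' : ℝ) - k) * β p) := by ring
  rw [h6]
  calc _ ≤ |g - ((k' : ℝ) - k) * β p| + |((k' : ℝ) - k) * (G / K) - ((k' : ℝ) - k) * β p| :=
        abs_sub _ _
    _ ≤ C + C := add_le_add h3 h5
    _ = 2 * C := by ring

variable {ν : Measure Ω} {f : Ω → Ω} {a : P → ℕ → Ω → ℝ} {c : ℝ}

theorem measurableSet_LINs (hf : Measurable f) (ha : ∀ p n, Measurable (a p n)) (K : ℕ) (C : ℝ) :
    MeasurableSet {x | LINs f a K C x} := by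
  simp only [LINs, Set.setOf_forall]
  refine MeasurableSet.iInter fun p => MeasurableSet.iInter fun k => MeasurableSet.iInter fun k' =>
    MeasurableSet.iInter fun _ => MeasurableSet.iInter fun _ => ?_
  apply measurableSet_le _ measurable_const
  apply Measurable.abs
  apply Measurable.sub
  · exact (ha p _).comp (hf.iterate k)
  · exact ((ha p K).div_const _).const_mul _

theorem ae_good (hf : MeasurePreserving f ν ν) (h : Coc ν f a c) : ∀ᵐ x ∂ν, Good f a c x := by
  unfold Good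
  rw [ae_all_iff]
  intro i
  have h1 := (hf.iterate i).quasiMeasurePreserving.ae h.bd
  have h2 := (hf.iterate i).quasiMeasurePreserving.ae h.sub
  filter_upwards [h1, h2] with x hx1 hx2
  exact ⟨hx1, hx2⟩

section blocks
variable (f a c)

noncomputable def bl (t : ℕ) (p : P) (l : ℕ) (x : Ω) : ℝ := a p t (f^[l * t] x) / t + c
noncomputable def bbar (t J : ℕ) (p : P) (x : Ω) : ℝ :=
  (∑ l ∈ Finset.range J, bl f a c t p l x) / J
noncomputable def BB (t J : ℕ) (p : P) (x : Ω) : ℝ := a p (J * t) x / ((J * t : ℕ) : ℝ) + c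
noncomputable def GG (t J : ℕ) (p : P) (x : Ω) : ℝ :=
  (∑ l ∈ Finset.range J, (bl f a c t p l x - bbar f a c t J p x) ^ 2) / J +
    (bbar f a c t J p x - BB a c t J p x) ^ 2

end blocks

theorem bl_zero (t : ℕ) (p : P) (x : Ω) : bl f a c t p 0 x = a p t x / t + c := by
  simp [bl]

theorem bl_comp (t : ℕ) (p : P) (l : ℕ) (x : Ω) :
    bl f a c t p l x = bl f a c t p 0 (f^[l * t] x) := by
  simp [bl]

theorem meas_bl (hf : Measurable f) (ha : ∀ p n, Measurable (a p n)) (t : ℕ) (p : P) (l : ℕ) :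
    Measurable (bl f a c t p l) :=
  (((ha p t).comp (hf.iterate _)).div_const _).add_const _

theorem meas_bbar (hf : Measurable f) (ha : ∀ p n, Measurable (a p n)) (t J : ℕ) (p : P) :
    Measurable (bbar f a c t J p) :=
  (Finset.measurable_fun_sum _ fun l _ => meas_bl hf ha t p l).div_const _

theorem meas_BB (ha : ∀ p n, Measurable (a p n)) (t J : ℕ) (p : P) :
    Measurable (BB a c t J p) := ((ha p _).div_const _).add_const _

theorem meas_GG (hf : Measurable f) (ha : ∀ p n, Measurable (a p n)) (t J : ℕ) (p : P) :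
    Measurable (GG f a c t J p) := by
  apply Measurable.add
  · exact (Finset.measurable_fun_sum _ fun l _ =>
      ((meas_bl hf ha t p l).sub (meas_bbar hf ha t J p)).pow_const 2).div_const _
  · exact ((meas_bbar hf ha t J p).sub (meas_BB ha t J p)).pow_const 2

theorem GG_nonneg (t J : ℕ) (p : P) (x : Ω) : 0 ≤ GG f a c t J p x :=
  add_nonneg (div_nonneg (Finset.sum_nonneg fun _ _ => sq_nonneg _) (Nat.cast_nonneg J))
    (sq_nonneg _)

theorem bl_bounds {x : Ω} (hx : Good f a c x) (hc : 0 ≤ c) {t : ℕ} (ht : 1 ≤ t) (p : P) (l : ℕ) :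
    0 ≤ bl f a c t p l x ∧ bl f a c t p l x ≤ 2 * c := by
  have htR : (0 : ℝ) < t := by exact_mod_cast ht
  have h1 := (hx (l * t)).1 p t
  rw [abs_le] at h1
  have h2 : -c ≤ a p t (f^[l * t] x) / t := by
    rw [le_div_iff₀ htR]; linarith [h1.1]
  have h3 : a p t (f^[l * t] x) / t ≤ c := by
    rw [div_le_iff₀ htR]; linarith [h1.2]
  unfold bl
  constructor <;> linarith

theorem BB_bounds {x : Ω} (hx : Good f a c x) (hc : 0 ≤ c) {t J : ℕ} (ht : 1 ≤ t) (hJ : 1 ≤ J)
    (p : P) : 0 ≤ BB a c t J p x ∧ BB a c t J p x ≤ 2 * c := by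
  have hN : 1 ≤ J * t := Nat.mul_pos hJ ht
  have htR : (0 : ℝ) < ((J * t : ℕ) : ℝ) := by exact_mod_cast hN
  have h1 := (hx 0).1 p (J * t)
  rw [abs_le] at h1
  simp only [Function.iterate_zero, id_eq] at h1
  have h2 : -c ≤ a p (J * t) x / ((J * t : ℕ) : ℝ) := by
    rw [le_div_iff₀ htR]; linarith [h1.1]
  have h3 : a p (J * t) x / ((J * t : ℕ) : ℝ) ≤ c := by
    rw [div_le_iff₀ htR]; linarith [h1.2]
  unfold BB
  constructor <;> linarith

theorem good_block {x : Ω} (hx : Good f a c x) (t : ℕ) (p : P) (J : ℕ) :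
    a p (J * t) x ≤ ∑ l ∈ Finset.range J, a p t (f^[l * t] x) := by
  have h := block_upper (fun i m => a p m (f^[i] x)) t ?_ ?_ 0 J
  · simpa using h
  · intro i m k
    have h1 := (hx i).2 p m k
    have e : f^[m] (f^[i] x) = f^[i + m] x := by
      rw [add_comm, Function.iterate_add_apply]
    rwa [e] at h1
  · intro i
    have h1 := (hx i).1 p 0
    simp only [Nat.cast_zero, mul_zero] at h1
    exact (abs_nonpos_iff.1 h1).le

theorem BB_le_bbar {x : Ω} (hx : Good f a c x) {t J : ℕ} (ht : 1 ≤ t) (hJ : 1 ≤ J) (p : P) :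
    BB a c t J p x ≤ bbar f a c t J p x := by
  have htR : (0 : ℝ) < t := by exact_mod_cast ht
  have hJR : (0 : ℝ) < J := by exact_mod_cast hJ
  have h1 := good_block hx t p J
  have h2 : bbar f a c t J p x = (∑ l ∈ Finset.range J, a p t (f^[l * t] x)) / (J * t) + c := by
    unfold bbar bl
    rw [Finset.sum_add_distrib, Finset.sum_const, Finset.card_range, nsmul_eq_mul, add_div,
      mul_div_cancel_left₀ _ hJR.ne', ← Finset.sum_div, div_div, mul_comm (t : ℝ)]
  rw [h2]
  unfold BB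
  push_cast
  have h3 : a p (J * t) x / (J * t) ≤ (∑ l ∈ Finset.range J, a p t (f^[l * t] x)) / (J * t) :=
    div_le_div_of_nonneg_right h1 (by positivity)
  linarith

theorem sum_sq_dev (J : ℕ) (hJ : 1 ≤ J) (b : ℕ → ℝ) :
    (∑ l ∈ Finset.range J, (b l - (∑ l ∈ Finset.range J, b l) / J) ^ 2) / J =
      (∑ l ∈ Finset.range J, (b l) ^ 2) / J - ((∑ l ∈ Finset.range J, b l) / J) ^ 2 := by
  have hJR : (J : ℝ) ≠ 0 := by
    have : (0 : ℝ) < J := by exact_mod_cast hJ
    exact this.ne'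
  set m := (∑ l ∈ Finset.range J, b l) / J with hm
  have h1 : ∑ l ∈ Finset.range J, b l = J * m := by rw [hm]; field_simp
  have h2 : ∑ l ∈ Finset.range J, (b l - m) ^ 2 =
      ∑ l ∈ Finset.range J, (b l) ^ 2 - 2 * m * ∑ l ∈ Finset.range J, b l + J * m ^ 2 := by
    rw [Finset.mul_sum, ← Finset.sum_sub_distrib]
    have : (J : ℝ) * m ^ 2 = ∑ l ∈ Finset.range J, m ^ 2 := by
      rw [Finset.sum_const, Finset.card_range, nsmul_eq_mul]
    rw [this, ← Finset.sum_add_distrib]
    refine Finset.sum_congr rfl fun l _ => by ring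
  rw [h2, h1]
  field_simp
  ring

theorem GG_le {x : Ω} (hx : Good f a c x) (hc : 0 ≤ c) {t J : ℕ} (ht : 1 ≤ t) (hJ : 1 ≤ J)
    (p : P) : GG f a c t J p x ≤
      (∑ l ∈ Finset.range J, (bl f a c t p l x) ^ 2) / J - (BB a c t J p x) ^ 2 := by
  have h1 := sum_sq_dev J hJ (fun l => bl f a c t p l x)
  have h2 := BB_le_bbar hx ht hJ p
  have h3 := (BB_bounds hx hc ht hJ p).1
  unfold GG
  have h4 : (∑ l ∈ Finset.range J, (bl f a c t p l x - bbar f a c t J p x) ^ 2) / J =
      (∑ l ∈ Finset.range J, (bl f a c t p l x) ^ 2) / J - (bbar f a c t J p x) ^ 2 := h1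
  rw [h4]
  nlinarith [mul_nonneg h3 (sub_nonneg.2 h2)]

section integ
variable [IsProbabilityMeasure ν]

theorem integrable_of_bd {g : Ω → ℝ} (hg : Measurable g) {C : ℝ} (h : ∀ᵐ x ∂ν, |g x| ≤ C) :
    Integrable g ν :=
  Integrable.of_bound hg.aestronglyMeasurable C (by simpa [Real.norm_eq_abs] using h)

theorem integrable_bl_sq (hf : MeasurePreserving f ν ν) (h : Coc ν f a c) {t : ℕ} (ht : 1 ≤ t)
    (p : P) (l : ℕ) : Integrable (fun x => (bl f a c t p l x) ^ 2) ν := by
  apply integrable_of_bd (C := (2 * c) ^ 2) ((meas_bl hf.measurable h.meas t p l).pow_const 2)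
  filter_upwards [ae_good hf h] with x hx
  have h1 := bl_bounds hx h.nonneg ht p l
  rw [abs_of_nonneg (sq_nonneg _)]
  exact pow_le_pow_left₀ h1.1 h1.2 2

theorem integrable_BB_sq (hf : MeasurePreserving f ν ν) (h : Coc ν f a c) {t J : ℕ} (ht : 1 ≤ t)
    (hJ : 1 ≤ J) (p : P) : Integrable (fun x => (BB a c t J p x) ^ 2) ν := by
  apply integrable_of_bd (C := (2 * c) ^ 2) ((meas_BB h.meas t J p).pow_const 2)
  filter_upwards [ae_good hf h] with x hx
  have h1 := BB_bounds hx h.nonneg ht hJ p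
  rw [abs_of_nonneg (sq_nonneg _)]
  exact pow_le_pow_left₀ h1.1 h1.2 2

theorem integrable_rhs (hf : MeasurePreserving f ν ν) (h : Coc ν f a c) {t J : ℕ} (ht : 1 ≤ t)
    (hJ : 1 ≤ J) (p : P) : Integrable (fun x =>
      (∑ l ∈ Finset.range J, (bl f a c t p l x) ^ 2) / J - (BB a c t J p x) ^ 2) ν :=
  ((integrable_finset_sum _ fun l _ => integrable_bl_sq hf h ht p l).div_const _).sub
    (integrable_BB_sq hf h ht hJ p)

theorem integrable_GG (hf : MeasurePreserving f ν ν) (h : Coc ν f a c) {t J : ℕ} (ht : 1 ≤ t)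
    (hJ : 1 ≤ J) (p : P) : Integrable (GG f a c t J p) ν := by
  refine Integrable.mono' (integrable_rhs hf h ht hJ p)
    (meas_GG hf.measurable h.meas t J p).aestronglyMeasurable ?_
  filter_upwards [ae_good hf h] with x hx
  rw [Real.norm_eq_abs, abs_of_nonneg (GG_nonneg t J p x)]
  exact GG_le hx h.nonneg ht hJ p

theorem integral_bl_sq (hf : MeasurePreserving f ν ν) (h : Coc ν f a c) (t : ℕ)
    (p : P) (l : ℕ) : ∫ x, (bl f a c t p l x) ^ 2 ∂ν = ∫ x, (a p t x / t + c) ^ 2 ∂ν := by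
  have h1 : ∀ x, (bl f a c t p l x) ^ 2 = (fun y => (a p t y / t + c) ^ 2) (f^[l * t] x) := by
    intro x; rfl
  have hm := hf.iterate (l * t)
  have h2 : AEStronglyMeasurable (fun y => (a p t y / t + c) ^ 2) (ν.map (f^[l * t])) :=
    ((((h.meas p t).div_const _).add_const _).pow_const 2).aestronglyMeasurable
  simp only [h1]
  rw [← integral_map hm.measurable.aemeasurable h2, hm.map_eq]

/-- LEMMA PSI. -/
theorem psi_lemma (hf : MeasurePreserving f ν ν) (h : Coc ν f a c) {t J : ℕ} (ht : 1 ≤ t)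
    (hJ : 1 ≤ J) : ∑ p, ∫ x, GG f a c t J p x ∂ν ≤ Psi ν a c t - Psi ν a c (J * t) := by
  unfold Psi
  rw [← Finset.sum_sub_distrib]
  apply Finset.sum_le_sum
  intro p _
  have hJR : (0 : ℝ) < J := by exact_mod_cast hJ
  calc ∫ x, GG f a c t J p x ∂ν ≤ ∫ x, ((∑ l ∈ Finset.range J, (bl f a c t p l x) ^ 2) / J -
        (BB a c t J p x) ^ 2) ∂ν := by
        apply integral_mono_ae (integrable_GG hf h ht hJ p) (integrable_rhs hf h ht hJ p)
        filter_upwards [ae_good hf h] with x hx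
        exact GG_le hx h.nonneg ht hJ p
    _ = (∑ l ∈ Finset.range J, ∫ x, (bl f a c t p l x) ^ 2 ∂ν) / J
        - ∫ x, (BB a c t J p x) ^ 2 ∂ν := by
        rw [integral_sub ((integrable_finset_sum _ fun l _ =>
          integrable_bl_sq hf h ht p l).div_const _) (integrable_BB_sq hf h ht hJ p),
          integral_div, integral_finset_sum _ fun l _ => integrable_bl_sq hf h ht p l]
    _ = ∫ x, (a p t x / t + c) ^ 2 ∂ν - ∫ x, (a p (J * t) x / ((J * t : ℕ) : ℝ) + c) ^ 2 ∂ν := by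
        simp only [integral_bl_sq hf h t p]
        rw [Finset.sum_const, Finset.card_range, nsmul_eq_mul, mul_div_cancel_left₀ _ hJR.ne']
        rfl

theorem psi_antitone (hf : MeasurePreserving f ν ν) (h : Coc ν f a c) {t J : ℕ} (ht : 1 ≤ t)
    (hJ : 1 ≤ J) : Psi ν a c (J * t) ≤ Psi ν a c t := by
  have h1 := psi_lemma hf h ht hJ
  have h2 : 0 ≤ ∑ p, ∫ x, GG f a c t J p x ∂ν :=
    Finset.sum_nonneg fun p _ => integral_nonneg fun x => GG_nonneg t J p x
  linarith

theorem psi_nonneg (k : ℕ) : 0 ≤ Psi ν a c k :=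
  Finset.sum_nonneg fun p _ => integral_nonneg fun x => sq_nonneg _

/-- The unstable stages are summable. -/
theorem summable_unstable (hf : MeasurePreserving f ν ν) (h : Coc ν f a c) (n t : ℕ → ℕ)
    (hn : ∀ s, 1 ≤ n s) (ht : ∀ s, 1 ≤ t s) (hdiv : ∀ s, 2 * n s * t s ∣ t (s + 1))
    (St : Set ℕ) (hSt : ∀ s, s ∉ St → 1 / (n s : ℝ) ^ 2 ≤
      Psi ν a c (t s) - Psi ν a c (2 * n s * t s)) :
    Summable (fun s => Set.indicator Stᶜ (fun s => 1 / (n s : ℝ) ^ 2) s) := by
  have hstep : ∀ s, Psi ν a c (t (s + 1)) ≤ Psi ν a c (2 * n s * t s) := by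
    intro s
    obtain ⟨q, hq⟩ := hdiv s
    have hq1 : 1 ≤ q := by
      by_contra hcon
      have : q = 0 := by omega
      rw [this, mul_zero] at hq
      have := ht (s + 1)
      omega
    have h1 : 1 ≤ 2 * n s * t s := Nat.mul_pos (Nat.mul_pos two_pos (hn s)) (ht s)
    have := psi_antitone hf h (t := 2 * n s * t s) (J := q) h1 hq1
    rw [hq, mul_comm]
    exact this
  apply summable_of_sum_range_le (c := Psi ν a c (t 0))
  · intro s
    apply Set.indicator_nonneg
    intro _ _; positivity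
  · intro S
    have h1 : ∀ s, Set.indicator Stᶜ (fun s => 1 / (n s : ℝ) ^ 2) s ≤
        Psi ν a c (t s) - Psi ν a c (t (s + 1)) := by
      intro s
      by_cases hs : s ∈ St
      · rw [Set.indicator_of_notMem (by simpa using hs)]
        have h2 := hstep s
        have h3 := psi_antitone hf h (t := t s) (J := 2 * n s) (ht s)
          (Nat.mul_pos two_pos (hn s))
        linarith
      · rw [Set.indicator_of_mem (by simpa using hs)]
        have h2 := hstep s
        have h3 := hSt s hs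
        linarith
    calc _ ≤ ∑ s ∈ Finset.range S, (Psi ν a c (t s) - Psi ν a c (t (s + 1))) :=
          Finset.sum_le_sum fun s _ => h1 s
      _ = Psi ν a c (t 0) - Psi ν a c (t S) := by
          rw [Finset.sum_range_sub']
      _ ≤ Psi ν a c (t 0) := by
          have := psi_nonneg (ν := ν) (a := a) (c := c) (t S)
          linarith

/-- The good event. -/
def GE (f : Ω → Ω) (a : P → ℕ → Ω → ℝ) (c : ℝ) (t J : ℕ) (τ : ℝ) : Set Ω :=
  {x | ∀ p, GG f a c t J p x < τ ^ 2 / J ^ 2}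

theorem measurableSet_GE (hf : Measurable f) (ha : ∀ p n, Measurable (a p n)) (t J : ℕ) (τ : ℝ) :
    MeasurableSet (GE f a c t J τ) := by
  unfold GE
  rw [Set.setOf_forall]
  exact MeasurableSet.iInter fun p => measurableSet_lt (meas_GG hf ha t J p) measurable_const

theorem measure_GE_compl (hf : MeasurePreserving f ν ν) (h : Coc ν f a c) {n t : ℕ} (ht : 1 ≤ t)
    (hn : 1 ≤ n) {τ eps : ℝ} (hτ : 0 < τ) (hτ2 : 4 * (Fintype.card P : ℝ) ≤ eps * τ ^ 2)
    (hst : Psi ν a c t - Psi ν a c (2 * n * t) ≤ 1 / (n : ℝ) ^ 2) :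
    ν.real (GE f a c t (2 * n) τ)ᶜ ≤ eps := by
  have hJ : 1 ≤ 2 * n := by omega
  have hnR : (0 : ℝ) < n := by exact_mod_cast hn
  have hpsi := psi_lemma hf h ht hJ
  have hG : ∀ p, ∫ x, GG f a c t (2 * n) p x ∂ν ≤ 1 / (n : ℝ) ^ 2 := by
    intro p
    have h1 : ∫ x, GG f a c t (2 * n) p x ∂ν ≤ ∑ p, ∫ x, GG f a c t (2 * n) p x ∂ν :=
      Finset.single_le_sum (f := fun p => ∫ x, GG f a c t (2 * n) p x ∂ν)
        (fun p _ => integral_nonneg fun x => GG_nonneg t (2 * n) p x) (Finset.mem_univ p)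
    linarith
  set δ : ℝ := τ ^ 2 / ((2 * n : ℕ) : ℝ) ^ 2 with hδ
  have hδpos : 0 < δ := by rw [hδ]; positivity
  have hsub : (GE f a c t (2 * n) τ)ᶜ ⊆ ⋃ p, {x | δ ≤ GG f a c t (2 * n) p x} := by
    intro x hx
    simp only [GE, Set.mem_compl_iff, Set.mem_setOf_eq, not_forall, not_lt] at hx
    obtain ⟨p, hp⟩ := hx
    exact Set.mem_iUnion.2 ⟨p, hp⟩
  have hp : ∀ p, ν.real {x | δ ≤ GG f a c t (2 * n) p x} ≤ 4 / τ ^ 2 := by
    intro p
    have h1 := mul_meas_ge_le_integral_of_nonneg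
      (Filter.Eventually.of_forall fun x => GG_nonneg (f := f) (a := a) (c := c) t (2 * n) p x)
      (integrable_GG hf h ht hJ p) δ
    have h2 : δ * ν.real {x | δ ≤ GG f a c t (2 * n) p x} ≤ 1 / (n : ℝ) ^ 2 := h1.trans (hG p)
    have h3 : ν.real {x | δ ≤ GG f a c t (2 * n) p x} ≤ (1 / (n : ℝ) ^ 2) / δ := by
      rw [le_div_iff₀ hδpos, mul_comm]; exact h2
    refine h3.trans_eq ?_
    rw [hδ]
    push_cast
    field_simp
    norm_num
  calc ν.real (GE f a c t (2 * n) τ)ᶜ ≤ ν.real (⋃ p, {x | δ ≤ GG f a c t (2 * n) p x}) :=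
        measureReal_mono hsub (measure_ne_top _ _)
    _ ≤ ∑ p, ν.real {x | δ ≤ GG f a c t (2 * n) p x} := measureReal_iUnion_fintype_le _
    _ ≤ ∑ p : P, 4 / τ ^ 2 := Finset.sum_le_sum fun p _ => hp p
    _ = 4 * (Fintype.card P : ℝ) / τ ^ 2 := by
        rw [Finset.sum_const, Finset.card_univ, nsmul_eq_mul]; ring
    _ ≤ eps := by
        rw [div_le_iff₀ (by positivity)]; exact hτ2

end integ

/-- on the good event, `LIN` holds on the window `[0, J t]`. -/
theorem lin_of_GE {x : Ω} (hx : Good f a c x) (hc : 0 ≤ c) {t J : ℕ} (ht : 1 ≤ t) (hJ : 1 ≤ J)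
    {τ : ℝ} (hτ : 0 < τ) (hG : x ∈ GE f a c t J τ) :
    LIN f a (J * t) ((2 * τ + 4 * c) * t) x := by
  have htR : (0 : ℝ) < t := by exact_mod_cast ht
  have hJR : (0 : ℝ) < J := by exact_mod_cast hJ
  refine ⟨fun p => (∑ l ∈ Finset.range J, a p t (f^[l * t] x)) / (J * t), ?_⟩
  intro p k k' hk hk'
  set β := (∑ l ∈ Finset.range J, a p t (f^[l * t] x)) / (J * t) with hβ
  have hGp := hG p
  have hbbar : bbar f a c t J p x = β + c := by
    unfold bbar bl
    rw [Finset.sum_add_distrib, Finset.sum_const, Finset.card_range, nsmul_eq_mul, add_div,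
      mul_div_cancel_left₀ _ hJR.ne', ← Finset.sum_div, div_div, mul_comm (t : ℝ)]
  have hdev : ∀ l, bl f a c t p l x - bbar f a c t J p x = (a p t (f^[l * t] x) - β * t) / t := by
    intro l
    rw [hbbar, bl]
    field_simp
    ring
  have h1 : ∑ l ∈ Finset.range J, |a p t (f^[l * t] x) - β * t| ≤ τ * t := by
    have h2 : ∑ l ∈ Finset.range J, |a p t (f^[l * t] x) - β * t| =
        t * ∑ l ∈ Finset.range J, |bl f a c t p l x - bbar f a c t J p x| := by
      rw [Finset.mul_sum]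
      refine Finset.sum_congr rfl fun l _ => ?_
      rw [hdev l, abs_div, abs_of_pos htR]
      field_simp
    rw [h2, mul_comm τ]
    apply mul_le_mul_of_nonneg_left _ htR.le
    apply abs_le_of_sq_le_sq' _ hτ.le |>.2
    have h3 := sq_sum_le_card_mul_sum_sq (s := Finset.range J)
      (f := fun l => |bl f a c t p l x - bbar f a c t J p x|)
    rw [Finset.card_range] at h3
    simp only [sq_abs] at h3
    have h4 : (∑ l ∈ Finset.range J, (bl f a c t p l x - bbar f a c t J p x) ^ 2) / J ≤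
        τ ^ 2 / J ^ 2 := by
      have h5 : (∑ l ∈ Finset.range J, (bl f a c t p l x - bbar f a c t J p x) ^ 2) / J ≤
          GG f a c t J p x := by
        unfold GG
        have := sq_nonneg (bbar f a c t J p x - BB a c t J p x)
        linarith
      linarith
    rw [div_le_div_iff₀ hJR (by positivity)] at h4
    have h6 : (∑ l ∈ Finset.range J, (bl f a c t p l x - bbar f a c t J p x) ^ 2) * J ≤ τ ^ 2 := by
      have h7 : ((∑ l ∈ Finset.range J, (bl f a c t p l x - bbar f a c t J p x) ^ 2) * J) * J ≤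
          τ ^ 2 * J := by nlinarith
      exact le_of_mul_le_mul_right h7 hJR
    nlinarith
  have h2 : ∑ l ∈ Finset.range J, a p t (f^[l * t] x) - a p (J * t) x ≤ τ * t := by
    have h3 : ∑ l ∈ Finset.range J, a p t (f^[l * t] x) - a p (J * t) x =
        J * t * (bbar f a c t J p x - BB a c t J p x) := by
      rw [hbbar, BB, hβ]
      push_cast
      field_simp
      ring
    have h4 : (bbar f a c t J p x - BB a c t J p x) ^ 2 ≤ τ ^ 2 / J ^ 2 := by
      have h5 : (bbar f a c t J p x - BB a c t J p x) ^ 2 ≤ GG f a c t J p x := by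
        unfold GG
        have : 0 ≤ (∑ l ∈ Finset.range J, (bl f a c t p l x - bbar f a c t J p x) ^ 2) / J :=
          div_nonneg (Finset.sum_nonneg fun _ _ => sq_nonneg _) hJR.le
        linarith
      linarith
    have h6 : bbar f a c t J p x - BB a c t J p x ≤ τ / J := by
      apply abs_le_of_sq_le_sq' _ (by positivity) |>.2
      rw [div_pow]; exact h4
    rw [h3]
    calc J * t * (bbar f a c t J p x - BB a c t J p x) ≤ J * t * (τ / J) :=
          mul_le_mul_of_nonneg_left h6 (by positivity)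
      _ = τ * t := by field_simp
  have hmain := lin_det (fun i m => a p m (f^[i] x)) t J ht hJ c τ hc ?_ ?_ β ?_ h1 ?_ k k' hk hk'
  · exact hmain
  · intro i m q
    have h3 := (hx i).2 p m q
    have e : f^[m] (f^[i] x) = f^[i + m] x := by
      rw [add_comm, Function.iterate_add_apply]
    rwa [e] at h3
  · intro i m
    exact (hx i).1 p m
  · rw [hβ]; field_simp
  · simpa using h2

/-- LEMMA STAB (window form): outside a set of measure `≤ eps`, `LIN` holds on `[0, 2 n t]`. -/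
theorem stab_window [IsProbabilityMeasure ν] (hf : MeasurePreserving f ν ν) (h : Coc ν f a c)
    {n t : ℕ} (ht : 1 ≤ t) (hn : 1 ≤ n) {τ : ℝ} (hτ : 0 < τ) :
    ∀ᵐ x ∂ν, x ∈ GE f a c t (2 * n) τ → LIN f a (2 * n * t) ((2 * τ + 4 * c) * t) x := by
  filter_upwards [ae_good hf h] with x hx hG
  exact lin_of_GE hx h.nonneg ht (by omega) hτ hG

/-- LEMMA STAB, base form. -/
theorem stab_base [IsProbabilityMeasure ν] (hf : MeasurePreserving f ν ν) (h : Coc ν f a c)
    {n t : ℕ} (ht : 1 ≤ t) (hn : 1 ≤ n) {τ eps : ℝ} (hτ : 0 < τ)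
    (hτ2 : 4 * (Fintype.card P : ℝ) ≤ eps * τ ^ 2)
    (hst : Psi ν a c t - Psi ν a c (2 * n * t) ≤ 1 / (n : ℝ) ^ 2)
    (φ : Ω → ℕ) (hφ : Measurable φ) (hφs : ∀ᵐ x ∂ν, φ (f x) = (φ x + 1) % (n * t)) :
    ((n * t : ℕ) : ℝ) *
      ν.real {x | φ x = 0 ∧ ¬ LINs f a (n * t) (2 * ((2 * τ + 4 * c) * t)) x} ≤ eps := by
  classical
  set N := n * t with hN
  have hN1 : 1 ≤ N := Nat.mul_pos hn ht
  set Z : Set Ω := {x | φ x = 0 ∧ ¬ LINs f a N (2 * ((2 * τ + 4 * c) * t)) x} with hZ
  have hZm : MeasurableSet Z := by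
    apply MeasurableSet.inter
    · exact hφ (measurableSet_singleton 0)
    · exact (measurableSet_LINs hf.measurable h.meas N _).compl
  have hphi : ∀ᵐ x ∂ν, ∀ i, φ (f^[i + 1] x) = (φ (f^[i] x) + 1) % N := by
    rw [ae_all_iff]
    intro i
    filter_upwards [(hf.iterate i).quasiMeasurePreserving.ae hφs] with x hx
    rw [Function.iterate_succ_apply']
    exact hx
  have hdis : (↑(Finset.range N) : Set ℕ).Pairwise
      (Function.onFun (AEDisjoint ν) (fun i => f^[i] ⁻¹' Z)) := by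
    have key : ∀ i j, i < j → j < N → AEDisjoint ν (f^[i] ⁻¹' Z) (f^[j] ⁻¹' Z) := by
      intro i j hij hj
      have hnull : ∀ᵐ x ∂ν, ¬ (x ∈ f^[i] ⁻¹' Z ∩ f^[j] ⁻¹' Z) := by
        filter_upwards [hphi] with x hx
        rintro ⟨h1, h2⟩
        have h3 : φ (f^[i] x) = 0 := h1.1
        have h4 : φ (f^[j] x) = 0 := h2.1
        have h5 : ∀ k, k < N → φ (f^[i + k] x) = k := by
          intro k
          induction k with
          | zero => intro _; simpa using h3
          | succ k ih =>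
            intro hk
            have := hx (i + k)
            rw [ih (by omega), Nat.mod_eq_of_lt hk] at this
            exact this
        have h6 := h5 (j - i) (by omega)
        have e : i + (j - i) = j := by omega
        rw [e, h4] at h6
        omega
      rw [AEDisjoint, measure_eq_zero_iff_ae_notMem]
      exact hnull
    intro i hi j hj hij
    rw [Finset.mem_coe, Finset.mem_range] at hi hj
    rcases lt_or_gt_of_ne hij with hlt | hlt
    · exact key i j hlt hj
    · exact (key j i hlt hi).symm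
  have hunion : ν (⋃ i ∈ Finset.range N, f^[i] ⁻¹' Z) = (N : ENNReal) * ν Z := by
    rw [measure_biUnion_finset₀ hdis (fun i _ =>
      ((hf.iterate i).measurable hZm).nullMeasurableSet)]
    rw [Finset.sum_congr rfl (fun i _ => (hf.iterate i).measure_preimage hZm.nullMeasurableSet)]
    rw [Finset.sum_const, Finset.card_range, nsmul_eq_mul]
  have hsub : (⋃ i ∈ Finset.range N, f^[i] ⁻¹' Z) ≤ᵐ[ν] (GE f a c t (2 * n) τ)ᶜ := by
    filter_upwards [stab_window hf h ht hn hτ] with x hx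
    intro hxm hxG
    have hL := hx hxG
    have hxm' : x ∈ ⋃ i ∈ Finset.range N, f^[i] ⁻¹' Z := hxm
    simp only [Set.mem_iUnion, Finset.mem_range] at hxm'
    obtain ⟨i, hi, hiZ⟩ := hxm'
    have hw := hL.window i N hN1 (by rw [mul_assoc, ← hN]; omega)
    exact hiZ.2 hw
  have h1 : (N : ENNReal) * ν Z ≤ ν (GE f a c t (2 * n) τ)ᶜ := by
    rw [← hunion]
    exact measure_mono_ae hsub
  have h2 := measure_GE_compl hf h ht hn hτ hτ2 hst
  have h3 : (N : ℝ) * ν.real Z ≤ ν.real (GE f a c t (2 * n) τ)ᶜ := by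
    have := ENNReal.toReal_mono (measure_ne_top _ _) h1
    rwa [ENNReal.toReal_mul, ENNReal.toReal_natCast] at this
  exact h3.trans h2

end Crest.Agent.R133.Stab
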