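import Mathlib

/-!
Row 133 (S0182), section 6, deterministic part (helper823): a subadditive cocycle along one orbit
which is almost additive on the scale `t` satisfies `LIN`.
-/

set_option autoImplicit false

namespace Crest.Agent.R133.Stab

/-- Upper bound of `u i ((j-i) t)` by the sum of blocks. `u i m` = value of the cocycle of length
`m` started at time `i`. -/
theorem block_upper (u : ℕ → ℕ → ℝ) (t : ℕ)
    (hsub : ∀ i m k, u i (m + k) ≤ u i m + u (i + m) k) (h0 : ∀ i, u i 0 ≤ 0) (i q : ℕ) :
    u (i * t) (q * t) ≤ ∑ l ∈ Finset.range q, u ((i + l) * t) t := by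
  induction q with
  | zero => simpa using h0 (i * t)
  | succ q ih =>
    rw [Finset.sum_range_succ, Nat.succ_mul]
    refine (hsub _ _ _).trans ?_
    have : i * t + q * t = (i + q) * t := by ring
    rw [this]
    linarith

/-- the deterministic linearity lemma. -/
theorem lin_det (u : ℕ → ℕ → ℝ) (t J : ℕ) (ht : 1 ≤ t) (hJ : 1 ≤ J) (c τ : ℝ) (hc : 0 ≤ c)
    (hsub : ∀ i m k, u i (m + k) ≤ u i m + u (i + m) k)
    (hbd : ∀ i m, |u i m| ≤ c * m)
    (β : ℝ) (hβ : β * t * J = ∑ l ∈ Finset.range J, u (l * t) t)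
    (h1 : ∑ l ∈ Finset.range J, |u (l * t) t - β * t| ≤ τ * t)
    (h2 : ∑ l ∈ Finset.range J, u (l * t) t - u 0 (J * t) ≤ τ * t)
    (k k' : ℕ) (hk : k ≤ k') (hk' : k' ≤ J * t) :
    |u k (k' - k) - ((k' : ℝ) - k) * β| ≤ (2 * τ + 4 * c) * t := by
  have h0 : ∀ i, u i 0 ≤ 0 := by
    intro i
    have := hbd i 0
    simp at this
    exact this.le
  have htR : (1 : ℝ) ≤ t := by exact_mod_cast ht
  have htpos : (0 : ℝ) < t := by linarith
  have hJpos : (0 : ℝ) < J := by exact_mod_cast hJ
  have hτ : 0 ≤ τ * t := le_trans (Finset.sum_nonneg fun l _ => abs_nonneg _) h1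
  -- |β| ≤ c
  have hβc : |β| ≤ c := by
    have h3 : |β * t * J| ≤ c * t * J := by
      rw [hβ]
      calc |∑ l ∈ Finset.range J, u (l * t) t| ≤ ∑ l ∈ Finset.range J, |u (l * t) t| :=
            Finset.abs_sum_le_sum_abs _ _
        _ ≤ ∑ l ∈ Finset.range J, c * t := Finset.sum_le_sum fun l _ => hbd _ _
        _ = c * t * J := by rw [Finset.sum_const, Finset.card_range, nsmul_eq_mul]; ring
    rw [abs_mul, abs_mul, abs_of_pos htpos, abs_of_pos hJpos] at h3
    have h4 : |β| * (t * J) ≤ c * (t * J) := by linarith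
    exact le_of_mul_le_mul_right h4 (by positivity)
  have hβ1 := (abs_le.1 hβc).1
  have hβ2 := (abs_le.1 hβc).2
  -- sums over sub-blocks
  have hpart : ∀ i q, i + q ≤ J → |∑ l ∈ Finset.range q, (u ((i + l) * t) t - β * t)| ≤ τ * t := by
    intro i q hiq
    refine (Finset.abs_sum_le_sum_abs _ _).trans (le_trans ?_ h1)
    have : ∑ l ∈ Finset.range q, |u ((i + l) * t) t - β * t| =
        ∑ l ∈ Finset.Ico i (i + q), |u (l * t) t - β * t| := by
      rw [Finset.sum_Ico_eq_sum_range]
      simp
    rw [this]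
    apply Finset.sum_le_sum_of_subset_of_nonneg
    · intro l hl
      rw [Finset.mem_Ico] at hl
      rw [Finset.mem_range]; omega
    · intro l _ _; exact abs_nonneg _
  have hpart' : ∀ i q, i + q ≤ J →
      |∑ l ∈ Finset.range q, u ((i + l) * t) t - q * (β * t)| ≤ τ * t := by
    intro i q hiq
    have := hpart i q hiq
    rw [Finset.sum_sub_distrib, Finset.sum_const, Finset.card_range, nsmul_eq_mul] at this
    exact this
  -- block upper bound
  have hU : ∀ i q, i + q ≤ J → u (i * t) (q * t) ≤ q * (β * t) + τ * t := by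
    intro i q hiq
    have h3 := block_upper u t hsub h0 i q
    have h4 := (abs_le.1 (hpart' i q hiq)).2
    linarith
  -- block lower bound
  have hL : ∀ i q, i + q ≤ J → q * (β * t) - 2 * (τ * t) ≤ u (i * t) (q * t) := by
    intro i q hiq
    obtain ⟨r, hr⟩ := Nat.exists_eq_add_of_le hiq
    have h3 : u 0 (J * t) ≤ u 0 (i * t) + u (i * t) (q * t) + u ((i + q) * t) (r * t) := by
      have e1 : J * t = i * t + (q * t + r * t) := by rw [hr]; ring
      rw [e1]
      have h4 := hsub 0 (i * t) (q * t + r * t)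
      have h5 := hsub (i * t) (q * t) (r * t)
      rw [zero_add] at h4
      have e2 : i * t + q * t = (i + q) * t := by ring
      rw [e2] at h5
      linarith
    have h4 : u 0 (i * t) ≤ ∑ l ∈ Finset.range i, u (l * t) t := by
      have := block_upper u t hsub h0 0 i
      simpa using this
    have h5 : u ((i + q) * t) (r * t) ≤ ∑ l ∈ Finset.range r, u ((i + q + l) * t) t :=
      block_upper u t hsub h0 (i + q) r
    have h6 : ∑ l ∈ Finset.range J, u (l * t) t = ∑ l ∈ Finset.range i, u (l * t) t +
        ∑ l ∈ Finset.range q, u ((i + l) * t) t + ∑ l ∈ Finset.range r, u ((i + q + l) * t) t := by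
      rw [hr, Finset.sum_range_add, Finset.sum_range_add]
    have h7 := (abs_le.1 (hpart' i q hiq)).1
    linarith
  -- arithmetic of k, k'
  set i := k / t with hi
  set j := k' / t with hj
  have htp : 0 < t := ht
  have hi1 : i * t ≤ k := Nat.div_mul_le_self k t
  have hi2 : k < i * t + t := by
    have := Nat.lt_div_mul_add htp (a := k)
    simpa [hi] using this
  have hj1 : j * t ≤ k' := Nat.div_mul_le_self k' t
  have hj2 : k' < j * t + t := by
    have := Nat.lt_div_mul_add htp (a := k')
    simpa [hj] using this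
  have hij : i ≤ j := Nat.div_le_div_right hk
  have hjJ : j ≤ J := by
    rw [hj]; exact Nat.div_le_of_le_mul (by rw [mul_comm]; exact hk')
  have hkR : (k : ℝ) ≤ k' := by exact_mod_cast hk
  have hi1R : (i : ℝ) * t ≤ k := by exact_mod_cast hi1
  have hi2R : (k : ℝ) < i * t + t := by exact_mod_cast hi2
  have hj1R : (j : ℝ) * t ≤ k' := by exact_mod_cast hj1
  have hj2R : (k' : ℝ) < j * t + t := by exact_mod_cast hj2
  have hct : 0 ≤ c * t := by positivity
  rw [abs_le]
  constructor
  · -- lower bound
    -- choose j0 = ceil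
    obtain ⟨j0, hj0J, hj0a, hj0b⟩ : ∃ j0, j0 ≤ J ∧ k' ≤ j0 * t ∧ j0 * t ≤ k' + t := by
      by_cases h : k' = j * t
      · exact ⟨j, hjJ, h.le, by omega⟩
      · have h3 : j * t < k' := lt_of_le_of_ne hj1 (Ne.symm h)
        refine ⟨j + 1, ?_, ?_, ?_⟩
        · by_contra hcon
          have h4 : J ≤ j := by omega
          have h5 : J * t ≤ j * t := Nat.mul_le_mul_right t h4
          omega
        · rw [Nat.add_mul, one_mul]; omega
        · rw [Nat.add_mul, one_mul]; omega
    have hij0 : i ≤ j0 := by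
      by_contra hcon
      have h4 : j0 + 1 ≤ i := by omega
      have h5 : (j0 + 1) * t ≤ i * t := Nat.mul_le_mul_right t h4
      rw [Nat.add_mul, one_mul] at h5
      omega
    obtain ⟨q, hq⟩ := Nat.exists_eq_add_of_le hij0
    have h3 := hL i q (by omega)
    have hqt : i * t + q * t = j0 * t := by rw [hq]; ring
    -- decompose q*t = (k - i t) + (k' - k) + (j0 t - k')
    have e1 : q * t = (k - i * t) + ((k' - k) + (j0 * t - k')) := by omega
    have h4 : u (i * t) (q * t) ≤ u (i * t) (k - i * t) + (u k (k' - k) + u k' (j0 * t - k')) := by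
      rw [e1]
      have h5 := hsub (i * t) (k - i * t) ((k' - k) + (j0 * t - k'))
      have h6 := hsub k (k' - k) (j0 * t - k')
      have e2 : i * t + (k - i * t) = k := by omega
      have e3 : k + (k' - k) = k' := by omega
      rw [e2] at h5
      rw [e3] at h6
      linarith
    have h5 := (abs_le.1 (hbd (i * t) (k - i * t))).2
    have h6 := (abs_le.1 (hbd k' (j0 * t - k'))).2
    have h7 : ((k - i * t : ℕ) : ℝ) ≤ t := by
      have : k - i * t ≤ t := by omega
      exact_mod_cast this
    have h8 : ((j0 * t - k' : ℕ) : ℝ) ≤ t := by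
      have : j0 * t - k' ≤ t := by omega
      exact_mod_cast this
    have h9 : c * ((k - i * t : ℕ) : ℝ) ≤ c * t := mul_le_mul_of_nonneg_left h7 hc
    have h10 : c * ((j0 * t - k' : ℕ) : ℝ) ≤ c * t := mul_le_mul_of_nonneg_left h8 hc
    -- compare q t β with (k'-k) β
    have hqR : (i : ℝ) * t + q * t = j0 * t := by exact_mod_cast hqt
    have hj0aR : (k' : ℝ) ≤ j0 * t := by exact_mod_cast hj0a
    have hj0bR : (j0 : ℝ) * t ≤ k' + t := by exact_mod_cast hj0b
    have h11 : 0 ≤ (q : ℝ) * t - (k' - k) := by linarith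
    have h12 : (q : ℝ) * t - (k' - k) ≤ 2 * t := by linarith
    have h13 : -(c * (2 * t)) ≤ ((q : ℝ) * t - (k' - k)) * β := by
      have : -(((q : ℝ) * t - (k' - k)) * c) ≤ ((q : ℝ) * t - (k' - k)) * β := by
        have h15 := mul_nonneg h11 (by linarith : 0 ≤ β + c)
        rw [mul_add] at h15
        linarith
      have h14 : ((q : ℝ) * t - (k' - k)) * c ≤ (2 * t) * c := mul_le_mul_of_nonneg_right h12 hc
      linarith
    linarith
  · -- upper bound
    -- choose i0 = ceil (k/t)
    obtain ⟨i0, hi0a, hi0b⟩ : ∃ i0, k ≤ i0 * t ∧ i0 * t < k + t := by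
      by_cases h : k = i * t
      · exact ⟨i, h.le, by omega⟩
      · have h3 : i * t < k := lt_of_le_of_ne hi1 (Ne.symm h)
        refine ⟨i + 1, ?_, ?_⟩
        · rw [Nat.add_mul, one_mul]; omega
        · rw [Nat.add_mul, one_mul]; omega
    by_cases hcase : i0 ≤ j
    · obtain ⟨q, hq⟩ := Nat.exists_eq_add_of_le hcase
      have h3 := hU i0 q (by omega)
      have hqt : i0 * t + q * t = j * t := by rw [hq]; ring
      have e1 : k' - k = (i0 * t - k) + (q * t + (k' - j * t)) := by omega
      have h4 : u k (k' - k) ≤ u k (i0 * t - k) + (u (i0 * t) (q * t) + u (j * t) (k' - j * t)) := by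
        rw [e1]
        have h5 := hsub k (i0 * t - k) (q * t + (k' - j * t))
        have h6 := hsub (i0 * t) (q * t) (k' - j * t)
        have e2 : k + (i0 * t - k) = i0 * t := by omega
        rw [e2] at h5
        rw [hqt] at h6
        linarith
      have h5 := (abs_le.1 (hbd k (i0 * t - k))).2
      have h6 := (abs_le.1 (hbd (j * t) (k' - j * t))).2
      have h7 : ((i0 * t - k : ℕ) : ℝ) ≤ t := by
        have : i0 * t - k ≤ t := by omega
        exact_mod_cast this
      have h8 : ((k' - j * t : ℕ) : ℝ) ≤ t := by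
        have : k' - j * t ≤ t := by omega
        exact_mod_cast this
      have h9 : c * ((i0 * t - k : ℕ) : ℝ) ≤ c * t := mul_le_mul_of_nonneg_left h7 hc
      have h10 : c * ((k' - j * t : ℕ) : ℝ) ≤ c * t := mul_le_mul_of_nonneg_left h8 hc
      have hqR : (i0 : ℝ) * t + q * t = j * t := by exact_mod_cast hqt
      have hi0aR : (k : ℝ) ≤ i0 * t := by exact_mod_cast hi0a
      have hi0bR : (i0 : ℝ) * t < k + t := by exact_mod_cast hi0b
      have h11 : 0 ≤ ((k' : ℝ) - k) - q * t := by linarith
      have h12 : ((k' : ℝ) - k) - q * t ≤ 2 * t := by linarith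
      have h13 : -(c * (2 * t)) ≤ (((k' : ℝ) - k) - q * t) * β := by
        have : -((((k' : ℝ) - k) - q * t) * c) ≤ (((k' : ℝ) - k) - q * t) * β := by
          have h15 := mul_nonneg h11 (by linarith : 0 ≤ β + c)
          rw [mul_add] at h15
          linarith
        have h14 : (((k' : ℝ) - k) - q * t) * c ≤ (2 * t) * c := mul_le_mul_of_nonneg_right h12 hc
        linarith
      linarith
    · have h3 : j + 1 ≤ i0 := by omega
      have h4 : (j + 1) * t ≤ i0 * t := Nat.mul_le_mul_right t h3
      rw [Nat.add_mul, one_mul] at h4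
      have h5 : k' - k ≤ t := by omega
      have h6 := (abs_le.1 (hbd k (k' - k))).2
      have h7 : ((k' - k : ℕ) : ℝ) ≤ t := by exact_mod_cast h5
      have h8 : c * ((k' - k : ℕ) : ℝ) ≤ c * t := mul_le_mul_of_nonneg_left h7 hc
      have h9 : ((k' - k : ℕ) : ℝ) = (k' : ℝ) - k := by
        rw [Nat.cast_sub hk]
      rw [h9] at h7 h8
      have h10 : 0 ≤ (k' : ℝ) - k := by linarith
      have h11 : -(c * t) ≤ ((k' : ℝ) - k) * β := by
        have : -(((k' : ℝ) - k) * c) ≤ ((k' : ℝ) - k) * β := by
          have h15 := mul_nonneg h10 (by linarith : 0 ≤ β + c)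
          rw [mul_add] at h15
          linarith
        linarith
      rw [h9] at h6
      linarith

end Crest.Agent.R133.Stab
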