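import Mathlib
import Crest.Prelude.Def_SmoothModel

/-! Row 133, piece STD: every atomless probability measure on a standard Borel space is
a standard probability in the sense of the frozen definition. -/

set_option autoImplicit false

namespace Crest.Agent.R133.Std

open MeasureTheory Filter ProbabilityTheory Set Topology

theorem continuous_cdf (ν : Measure ℝ) [IsProbabilityMeasure ν] [NullSingletonClass ν] :
    Continuous (cdf ν) := by
  rw [continuous_iff_continuousAt]
  intro a
  have h1 : (cdf ν).measure {a} = 0 := by rw [measure_cdf]; exact measure_singleton a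
  rw [StieltjesFunction.measure_singleton] at h1
  have h2 : cdf ν a - Function.leftLim (cdf ν) a ≤ 0 := by simpa using h1
  have h3 : Function.leftLim (cdf ν) a ≤ cdf ν a := (monotone_cdf ν).leftLim_le le_rfl
  rw [(monotone_cdf ν).continuousAt_iff_leftLim_eq_rightLim]
  rw [StieltjesFunction.rightLim_eq]
  linarith

theorem exists_cdf_eq (ν : Measure ℝ) [IsProbabilityMeasure ν] [NullSingletonClass ν] {c : ℝ}
    (h0 : 0 < c) (h1 : c < 1) : ∃ b, cdf ν b = c := by
  have ha : ∃ a, cdf ν a < c :=
    ((tendsto_cdf_atBot ν).eventually (eventually_lt_nhds h0)).exists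
  have hb : ∃ a, c < cdf ν a :=
    ((tendsto_cdf_atTop ν).eventually (eventually_gt_nhds h1)).exists
  obtain ⟨a, ha⟩ := ha
  obtain ⟨b, hb⟩ := hb
  exact mem_range_of_exists_le_of_exists_ge (continuous_cdf ν) ⟨a, ha.le⟩ ⟨b, hb.le⟩

theorem level_le (ν : Measure ℝ) [IsProbabilityMeasure ν] [NullSingletonClass ν] {c c' : ℝ}
    (hc : 0 ≤ c) (hcc : c < c') (h1 : c' < 1) :
    ν {t | cdf ν t ≤ c} ≤ ENNReal.ofReal c' := by
  obtain ⟨b, hb⟩ := exists_cdf_eq ν (hc.trans_lt hcc) h1
  rw [← hb, ofReal_cdf]
  apply measure_mono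
  intro t ht
  rw [mem_Iic]
  by_contra hlt
  have := monotone_cdf ν (not_le.mp hlt).le
  simp only [mem_setOf_eq] at ht
  linarith

theorem level_measure (ν : Measure ℝ) [IsProbabilityMeasure ν] [NullSingletonClass ν] {c : ℝ}
    (h0 : 0 ≤ c) (h1 : c ≤ 1) : ν {t | cdf ν t ≤ c} = ENNReal.ofReal c := by
  rcases eq_or_lt_of_le h1 with h1 | h1
  · have : {t | cdf ν t ≤ c} = univ := by
      ext t; simp [h1, cdf_le_one]
    rw [this, measure_univ, h1, ENNReal.ofReal_one]
  apply le_antisymm
  · have ht : Tendsto (fun c' : ℝ => ENNReal.ofReal c') (𝓝[>] c) (𝓝 (ENNReal.ofReal c)) :=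
      (ENNReal.continuous_ofReal.tendsto c).mono_left nhdsWithin_le_nhds
    refine ge_of_tendsto ht ?_
    have : ∀ᶠ c' in 𝓝[>] c, c' < 1 :=
      nhdsWithin_le_nhds (eventually_lt_nhds h1)
    filter_upwards [this, self_mem_nhdsWithin] with c' h h'
    exact level_le ν h0 h' h
  · rcases eq_or_lt_of_le h0 with h0 | h0
    · simp [← h0]
    obtain ⟨b, hb⟩ := exists_cdf_eq ν h0 h1
    rw [← hb, ofReal_cdf]
    apply measure_mono
    intro t ht
    exact monotone_cdf ν ht

/-- the distribution function as a map to the unit interval -/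
noncomputable def cdfI (ν : Measure ℝ) (t : ℝ) : unitInterval :=
  ⟨cdf ν t, cdf_nonneg ν t, cdf_le_one ν t⟩

theorem measurable_cdfI (ν : Measure ℝ) : Measurable (cdfI ν) :=
  Measurable.subtype_mk (monotone_cdf ν).measurable

theorem map_cdfI (ν : Measure ℝ) [IsProbabilityMeasure ν] [NullSingletonClass ν] :
    ν.map (cdfI ν) = volume := by
  haveI : IsProbabilityMeasure (ν.map (cdfI ν)) :=
    Measure.isProbabilityMeasure_map (measurable_cdfI ν).aemeasurable
  apply Measure.ext_of_Iic
  intro u
  rw [Measure.map_apply (measurable_cdfI ν) measurableSet_Iic, unitInterval.volume_Iic]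
  have : cdfI ν ⁻¹' Iic u = {t | cdf ν t ≤ (u : ℝ)} := by
    ext t
    simp [cdfI, ← Subtype.coe_le_coe]
  rw [this, level_measure ν u.2.1 u.2.2]

/-- the flats of the distribution function are null -/
theorem flat_null (ν : Measure ℝ) [IsProbabilityMeasure ν] [NullSingletonClass ν] (q : ℝ) :
    ν {t | cdf ν t = cdf ν q} = 0 := by
  have h : {t | cdf ν t = cdf ν q} = cdfI ν ⁻¹' {cdfI ν q} := by
    ext t
    simp [cdfI, Subtype.ext_iff]
  rw [h, ← Measure.map_apply (measurable_cdfI ν) (measurableSet_singleton _), map_cdfI]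
  exact measure_singleton _

theorem isStandardProbability_of_noAtoms {X : Type*} [MeasurableSpace X] [StandardBorelSpace X]
    (μ : Measure X) [IsProbabilityMeasure μ] [NullSingletonClass μ] :
    Crest.AnalysisR.IsStandardProbability μ := by
  obtain ⟨ι, hι⟩ := exists_measurableEmbedding_real X
  set ν : Measure ℝ := μ.map ι with hν
  haveI : IsProbabilityMeasure ν := Measure.isProbabilityMeasure_map hι.measurable.aemeasurable
  haveI : NullSingletonClass ν := by
    constructor
    intro a
    rw [hν, Measure.map_apply hι.measurable (measurableSet_singleton a)]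
    by_cases ha : ∃ x, ι x = a
    · obtain ⟨x, rfl⟩ := ha
      have : ι ⁻¹' {ι x} = {x} := by
        ext y; simp [hι.injective.eq_iff]
      rw [this]; exact measure_singleton x
    · have : ι ⁻¹' {a} = ∅ := by
        ext y
        simp only [mem_preimage, mem_singleton_iff, mem_empty_iff_false, iff_false]
        exact fun h => ha ⟨y, h⟩
      rw [this]; exact measure_empty
  let F : X → unitInterval := fun x => cdfI ν (ι x)
  have hF : Measurable F := (measurable_cdfI ν).comp hι.measurable
  let X₀ : Set X := ⋂ q : ℚ, {x | cdf ν (ι x) = cdf ν (q : ℝ)}ᶜ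
  have hX₀m : MeasurableSet X₀ := by
    refine MeasurableSet.iInter fun q => MeasurableSet.compl ?_
    exact ((monotone_cdf ν).measurable.comp hι.measurable) (measurableSet_singleton _)
  have hX₀n : μ X₀ᶜ = 0 := by
    simp only [X₀, compl_iInter, compl_compl]
    rw [measure_iUnion_null_iff]
    intro q
    have h1 := flat_null ν (q : ℝ)
    rw [hν, Measure.map_apply hι.measurable] at h1
    · exact h1
    · exact (monotone_cdf _).measurable (measurableSet_singleton _)
  have hinj : InjOn F X₀ := by
    have key : ∀ x ∈ X₀, ∀ y ∈ X₀, ι x < ι y → F x ≠ F y := by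
      intro x hx y hy hlt heq
      obtain ⟨q, hq1, hq2⟩ := exists_rat_btwn hlt
      have h1 := monotone_cdf ν hq1.le
      have h2 := monotone_cdf ν hq2.le
      have h3 : cdf ν (ι x) = cdf ν (ι y) := congrArg Subtype.val heq
      have h4 := mem_iInter.mp hx q
      apply h4
      simp only [mem_setOf_eq]
      linarith
    intro x hx y hy hxy
    rcases lt_trichotomy (ι x) (ι y) with h | h | h
    · exact absurd hxy (key x hx y hy h)
    · exact hι.injective h
    · exact absurd hxy.symm (key y hy x hx h)
  have hY₀m : MeasurableSet (F '' X₀) := hX₀m.image_of_measurable_injOn hF hinj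
  have hmap : μ.map F = volume := by
    have : μ.map F = ν.map (cdfI ν) := by
      rw [hν, Measure.map_map (measurable_cdfI _) hι.measurable]; rfl
    rw [this, map_cdfI]
  have hY₀n : (volume : Measure unitInterval) (F '' X₀)ᶜ = 0 := by
    rw [← hmap, Measure.map_apply hF hY₀m.compl]
    refine measure_mono_null ?_ hX₀n
    intro x hx hx0
    exact hx (mem_image_of_mem F hx0)
  -- the inverse
  haveI : StandardBorelSpace X₀ := hX₀m.standardBorel
  have hemb : MeasurableEmbedding (fun x : X₀ => F x) :=
    (hF.comp measurable_subtype_coe).measurableEmbedding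
      (fun x y hxy => Subtype.ext (hinj x.2 y.2 hxy))
  have hne : Nonempty X := by
    by_contra h
    rw [not_nonempty_iff] at h
    have h1 : μ univ = 1 := measure_univ
    rw [univ_eq_empty_iff.mpr h, measure_empty] at h1
    exact zero_ne_one h1
  obtain ⟨G, hG, hGF⟩ := hemb.exists_measurable_extend (g := fun x : X₀ => (x : X))
    measurable_subtype_coe (fun _ => hne)
  refine ⟨X₀, F '' X₀, F, G, hX₀m, hY₀m, hX₀n, hY₀n, hF, hG, hinj.bijOn_image, ?_, hmap⟩
  intro x hx
  exact congrFun hGF ⟨x, hx⟩

end Crest.Agent.R133.Std
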