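import Mathlib

/-! Row 133, Theorem A, part 1: the path space of a tower system and its `ℤ`-action.

Generic data: types `W s`, integers `m s ≥ 2`, block maps `blk s : W (s+1) → ℕ → W s`
(only the indices `j < m s` matter).  `N 0 = 1`, `N (s+1) = m s * N s`. -/

set_option autoImplicit false

namespace Crest.Agent.R133.TA

open MeasureTheory

section det

variable {W : ℕ → Type} (m : ℕ → ℕ) (blk : ∀ s, W (s + 1) → ℕ → W s)

/-- the heights of the towers -/
def Nn (m : ℕ → ℕ) : ℕ → ℕ
  | 0 => 1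
  | (s + 1) => m s * Nn m s

@[simp] lemma Nn_zero : Nn m 0 = 1 := rfl

lemma Nn_succ (s : ℕ) : Nn m (s + 1) = m s * Nn m s := rfl

/-- the projection from level `s+1` to level `s` -/
def pr (s : ℕ) (a : W (s + 1) × ℕ) : W s × ℕ :=
  (blk s a.1 (a.2 / Nn m s), a.2 % Nn m s)

/-- the projection from level `r` to level `s ≤ r` -/
def P {s r : ℕ} (h : s ≤ r) (a : W r × ℕ) : W s × ℕ :=
  Nat.decreasingInduction (motive := fun s _ => W s × ℕ) (fun k _ b => pr m blk k b) a h

@[simp] lemma P_self (r : ℕ) (a : W r × ℕ) : P m blk (le_refl r) a = a :=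
  Nat.decreasingInduction_self ..

lemma P_succ {s r : ℕ} (h : s ≤ r) (a : W (r + 1) × ℕ) :
    P m blk (h.trans (Nat.le_succ r)) a = P m blk h (pr m blk r a) :=
  Nat.decreasingInduction_succ ..

lemma P_left {s r : ℕ} (h : s + 1 ≤ r) (a : W r × ℕ) :
    P m blk (Nat.le_of_succ_le h) a = pr m blk s (P m blk h a) :=
  Nat.decreasingInduction_succ_left ..

lemma P_trans {s r t : ℕ} (h1 : s ≤ r) (h2 : r ≤ t) (a : W t × ℕ) :
    P m blk (h1.trans h2) a = P m blk h1 (P m blk h2 a) :=
  Nat.decreasingInduction_trans ..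

variable (hm : ∀ s, 2 ≤ m s)

include hm in
lemma Nn_pos (s : ℕ) : 0 < Nn m s := by
  induction s with
  | zero => simp
  | succ s ih => rw [Nn_succ]; exact Nat.mul_pos (by have := hm s; omega) ih

include hm in
lemma Nn_ge (s : ℕ) : 2 ^ s ≤ Nn m s := by
  induction s with
  | zero => simp
  | succ s ih =>
    rw [Nn_succ, pow_succ, mul_comm]
    exact Nat.mul_le_mul (hm s) ih

lemma Nn_dvd_succ (s : ℕ) : Nn m s ∣ Nn m (s + 1) := ⟨m s, by rw [Nn_succ, mul_comm]⟩

lemma Nn_dvd {s r : ℕ} (h : s ≤ r) : Nn m s ∣ Nn m r := by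
  induction r, h using Nat.le_induction with
  | base => exact dvd_rfl
  | succ r h ih => exact ih.trans (Nn_dvd_succ m r)

/-- second component of an iterated projection -/
lemma P_snd {s r : ℕ} (h : s ≤ r) (a : W r × ℕ) (ha : a.2 < Nn m r) :
    (P m blk h a).2 = a.2 % Nn m s := by
  induction r, h using Nat.le_induction with
  | base => rw [P_self, Nat.mod_eq_of_lt ha]
  | succ r h ih =>
    rw [P_succ m blk h]
    rcases Nat.eq_zero_or_pos (Nn m r) with h0 | h0
    · rw [Nn_succ, h0] at ha; omega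
    rw [ih _ (Nat.mod_lt _ h0)]
    simp only [pr]
    exact Nat.mod_mod_of_dvd _ (Nn_dvd m h)

/-- the path space -/
structure IsPath (z : ∀ s, W s × ℕ) : Prop where
  lt : ∀ s, (z s).2 < Nn m s
  pr : ∀ s, pr m blk s (z (s + 1)) = z s
  up : ∀ M, ∃ s, M ≤ (z s).2
  dn : ∀ M, ∃ s, (z s).2 + M < Nn m s

variable {m blk}

/-- consistency over several levels -/
lemma P_consistent {z : ∀ s, W s × ℕ} (hz : ∀ s, pr m blk s (z (s + 1)) = z s) {s r : ℕ}
    (h : s ≤ r) : P m blk h (z r) = z s := by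
  induction r, h using Nat.le_induction with
  | base => simp
  | succ r h ih => rw [P_succ m blk h, hz, ih]

lemma IsPath.P {z : ∀ s, W s × ℕ} (hz : IsPath m blk z) {s r : ℕ} (h : s ≤ r) :
    TA.P m blk h (z r) = z s := P_consistent hz.pr h

/-- `φ_{s+1} = j N_s + φ_s` -/
lemma IsPath.decomp {z : ∀ s, W s × ℕ} (hz : IsPath m blk z) (s : ℕ) :
    (z (s + 1)).2 = Nn m s * ((z (s + 1)).2 / Nn m s) + (z s).2 := by
  have h : (z (s + 1)).2 % Nn m s = (z s).2 := congrArg Prod.snd (hz.pr s)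
  rw [← h]
  simp only [Nat.div_add_mod]

variable (m) in
/-- `k` can be applied at level `r` -/
def Good (k : ℤ) (r : ℕ) (n : ℕ) : Prop := 0 ≤ (n : ℤ) + k ∧ (n : ℤ) + k < Nn m r

instance (k : ℤ) (r n : ℕ) : Decidable (Good m k r n) := by unfold Good; infer_instance

lemma IsPath.good_succ {z : ∀ s, W s × ℕ} (hz : IsPath m blk z) {k : ℤ} {r : ℕ}
    (h : Good m k r (z r).2) : Good m k (r + 1) (z (r + 1)).2 := by
  have h1 := hz.decomp r
  have h2 := hz.lt (r + 1)
  rw [Nn_succ] at h2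
  set q := (z (r + 1)).2 / Nn m r with hq
  have hqm : q < m r := by
    by_contra hcon
    push Not at hcon
    have : m r * Nn m r ≤ q * Nn m r := Nat.mul_le_mul hcon le_rfl
    nlinarith
  refine ⟨?_, ?_⟩
  · have := h.1
    rw [h1]; push_cast
    have : (0 : ℤ) ≤ (Nn m r : ℤ) * q := by positivity
    omega
  · have h3 := h.2
    rw [h1, Nn_succ]; push_cast
    have h4 : (q : ℤ) + 1 ≤ m r := by exact_mod_cast hqm
    have h5 : (0 : ℤ) ≤ Nn m r := by positivity
    nlinarith

lemma IsPath.good_mono {z : ∀ s, W s × ℕ} (hz : IsPath m blk z) {k : ℤ} {r t : ℕ}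
    (h : Good m k r (z r).2) (hrt : r ≤ t) : Good m k t (z t).2 := by
  induction t, hrt using Nat.le_induction with
  | base => exact h
  | succ t ht ih => exact hz.good_succ ih

lemma IsPath.exists_good {z : ∀ s, W s × ℕ} (hz : IsPath m blk z) (k : ℤ) :
    ∃ r, Good m k r (z r).2 := by
  rcases le_or_gt 0 k with hk | hk
  · obtain ⟨r, hr⟩ := hz.dn k.toNat
    refine ⟨r, by positivity, ?_⟩
    have : (k.toNat : ℤ) = k := Int.toNat_of_nonneg hk
    have h2 : ((z r).2 : ℤ) + k.toNat < Nn m r := by exact_mod_cast hr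
    omega
  · obtain ⟨r, hr⟩ := hz.up (-k).toNat
    have : ((-k).toNat : ℤ) = -k := Int.toNat_of_nonneg (by omega)
    have h2 : ((-k).toNat : ℤ) ≤ (z r).2 := by exact_mod_cast hr
    have h3 := hz.lt r
    have h4 : ((z r).2 : ℤ) < Nn m r := by exact_mod_cast h3
    exact ⟨r, by omega, by omega⟩

/-- the shifted point at a good level -/
def sh (k : ℤ) (a : ∀ s, W s × ℕ) (r : ℕ) : W r × ℕ := ((a r).1, ((a r).2 + k).toNat)

lemma sh_lt {z : ∀ s, W s × ℕ} {k : ℤ} {r : ℕ} (h : Good m k r (z r).2) :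
    (sh k z r).2 < Nn m r := by
  unfold sh
  simp only
  have h1 := Int.toNat_of_nonneg h.1
  have h2 := h.2
  omega

lemma IsPath.pr_sh {z : ∀ s, W s × ℕ} (hz : IsPath m blk z) {k : ℤ} {r : ℕ}
    (h : Good m k r (z r).2) : TA.pr m blk r (sh k z (r + 1)) = sh k z r := by
  have h1 := hz.decomp r
  have h0 := hz.pr r
  have hpos : 0 < Nn m r := lt_of_le_of_lt (Nat.zero_le _) (hz.lt r)
  set q := (z (r + 1)).2 / Nn m r with hq
  obtain ⟨u, hu⟩ : ∃ u : ℕ, ((z r).2 : ℤ) + k = u := ⟨(((z r).2 : ℤ) + k).toNat,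
    (Int.toNat_of_nonneg h.1).symm⟩
  have hu2 : u < Nn m r := by
    have := h.2
    rw [hu] at this
    exact_mod_cast this
  have e1 : (((z (r + 1)).2 : ℤ) + k).toNat = Nn m r * q + u := by
    rw [h1]
    have : (((Nn m r * q + (z r).2 : ℕ) : ℤ) + k) = ((Nn m r * q + u : ℕ) : ℤ) := by
      push_cast
      rw [add_assoc, hu]
    rw [this, Int.toNat_natCast]
  have e2 : (((z r).2 : ℤ) + k).toNat = u := by rw [hu, Int.toNat_natCast]
  have hd : (Nn m r * q + u) / Nn m r = q := by
    rw [Nat.mul_add_div hpos, Nat.div_eq_of_lt hu2, add_zero]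
  have hmod : (Nn m r * q + u) % Nn m r = u := by
    rw [Nat.mul_add_mod, Nat.mod_eq_of_lt hu2]
  unfold TA.pr sh
  simp only [e1, e2, hd, hmod]
  have := congrArg Prod.fst h0
  unfold TA.pr at this
  simp only at this
  rw [Prod.mk.injEq]
  exact ⟨this, rfl⟩

lemma IsPath.P_sh {z : ∀ s, W s × ℕ} (hz : IsPath m blk z) {k : ℤ} {s r : ℕ}
    (h : Good m k s (z s).2) (hsr : s ≤ r) : TA.P m blk hsr (sh k z r) = sh k z s := by
  induction r, hsr using Nat.le_induction with
  | base => simp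
  | succ r hr ih => rw [P_succ m blk hr, hz.pr_sh (hz.good_mono h hr), ih]

/-- existence of a good level above `s` -/
lemma IsPath.exists_good_ge {z : ∀ s, W s × ℕ} (hz : IsPath m blk z) (k : ℤ) (s : ℕ) :
    ∃ r, s ≤ r ∧ Good m k r (z r).2 := by
  obtain ⟨r, hr⟩ := hz.exists_good k
  exact ⟨max s r, le_max_left _ _, hz.good_mono hr (le_max_right _ _)⟩

variable (m blk) in
/-- the path space as a type -/
abbrev X : Type := {z : ∀ s, W s × ℕ // IsPath m blk z}

/-- the action, on the level of sequences -/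
noncomputable def act (k : ℤ) (z : X m blk) (s : ℕ) : W s × ℕ :=
  P m blk (Nat.find_spec (z.2.exists_good_ge k s)).1 (sh k z.1 _)

lemma act_eq (k : ℤ) (z : X m blk) {s r : ℕ} (hsr : s ≤ r) (h : Good m k r (z.1 r).2) :
    act k z s = P m blk hsr (sh k z.1 r) := by
  unfold act
  have hsp := Nat.find_spec (z.2.exists_good_ge k s)
  have hle : Nat.find (z.2.exists_good_ge k s) ≤ r := Nat.find_min' _ ⟨hsr, h⟩
  rw [← z.2.P_sh hsp.2 hle, ← P_trans]

lemma act_eq0 (k : ℤ) (z : X m blk) (s : ℕ) (h : Good m k s (z.1 s).2) :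
    act k z s = sh k z.1 s := by
  rw [act_eq k z le_rfl h, P_self]

/-- compatibility -/
lemma act_pr (k : ℤ) (z : X m blk) (s : ℕ) :
    pr m blk s (act k z (s + 1)) = act k z s := by
  obtain ⟨r, hr, hd⟩ := z.2.exists_good_ge k (s + 1)
  rw [act_eq k z hr hd, act_eq k z ((Nat.le_succ s).trans hr) hd]
  exact (P_left m blk hr _).symm

lemma act_lt (k : ℤ) (z : X m blk) (s : ℕ) : (act k z s).2 < Nn m s := by
  obtain ⟨r, hr, hd⟩ := z.2.exists_good_ge k s
  rw [act_eq k z hr hd, P_snd _ _ _ _ (sh_lt hd)]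
  exact Nat.mod_lt _ (lt_of_le_of_lt (Nat.zero_le _) (z.2.lt s))

lemma act_isPath (k : ℤ) (z : X m blk) : IsPath m blk (act k z) where
  lt := act_lt k z
  pr := act_pr k z
  up := by
    intro M
    obtain ⟨r0, hr0⟩ := z.2.up (M + (-k).toNat)
    obtain ⟨r, hr, hd⟩ := z.2.exists_good_ge k r0
    refine ⟨r, ?_⟩
    rw [act_eq0 k z r hd]
    unfold sh
    simp only
    have h1 := Int.toNat_of_nonneg hd.1
    have h2 : (z.1 r0).2 ≤ (z.1 r).2 := by
      have := congrArg Prod.snd (z.2.P hr)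
      rw [P_snd _ _ _ _ (z.2.lt r)] at this
      rw [← this]
      exact Nat.mod_le _ _
    omega
  dn := by
    intro M
    obtain ⟨r, hr⟩ := z.2.exists_good (k + M)
    obtain ⟨r1, hr1⟩ := z.2.exists_good k
    have g1 := z.2.good_mono hr (le_max_left r r1)
    have g2 := z.2.good_mono hr1 (le_max_right r r1)
    refine ⟨max r r1, ?_⟩
    rw [act_eq0 k z _ g2]
    unfold sh
    simp only
    have h1 := Int.toNat_of_nonneg g2.1
    have h2 := g1.2
    omega

/-- the action -/
noncomputable def actX (k : ℤ) (z : X m blk) : X m blk := ⟨act k z, act_isPath k z⟩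

lemma actX_val (k : ℤ) (z : X m blk) (s : ℕ) (h : Good m k s (z.1 s).2) :
    (actX k z).1 s = sh k z.1 s := act_eq0 k z s h

/-- two points of the path space which agree at infinitely many levels are equal -/
lemma X.ext' {z z' : X m blk} (h : ∀ s, ∃ r, s ≤ r ∧ z.1 r = z'.1 r) : z = z' := by
  apply Subtype.ext
  funext s
  obtain ⟨r, hr, he⟩ := h s
  rw [← z.2.P hr, ← z'.2.P hr, he]

lemma actX_add (k l : ℤ) (z : X m blk) : actX l (actX k z) = actX (k + l) z := by
  apply X.ext'
  intro s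
  obtain ⟨r1, hr1, h1⟩ := z.2.exists_good_ge k s
  obtain ⟨r2, hr2, h2⟩ := z.2.exists_good_ge (k + l) r1
  obtain ⟨r3, hr3, h3⟩ := (actX k z).2.exists_good_ge l r2
  refine ⟨r3, by omega, ?_⟩
  have g1 := z.2.good_mono h1 (hr2.trans hr3)
  have g2 := z.2.good_mono h2 hr3
  rw [actX_val l _ _ h3, actX_val (k + l) _ _ g2]
  unfold sh
  rw [actX_val k _ _ g1]
  unfold sh
  simp only
  have e1 := Int.toNat_of_nonneg g1.1
  rw [e1, add_assoc]

lemma actX_zero (z : X m blk) : actX 0 z = z := by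
  apply X.ext'
  intro s
  have hg : Good m 0 s (z.1 s).2 := ⟨by simp, by
    have := z.2.lt s
    omega⟩
  refine ⟨s, le_rfl, ?_⟩
  rw [actX_val 0 z s hg]
  unfold sh
  simp

/-- the bijection `T` of the path space -/
noncomputable def Tequiv : X m blk ≃ X m blk where
  toFun := actX 1
  invFun := actX (-1)
  left_inv z := by rw [actX_add]; exact actX_zero z
  right_inv z := by rw [actX_add]; exact actX_zero z

/-- (T2a) -/
lemma T_step (z : X m blk) (s : ℕ) (h : (z.1 s).2 + 1 < Nn m s) :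
    (Tequiv z).1 s = ((z.1 s).1, (z.1 s).2 + 1) := by
  have hg : Good m 1 s (z.1 s).2 := ⟨by positivity, by exact_mod_cast h⟩
  change (actX 1 z).1 s = _
  rw [actX_val 1 z s hg]
  unfold sh
  rw [Prod.mk.injEq]
  refine ⟨rfl, ?_⟩
  omega

/-- (T2b) -/
lemma T_top (z : X m blk) (s : ℕ) (h : (z.1 s).2 + 1 = Nn m s) :
    ((Tequiv z).1 s).2 = 0 := by
  obtain ⟨r, hr, hd⟩ := z.2.exists_good_ge 1 s
  change (act 1 z s).2 = 0
  rw [act_eq 1 z hr hd, P_snd _ _ _ _ (sh_lt hd)]
  have h1 : (z.1 r).2 % Nn m s = (z.1 s).2 := by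
    have := congrArg Prod.snd (z.2.P hr)
    rwa [P_snd _ _ _ _ (z.2.lt r)] at this
  have h2 : (sh 1 z.1 r).2 = (z.1 r).2 + 1 := by
    unfold sh
    simp only
    omega
  rw [h2, Nat.add_mod, h1]
  rcases Nat.lt_or_ge 1 (Nn m s) with h3 | h3
  · rw [Nat.mod_eq_of_lt h3, h, Nat.mod_self]
  · have : Nn m s = 1 := by omega
    rw [this]; omega

/-- inverse step -/
lemma Tinv_step (z : X m blk) (s : ℕ) (h : 0 < (z.1 s).2) :
    (Tequiv.symm z).1 s = ((z.1 s).1, (z.1 s).2 - 1) := by
  have hl := z.2.lt s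
  have hg : Good m (-1) s (z.1 s).2 := ⟨by omega, by omega⟩
  change (actX (-1) z).1 s = _
  rw [actX_val (-1) z s hg]
  unfold sh
  rw [Prod.mk.injEq]
  refine ⟨rfl, ?_⟩
  omega

/-! ### measurability -/

section meas

variable [∀ s, MeasurableSpace (W s)] [∀ s, Countable (W s)]
  [∀ s, MeasurableSingletonClass (W s)]

lemma measurable_coord (s : ℕ) : Measurable (fun z : X m blk => z.1 s) :=
  (measurable_pi_apply s).comp measurable_subtype_coe

lemma measurableSet_isPath : MeasurableSet {z : ∀ s, W s × ℕ | IsPath m blk z} := by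
  have : {z : ∀ s, W s × ℕ | IsPath m blk z} =
      (⋂ s, {z | (z s).2 < Nn m s}) ∩ (⋂ s, {z | pr m blk s (z (s + 1)) = z s}) ∩
      (⋂ M : ℕ, ⋃ s, {z | M ≤ (z s).2}) ∩ (⋂ M : ℕ, ⋃ s, {z | (z s).2 + M < Nn m s}) := by
    ext z
    simp only [Set.mem_ofPred_eq, Set.mem_inter_iff, Set.mem_iInter, Set.mem_iUnion]
    constructor
    · intro h
      exact ⟨⟨⟨h.lt, h.pr⟩, h.up⟩, h.dn⟩
    · intro h
      exact ⟨h.1.1.1, h.1.1.2, h.1.2, h.2⟩
  rw [this]
  have hc : ∀ (s : ℕ) (A : Set (W s × ℕ)), MeasurableSet {z : ∀ s, W s × ℕ | z s ∈ A} :=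
    fun s A => (measurable_pi_apply s) (Set.to_countable A).measurableSet
  refine (((MeasurableSet.iInter fun s => ?_).inter (MeasurableSet.iInter fun s => ?_)).inter
    (MeasurableSet.iInter fun M => MeasurableSet.iUnion fun s => ?_)).inter
    (MeasurableSet.iInter fun M => MeasurableSet.iUnion fun s => ?_)
  · exact hc s {a | a.2 < Nn m s}
  · have : Measurable (fun z : ∀ s, W s × ℕ => (z (s + 1), z s)) :=
      (measurable_pi_apply _).prodMk (measurable_pi_apply _)
    exact this (Set.to_countable {p : (W (s + 1) × ℕ) × (W s × ℕ) |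
      pr m blk s p.1 = p.2}).measurableSet
  · exact hc s {a | M ≤ a.2}
  · exact hc s {a | a.2 + M < Nn m s}

lemma measurable_act (k : ℤ) (s : ℕ) : Measurable (fun z : X m blk => act k z s) := by
  apply measurable_to_countable'
  intro a
  have : (fun z : X m blk => act k z s) ⁻¹' {a} =
      ⋃ r, {z : X m blk | ∃ h : s ≤ r, Good m k r (z.1 r).2 ∧ P m blk h (sh k z.1 r) = a} := by
    ext z
    simp only [Set.mem_preimage, Set.mem_singleton_iff, Set.mem_iUnion, Set.mem_ofPred_eq]
    constructor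
    · intro h
      obtain ⟨r, hr, hd⟩ := z.2.exists_good_ge k s
      exact ⟨r, hr, hd, by rw [← act_eq k z hr hd, h]⟩
    · rintro ⟨r, hr, hd, h⟩
      rw [act_eq k z hr hd, h]
  rw [this]
  refine MeasurableSet.iUnion fun r => ?_
  exact measurable_coord r (Set.to_countable {b : W r × ℕ | ∃ h : s ≤ r, Good m k r b.2 ∧
    P m blk h (b.1, (b.2 + k).toNat) = a}).measurableSet

lemma measurable_actX (k : ℤ) : Measurable (actX k : X m blk → X m blk) := by
  refine Measurable.subtype_mk ?_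
  exact measurable_pi_lambda _ (fun s => measurable_act k s)

variable (m blk) in
/-- `T` as a measurable equivalence -/
noncomputable def T : X m blk ≃ᵐ X m blk where
  toEquiv := Tequiv
  measurable_toFun := measurable_actX 1
  measurable_invFun := measurable_actX (-1)

lemma T_apply (z : X m blk) : T m blk z = Tequiv z := rfl

lemma T_symm_apply (z : X m blk) : (T m blk).symm z = Tequiv.symm z := rfl

instance [∀ s, Finite (W s)] : StandardBorelSpace (X m blk) := by
  have : ∀ s, StandardBorelSpace (W s) := fun s => inferInstance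
  exact measurableSet_isPath.standardBorel

/-- the σ-algebra is generated by the coordinates -/
lemma generateFrom_eq : (inferInstance : MeasurableSpace (X m blk)) =
    MeasurableSpace.generateFrom {A | ∃ (s : ℕ) (a : W s × ℕ), A = {z : X m blk | z.1 s = a}} := by
  apply le_antisymm
  · have h : (inferInstance : MeasurableSpace (X m blk)) =
      ⨆ s, MeasurableSpace.comap (fun z : X m blk => z.1 s) inferInstance := by
      change MeasurableSpace.comap (fun z : X m blk => (z.1 : ∀ s, W s × ℕ))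
        (⨆ s, MeasurableSpace.comap (fun b : ∀ s, W s × ℕ => b s) inferInstance) = _
      rw [MeasurableSpace.comap_iSup]
      simp only [MeasurableSpace.comap_comp]
      rfl
    rw [h]
    refine iSup_le fun s => ?_
    rw [← measurable_iff_comap_le]
    refine @measurable_to_countable' _ _ _ _ (MeasurableSpace.generateFrom _) _ ?_
    intro a
    exact MeasurableSpace.measurableSet_generateFrom ⟨s, a, rfl⟩
  · refine MeasurableSpace.generateFrom_le ?_
    rintro _ ⟨s, a, rfl⟩
    exact measurable_coord s (measurableSet_singleton a)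

end meas

end det

end Crest.Agent.R133.TA
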