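import Mathlib
import Crest.Agent.R133.TA1

/-! Row 133, Theorem A, part 2: the measure on the path space. -/

set_option autoImplicit false

namespace Crest.Agent.R133.TA

open MeasureTheory Set

section enum

variable {W : ℕ → Type} [∀ s, Fintype (W s)] [∀ s, DecidableEq (W s)]
  {m : ℕ → ℕ} {blk : ∀ s, W (s + 1) → ℕ → W s}

variable (m blk) in
/-- uniformity of all block coordinates -/
def Unif : Prop := ∀ s, ∀ j < m s, ∀ v : W s,
  (Finset.univ.filter (fun w => blk s w j = v)).card * Fintype.card (W s) =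
    Fintype.card (W (s + 1))

variable (W m) in
/-- number of states at level `s` -/
def q (s : ℕ) : ℕ := Fintype.card (W s) * Nn m s

variable (W m) in
/-- number of extensions of a state -/
def cc (s : ℕ) : ℕ := m s * (Fintype.card (W (s + 1)) / Fintype.card (W s))

variable (W m) in
/-- states -/
def St (s : ℕ) : Finset (W s × ℕ) := Finset.univ ×ˢ Finset.range (Nn m s)

omit [∀ s, DecidableEq (W s)] in
lemma mem_St {s : ℕ} {a : W s × ℕ} : a ∈ St W m s ↔ a.2 < Nn m s := by
  simp [St]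

omit [∀ s, DecidableEq (W s)] in
lemma card_St (s : ℕ) : (St W m s).card = q W m s := by
  simp [St, q]

variable (m blk) in
/-- extensions of a state -/
def Fib (s : ℕ) (a : W s × ℕ) : Finset (W (s + 1) × ℕ) :=
  (St W m (s + 1)).filter (fun b => pr m blk s b = a)

lemma card_div (hm : ∀ s, 2 ≤ m s) (hU : Unif m blk) [∀ s, Nonempty (W s)] (s : ℕ) :
    Fintype.card (W (s + 1)) / Fintype.card (W s) * Fintype.card (W s) =
      Fintype.card (W (s + 1)) := by
  obtain ⟨v⟩ : Nonempty (W s) := inferInstance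
  have h := hU s 0 (by have := hm s; omega) v
  rw [← h, Nat.mul_div_cancel _ Fintype.card_pos]

lemma card_Fib (hm : ∀ s, 2 ≤ m s) (hU : Unif m blk) [∀ s, Nonempty (W s)] (s : ℕ)
    (a : W s × ℕ) (ha : a.2 < Nn m s) : (Fib m blk s a).card = cc W m s := by
  have hN := Nn_pos m hm s
  have h1 : (Fib m blk s a).card = ∑ j ∈ Finset.range (m s),
      ((Fib m blk s a).filter (fun b => b.2 / Nn m s = j)).card := by
    refine Finset.card_eq_sum_card_fiberwise ?_
    intro b hb
    have hb' : b.2 < Nn m (s + 1) := mem_St.1 (Finset.mem_filter.1 hb).1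
    rw [Nn_succ] at hb'
    simp only [Finset.coe_range, mem_Iio]
    exact Nat.div_lt_of_lt_mul (by rwa [mul_comm] at hb')
  have h2 : ∀ j ∈ Finset.range (m s),
      ((Fib m blk s a).filter (fun b => b.2 / Nn m s = j)).card =
      (Finset.univ.filter (fun w => blk s w j = a.1)).card := by
    intro j hj
    rw [Finset.mem_range] at hj
    refine Finset.card_nbij' (fun b => b.1) (fun w => (w, Nn m s * j + a.2)) ?_ ?_ ?_ ?_
    · intro b hb
      simp only [Fib, Finset.coe_filter, Finset.mem_filter, mem_ofPred_eq] at hb ⊢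
      obtain ⟨⟨_, h⟩, hj⟩ := hb
      refine ⟨Finset.mem_univ _, ?_⟩
      rw [← hj]
      exact congrArg Prod.fst h
    · intro w hw
      simp only [Fib, Finset.coe_filter, Finset.mem_filter, mem_ofPred_eq] at hw ⊢
      have e1 : (Nn m s * j + a.2) / Nn m s = j := by
        rw [Nat.mul_add_div hN, Nat.div_eq_of_lt ha, add_zero]
      have e2 : (Nn m s * j + a.2) % Nn m s = a.2 := by
        rw [Nat.mul_add_mod, Nat.mod_eq_of_lt ha]
      refine ⟨⟨mem_St.2 ?_, ?_⟩, e1⟩
      · simp only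
        rw [Nn_succ]
        have : j + 1 ≤ m s := hj
        nlinarith
      · unfold pr
        simp only [e1, e2, hw.2]
    · intro b hb
      simp only [Fib, Finset.coe_filter, Finset.mem_filter, mem_ofPred_eq] at hb
      obtain ⟨⟨_, h⟩, hj⟩ := hb
      have h2 : b.2 % Nn m s = a.2 := congrArg Prod.snd h
      apply Prod.ext
      · rfl
      · simp only
        rw [← hj, ← h2, Nat.div_add_mod]
    · intro w hw
      rfl
  have h3 : (Fib m blk s a).card * Fintype.card (W s) = cc W m s * Fintype.card (W s) := by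
    rw [h1, Finset.sum_congr rfl h2, Finset.sum_mul,
      Finset.sum_congr rfl (fun j hj => hU s j (Finset.mem_range.1 hj) a.1), Finset.sum_const,
      Finset.card_range, smul_eq_mul, cc, mul_assoc, card_div hm hU]
  exact Nat.eq_of_mul_eq_mul_right Fintype.card_pos h3

lemma q_succ (hm : ∀ s, 2 ≤ m s) (hU : Unif m blk) [∀ s, Nonempty (W s)] (s : ℕ) :
    q W m (s + 1) = cc W m s * q W m s := by
  unfold q cc
  rw [← card_div hm hU s, Nn_succ]
  simp only [card_div hm hU s]
  conv_lhs => rw [← card_div hm hU s]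
  ring

omit [∀ s, DecidableEq (W s)] in
lemma q_pos (hm : ∀ s, 2 ≤ m s) [∀ s, Nonempty (W s)] (s : ℕ) : 0 < q W m s :=
  Nat.mul_pos Fintype.card_pos (Nn_pos m hm s)

lemma cc_pos (hm : ∀ s, 2 ≤ m s) (hU : Unif m blk) [∀ s, Nonempty (W s)] (s : ℕ) :
    0 < cc W m s := by
  have h1 := q_pos (W := W) (m := m) hm (s + 1)
  rw [q_succ hm hU] at h1
  exact Nat.pos_of_mul_pos_right h1 |> fun h => by
    rcases Nat.eq_zero_or_pos (cc W m s) with h0 | h0
    · rw [h0] at h1; omega
    · exact h0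

/-- enumeration of a finset by an initial segment -/
lemma exists_bijOn_Iio {α : Type*} [Nonempty α] (F : Finset α) :
    ∃ g : ℕ → α, BijOn g (Iio F.card) F := by
  classical
  obtain ⟨x0⟩ : Nonempty α := inferInstance
  let e := F.equivFin
  refine ⟨fun k => if h : k < F.card then (e.symm ⟨k, h⟩ : α) else x0, ?_, ?_, ?_⟩
  · intro k hk
    simp only [mem_Iio] at hk
    simp only [hk, dif_pos, Finset.mem_coe]
    exact (e.symm ⟨k, hk⟩).2
  · intro k hk k' hk' h
    simp only [mem_Iio] at hk hk'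
    simp only [hk, hk', dif_pos] at h
    have := e.symm.injective (Subtype.ext h)
    exact congrArg Fin.val this
  · intro b hb
    have hb' : b ∈ F := hb
    refine ⟨(e ⟨b, hb'⟩ : ℕ), (e ⟨b, hb'⟩).2, ?_⟩
    simp

/-- one step of the enumeration -/
lemma enum_step (hm : ∀ s, 2 ≤ m s) (hU : Unif m blk) [∀ s, Nonempty (W s)] (s : ℕ)
    (e : ℕ → W s × ℕ) (he : BijOn e (Iio (q W m s)) {a | a.2 < Nn m s}) :
    ∃ e' : ℕ → W (s + 1) × ℕ, BijOn e' (Iio (q W m (s + 1))) {a | a.2 < Nn m (s + 1)} ∧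
      ∀ k < q W m (s + 1), pr m blk s (e' k) = e (k / cc W m s) := by
  have hg : ∀ a : W s × ℕ, ∃ g : ℕ → W (s + 1) × ℕ, a.2 < Nn m s →
      BijOn g (Iio (cc W m s)) (Fib m blk s a) := by
    intro a
    obtain ⟨g, hg⟩ := exists_bijOn_Iio (Fib m blk s a)
    refine ⟨g, fun ha => ?_⟩
    rwa [card_Fib hm hU s a ha] at hg
  choose g hg using hg
  have hc := cc_pos hm hU s (W := W)
  have hq := q_succ hm hU s (W := W)
  have hmem : ∀ k, k < q W m (s + 1) → (k / cc W m s) ∈ Iio (q W m s) := by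
    intro k hk
    rw [hq] at hk
    exact Nat.div_lt_of_lt_mul hk
  have hG : ∀ k, k < q W m (s + 1) →
      g (e (k / cc W m s)) (k % cc W m s) ∈ Fib m blk s (e (k / cc W m s)) := by
    intro k hk
    exact (hg _ (he.mapsTo (hmem k hk))).mapsTo (Nat.mod_lt _ hc)
  have hpr : ∀ k, k < q W m (s + 1) →
      pr m blk s (g (e (k / cc W m s)) (k % cc W m s)) = e (k / cc W m s) := by
    intro k hk
    exact (Finset.mem_filter.1 (hG k hk)).2
  refine ⟨fun k => g (e (k / cc W m s)) (k % cc W m s), ⟨?_, ?_, ?_⟩, hpr⟩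
  · intro k hk
    exact mem_St.1 (Finset.mem_filter.1 (hG k hk)).1
  · intro k hk k' hk' h
    have h1 : e (k / cc W m s) = e (k' / cc W m s) := by
      rw [← hpr k hk, ← hpr k' hk']
      exact congrArg _ h
    have h2 := he.injOn (hmem k hk) (hmem k' hk') h1
    simp only at h
    rw [h2] at h
    have h3 := (hg _ (he.mapsTo (hmem k' hk'))).injOn (Nat.mod_lt _ hc) (Nat.mod_lt _ hc) h
    rw [← Nat.div_add_mod k (cc W m s), ← Nat.div_add_mod k' (cc W m s), h2, h3]
  · intro b hb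
    have hb' : b.2 < Nn m (s + 1) := hb
    have ha : (pr m blk s b).2 < Nn m s := Nat.mod_lt _ (Nn_pos m hm s)
    obtain ⟨i, hi, hie⟩ := he.surjOn ha
    have hbF : b ∈ (Fib m blk s (pr m blk s b) : Set (W (s + 1) × ℕ)) :=
      Finset.mem_coe.2 (Finset.mem_filter.2 ⟨mem_St.2 hb', rfl⟩)
    obtain ⟨r, hr, hre⟩ := (hg _ ha).surjOn hbF
    simp only [mem_Iio] at hi hr
    refine ⟨cc W m s * i + r, ?_, ?_⟩
    · simp only [mem_Iio]
      rw [hq]
      have : i + 1 ≤ q W m s := hi
      nlinarith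
    · simp only
      rw [Nat.mul_add_div hc, Nat.div_eq_of_lt hr, add_zero, Nat.mul_add_mod,
        Nat.mod_eq_of_lt hr, hie, hre]

/-- existence of compatible enumerations -/
lemma exists_enum (hm : ∀ s, 2 ≤ m s) (hU : Unif m blk) [∀ s, Nonempty (W s)] :
    ∃ e : ∀ s, ℕ → W s × ℕ, (∀ s, BijOn (e s) (Iio (q W m s)) {a | a.2 < Nn m s}) ∧
      ∀ s, ∀ k < q W m (s + 1), pr m blk s (e (s + 1) k) = e s (k / cc W m s) := by
  classical
  have h0 : ∃ e : ℕ → W 0 × ℕ, BijOn e (Iio (q W m 0)) {a | a.2 < Nn m 0} := by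
    obtain ⟨e, he⟩ := exists_bijOn_Iio (St W m 0)
    refine ⟨e, ?_⟩
    rw [card_St] at he
    convert he using 1
    ext a
    simp [mem_St]
  obtain ⟨e0, he0⟩ := h0
  choose F hF using (fun s (e : {e : ℕ → W s × ℕ // BijOn e (Iio (q W m s)) {a | a.2 < Nn m s}}) =>
    enum_step hm hU s e.1 e.2)
  let E : ∀ s, {e : ℕ → W s × ℕ // BijOn e (Iio (q W m s)) {a | a.2 < Nn m s}} :=
    fun s => Nat.rec (motive := fun s =>
      {e : ℕ → W s × ℕ // BijOn e (Iio (q W m s)) {a | a.2 < Nn m s}})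
      ⟨e0, he0⟩ (fun s e => ⟨F s e, (hF s e).1⟩) s
  refine ⟨fun s => (E s).1, fun s => (E s).2, fun s k hk => ?_⟩
  exact (hF s (E s)).2 k hk

end enum

section measure

variable {W : ℕ → Type} [∀ s, Fintype (W s)] [∀ s, DecidableEq (W s)]
  [∀ s, MeasurableSpace (W s)] [∀ s, MeasurableSingletonClass (W s)]
  {m : ℕ → ℕ} {blk : ∀ s, W (s + 1) → ℕ → W s}

/-- the coding of a real number -/
noncomputable def code (W : ℕ → Type) [∀ s, Fintype (W s)] (m : ℕ → ℕ) (e : ∀ s, ℕ → W s × ℕ)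
    (y : ℝ) (s : ℕ) : W s × ℕ := e s ⌊y * q W m s⌋₊

omit [∀ s, DecidableEq (W s)] [∀ s, MeasurableSingletonClass (W s)] in
lemma measurable_code (e : ∀ s, ℕ → W s × ℕ) : Measurable (code W m e) := by
  refine measurable_pi_lambda _ fun s => ?_
  have h1 : Measurable (fun y : ℝ => ⌊y * q W m s⌋₊) :=
    Nat.measurable_floor.comp (measurable_id.mul_const _)
  exact (measurable_of_countable (e s)).comp h1

omit [∀ s, DecidableEq (W s)] in
lemma meas_coord (s : ℕ) (A : Set (W s × ℕ)) : MeasurableSet {z : ∀ s, W s × ℕ | z s ∈ A} :=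
  (measurable_pi_apply s) (Set.to_countable A).measurableSet

/-- the measure on sequences -/
noncomputable def mu0 (W : ℕ → Type) [∀ s, Fintype (W s)] [∀ s, MeasurableSpace (W s)]
    (m : ℕ → ℕ) (e : ∀ s, ℕ → W s × ℕ) : Measure (∀ s, W s × ℕ) :=
  ((volume : Measure ℝ).restrict (Ico 0 1)).map (code W m e)

/-- the measure on the path space -/
noncomputable def mu (blk : ∀ s, W (s + 1) → ℕ → W s) (e : ∀ s, ℕ → W s × ℕ) :
    Measure (X m blk) := (mu0 W m e).comap Subtype.val

variable (m blk) in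
/-- good enumerations -/
structure Enum (e : ∀ s, ℕ → W s × ℕ) : Prop where
  bij : ∀ s, BijOn (e s) (Iio (q W m s)) {a | a.2 < Nn m s}
  pr : ∀ s, ∀ k < q W m (s + 1), pr m blk s (e (s + 1) k) = e s (k / cc W m s)

variable {e : ∀ s, ℕ → W s × ℕ}

lemma floor_lt {y : ℝ} (hy : y ∈ Ico (0 : ℝ) 1) {n : ℕ} (hn : 0 < n) : ⌊y * n⌋₊ < n := by
  rw [Nat.floor_lt (mul_nonneg hy.1 (Nat.cast_nonneg _))]
  have : (0 : ℝ) < n := by exact_mod_cast hn
  nlinarith [hy.2]

lemma code_lt (hm : ∀ s, 2 ≤ m s) [∀ s, Nonempty (W s)] (he : Enum m blk e) {y : ℝ}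
    (hy : y ∈ Ico (0 : ℝ) 1) (s : ℕ) : (code W m e y s).2 < Nn m s :=
  (he.bij s).mapsTo (floor_lt hy (q_pos hm s))

lemma code_pr (hm : ∀ s, 2 ≤ m s) (hU : Unif m blk) [∀ s, Nonempty (W s)]
    (he : Enum m blk e) {y : ℝ} (hy : y ∈ Ico (0 : ℝ) 1) (s : ℕ) :
    pr m blk s (code W m e y (s + 1)) = code W m e y s := by
  unfold code
  rw [he.pr s _ (floor_lt hy (q_pos hm (s + 1)))]
  congr 1
  rw [← Nat.floor_div_natCast]
  congr 1
  rw [q_succ hm hU s]
  have h1 : (cc W m s : ℝ) ≠ 0 := by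
    have := cc_pos hm hU s (W := W)
    positivity
  push_cast
  field_simp

/-- the law of the coordinates -/
lemma law (hm : ∀ s, 2 ≤ m s) [∀ s, Nonempty (W s)] (he : Enum m blk e) (s : ℕ)
    (a : W s × ℕ) (ha : a.2 < Nn m s) :
    mu0 W m e {z | z s = a} = ENNReal.ofReal (1 / q W m s) := by
  have hmeas : MeasurableSet {z : ∀ s, W s × ℕ | z s = a} := meas_coord s {b | b = a}
  rw [mu0, Measure.map_apply (measurable_code e) hmeas,
    Measure.restrict_apply ((measurable_code e) hmeas)]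
  obtain ⟨k, hk, hke⟩ := (he.bij s).surjOn ha
  simp only [mem_Iio] at hk
  have hq : (0 : ℝ) < q W m s := by exact_mod_cast q_pos (W := W) hm s
  have : code W m e ⁻¹' {z | z s = a} ∩ Ico 0 1 =
      Ico ((k : ℝ) / q W m s) (((k : ℝ) + 1) / q W m s) := by
    ext y
    simp only [mem_inter_iff, mem_preimage, mem_ofPred_eq]
    constructor
    · rintro ⟨h1, h2⟩
      have h3 : ⌊y * q W m s⌋₊ = k := by
        apply (he.bij s).injOn (floor_lt h2 (q_pos hm s)) hk
        rw [hke]; exact h1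
      have h4 := Nat.floor_le (mul_nonneg h2.1 hq.le)
      have h5 := Nat.lt_floor_add_one (y * q W m s)
      rw [h3] at h4 h5
      rw [mem_Ico, div_le_iff₀ hq, lt_div_iff₀ hq]
      exact ⟨h4, h5⟩
    · intro h
      rw [mem_Ico, div_le_iff₀ hq, lt_div_iff₀ hq] at h
      have h0 : 0 ≤ y := by
        have : (0 : ℝ) ≤ k := Nat.cast_nonneg _
        by_contra hcon
        push Not at hcon
        nlinarith
      have h1 : y < 1 := by
        have : (k : ℝ) + 1 ≤ q W m s := by exact_mod_cast hk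
        by_contra hcon
        push Not at hcon
        nlinarith
      refine ⟨?_, h0, h1⟩
      unfold code
      have : ⌊y * q W m s⌋₊ = k := by
        rw [Nat.floor_eq_iff (mul_nonneg h0 hq.le)]
        exact h
      rw [this, hke]
  rw [this, Real.volume_Ico]
  congr 1
  field_simp
  ring

lemma law_zero (hm : ∀ s, 2 ≤ m s) [∀ s, Nonempty (W s)] (he : Enum m blk e) (s : ℕ)
    (a : W s × ℕ) (ha : ¬ a.2 < Nn m s) :
    mu0 W m e {z | z s = a} = 0 := by
  have hmeas : MeasurableSet {z : ∀ s, W s × ℕ | z s = a} := meas_coord s {b | b = a}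
  rw [mu0, Measure.map_apply (measurable_code e) hmeas,
    Measure.restrict_apply ((measurable_code e) hmeas)]
  convert measure_empty (μ := (volume : Measure ℝ))
  ext y
  simp only [mem_inter_iff, mem_preimage, mem_ofPred_eq, mem_empty_iff_false, iff_false, not_and]
  intro h1 h2
  exact ha (h1 ▸ code_lt hm he h2 s)

instance : IsProbabilityMeasure (mu0 W m e) := by
  have : IsProbabilityMeasure ((volume : Measure ℝ).restrict (Ico 0 1)) := ⟨by simp⟩
  exact Measure.isProbabilityMeasure_map (measurable_code e).aemeasurable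

/-- probability of the set of height values in a finset -/
lemma mu0_snd (hm : ∀ s, 2 ≤ m s) [∀ s, Nonempty (W s)] (he : Enum m blk e) (s : ℕ)
    (A : Finset ℕ) (p : ℕ → Prop) (hp : ∀ i < Nn m s, p i → i ∈ A) :
    mu0 W m e {z | p (z s).2} ≤ ENNReal.ofReal (A.card / Nn m s) := by
  have h1 : mu0 W m e {z | p (z s).2} ≤
      ∑ b ∈ (Finset.univ : Finset (W s)) ×ˢ A, ENNReal.ofReal (1 / q W m s) := by
    have h2 : mu0 W m e {z | p (z s).2} ≤
        mu0 W m e ({z | ¬ (z s).2 < Nn m s} ∪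
          ⋃ b ∈ (Finset.univ : Finset (W s)) ×ˢ A, {z | z s = b}) := by
      refine measure_mono ?_
      intro z hz
      by_cases h : (z s).2 < Nn m s
      · right
        simp only [mem_iUnion]
        exact ⟨z s, Finset.mem_product.2 ⟨Finset.mem_univ _, hp _ h hz⟩, rfl⟩
      · left; exact h
    have h3 : mu0 W m e {z | ¬ (z s).2 < Nn m s} = 0 := by
      have : {z : ∀ s, W s × ℕ | ¬ (z s).2 < Nn m s} ⊆
          ⋃ b : {b : W s × ℕ // ¬ b.2 < Nn m s}, {z | z s = b.1} := by
        intro z hz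
        simp only [mem_iUnion]
        exact ⟨⟨z s, hz⟩, rfl⟩
      refine measure_mono_null this ?_
      rw [measure_iUnion_null_iff]
      rintro ⟨b, hb⟩
      exact law_zero hm he s b hb
    refine h2.trans ((measure_union_le _ _).trans ?_)
    rw [h3, zero_add]
    refine (measure_biUnion_finset_le _ _).trans ?_
    refine Finset.sum_le_sum fun b hb => ?_
    by_cases h : b.2 < Nn m s
    · rw [law hm he s b h]
    · rw [law_zero hm he s b h]; exact bot_le
  refine h1.trans ?_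
  rw [Finset.sum_const, Finset.card_product, Finset.card_univ, nsmul_eq_mul,
    ← ENNReal.ofReal_natCast, ← ENNReal.ofReal_mul (Nat.cast_nonneg _)]
  apply ENNReal.ofReal_le_ofReal
  unfold q
  have h4 : (0 : ℝ) < Fintype.card (W s) := by exact_mod_cast Fintype.card_pos
  have h5 : (0 : ℝ) < Nn m s := by exact_mod_cast Nn_pos m hm s
  push_cast
  apply le_of_eq
  field_simp

lemma tendsto_const_div (hm : ∀ s, 2 ≤ m s) (M : ℕ) :
    Filter.Tendsto (fun s => ENNReal.ofReal ((M : ℝ) / Nn m s)) Filter.atTop (nhds 0) := by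
  rw [← ENNReal.ofReal_zero]
  refine ENNReal.tendsto_ofReal ?_
  have h : Filter.Tendsto (fun s => (Nn m s : ℝ)) Filter.atTop Filter.atTop := by
    refine Filter.tendsto_atTop_mono (f := fun s => (2 : ℝ) ^ s) (fun s => ?_)
      (tendsto_pow_atTop_atTop_of_one_lt one_lt_two)
    exact_mod_cast Nn_ge m hm s
  exact h.const_div_atTop _

lemma ae_isPath (hm : ∀ s, 2 ≤ m s) (hU : Unif m blk) [∀ s, Nonempty (W s)]
    (he : Enum m blk e) : ∀ᵐ z ∂(mu0 W m e), IsPath m blk z := by
  have hcons : ∀ᵐ z ∂(mu0 W m e), (∀ s, (z s).2 < Nn m s) ∧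
      (∀ s, pr m blk s (z (s + 1)) = z s) := by
    unfold mu0
    have hmeas : MeasurableSet {z : ∀ s, W s × ℕ | (∀ s, (z s).2 < Nn m s) ∧
        (∀ s, pr m blk s (z (s + 1)) = z s)} := by
      have : {z : ∀ s, W s × ℕ | (∀ s, (z s).2 < Nn m s) ∧
        (∀ s, pr m blk s (z (s + 1)) = z s)} = (⋂ s, {z | (z s).2 < Nn m s}) ∩
        (⋂ s, {z | pr m blk s (z (s + 1)) = z s}) := by
        ext z; simp
      rw [this]
      refine (MeasurableSet.iInter fun s => ?_).inter (MeasurableSet.iInter fun s => ?_)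
      · exact meas_coord s {a : W s × ℕ | a.2 < Nn m s}
      · have : Measurable (fun z : ∀ s, W s × ℕ => (z (s + 1), z s)) :=
          (measurable_pi_apply _).prodMk (measurable_pi_apply _)
        exact this (Set.to_countable {p : (W (s + 1) × ℕ) × (W s × ℕ) |
          pr m blk s p.1 = p.2}).measurableSet
    rw [ae_map_iff (measurable_code e).aemeasurable hmeas]
    filter_upwards [ae_restrict_mem measurableSet_Ico] with y hy
    exact ⟨fun s => code_lt hm he hy s, fun s => code_pr hm hU he hy s⟩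
  have hup : ∀ᵐ z ∂(mu0 W m e), ∀ M : ℕ, ∃ s, M ≤ (z s).2 := by
    rw [ae_all_iff]
    intro M
    rw [ae_iff]
    have h : ∀ s, mu0 W m e {z | ¬ ∃ s, M ≤ (z s).2} ≤ ENNReal.ofReal ((M : ℝ) / Nn m s) := by
      intro s
      have h1 : mu0 W m e {z | ¬ ∃ s, M ≤ (z s).2} ≤ mu0 W m e {z | (z s).2 < M} := by
        refine measure_mono fun z hz => ?_
        simp only [mem_ofPred_eq, not_exists, not_le] at hz ⊢
        exact hz s
      refine h1.trans ?_
      have h2 := mu0_snd hm he s (Finset.range M) (fun i => i < M)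
        (fun i _ hi => Finset.mem_range.2 hi)
      rwa [Finset.card_range] at h2
    exact le_antisymm (ge_of_tendsto' (tendsto_const_div hm M) h) bot_le
  have hdn : ∀ᵐ z ∂(mu0 W m e), ∀ M : ℕ, ∃ s, (z s).2 + M < Nn m s := by
    rw [ae_all_iff]
    intro M
    rw [ae_iff]
    have h : ∀ s, mu0 W m e {z | ¬ ∃ s, (z s).2 + M < Nn m s} ≤
        ENNReal.ofReal ((M : ℝ) / Nn m s) := by
      intro s
      have h1 : mu0 W m e {z | ¬ ∃ s, (z s).2 + M < Nn m s} ≤
          mu0 W m e {z | Nn m s ≤ (z s).2 + M} := by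
        refine measure_mono fun z hz => ?_
        simp only [mem_ofPred_eq, not_exists, not_lt] at hz ⊢
        exact hz s
      refine h1.trans ?_
      have h2 := mu0_snd hm he s (Finset.Ico (Nn m s - M) (Nn m s)) (fun i => Nn m s ≤ i + M)
        (fun i hi h => Finset.mem_Ico.2 ⟨by omega, hi⟩)
      refine h2.trans (ENNReal.ofReal_le_ofReal ?_)
      rw [Nat.card_Ico]
      gcongr
      omega
    exact le_antisymm (ge_of_tendsto' (tendsto_const_div hm M) h) bot_le
  filter_upwards [hcons, hup, hdn] with z h1 h2 h3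
  exact ⟨h1.1, h1.2, h2, h3⟩

lemma mu_apply (A : Set (X m blk)) : mu blk e A = mu0 W m e (Subtype.val '' A) :=
  (MeasurableEmbedding.subtype_coe measurableSet_isPath).comap_apply _ _

lemma mu_preimage (hm : ∀ s, 2 ≤ m s) (hU : Unif m blk) [∀ s, Nonempty (W s)]
    (he : Enum m blk e) (A : Set (∀ s, W s × ℕ)) :
    mu blk e {z : X m blk | z.1 ∈ A} = mu0 W m e A := by
  rw [mu_apply]
  have h1 : Subtype.val '' {z : X m blk | z.1 ∈ A} = {z | IsPath m blk z} ∩ A := by
    ext z
    constructor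
    · rintro ⟨y, hy, rfl⟩
      exact ⟨y.2, hy⟩
    · rintro ⟨h1, h2⟩
      exact ⟨⟨z, h1⟩, h2, rfl⟩
  rw [h1]
  apply measure_congr
  filter_upwards [ae_isPath hm hU he] with z hz
  apply propext
  exact ⟨fun h => h.2, fun h => ⟨hz, h⟩⟩

/-- cylinders -/
def cyl (m : ℕ → ℕ) (blk : ∀ s, W (s + 1) → ℕ → W s) (s : ℕ) (a : W s × ℕ) : Set (X m blk) :=
  {z | z.1 s = a}

lemma isProb_mu (hm : ∀ s, 2 ≤ m s) (hU : Unif m blk) [∀ s, Nonempty (W s)]
    (he : Enum m blk e) : IsProbabilityMeasure (mu (m := m) blk e) := by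
  constructor
  have := mu_preimage hm hU he Set.univ
  simpa using this

/-- (T1) -/
lemma mu_cyl (hm : ∀ s, 2 ≤ m s) (hU : Unif m blk) [∀ s, Nonempty (W s)]
    (he : Enum m blk e) (s : ℕ) (a : W s × ℕ) (ha : a.2 < Nn m s) :
    mu blk e (cyl m blk s a) = ENNReal.ofReal (1 / q W m s) := by
  rw [← law hm he s a ha]
  exact mu_preimage hm hU he {z | z s = a}

lemma cyl_empty (s : ℕ) (a : W s × ℕ) (ha : ¬ a.2 < Nn m s) : cyl m blk s a = ∅ := by
  ext z
  simp only [cyl, mem_ofPred_eq, mem_empty_iff_false, iff_false]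
  intro h
  exact ha (h ▸ z.2.lt s)

lemma measurableSet_cyl (s : ℕ) (a : W s × ℕ) : MeasurableSet (cyl m blk s a) :=
  (measurable_coord s) (measurableSet_singleton a)

end measure

end Crest.Agent.R133.TA
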