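import Mathlib
import Crest.Agent.R133.TA2

/-! Row 133, Theorem A, part 3: measure preservation, no atoms, ergodicity. -/

set_option autoImplicit false
set_option linter.unusedSectionVars false

namespace Crest.Agent.R133.TA

open MeasureTheory Set

section

variable {W : ℕ → Type} [∀ s, Fintype (W s)] [∀ s, DecidableEq (W s)]
  [∀ s, MeasurableSpace (W s)] [∀ s, MeasurableSingletonClass (W s)]
  {m : ℕ → ℕ} {blk : ∀ s, W (s + 1) → ℕ → W s} {e : ∀ s, ℕ → W s × ℕ}

lemma T_preimage_cyl (r : ℕ) (b : W r × ℕ) (h1 : 1 ≤ b.2) (h2 : b.2 < Nn m r) :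
    (T m blk) ⁻¹' cyl m blk r b = cyl m blk r (b.1, b.2 - 1) := by
  ext z
  constructor
  · intro h
    have h' : (Tequiv z).1 r = b := h
    have h3 := Tinv_step (Tequiv z) r (by rw [h']; omega)
    rw [Equiv.symm_apply_apply, h'] at h3
    exact h3
  · intro h
    have h' : z.1 r = (b.1, b.2 - 1) := h
    have h3 := T_step z r (by rw [h']; simp only; omega)
    rw [h'] at h3
    change (Tequiv z).1 r = b
    rw [h3]
    apply Prod.ext
    · rfl
    · simp only; omega

/-- the set where `φ_r ≥ 1` -/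
def DD (m : ℕ → ℕ) (blk : ∀ s, W (s + 1) → ℕ → W s) (r : ℕ) : Set (X m blk) :=
  {z | 1 ≤ (z.1 r).2}

/-- decomposition of a cylinder intersected with `D_r` -/
lemma cyl_inter_DD {s r : ℕ} (hsr : s ≤ r) (a : W s × ℕ) :
    cyl m blk s a ∩ DD m blk r =
      ⋃ b ∈ (St W m r).filter (fun b => P m blk hsr b = a ∧ 1 ≤ b.2), cyl m blk r b := by
  ext z
  simp only [mem_inter_iff, mem_iUnion, Finset.mem_filter]
  constructor
  · rintro ⟨h1, h2⟩
    refine ⟨z.1 r, ⟨mem_St.2 (z.2.lt r), ?_, h2⟩, rfl⟩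
    rw [z.2.P hsr]; exact h1
  · rintro ⟨b, ⟨_, hb2, hb3⟩, hz⟩
    have hz' : z.1 r = b := hz
    refine ⟨?_, ?_⟩
    · change z.1 s = a
      rw [← z.2.P hsr, hz', hb2]
    · change 1 ≤ (z.1 r).2
      rw [hz']; exact hb3

lemma cyl_disjoint {r : ℕ} {b b' : W r × ℕ} (h : b ≠ b') :
    Disjoint (cyl m blk r b) (cyl m blk r b') := by
  rw [Set.disjoint_left]
  intro z h1 h2
  exact h (h1.symm.trans h2)

lemma IsPath.snd_mono {z : ∀ s, W s × ℕ} (hz : IsPath m blk z) {s r : ℕ} (h : s ≤ r) :
    (z s).2 ≤ (z r).2 := by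
  have := congrArg Prod.snd (hz.P h)
  rw [P_snd _ _ _ _ (hz.lt r)] at this
  rw [← this]
  exact Nat.mod_le _ _

lemma cyl_eq_iUnion (s : ℕ) (a : W s × ℕ) :
    cyl m blk s a = ⋃ r, cyl m blk s a ∩ DD m blk (s + r) := by
  ext z
  simp only [mem_iUnion, mem_inter_iff]
  constructor
  · intro h
    obtain ⟨r, hr⟩ := z.2.up 1
    exact ⟨r, h, hr.trans (z.2.snd_mono (Nat.le_add_left r s))⟩
  · rintro ⟨r, h, _⟩
    exact h

lemma monotone_inter_DD (s : ℕ) (a : W s × ℕ) :
    Monotone (fun r => cyl m blk s a ∩ DD m blk (s + r)) := by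
  intro r r' h z hz
  exact ⟨hz.1, le_trans (hz.2 : 1 ≤ (z.1 (s + r)).2) (z.2.snd_mono (by omega))⟩

lemma isPiSystem_cyl : IsPiSystem {A | ∃ (s : ℕ) (a : W s × ℕ), A = {z : X m blk | z.1 s = a}} := by
  have key : ∀ (s r : ℕ) (hsr : s ≤ r) (a : W s × ℕ) (b : W r × ℕ),
      ({z : X m blk | z.1 s = a} ∩ {z : X m blk | z.1 r = b}).Nonempty →
      {z : X m blk | z.1 s = a} ∩ {z : X m blk | z.1 r = b} = {z : X m blk | z.1 r = b} := by
    intro s r hsr a b hne
    obtain ⟨y, hy1, hy2⟩ := hne
    have hy1' : y.1 s = a := hy1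
    have hy2' : y.1 r = b := hy2
    apply inter_eq_self_of_subset_right
    intro z hz
    have hz' : z.1 r = b := hz
    change z.1 s = a
    rw [← z.2.P hsr, hz', ← hy2', y.2.P hsr, hy1']
  rintro _ ⟨s, a, rfl⟩ _ ⟨r, b, rfl⟩ hne
  rcases le_total s r with h | h
  · exact ⟨r, b, key s r h a b hne⟩
  · refine ⟨s, a, ?_⟩
    rw [inter_comm]
    exact key r s h b a (by rwa [inter_comm] at hne)

variable (hm : ∀ s, 2 ≤ m s) (hU : Unif m blk) [∀ s, Nonempty (W s)] (he : Enum m blk e)

include hm hU he in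
theorem measurePreserving_T : MeasurePreserving (T m blk) (mu (m := m) blk e) (mu blk e) := by
  have : IsProbabilityMeasure (mu (m := m) blk e) := isProb_mu hm hU he
  refine ⟨(T m blk).measurable, ?_⟩
  have : IsProbabilityMeasure (Measure.map (T m blk) (mu (m := m) blk e)) :=
    Measure.isProbabilityMeasure_map (T m blk).measurable.aemeasurable
  refine ext_of_generate_finite _ generateFrom_eq isPiSystem_cyl ?_ (by simp)
  rintro _ ⟨s, a, rfl⟩
  change Measure.map (T m blk) (mu blk e) (cyl m blk s a) = mu blk e (cyl m blk s a)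
  rw [cyl_eq_iUnion s a, (monotone_inter_DD s a).measure_iUnion,
    (monotone_inter_DD s a).measure_iUnion]
  congr 1
  funext r
  rw [cyl_inter_DD (Nat.le_add_right s r) a]
  have hd : Set.PairwiseDisjoint (↑((St W m (s + r)).filter
      (fun b => P m blk (Nat.le_add_right s r) b = a ∧ 1 ≤ b.2)) : Set (W (s + r) × ℕ))
      (fun b => cyl m blk (s + r) b) := fun b _ b' _ h => cyl_disjoint h
  rw [measure_biUnion_finset hd (fun b _ => measurableSet_cyl _ b),
    measure_biUnion_finset hd (fun b _ => measurableSet_cyl _ b)]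
  refine Finset.sum_congr rfl fun b hb => ?_
  rw [Finset.mem_filter] at hb
  have hlt := mem_St.1 hb.1
  rw [(T m blk).map_apply, T_preimage_cyl _ b hb.2.2 hlt, mu_cyl hm hU he _ b hlt,
    mu_cyl hm hU he]
  simp only
  omega

include hm hU he in
lemma noAtoms_mu : ∀ z : X m blk, mu (m := m) blk e {z} = 0 := by
  intro z
  have h : ∀ s, mu (m := m) blk e {z} ≤ ENNReal.ofReal (((1 : ℕ) : ℝ) / Nn m s) := by
    intro s
    have h1 : ({z} : Set (X m blk)) ⊆ cyl m blk s (z.1 s) := by
      rintro _ rfl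
      rfl
    refine (measure_mono h1).trans ?_
    rw [mu_cyl hm hU he s _ (z.2.lt s)]
    apply ENNReal.ofReal_le_ofReal
    unfold q
    have h4 : (1 : ℝ) ≤ Fintype.card (W s) := by exact_mod_cast Fintype.card_pos
    have h5 : (0 : ℝ) < Nn m s := by exact_mod_cast Nn_pos m hm s
    push_cast
    rw [div_le_div_iff₀ (by positivity) h5]
    nlinarith
  exact le_antisymm (ge_of_tendsto' (tendsto_const_div hm 1) h) bot_le

end

/-! ### the abstract contraction argument -/

section contr

variable {W : ℕ → Type} [∀ s, Fintype (W s)] [∀ s, DecidableEq (W s)]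
  {m : ℕ → ℕ} {blk : ∀ s, W (s + 1) → ℕ → W s}

variable (m blk) in
/-- the contraction hypothesis -/
def Contr : Prop := ∀ s, ∀ g : W s → ℝ, ∑ w, g w = 0 →
  4 * Fintype.card (W s) * ∑ w' : W (s + 1), (∑ j ∈ Finset.range (m s), g (blk s w' j)) ^ 2 ≤
    (m s : ℝ) ^ 2 * Fintype.card (W (s + 1)) * ∑ w, g w ^ 2

lemma sum_blk (hU : Unif m blk) [∀ s, Nonempty (W s)] (s : ℕ) (j : ℕ) (hj : j < m s)
    (g : W s → ℝ) (hg : ∑ w, g w = 0) : ∑ w' : W (s + 1), g (blk s w' j) = 0 := by
  have h1 : ∑ w' : W (s + 1), g (blk s w' j) =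
      ∑ v : W s, ((Finset.univ.filter (fun w => blk s w j = v)).card : ℝ) * g v := by
    rw [← Finset.sum_fiberwise_of_maps_to (s := (Finset.univ : Finset (W (s + 1))))
      (t := (Finset.univ : Finset (W s))) (g := fun w' => blk s w' j)
      (fun _ _ => Finset.mem_univ _)]
    refine Finset.sum_congr rfl fun v _ => ?_
    rw [Finset.sum_congr rfl (g := fun _ => g v)]
    · rw [Finset.sum_const, nsmul_eq_mul]
    · intro w hw
      rw [(Finset.mem_filter.1 hw).2]
  have h2 : (Fintype.card (W s) : ℝ) ≠ 0 := by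
    have : 0 < Fintype.card (W s) := Fintype.card_pos
    positivity
  apply mul_left_cancel₀ h2
  rw [h1, Finset.mul_sum, mul_zero]
  have h3 : ∀ v : W s, (Fintype.card (W s) : ℝ) *
      (((Finset.univ.filter (fun w => blk s w j = v)).card : ℝ) * g v) =
      Fintype.card (W (s + 1)) * g v := by
    intro v
    have := hU s j hj v
    rw [← this]; push_cast; ring
  rw [Finset.sum_congr rfl (fun v _ => h3 v), ← Finset.mul_sum, hg, mul_zero]

lemma contraction (hm : ∀ s, 2 ≤ m s) (hU : Unif m blk) [∀ s, Nonempty (W s)]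
    (hC : Contr m blk) (b : ∀ s, W s → ℝ) (h0 : ∀ s w, 0 ≤ b s w)
    (h1 : ∀ s w, b s w ≤ 1 / (q W m s : ℝ))
    (hE : ∀ s, ∀ g : W s → ℝ, ∑ w, g w * b s w =
      ∑ w' : W (s + 1), (∑ j ∈ Finset.range (m s), g (blk s w' j)) * b (s + 1) w') :
    ∀ s, ∃ c : ℝ, ∀ w, b s w = c := by
  -- means and variances
  let K : ℕ → ℝ := fun s => Fintype.card (W s)
  have hK : ∀ s, 0 < K s := fun s => by
    have h : (0 : ℝ) < (Fintype.card (W s) : ℝ) := by exact_mod_cast Fintype.card_pos
    exact h
  let mn : ℕ → ℝ := fun s => (∑ w, b s w) / K s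
  let V : ℕ → ℝ := fun s => ∑ w, (b s w - mn s) ^ 2
  have hV0 : ∀ s, 0 ≤ V s := fun s => Finset.sum_nonneg fun w _ => sq_nonneg _
  have hg0 : ∀ s, ∑ w, (b s w - mn s) = 0 := by
    intro s
    rw [Finset.sum_sub_distrib, Finset.sum_const, Finset.card_univ, nsmul_eq_mul]
    simp only [mn]
    rw [mul_div_cancel₀ _ (hK s).ne', sub_self]
  have hstep : ∀ s, 4 * K s * V s ≤ (m s : ℝ) ^ 2 * K (s + 1) * V (s + 1) := by
    intro s
    set g : W s → ℝ := fun w => b s w - mn s with hg
    set R : W (s + 1) → ℝ := fun w' => ∑ j ∈ Finset.range (m s), g (blk s w' j) with hR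
    have hR0 : ∑ w', R w' = 0 := by
      simp only [hR]
      rw [Finset.sum_comm]
      exact Finset.sum_eq_zero fun j hj => sum_blk hU s j (Finset.mem_range.1 hj) g (hg0 s)
    have e1 : V s = ∑ w', R w' * (b (s + 1) w' - mn (s + 1)) := by
      have e2 : V s = ∑ w, g w * b s w := by
        have : ∑ w, g w * mn s = 0 := by rw [← Finset.sum_mul, hg0 s, zero_mul]
        simp only [V]
        rw [← sub_zero (∑ w, g w * b s w), ← this, ← Finset.sum_sub_distrib]
        refine Finset.sum_congr rfl fun w _ => ?_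
        simp only [hg]; ring
      rw [e2, hE s g]
      have : ∑ w', R w' * mn (s + 1) = 0 := by rw [← Finset.sum_mul, hR0, zero_mul]
      rw [← sub_zero (∑ w', _), ← this, ← Finset.sum_sub_distrib]
      refine Finset.sum_congr rfl fun w' _ => ?_
      simp only [hR]; ring
    have hCS : V s ^ 2 ≤ (∑ w', R w' ^ 2) * V (s + 1) := by
      rw [e1]
      exact Finset.sum_mul_sq_le_sq_mul_sq _ _ _
    have hcon := hC s g (hg0 s)
    have hcon' : 4 * K s * ∑ w', R w' ^ 2 ≤ (m s : ℝ) ^ 2 * K (s + 1) * V s := hcon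
    rcases (hV0 s).eq_or_lt with hz | hpos
    · rw [← hz, mul_zero]
      have := hK (s + 1)
      have := hV0 (s + 1)
      positivity
    · have h2 : 4 * K s * V s ^ 2 ≤ ((m s : ℝ) ^ 2 * K (s + 1) * V s) * V (s + 1) := by
        calc 4 * K s * V s ^ 2 ≤ 4 * K s * ((∑ w', R w' ^ 2) * V (s + 1)) := by
              have := hK s
              gcongr
          _ = (4 * K s * ∑ w', R w' ^ 2) * V (s + 1) := by ring
          _ ≤ _ := mul_le_mul_of_nonneg_right hcon' (hV0 _)
      nlinarith
  -- normalised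
  have hv : ∀ s, K s * (Nn m s : ℝ) ^ 2 * V s ≤
      (1 / 4) * (K (s + 1) * (Nn m (s + 1) : ℝ) ^ 2 * V (s + 1)) := by
    intro s
    have h2 := hstep s
    rw [Nn_succ]
    push_cast
    have h3 : 0 ≤ (Nn m s : ℝ) ^ 2 := by positivity
    nlinarith [mul_le_mul_of_nonneg_left h2 h3]
  have hv1 : ∀ s, K s * (Nn m s : ℝ) ^ 2 * V s ≤ 4 := by
    intro s
    have hN : (0 : ℝ) < Nn m s := by exact_mod_cast Nn_pos m hm s
    have hq : (q W m s : ℝ) = K s * Nn m s := by simp [q, K]
    have hmn : 0 ≤ mn s ∧ mn s ≤ 1 / (q W m s : ℝ) := by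
      constructor
      · exact div_nonneg (Finset.sum_nonneg fun w _ => h0 s w) (hK s).le
      · simp only [mn]
        rw [div_le_iff₀ (hK s)]
        calc ∑ w, b s w ≤ ∑ w : W s, 1 / (q W m s : ℝ) := Finset.sum_le_sum fun w _ => h1 s w
          _ = 1 / (q W m s : ℝ) * K s := by
            rw [Finset.sum_const, Finset.card_univ, nsmul_eq_mul]
            simp only [K]; ring
    have hVle : V s ≤ K s * (1 / (q W m s : ℝ)) ^ 2 := by
      simp only [V]
      calc ∑ w, (b s w - mn s) ^ 2 ≤ ∑ w : W s, (1 / (q W m s : ℝ)) ^ 2 := by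
            refine Finset.sum_le_sum fun w _ => ?_
            apply sq_le_sq'
            · have := h0 s w; linarith [hmn.2]
            · have := h1 s w; linarith [hmn.1]
        _ = _ := by
            rw [Finset.sum_const, Finset.card_univ, nsmul_eq_mul]
    have : K s * (Nn m s : ℝ) ^ 2 * V s ≤ K s * (Nn m s : ℝ) ^ 2 *
        (K s * (1 / (q W m s : ℝ)) ^ 2) := by
      have := hK s
      gcongr
    refine this.trans ?_
    rw [hq]
    have := hK s
    have h5 : K s * (Nn m s : ℝ) ^ 2 * (K s * (1 / (K s * Nn m s)) ^ 2) = 1 := by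
      field_simp
    rw [h5]; norm_num
  have hv2 : ∀ k s, K s * (Nn m s : ℝ) ^ 2 * V s ≤ (1 / 4) ^ k * 4 := by
    intro k
    induction k with
    | zero => intro s; simpa using hv1 s
    | succ k ih =>
      intro s
      refine (hv s).trans ?_
      rw [pow_succ (1 / 4 : ℝ) k]
      have := ih (s + 1)
      linarith
  intro s
  refine ⟨mn s, fun w => ?_⟩
  have hV : V s = 0 := by
    have hN : (0 : ℝ) < Nn m s := by exact_mod_cast Nn_pos m hm s
    have hlim : Filter.Tendsto (fun k : ℕ => ((1 : ℝ) / 4) ^ k * 4) Filter.atTop (nhds (0 * 4)) :=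
      (tendsto_pow_atTop_nhds_zero_of_lt_one (by norm_num) (by norm_num)).mul_const 4
    rw [zero_mul] at hlim
    have h3 := ge_of_tendsto' hlim (fun k => hv2 k s)
    have h4 : 0 < K s * (Nn m s : ℝ) ^ 2 := by
      have := hK s
      positivity
    have h5 := hV0 s
    by_contra hne
    have h6 : 0 < V s := lt_of_le_of_ne h5 (Ne.symm hne)
    have := mul_pos h4 h6
    linarith
  have h7 := (Finset.sum_eq_zero_iff_of_nonneg (fun w _ => sq_nonneg (b s w - mn s))).1 hV w
    (Finset.mem_univ _)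
  have h8 := pow_eq_zero_iff (two_ne_zero) |>.1 h7
  linarith

end contr

section erg

variable {W : ℕ → Type} [∀ s, Fintype (W s)] [∀ s, DecidableEq (W s)]
  [∀ s, MeasurableSpace (W s)] [∀ s, MeasurableSingletonClass (W s)]
  {m : ℕ → ℕ} {blk : ∀ s, W (s + 1) → ℕ → W s} {e : ∀ s, ℕ → W s × ℕ}

lemma cyl_eq_union_succ (s : ℕ) (a : W s × ℕ) :
    cyl m blk s a = ⋃ b ∈ Fib m blk s a, cyl m blk (s + 1) b := by
  ext z
  simp only [mem_iUnion]
  constructor
  · intro h
    have h' : z.1 s = a := h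
    exact ⟨z.1 (s + 1), Finset.mem_filter.2 ⟨mem_St.2 (z.2.lt _), by rw [z.2.pr, h']⟩, rfl⟩
  · rintro ⟨b, hb, hz⟩
    have hz' : z.1 (s + 1) = b := hz
    change z.1 s = a
    rw [← z.2.pr s, hz', (Finset.mem_filter.1 hb).2]

lemma univ_eq_union (s : ℕ) : (univ : Set (X m blk)) = ⋃ b ∈ St W m s, cyl m blk s b := by
  ext z
  simp only [mem_univ, mem_iUnion, true_iff]
  exact ⟨z.1 s, mem_St.2 (z.2.lt _), rfl⟩

/-- sum of a block function -/
lemma sum_range_mul_div (M N : ℕ) (hN : 0 < N) (G : ℕ → ℝ) :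
    ∑ i ∈ Finset.range (M * N), G (i / N) = N * ∑ j ∈ Finset.range M, G j := by
  induction M with
  | zero => simp
  | succ M ih =>
    rw [Nat.succ_mul, Finset.sum_range_add, ih, Finset.sum_range_succ, mul_add]
    congr 1
    rw [Finset.sum_congr rfl (g := fun _ => G M)]
    · rw [Finset.sum_const, Finset.card_range, nsmul_eq_mul]
    · intro i hi
      rw [mul_comm M N, Nat.mul_add_div hN, Nat.div_eq_of_lt (Finset.mem_range.1 hi), add_zero]

variable (hm : ∀ s, 2 ≤ m s) (hU : Unif m blk) [∀ s, Nonempty (W s)] (he : Enum m blk e)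

include hm hU he in
/-- a `T`-invariant set is independent of every cylinder -/
lemma indep_cyl (hC : Contr m blk) (B : Set (X m blk)) (hB : MeasurableSet B)
    (hinv : (T m blk) ⁻¹' B = B) (s : ℕ) (a : W s × ℕ) :
    (mu (m := m) blk e).real (B ∩ cyl m blk s a) =
      (mu (m := m) blk e).real B * (mu (m := m) blk e).real (cyl m blk s a) := by
  have hprob : IsProbabilityMeasure (mu (m := m) blk e) := isProb_mu hm hU he
  have hT := measurePreserving_T (m := m) (blk := blk) hm hU he
  have hcyl : ∀ s (a : W s × ℕ), a.2 < Nn m s →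
      (mu (m := m) blk e).real (cyl m blk s a) = 1 / (q W m s : ℝ) := by
    intro s a ha
    rw [measureReal_def, mu_cyl hm hU he s a ha, ENNReal.toReal_ofReal (by positivity)]
  -- independence of the height
  have hi : ∀ s (w : W s) (i : ℕ), i < Nn m s →
      (mu (m := m) blk e).real (B ∩ cyl m blk s (w, i)) =
      (mu (m := m) blk e).real (B ∩ cyl m blk s (w, 0)) := by
    intro s w i
    induction i with
    | zero => intro _; rfl
    | succ i ih =>
      intro hi
      rw [← ih (by omega)]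
      have h1 : (T m blk) ⁻¹' (B ∩ cyl m blk s (w, i + 1)) = B ∩ cyl m blk s (w, i) := by
        rw [preimage_inter, hinv, T_preimage_cyl s (w, i + 1) (by simp) hi]
        rfl
      rw [← h1, measureReal_def, measureReal_def,
        hT.measure_preimage (hB.inter (measurableSet_cyl _ _)).nullMeasurableSet]
  let b : ∀ s, W s → ℝ := fun s w => (mu (m := m) blk e).real (B ∩ cyl m blk s (w, 0))
  have hb0 : ∀ s w, 0 ≤ b s w := fun s w => measureReal_nonneg
  have hb1 : ∀ s w, b s w ≤ 1 / (q W m s : ℝ) := by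
    intro s w
    rw [← hcyl s (w, 0) (Nn_pos m hm s)]
    exact measureReal_mono inter_subset_right
  -- sums over states
  have hE : ∀ s, ∀ g : W s → ℝ, ∑ w, g w * b s w =
      ∑ w' : W (s + 1), (∑ j ∈ Finset.range (m s), g (blk s w' j)) * b (s + 1) w' := by
    intro s g
    have hNpos : (0 : ℝ) < Nn m s := by exact_mod_cast Nn_pos m hm s
    have e1 : (Nn m s : ℝ) * ∑ w, g w * b s w =
        ∑ a ∈ St W m s, g a.1 * (mu (m := m) blk e).real (B ∩ cyl m blk s a) := by
      rw [St, Finset.sum_product, Finset.mul_sum]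
      refine Finset.sum_congr rfl fun w _ => ?_
      rw [Finset.sum_congr rfl (g := fun _ => g w * b s w)]
      · rw [Finset.sum_const, Finset.card_range, nsmul_eq_mul]
      · intro i hi'
        simp only
        rw [hi s w i (Finset.mem_range.1 hi')]
    have e2 : ∀ a ∈ St W m s, (mu (m := m) blk e).real (B ∩ cyl m blk s a) =
        ∑ b ∈ Fib m blk s a, (mu (m := m) blk e).real (B ∩ cyl m blk (s + 1) b) := by
      intro a _
      rw [cyl_eq_union_succ s a, inter_iUnion₂, measureReal_biUnion_finset]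
      · intro b _ b' _ h
        exact (cyl_disjoint h).mono inter_subset_right inter_subset_right
      · intro b _
        exact hB.inter (measurableSet_cyl _ _)
    have e3 : ∑ a ∈ St W m s, g a.1 * (mu (m := m) blk e).real (B ∩ cyl m blk s a) =
        ∑ b ∈ St W m (s + 1), g (pr m blk s b).1 *
          (mu (m := m) blk e).real (B ∩ cyl m blk (s + 1) b) := by
      rw [← Finset.sum_fiberwise_of_maps_to (s := St W m (s + 1)) (t := St W m s)
        (g := fun b => pr m blk s b)
        (fun b _ => mem_St.2 (Nat.mod_lt _ (Nn_pos m hm s)))]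
      refine Finset.sum_congr rfl fun a ha => ?_
      rw [e2 a ha, Finset.mul_sum]
      refine Finset.sum_congr rfl fun b hb => ?_
      rw [(Finset.mem_filter.1 hb).2]
    have e4 : ∑ b ∈ St W m (s + 1), g (pr m blk s b).1 *
          (mu (m := m) blk e).real (B ∩ cyl m blk (s + 1) b) =
        (Nn m s : ℝ) * ∑ w' : W (s + 1), (∑ j ∈ Finset.range (m s), g (blk s w' j)) *
          b (s + 1) w' := by
      rw [St, Finset.sum_product, Finset.mul_sum]
      refine Finset.sum_congr rfl fun w' _ => ?_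
      rw [← mul_assoc, ← sum_range_mul_div (m s) (Nn m s) (Nn_pos m hm s)
        (fun j => g (blk s w' j)), Finset.sum_mul, ← Nn_succ]
      refine Finset.sum_congr rfl fun i hi' => ?_
      rw [hi (s + 1) w' i (Finset.mem_range.1 hi')]
      rfl
    have e5 : (Nn m s : ℝ) * ∑ w, g w * b s w = (Nn m s : ℝ) *
        ∑ w' : W (s + 1), (∑ j ∈ Finset.range (m s), g (blk s w' j)) * b (s + 1) w' := by
      rw [e1, e3, e4]
    exact mul_left_cancel₀ hNpos.ne' e5
  obtain ⟨c, hc⟩ := contraction hm hU hC b hb0 hb1 hE s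
  have hq : (0 : ℝ) < q W m s := by exact_mod_cast q_pos (W := W) hm s
  -- total mass
  have htot : (mu (m := m) blk e).real B = q W m s * c := by
    have h1 : B = ⋃ a ∈ St W m s, B ∩ cyl m blk s a := by
      rw [← inter_iUnion₂, ← univ_eq_union, inter_univ]
    rw [h1, measureReal_biUnion_finset]
    · rw [Finset.sum_congr rfl (g := fun _ => c)]
      · rw [Finset.sum_const, card_St, nsmul_eq_mul]
      · intro a ha
        rw [show a = (a.1, a.2) from rfl, hi s a.1 a.2 (mem_St.1 ha)]
        exact hc a.1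
    · intro b _ b' _ h
      exact (cyl_disjoint h).mono inter_subset_right inter_subset_right
    · intro b _
      exact hB.inter (measurableSet_cyl _ _)
  by_cases ha : a.2 < Nn m s
  · rw [hcyl s a ha, htot, show a = (a.1, a.2) from rfl, hi s a.1 a.2 ha]
    have : (mu (m := m) blk e).real (B ∩ cyl m blk s (a.1, 0)) = c := hc a.1
    rw [this]
    field_simp
  · rw [cyl_empty s a ha, inter_empty]
    simp

include hm hU he in
theorem ergodic_T (hC : Contr m blk) : Ergodic (T m blk) (mu (m := m) blk e) := by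
  have hprob : IsProbabilityMeasure (mu (m := m) blk e) := isProb_mu hm hU he
  refine ⟨measurePreserving_T (m := m) (blk := blk) hm hU he, ⟨?_⟩⟩
  intro B hB hinv
  have hfin : IsFiniteMeasure ((mu (m := m) blk e B) • (mu (m := m) blk e)) := by
    constructor
    rw [Measure.smul_apply, smul_eq_mul]
    exact ENNReal.mul_lt_top (measure_lt_top _ _) (measure_lt_top _ _)
  have h1 : (mu (m := m) blk e).restrict B = (mu (m := m) blk e B) • (mu (m := m) blk e) := by
    refine ext_of_generate_finite _ generateFrom_eq isPiSystem_cyl ?_ (by simp)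
    rintro _ ⟨s, a, rfl⟩
    change (mu (m := m) blk e).restrict B (cyl m blk s a) = _
    rw [Measure.restrict_apply (measurableSet_cyl s a), Measure.smul_apply, smul_eq_mul,
      inter_comm]
    have h2 := indep_cyl hm hU he hC B hB hinv s a
    rw [measureReal_def, measureReal_def, measureReal_def, ← ENNReal.toReal_mul] at h2
    exact (ENNReal.toReal_eq_toReal_iff' (measure_ne_top _ _)
      (ENNReal.mul_ne_top (measure_ne_top _ _) (measure_ne_top _ _))).1 h2
  have h3 : (mu (m := m) blk e) B * (mu (m := m) blk e) Bᶜ = 0 := by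
    have h4 := congrArg (fun ν : Measure (X m blk) => ν Bᶜ) h1
    simp only [Measure.smul_apply, smul_eq_mul] at h4
    rw [← h4, Measure.restrict_apply hB.compl, compl_inter_self, measure_empty]
  rw [Filter.eventuallyConst_set']
  rcases mul_eq_zero.1 h3 with h | h
  · left
    exact ae_eq_empty.2 h
  · right
    exact ae_eq_univ.2 h

end erg

end Crest.Agent.R133.TA
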