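import Crest.Agent.R133.TA3
import Crest.Agent.R133.Tower
import Crest.Agent.R133.CombBasic
import Crest.Agent.R133.Par
import Crest.Agent.R133.Ent
import Crest.Agent.R133.Std

/-! Row 133, Theorem A, part 4: the tower system of a balanced sequence `τ`. -/

set_option autoImplicit false

namespace Crest.Agent.R133.TA

open MeasureTheory Set

/-! ### sums over functions `Fin n → α` -/

section sums

variable {α : Type*} [Fintype α]

lemma sum_cons (n : ℕ) (F : (Fin (n + 1) → α) → ℝ) :
    ∑ w, F w = ∑ a : α, ∑ w : Fin n → α, F (Fin.cons a w) := by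
  rw [← (Fin.consEquiv (fun _ : Fin (n + 1) => α)).sum_comp, Fintype.sum_prod_type]
  rfl

lemma sum_sum_eq_zero (g : α → ℝ) (hg : ∑ a, g a = 0) (n : ℕ) :
    ∑ w : Fin n → α, ∑ j, g (w j) = 0 := by
  induction n with
  | zero => simp
  | succ n ih =>
    rw [sum_cons]
    simp only [Fin.sum_univ_succ, Fin.cons_zero, Fin.cons_succ, Finset.sum_add_distrib, ih,
      add_zero, Finset.sum_const]
    rw [← Finset.smul_sum, hg, smul_zero]

lemma sum_sq_eq (g : α → ℝ) (hg : ∑ a, g a = 0) (n : ℕ) :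
    (Fintype.card α : ℝ) * ∑ w : Fin n → α, (∑ j, g (w j)) ^ 2 =
      n * (Fintype.card α : ℝ) ^ n * ∑ a, g a ^ 2 := by
  induction n with
  | zero => simp
  | succ n ih =>
    rw [sum_cons]
    have h1 : ∀ a : α, ∑ w : Fin n → α, (∑ j, g ((Fin.cons a w : Fin (n + 1) → α) j)) ^ 2 =
        (Fintype.card α : ℝ) ^ n * g a ^ 2 + ∑ w : Fin n → α, (∑ j, g (w j)) ^ 2 := by
      intro a
      simp only [Fin.sum_univ_succ, Fin.cons_zero, Fin.cons_succ, add_sq,
        Finset.sum_add_distrib]
      have h2 : ∑ w : Fin n → α, 2 * g a * ∑ j, g (w j) = 0 := by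
        rw [← Finset.mul_sum, sum_sum_eq_zero g hg, mul_zero]
      rw [h2, add_zero, Finset.sum_const, Finset.card_univ, Fintype.card_fun, Fintype.card_fin,
        nsmul_eq_mul]
      push_cast
      ring
    rw [Finset.sum_congr rfl (fun a _ => h1 a), Finset.sum_add_distrib, Finset.sum_const,
      Finset.card_univ, nsmul_eq_mul, mul_add, ih, ← Finset.mul_sum]
    push_cast
    ring

lemma card_filter_eq [DecidableEq α] (n : ℕ) (j : Fin n) (v : α) :
    (Finset.univ.filter (fun w : Fin n → α => w j = v)).card * Fintype.card α =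
      Fintype.card α ^ n := by
  have h1 : Finset.univ.filter (fun w : Fin n → α => w j = v) =
      Fintype.piFinset (fun i => if i = j then {v} else Finset.univ) := by
    ext w
    simp only [Finset.mem_filter, Finset.mem_univ, true_and, Fintype.mem_piFinset]
    constructor
    · intro h i
      split_ifs with hi
      · rw [hi, h]; simp
      · simp
    · intro h
      have := h j
      simpa using this
  rw [h1, Fintype.card_piFinset]
  have h2 : ∀ i : Fin n, (if i = j then ({v} : Finset α) else Finset.univ).card =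
      if i = j then 1 else Fintype.card α := by
    intro i
    split_ifs <;> simp
  simp only [h2]
  have h3 : Fintype.card α = ∏ i : Fin n, if i = j then Fintype.card α else 1 := by
    simp
  conv_lhs => rw [mul_comm]; enter [1]; rw [h3]
  rw [← Finset.prod_mul_distrib]
  have h4 : ∀ i : Fin n, (if i = j then Fintype.card α else 1) *
      (if i = j then 1 else Fintype.card α) = Fintype.card α := by
    intro i
    split_ifs <;> simp
  simp only [h4, Finset.prod_const, Finset.card_univ, Fintype.card_fin]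

end sums

lemma Nn_eq : ∀ s, Nn mm s = NN s
  | 0 => rfl
  | s + 1 => by rw [Nn_succ, NN_succ, Nn_eq s]

lemma mm_two (s : ℕ) : 2 ≤ mm s := by have := mm_ge s; omega

lemma blk_fin (τ : Tau) (s : ℕ) (w : W (s + 1)) (j : Fin (mm s - 1)) :
    blk τ s w (j : ℕ) = (show Fin (mm s - 1) → W s from w) j := by
  rw [blk_lt τ s w j j.2]

lemma unif_blk (τ : Tau) (hτ : ∀ s, Balanced (τ s)) : Unif mm (blk τ) := by
  intro s j hj v
  rcases lt_or_ge j (mm s - 1) with h | h
  · have h1 : ∀ w : W (s + 1), blk τ s w j = (show Fin (mm s - 1) → W s from w) ⟨j, h⟩ :=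
      fun w => blk_lt τ s w j h
    simp only [h1]
    have h2 := card_filter_eq (α := W s) (mm s - 1) ⟨j, h⟩ v
    have h3 : Fintype.card (W (s + 1)) = Fintype.card (W s) ^ (mm s - 1) := by
      rw [card_W, card_W, KK_succ]
    rw [h3]
    exact h2
  · have h1 : ∀ w : W (s + 1), blk τ s w j = τ s w := fun w => blk_last τ s w j h
    simp only [h1]
    rw [card_W, card_W]
    exact hτ s v

lemma sum_tau_sq (τ : Tau) (hτ : ∀ s, Balanced (τ s)) (s : ℕ) (g : W s → ℝ) :
    (Fintype.card (W s) : ℝ) * ∑ w' : W (s + 1), g (τ s w') ^ 2 =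
      Fintype.card (W (s + 1)) * ∑ w, g w ^ 2 := by
  have h1 : ∑ w' : W (s + 1), g (τ s w') ^ 2 =
      ∑ v : W s, ((Finset.univ.filter (fun w => τ s w = v)).card : ℝ) * g v ^ 2 := by
    rw [← Finset.sum_fiberwise_of_maps_to (s := (Finset.univ : Finset (W (s + 1))))
      (t := (Finset.univ : Finset (W s))) (g := fun w' => τ s w')
      (fun _ _ => Finset.mem_univ _)]
    refine Finset.sum_congr rfl fun v _ => ?_
    rw [Finset.sum_congr rfl (g := fun _ => g v ^ 2)]
    · rw [Finset.sum_const, nsmul_eq_mul]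
    · intro w hw
      rw [(Finset.mem_filter.1 hw).2]
  rw [h1, Finset.mul_sum, Finset.mul_sum]
  refine Finset.sum_congr rfl fun v _ => ?_
  have h2 := hτ s v
  rw [card_W, card_W, ← h2]
  push_cast
  ring

lemma sq_add_le' (a b : ℝ) : (a + b) ^ 2 ≤ 2 * a ^ 2 + 2 * b ^ 2 := by
  nlinarith [sq_nonneg (a - b)]

lemma calc_aux (K M K1 Y A B G : ℝ) (hK : 0 ≤ K) (h2 : Y ≤ 2 * A + 2 * B)
    (h3 : K * A = (M - 1) * K1 * G) (h4 : K * B = K1 * G) (h6 : 0 ≤ K1 * G) (h8 : 1600 ≤ M) :
    4 * K * Y ≤ M ^ 2 * K1 * G := by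
  have e1 : 4 * K * Y ≤ 4 * K * (2 * A + 2 * B) :=
    mul_le_mul_of_nonneg_left h2 (by positivity)
  have e2 : 4 * K * (2 * A + 2 * B) = 8 * M * (K1 * G) := by
    have : 4 * K * (2 * A + 2 * B) = 8 * (K * A) + 8 * (K * B) := by ring
    rw [this, h3, h4]; ring
  have e3 : 8 * M * (K1 * G) ≤ M ^ 2 * (K1 * G) :=
    mul_le_mul_of_nonneg_right (by nlinarith) h6
  calc 4 * K * Y ≤ M ^ 2 * (K1 * G) := by linarith
    _ = _ := by ring

lemma contr_blk (τ : Tau) (hτ : ∀ s, Balanced (τ s)) : Contr mm (blk τ) := by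
  intro s g hg
  have hm := mm_ge s
  have h1 : ∀ w' : W (s + 1), ∑ j ∈ Finset.range (mm s), g (blk τ s w' j) =
      (∑ j : Fin (mm s - 1), g ((show Fin (mm s - 1) → W s from w') j)) + g (τ s w') := by
    intro w'
    have hgen : ∀ (M n : ℕ) (f : ℕ → ℝ), M = n + 1 →
        ∑ j ∈ Finset.range M, f j = (∑ j : Fin n, f j) + f n := by
      rintro M n f rfl
      rw [Finset.sum_range_succ, Finset.sum_range f]
    rw [hgen (mm s) (mm s - 1) (fun j => g (blk τ s w' j)) (by omega),
      blk_last τ s w' (mm s - 1) le_rfl]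
    congr 1
    exact Finset.sum_congr rfl fun j _ => by rw [blk_fin]
  have h2 : ∑ w' : W (s + 1), (∑ j ∈ Finset.range (mm s), g (blk τ s w' j)) ^ 2 ≤
      2 * ∑ w' : W (s + 1), (∑ j : Fin (mm s - 1),
        g ((show Fin (mm s - 1) → W s from w') j)) ^ 2 +
      2 * ∑ w' : W (s + 1), g (τ s w') ^ 2 := by
    rw [Finset.mul_sum, Finset.mul_sum, ← Finset.sum_add_distrib]
    refine Finset.sum_le_sum fun w' _ => ?_
    rw [h1 w']
    exact sq_add_le' _ _
  have h3 : (Fintype.card (W s) : ℝ) * ∑ w' : W (s + 1), (∑ j : Fin (mm s - 1),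
        g ((show Fin (mm s - 1) → W s from w') j)) ^ 2 =
      ((mm s : ℝ) - 1) * Fintype.card (W (s + 1)) * ∑ w, g w ^ 2 := by
    have h4 := sum_sq_eq g hg (mm s - 1)
    have h5 : (Fintype.card (W (s + 1)) : ℝ) = (Fintype.card (W s) : ℝ) ^ (mm s - 1) := by
      rw [card_W, card_W, KK_succ]; push_cast; rfl
    have h7 : ((mm s - 1 : ℕ) : ℝ) = mm s - 1 := by
      rw [Nat.cast_sub (by omega)]; simp
    rw [h5, ← h7]
    exact h4
  have h4 := sum_tau_sq τ hτ s g
  have h5 : (0 : ℝ) ≤ Fintype.card (W s) := Nat.cast_nonneg _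
  have h6 : 0 ≤ (Fintype.card (W (s + 1)) : ℝ) * ∑ w, g w ^ 2 :=
    mul_nonneg (Nat.cast_nonneg _) (Finset.sum_nonneg fun w _ => sq_nonneg _)
  have h8 : (1600 : ℝ) ≤ mm s := by exact_mod_cast hm
  exact calc_aux _ _ _ _ _ _ _ h5 h2 h3 h4 h6 h8

/-- **THEOREM A** (section 1 of note 12067). -/
theorem theoremA (τ : Tau) (hτ : ∀ s, Balanced (τ s)) :
    ∃ (Ω : Type) (_ : MeasurableSpace Ω) (μ : Measure Ω) (T : Ω ≃ᵐ Ω)
      (w : ∀ s, Ω → W s) (φ : ℕ → Ω → ℕ),
      IsProbabilityMeasure μ ∧ Crest.AnalysisR.IsStandardProbability μ ∧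
      MeasurePreserving T μ μ ∧ Ergodic T μ ∧ Crest.AnalysisR.HasZeroEntropy μ T ∧
      TowerMaps τ μ T w φ := by
  classical
  have hm := mm_two
  have hU := unif_blk τ hτ
  have hC := contr_blk τ hτ
  obtain ⟨e, he1, he2⟩ := exists_enum (W := W) (m := mm) (blk := blk τ) hm hU
  have he : Enum mm (blk τ) e := ⟨he1, he2⟩
  have hprob : IsProbabilityMeasure (mu (m := mm) (blk τ) e) := isProb_mu hm hU he
  have hT := measurePreserving_T (m := mm) (blk := blk τ) hm hU he
  have hw : ∀ s, Measurable (fun z : X mm (blk τ) => (z.1 s).1) :=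
    fun s => measurable_fst.comp (measurable_coord s)
  have hφ : ∀ s, Measurable (fun z : X mm (blk τ) => (z.1 s).2) :=
    fun s => measurable_snd.comp (measurable_coord s)
  have hlt : ∀ s (z : X mm (blk τ)), (z.1 s).2 < NN s := by
    intro s z
    rw [← Nn_eq]
    exact z.2.lt s
  have hstep : ∀ s (z : X mm (blk τ)), (z.1 s).2 + 1 < NN s →
      (T mm (blk τ) z).1 s = ((z.1 s).1, (z.1 s).2 + 1) := by
    intro s z h
    rw [← Nn_eq] at h
    exact T_step z s h
  have htop : ∀ s (z : X mm (blk τ)), (z.1 s).2 + 1 = NN s →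
      ((T mm (blk τ) z).1 s).2 = 0 := by
    intro s z h
    rw [← Nn_eq] at h
    exact T_top z s h
  refine ⟨X mm (blk τ), inferInstance, mu (blk τ) e, T mm (blk τ), fun s z => (z.1 s).1,
    fun s z => (z.1 s).2, hprob, ?_, hT, ergodic_T hm hU he hC, ?_, ?_⟩
  · have : NullSingletonClass (mu (m := mm) (blk τ) e) := ⟨noAtoms_mu hm hU he⟩
    exact Std.isStandardProbability_of_noAtoms _
  · refine Ent.hasZeroEntropy_of_towers (mu (m := mm) (blk τ) e) (T mm (blk τ)) hT NN KK W
      (fun s => (card_W s).le) (fun s => NN_pos s) (fun s z => (z.1 s).1) (fun s z => (z.1 s).2)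
      hw hφ (fun s => Filter.Eventually.of_forall (hlt s))
      (fun s => Filter.Eventually.of_forall fun z h => ?_)
      (fun s => Filter.Eventually.of_forall fun z h => htop s z h) (fun s => ?_) ?_ ?_
    · rw [hstep s z h]; exact ⟨rfl, rfl⟩
    · refine ⟨pr mm (blk τ) s, Filter.Eventually.of_forall fun z => ?_⟩
      exact (z.2.pr s).symm
    · refine (generateFrom_eq (m := mm) (blk := blk τ)).le.trans
        (MeasurableSpace.generateFrom_le ?_)
      rintro _ ⟨s, a, rfl⟩
      exact (le_iSup (fun s => MeasurableSpace.comap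
        (fun z : X mm (blk τ) => ((z.1 s).1, (z.1 s).2)) inferInstance) s) _
        ⟨{a}, measurableSet_singleton a, rfl⟩
    · exact Par.hh_tendsto
  · refine ⟨hw, hφ, fun s => Filter.Eventually.of_forall (hlt s), ?_, ?_, ?_, ?_, ?_⟩
    · intro s u i hi
      have h1 := mu_cyl (m := mm) (blk := blk τ) hm hU he s (u, i) (by rw [Nn_eq]; exact hi)
      have h2 : (q W mm s : ℝ) = (KK s : ℝ) * NN s := by
        unfold q
        rw [card_W, Nn_eq]
        push_cast
        rfl
      rw [h2] at h1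
      rw [← h1]
      congr 1
      ext z
      constructor
      · rintro ⟨ha, hb⟩
        exact Prod.ext ha hb
      · intro h
        exact ⟨congrArg Prod.fst h, congrArg Prod.snd h⟩
    · intro s
      refine Filter.Eventually.of_forall fun z => ?_
      have h1 := hlt s z
      rcases Nat.lt_or_ge ((z.1 s).2 + 1) (NN s) with h | h
      · change ((T mm (blk τ) z).1 s).2 = ((z.1 s).2 + 1) % NN s
        rw [hstep s z h, Nat.mod_eq_of_lt h]
      · have h2 : (z.1 s).2 + 1 = NN s := by omega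
        change ((T mm (blk τ) z).1 s).2 = ((z.1 s).2 + 1) % NN s
        rw [htop s z h2, h2, Nat.mod_self]
    · intro s
      refine Filter.Eventually.of_forall fun z h => ?_
      change ((T mm (blk τ) z).1 s).1 = (z.1 s).1
      rw [hstep s z h]
    · intro s
      refine Filter.Eventually.of_forall fun z => ?_
      have := congrArg Prod.snd (z.2.pr s)
      rw [← Nn_eq]
      exact this.symm
    · intro s
      refine Filter.Eventually.of_forall fun z => ?_
      have := congrArg Prod.fst (z.2.pr s)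
      rw [← Nn_eq]
      exact this.symm

end Crest.Agent.R133.TA
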