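import Crest.Agent.R133.Tower

/-!
Row 133 (S0182): transport of tower maps along an a.e. conjugacy.
-/

set_option autoImplicit false

open MeasureTheory Set

namespace Crest.Agent.R133

/-- tower maps are transported along a measurable a.e.-injective semi-conjugacy `F : X → Ω`
(left inverse `G` a.e.). -/
theorem TowerMaps.transport {τ : Tau} {X Ω : Type*} [MeasurableSpace X] [MeasurableSpace Ω]
    {μ : Measure X} {T : X → X} {w : ∀ s, X → W s} {φ : ℕ → X → ℕ}
    (h : TowerMaps τ μ T w φ) (hT : MeasurePreserving T μ μ)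
    {ν : Measure Ω} {f : Ω → Ω} {F : X → Ω} {G : Ω → X}
    (hf : Measurable f) (hF : Measurable F) (hG : Measurable G) (hmap : μ.map F = ν)
    (hGF : ∀ᵐ x ∂μ, G (F x) = x) (hconj : ∀ᵐ x ∂μ, f (F x) = F (T x)) :
    TowerMaps τ ν f (fun s => w s ∘ G) (fun s => φ s ∘ G) := by
  have hGfF : ∀ᵐ x ∂μ, G (f (F x)) = T x := by
    have h1 := hT.quasiMeasurePreserving.ae hGF
    filter_upwards [h1, hconj] with x hx1 hx2
    rw [hx2, hx1]
  have hae : ∀ {P : Ω → Prop}, MeasurableSet {y | P y} → (∀ᵐ x ∂μ, P (F x)) → ∀ᵐ y ∂ν, P y := by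
    intro P hP hx
    rw [← hmap]
    exact (ae_map_iff hF.aemeasurable hP).mpr hx
  have hwG : ∀ s, Measurable (fun y => w s (G y)) := fun s => (h.w_meas s).comp hG
  have hφG : ∀ s, Measurable (fun y => φ s (G y)) := fun s => (h.φ_meas s).comp hG
  have hwGf : ∀ s, Measurable (fun y => w s (G (f y))) := fun s => (hwG s).comp hf
  have hφGf : ∀ s, Measurable (fun y => φ s (G (f y))) := fun s => (hφG s).comp hf
  have hNN : ∀ s, Measurable (fun y => (φ s (G y) + 1) % NN s) := fun s =>
    (measurable_from_top (f := fun n : ℕ => (n + 1) % NN s)).comp (hφG s)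
  constructor
  · exact fun s => (h.w_meas s).comp hG
  · exact fun s => (h.φ_meas s).comp hG
  · intro s
    apply hae (measurableSet_lt (hφG s) measurable_const)
    filter_upwards [hGF, h.φ_lt s] with x hx1 hx2
    rw [hx1]; exact hx2
  · intro s u i hi
    rw [← h.unif s u i hi, ← hmap, Measure.map_apply hF]
    · apply measure_congr
      filter_upwards [hGF] with x hx
      apply propext
      change (w s (G (F x)) = u ∧ φ s (G (F x)) = i) ↔ (w s x = u ∧ φ s x = i)
      rw [hx]
    · have h1 : MeasurableSet {y | w s (G y) = u} := hwG s (measurableSet_singleton u)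
      have h2 : MeasurableSet {y | φ s (G y) = i} := hφG s (measurableSet_singleton i)
      exact h1.inter h2
  · intro s
    apply hae (measurableSet_eq_fun (hφGf s) (hNN s))
    filter_upwards [hGF, hGfF, h.φ_step s] with x hx1 hx2 hx3
    rw [hx1, hx2]; exact hx3
  · intro s
    have hm : MeasurableSet {y | φ s (G y) + 1 < NN s → w s (G (f y)) = w s (G y)} := by
      have h1 : MeasurableSet {y | φ s (G y) + 1 < NN s} :=
        hφG s (MeasurableSet.of_discrete (s := {n : ℕ | n + 1 < NN s}))
      have h2 : MeasurableSet {y | w s (G (f y)) = w s (G y)} := by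
        have h3 : Measurable (fun y => (w s (G (f y)), w s (G y))) := (hwGf s).prodMk (hwG s)
        exact h3 (MeasurableSet.of_discrete (s := {p : W s × W s | p.1 = p.2}))
      have e : {y | φ s (G y) + 1 < NN s → w s (G (f y)) = w s (G y)}
          = {y | φ s (G y) + 1 < NN s}ᶜ ∪ {y | w s (G (f y)) = w s (G y)} := by
        ext y
        by_cases hy : φ s (G y) + 1 < NN s <;> simp [hy]
      rw [e]
      exact h1.compl.union h2
    apply hae hm
    filter_upwards [hGF, hGfF, h.w_step s] with x hx1 hx2 hx3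
    rw [hx1, hx2]; exact hx3
  · intro s
    have hm : Measurable (fun y => φ (s+1) (G y) % NN s) :=
      (measurable_from_top (f := fun n : ℕ => n % NN s)).comp (hφG (s+1))
    apply hae (measurableSet_eq_fun (hφG s) hm)
    filter_upwards [hGF, h.φ_cons s] with x hx1 hx3
    rw [hx1]; exact hx3
  · intro s
    have h3 : Measurable (fun y => (w s (G y), w (s+1) (G y), φ (s+1) (G y))) :=
      (hwG s).prodMk ((hwG (s+1)).prodMk (hφG (s+1)))
    have hm : MeasurableSet {y | w s (G y) = blk τ s (w (s + 1) (G y)) (φ (s + 1) (G y) / NN s)} :=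
      h3 (MeasurableSet.of_discrete (s := {p : W s × (W (s+1) × ℕ) |
        p.1 = blk τ s p.2.1 (p.2.2 / NN s)}))
    apply hae hm
    filter_upwards [hGF, h.w_cons s] with x hx1 hx3
    rw [hx1]; exact hx3

end Crest.Agent.R133
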